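import Mathlib

/-!
# Row 213, Part C: one-variable interpolation lemmas

* `cs` : Cauchy–Schwarz for interval integrals of continuous functions;
* `two_pt`, `two_pt'` : `|v x|` controlled by two values on one side and `∫ |s - x| |v''|`;
* `intp` : `|v x| ≤ (15/r) ∫_r^{2r} |v| + ∫_x^{2r} (s-x) |v'' s|` for `x ≤ r`;
* `intp_right` : mirrored version;
* `deriv_le_of_sup` : `|f'| ≤ 2ε/h + C h` if `|f| ≤ ε`, `|f''| ≤ C`.
-/

set_option autoImplicit false
set_option linter.unusedVariables false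

open Set MeasureTheory Filter Topology

namespace Crest.Agent.R213.C

/-! ### Cauchy–Schwarz -/

/-- Cauchy–Schwarz for interval integrals. -/
theorem cs {a b : ℝ} (hab : a ≤ b) {f g : ℝ → ℝ} (hf : ContinuousOn f (Icc a b))
    (hg : ContinuousOn g (Icc a b)) :
    (∫ s in a..b, f s * g s) ^ 2 ≤ (∫ s in a..b, f s ^ 2) * ∫ s in a..b, g s ^ 2 := by
  have hf' : ContinuousOn f (uIcc a b) := by rwa [uIcc_of_le hab]
  have hg' : ContinuousOn g (uIcc a b) := by rwa [uIcc_of_le hab]
  set A := ∫ s in a..b, f s ^ 2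
  set B := ∫ s in a..b, f s * g s
  set D := ∫ s in a..b, g s ^ 2
  have key : ∀ t : ℝ, 0 ≤ D * (t * t) + (-2 * B) * t + A := by
    intro t
    have h1 : 0 ≤ ∫ s in a..b, (f s - t * g s) ^ 2 :=
      intervalIntegral.integral_nonneg hab (fun s _ => sq_nonneg _)
    have h2 : ∫ s in a..b, (f s - t * g s) ^ 2 = D * (t * t) + (-2 * B) * t + A := by
      have e : ∀ s, (f s - t * g s) ^ 2 = (t * t) * g s ^ 2 + (-2 * t) * (f s * g s) + f s ^ 2 := by
        intro s; ring
      simp_rw [e]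
      rw [intervalIntegral.integral_add, intervalIntegral.integral_add, intervalIntegral.integral_const_mul, intervalIntegral.integral_const_mul]
      · ring
      · exact ((hg'.pow 2).const_smul (t * t)).intervalIntegrable
      · exact ((hf'.mul hg').const_smul (-2 * t)).intervalIntegrable
      · exact (((hg'.pow 2).const_smul (t * t)).add
          ((hf'.mul hg').const_smul (-2 * t))).intervalIntegrable
      · exact (hf'.pow 2).intervalIntegrable
    rw [← h2]; exact h1
  have := discrim_le_zero key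
  rw [discrim] at this
  nlinarith

/-- Cauchy–Schwarz, absolute value and square roots. -/
theorem cs_sqrt {a b : ℝ} (hab : a ≤ b) {f g : ℝ → ℝ} (hf : ContinuousOn f (Icc a b))
    (hg : ContinuousOn g (Icc a b)) :
    |∫ s in a..b, f s * g s| ≤ √(∫ s in a..b, f s ^ 2) * √(∫ s in a..b, g s ^ 2) := by
  rw [← Real.sqrt_mul (intervalIntegral.integral_nonneg hab (fun s _ => sq_nonneg _)), ← Real.sqrt_sq_eq_abs]
  exact Real.sqrt_le_sqrt (cs hab hf hg)

/-- average principle: some value of `|v|` is at most its mean. -/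
theorem exists_le_mean {a b : ℝ} (hab : a < b) {v : ℝ → ℝ} (hv : ContinuousOn v (Icc a b)) :
    ∃ y ∈ Icc a b, |v y| ≤ (1 / (b - a)) * ∫ s in a..b, |v s| := by
  obtain ⟨y, hy, hmin⟩ := isCompact_Icc.exists_isMinOn (nonempty_Icc.2 hab.le) hv.abs
  refine ⟨y, hy, ?_⟩
  have h1 : ∫ s in a..b, |v y| ≤ ∫ s in a..b, |v s| := by
    apply intervalIntegral.integral_mono_on hab.le intervalIntegrable_const
    · apply ContinuousOn.intervalIntegrable
      rw [uIcc_of_le hab.le]
      exact hv.abs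
    · intro s hs
      exact hmin hs
  rw [intervalIntegral.integral_const, smul_eq_mul] at h1
  rw [one_div, ← div_eq_inv_mul, le_div_iff₀ (by linarith)]
  linarith

/-! ### two–point interpolation -/

/-- `|v x|` from two values to the right and the second derivative. -/
theorem two_pt {x y1 y2 : ℝ} (hx1 : x ≤ y1) (h12 : y1 < y2) {v v1 v2 : ℝ → ℝ}
    (h1 : ∀ s ∈ Icc x y2, HasDerivWithinAt v (v1 s) (Icc x y2) s)
    (h2 : ∀ s ∈ Icc x y2, HasDerivWithinAt v1 (v2 s) (Icc x y2) s)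
    (hc : ContinuousOn v2 (Icc x y2)) :
    |v x| ≤ |v y1| + (y1 - x) / (y2 - y1) * (|v y1| + |v y2|) + ∫ s in x..y2, (s - x) * |v2 s| := by
  have hx2 : x < y2 := lt_of_le_of_lt hx1 h12
  -- the linear interpolant
  set q : ℝ := (v y2 - v y1) / (y2 - y1) with hq
  set w : ℝ → ℝ := fun s => v s - v y1 - q * (s - y1) with hw
  set w1 : ℝ → ℝ := fun s => v1 s - q with hw1
  have hdw : ∀ s ∈ Icc x y2, HasDerivWithinAt w (w1 s) (Icc x y2) s := by
    intro s hs
    have := ((h1 s hs).sub_const (v y1)).sub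
      (((hasDerivWithinAt_id s (Icc x y2)).sub_const y1).const_mul q)
    refine HasDerivWithinAt.congr_deriv (f := w) (this.congr_of_eventuallyEq ?_ ?_) ?_
    · filter_upwards with z
      simp [hw]
    · simp [hw]
    · simp [hw1]
  have hdw1 : ∀ s ∈ Icc x y2, HasDerivWithinAt w1 (v2 s) (Icc x y2) s := by
    intro s hs
    simpa [hw1] using (h2 s hs).sub_const q
  have hwy1 : w y1 = 0 := by simp [hw]
  have hwy2 : w y2 = 0 := by
    simp only [hw, hq]
    rw [div_mul_cancel₀ _ (by linarith : y2 - y1 ≠ 0)]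
    ring
  have hwc : ContinuousOn w (Icc x y2) := fun s hs => (hdw s hs).continuousWithinAt
  have hw1c : ContinuousOn w1 (Icc x y2) := fun s hs => (hdw1 s hs).continuousWithinAt
  -- Rolle
  obtain ⟨ξ, hξ, hξ0⟩ : ∃ ξ ∈ Ioo y1 y2, w1 ξ = 0 := by
    obtain ⟨ξ, hξ, h⟩ := exists_hasDerivAt_eq_zero (f := w) (f' := w1) h12
      (hwc.mono (Icc_subset_Icc_left hx1)) (by rw [hwy1, hwy2]) (fun s hs =>
        (hdw s ⟨hx1.trans hs.1.le, hs.2.le⟩).hasDerivAt
          (Icc_mem_nhds (lt_of_le_of_lt hx1 hs.1) hs.2))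
    exact ⟨ξ, hξ, h⟩
  have hint : ∀ a b : ℝ, x ≤ a → a ≤ b → b ≤ y2 → IntervalIntegrable v2 volume a b := by
    intro a b ha hab hb
    apply ContinuousOn.intervalIntegrable
    rw [uIcc_of_le hab]
    exact hc.mono (Icc_subset_Icc ha hb)
  have hint' : ∀ a b : ℝ, x ≤ a → a ≤ b → b ≤ y2 →
      IntervalIntegrable (fun s => (s - x) * |v2 s|) volume a b := by
    intro a b ha hab hb
    apply ContinuousOn.intervalIntegrable
    rw [uIcc_of_le hab]
    exact (Continuous.continuousOn (by fun_prop)).mul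
      ((hc.mono (Icc_subset_Icc ha hb)).abs)
  -- `w1 y1`
  have e1 : w1 ξ - w1 y1 = ∫ s in y1..ξ, v2 s := by
    symm
    apply intervalIntegral.integral_eq_sub_of_hasDeriv_right_of_le hξ.1.le
      (hw1c.mono (Icc_subset_Icc hx1 hξ.2.le))
    · intro s hs
      exact ((hdw1 s ⟨hx1.trans hs.1.le, hs.2.le.trans hξ.2.le⟩).hasDerivAt
        (Icc_mem_nhds (lt_of_le_of_lt hx1 hs.1) (hs.2.trans hξ.2))).hasDerivWithinAt
    · exact hint _ _ hx1 hξ.1.le hξ.2.le
  have b1 : (y1 - x) * |w1 y1| ≤ ∫ s in y1..ξ, (s - x) * |v2 s| := by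
    have : |w1 y1| ≤ ∫ s in y1..ξ, |v2 s| := by
      have : w1 y1 = - ∫ s in y1..ξ, v2 s := by rw [← e1, hξ0]; ring
      rw [this, abs_neg]
      exact intervalIntegral.abs_integral_le_integral_abs hξ.1.le
    calc (y1 - x) * |w1 y1| ≤ (y1 - x) * ∫ s in y1..ξ, |v2 s| := by
          apply mul_le_mul_of_nonneg_left this; linarith
      _ = ∫ s in y1..ξ, (y1 - x) * |v2 s| := by rw [intervalIntegral.integral_const_mul]
      _ ≤ ∫ s in y1..ξ, (s - x) * |v2 s| := by
          apply intervalIntegral.integral_mono_on hξ.1.le ((hint _ _ hx1 hξ.1.le hξ.2.le).abs.const_mul _)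
            (hint' _ _ hx1 hξ.1.le hξ.2.le)
          intro s hs
          apply mul_le_mul_of_nonneg_right _ (abs_nonneg _)
          linarith [hs.1]
  -- integration by parts on `[x, y1]`
  have e2 : w x = -(y1 - x) * w1 y1 + ∫ s in x..y1, (s - x) * v2 s := by
    have hF : ∀ s ∈ Icc x y2, HasDerivWithinAt (fun s => w s - (s - x) * w1 s)
        (-(s - x) * v2 s) (Icc x y2) s := by
      intro s hs
      have := (hdw s hs).sub (((hasDerivWithinAt_id s (Icc x y2)).sub_const x).mul (hdw1 s hs))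
      refine this.congr_deriv ?_
      simp only [id_eq]
      ring
    have hFc : ContinuousOn (fun s => w s - (s - x) * w1 s) (Icc x y2) :=
      fun s hs => (hF s hs).continuousWithinAt
    have : ∫ s in x..y1, -(s - x) * v2 s = (w y1 - (y1 - x) * w1 y1) - (w x - (x - x) * w1 x) := by
      apply intervalIntegral.integral_eq_sub_of_hasDeriv_right_of_le hx1 (hFc.mono (Icc_subset_Icc le_rfl h12.le))
      · intro s hs
        exact ((hF s ⟨hs.1.le, hs.2.le.trans h12.le⟩).hasDerivAt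
          (Icc_mem_nhds hs.1 (hs.2.trans h12))).hasDerivWithinAt
      · apply ContinuousOn.intervalIntegrable
        rw [uIcc_of_le hx1]
        exact (Continuous.continuousOn (by fun_prop)).mul (hc.mono (Icc_subset_Icc le_rfl h12.le))
    rw [hwy1] at this
    have h3 : ∫ s in x..y1, -(s - x) * v2 s = - ∫ s in x..y1, (s - x) * v2 s := by
      rw [← intervalIntegral.integral_neg]
      congr 1
      ext s
      ring
    rw [h3] at this
    simp only [sub_self, zero_mul, sub_zero] at this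
    linarith
  have b2 : |∫ s in x..y1, (s - x) * v2 s| ≤ ∫ s in x..y1, (s - x) * |v2 s| := by
    refine (intervalIntegral.abs_integral_le_integral_abs hx1).trans (le_of_eq ?_)
    apply intervalIntegral.integral_congr
    intro s hs
    rw [uIcc_of_le hx1] at hs
    simp only [abs_mul]
    rw [abs_of_nonneg (by linarith [hs.1] : (0:ℝ) ≤ s - x)]
  have b3 : |w x| ≤ ∫ s in x..y2, (s - x) * |v2 s| := by
    rw [e2]
    refine (abs_add_le _ _).trans ?_
    rw [abs_mul, abs_neg, abs_of_nonneg (by linarith : (0:ℝ) ≤ y1 - x)]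
    have s1 : (∫ s in x..y1, (s - x) * |v2 s|) + (∫ s in y1..ξ, (s - x) * |v2 s|)
        + (∫ s in ξ..y2, (s - x) * |v2 s|) = ∫ s in x..y2, (s - x) * |v2 s| := by
      rw [intervalIntegral.integral_add_adjacent_intervals (hint' _ _ le_rfl hx1 h12.le)
        (hint' _ _ hx1 hξ.1.le hξ.2.le),
        intervalIntegral.integral_add_adjacent_intervals (hint' _ _ le_rfl (hx1.trans hξ.1.le) hξ.2.le)
        (hint' _ _ (hx1.trans hξ.1.le) hξ.2.le le_rfl)]
    have s2 : 0 ≤ ∫ s in ξ..y2, (s - x) * |v2 s| := by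
      apply intervalIntegral.integral_nonneg hξ.2.le
      intro s hs
      have : x ≤ s := hx1.trans (hξ.1.le.trans hs.1)
      exact mul_nonneg (by linarith) (abs_nonneg _)
    linarith
  -- conclusion
  have hvx : v x = w x + v y1 + q * (x - y1) := by simp only [hw]; ring
  rw [hvx]
  have b4 : |q * (x - y1)| ≤ (y1 - x) / (y2 - y1) * (|v y1| + |v y2|) := by
    rw [hq, abs_mul, abs_div, abs_of_pos (by linarith : 0 < y2 - y1),
      abs_of_nonpos (by linarith : x - y1 ≤ 0)]
    have : |v y2 - v y1| ≤ |v y1| + |v y2| := by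
      refine (abs_sub _ _).trans ?_
      linarith
    rw [div_mul_eq_mul_div, div_mul_eq_mul_div]
    apply div_le_div_of_nonneg_right _ (by linarith)
    nlinarith [abs_nonneg (v y1), abs_nonneg (v y2)]
  calc |w x + v y1 + q * (x - y1)| ≤ |w x + v y1| + |q * (x - y1)| := abs_add_le _ _
    _ ≤ |w x| + |v y1| + |q * (x - y1)| := by gcongr; exact abs_add_le _ _
    _ ≤ _ := by linarith

/-- interpolation towards the left: `x ≤ r`. -/
theorem intp {x r : ℝ} (hx : 0 ≤ x) (hxr : x ≤ r) (hr : 0 < r) {v v1 v2 : ℝ → ℝ}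
    (h1 : ∀ s ∈ Icc x (2 * r), HasDerivWithinAt v (v1 s) (Icc x (2 * r)) s)
    (h2 : ∀ s ∈ Icc x (2 * r), HasDerivWithinAt v1 (v2 s) (Icc x (2 * r)) s)
    (hc : ContinuousOn v2 (Icc x (2 * r))) :
    |v x| ≤ 15 / r * (∫ s in r..(2 * r), |v s|) + ∫ s in x..(2 * r), (s - x) * |v2 s| := by
  have hvc : ContinuousOn v (Icc x (2 * r)) := fun s hs => (h1 s hs).continuousWithinAt
  have hint : ∀ a b : ℝ, x ≤ a → a ≤ b → b ≤ 2 * r →
      IntervalIntegrable (fun s => |v s|) volume a b := by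
    intro a b ha hab hb
    apply ContinuousOn.intervalIntegrable
    rw [uIcc_of_le hab]
    exact (hvc.mono (Icc_subset_Icc ha hb)).abs
  obtain ⟨y1, hy1, hm1⟩ := exists_le_mean (a := r) (b := 4 * r / 3) (by linarith)
    (hvc.mono (Icc_subset_Icc hxr (by linarith)))
  obtain ⟨y2, hy2, hm2⟩ := exists_le_mean (a := 5 * r / 3) (b := 2 * r) (by linarith)
    (hvc.mono (Icc_subset_Icc (by linarith) le_rfl))
  have hx1 : x ≤ y1 := hxr.trans hy1.1
  have h12 : y1 < y2 := by linarith [hy1.2, hy2.1]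
  have hsub : Icc x y2 ⊆ Icc x (2 * r) := Icc_subset_Icc le_rfl hy2.2
  have key := two_pt hx1 h12 (fun s hs => (h1 s (hsub hs)).mono hsub)
    (fun s hs => (h2 s (hsub hs)).mono hsub) (hc.mono hsub)
  have hI : (∫ s in x..y2, (s - x) * |v2 s|) ≤ ∫ s in x..(2 * r), (s - x) * |v2 s| := by
    have hi : ∀ a b : ℝ, x ≤ a → a ≤ b → b ≤ 2 * r →
        IntervalIntegrable (fun s => (s - x) * |v2 s|) volume a b := by
      intro a b ha hab hb
      apply ContinuousOn.intervalIntegrable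
      rw [uIcc_of_le hab]
      exact (Continuous.continuousOn (by fun_prop)).mul ((hc.mono (Icc_subset_Icc ha hb)).abs)
    rw [← intervalIntegral.integral_add_adjacent_intervals (hi x y2 le_rfl (hx1.trans h12.le) hy2.2)
      (hi y2 (2 * r) (hx1.trans h12.le) hy2.2 le_rfl)]
    have : 0 ≤ ∫ s in y2..(2 * r), (s - x) * |v2 s| := by
      apply intervalIntegral.integral_nonneg hy2.2
      intro s hs
      have : x ≤ s := (hx1.trans h12.le).trans hs.1
      exact mul_nonneg (by linarith) (abs_nonneg _)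
    linarith
  have hA : (∫ s in r..(4 * r / 3), |v s|) + (∫ s in (4 * r / 3)..(5 * r / 3), |v s|)
      + (∫ s in (5 * r / 3)..(2 * r), |v s|) = ∫ s in r..(2 * r), |v s| := by
    rw [intervalIntegral.integral_add_adjacent_intervals (hint _ _ hxr (by linarith) (by linarith))
      (hint _ _ (by linarith) (by linarith) (by linarith)),
      intervalIntegral.integral_add_adjacent_intervals (hint _ _ hxr (by linarith) (by linarith))
      (hint _ _ (by linarith) (by linarith) (by linarith))]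
  have hp1 : 0 ≤ ∫ s in r..(4 * r / 3), |v s| :=
    intervalIntegral.integral_nonneg (by linarith) (fun s _ => abs_nonneg _)
  have hp2 : 0 ≤ ∫ s in (4 * r / 3)..(5 * r / 3), |v s| :=
    intervalIntegral.integral_nonneg (by linarith) (fun s _ => abs_nonneg _)
  have hp3 : 0 ≤ ∫ s in (5 * r / 3)..(2 * r), |v s| :=
    intervalIntegral.integral_nonneg (by linarith) (fun s _ => abs_nonneg _)
  have e3 : 1 / (4 * r / 3 - r) = 3 / r := by field_simp; ring
  have e4 : 1 / (2 * r - 5 * r / 3) = 3 / r := by field_simp; ring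
  rw [e3] at hm1
  rw [e4] at hm2
  have hratio : (y1 - x) / (y2 - y1) ≤ 4 := by
    rw [div_le_iff₀ (by linarith)]
    linarith [hy1.1, hy1.2, hy2.1]
  have hr3 : 0 < 3 / r := by positivity
  have h5 : (y1 - x) / (y2 - y1) * (|v y1| + |v y2|) ≤ 4 * (|v y1| + |v y2|) :=
    mul_le_mul_of_nonneg_right hratio (by positivity)
  have e5 : 15 / r = 5 * (3 / r) := by ring
  rw [e5, ← hA]
  set I1 := ∫ s in r..(4 * r / 3), |v s|
  set I2 := ∫ s in (4 * r / 3)..(5 * r / 3), |v s|
  set I3 := ∫ s in (5 * r / 3)..(2 * r), |v s|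
  have : 0 ≤ (3 / r) * I2 := mul_nonneg hr3.le hp2
  have : 0 ≤ (3 / r) * I3 := mul_nonneg hr3.le hp3
  nlinarith

/-- `|v x|` from two values to the left and the second derivative (mirror image). -/
theorem two_pt' {x y1 y2 : ℝ} (hx1 : y1 ≤ x) (h12 : y2 < y1) {v v1 v2 : ℝ → ℝ}
    (h1 : ∀ s ∈ Icc y2 x, HasDerivWithinAt v (v1 s) (Icc y2 x) s)
    (h2 : ∀ s ∈ Icc y2 x, HasDerivWithinAt v1 (v2 s) (Icc y2 x) s)
    (hc : ContinuousOn v2 (Icc y2 x)) :
    |v x| ≤ |v y1| + (x - y1) / (y1 - y2) * (|v y1| + |v y2|) + ∫ s in y2..x, (x - s) * |v2 s| := by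
  have hmap : MapsTo (fun s : ℝ => -s) (Icc (-x) (-y2)) (Icc y2 x) := by
    intro s hs
    exact ⟨by linarith [hs.2], by linarith [hs.1]⟩
  have key := two_pt (x := -x) (y1 := -y1) (y2 := -y2) (v := fun s => v (-s))
    (v1 := fun s => -(v1 (-s))) (v2 := fun s => v2 (-s)) (by linarith) (by linarith) ?_ ?_ ?_
  · simp only [neg_neg] at key
    have e1 : (-y1 - -x) / (-y2 - -y1) = (x - y1) / (y1 - y2) := by ring
    have e2 : (∫ s in (-x)..(-y2), (s - -x) * |v2 (-s)|) = ∫ s in y2..x, (x - s) * |v2 s| := by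
      have := intervalIntegral.integral_comp_neg (a := -x) (b := -y2)
        (fun s => (x - s) * |v2 s|)
      simp only [neg_neg] at this
      rw [← this]
      congr 1
      ext s
      ring_nf
    rw [e1, e2] at key
    exact key
  · intro s hs
    have h3 : HasDerivWithinAt (fun s : ℝ => -s) (-1) (Icc (-x) (-y2)) s :=
      (hasDerivWithinAt_id s _).neg
    have := (h1 (-s) (hmap hs)).comp s h3 hmap
    refine this.congr_deriv ?_
    ring
  · intro s hs
    have h3 : HasDerivWithinAt (fun s : ℝ => -s) (-1) (Icc (-x) (-y2)) s :=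
      (hasDerivWithinAt_id s _).neg
    have := ((h2 (-s) (hmap hs)).comp s h3 hmap).neg
    refine this.congr_deriv ?_
    ring
  · exact hc.comp (by fun_prop) hmap

/-- interpolation towards the right end: values on `[L/4, L/2]`, `x ∈ [L/2, L]`. -/
theorem intp_right {x L : ℝ} (hL : 0 < L) (hxL : L / 2 ≤ x) (hxL' : x ≤ L) {v v1 v2 : ℝ → ℝ}
    (h1 : ∀ s ∈ Icc (L / 4) x, HasDerivWithinAt v (v1 s) (Icc (L / 4) x) s)
    (h2 : ∀ s ∈ Icc (L / 4) x, HasDerivWithinAt v1 (v2 s) (Icc (L / 4) x) s)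
    (hc : ContinuousOn v2 (Icc (L / 4) x)) :
    |v x| ≤ 132 / L * (∫ s in (L / 4)..(L / 2), |v s|) + ∫ s in (L / 4)..x, (x - s) * |v2 s| := by
  have hvc : ContinuousOn v (Icc (L / 4) x) := fun s hs => (h1 s hs).continuousWithinAt
  have hint : ∀ a b : ℝ, L / 4 ≤ a → a ≤ b → b ≤ x →
      IntervalIntegrable (fun s => |v s|) volume a b := by
    intro a b ha hab hb
    apply ContinuousOn.intervalIntegrable
    rw [uIcc_of_le hab]
    exact (hvc.mono (Icc_subset_Icc ha hb)).abs
  obtain ⟨y1, hy1, hm1⟩ := exists_le_mean (a := 5 * L / 12) (b := L / 2) (by linarith)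
    (hvc.mono (Icc_subset_Icc (by linarith) hxL))
  obtain ⟨y2, hy2, hm2⟩ := exists_le_mean (a := L / 4) (b := L / 3) (by linarith)
    (hvc.mono (Icc_subset_Icc le_rfl (by linarith)))
  have hx1 : y1 ≤ x := hy1.2.trans hxL
  have h12 : y2 < y1 := by linarith [hy1.1, hy2.2]
  have hsub : Icc y2 x ⊆ Icc (L / 4) x := Icc_subset_Icc hy2.1 le_rfl
  have key := two_pt' hx1 h12 (fun s hs => (h1 s (hsub hs)).mono hsub)
    (fun s hs => (h2 s (hsub hs)).mono hsub) (hc.mono hsub)
  have hI : (∫ s in y2..x, (x - s) * |v2 s|) ≤ ∫ s in (L / 4)..x, (x - s) * |v2 s| := by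
    have hi : ∀ a b : ℝ, L / 4 ≤ a → a ≤ b → b ≤ x →
        IntervalIntegrable (fun s => (x - s) * |v2 s|) volume a b := by
      intro a b ha hab hb
      apply ContinuousOn.intervalIntegrable
      rw [uIcc_of_le hab]
      exact (Continuous.continuousOn (by fun_prop)).mul ((hc.mono (Icc_subset_Icc ha hb)).abs)
    rw [← intervalIntegral.integral_add_adjacent_intervals (hi (L / 4) y2 le_rfl hy2.1 (h12.le.trans hx1))
      (hi y2 x hy2.1 (h12.le.trans hx1) le_rfl)]
    have : 0 ≤ ∫ s in (L / 4)..y2, (x - s) * |v2 s| := by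
      apply intervalIntegral.integral_nonneg hy2.1
      intro s hs
      have : s ≤ x := hs.2.trans (h12.le.trans hx1)
      exact mul_nonneg (by linarith) (abs_nonneg _)
    linarith
  have hA : (∫ s in (L / 4)..(L / 3), |v s|) + (∫ s in (L / 3)..(5 * L / 12), |v s|)
      + (∫ s in (5 * L / 12)..(L / 2), |v s|) = ∫ s in (L / 4)..(L / 2), |v s| := by
    rw [intervalIntegral.integral_add_adjacent_intervals (hint _ _ le_rfl (by linarith) (by linarith))
      (hint _ _ (by linarith) (by linarith) (by linarith)),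
      intervalIntegral.integral_add_adjacent_intervals (hint _ _ le_rfl (by linarith) (by linarith))
      (hint _ _ (by linarith) (by linarith) (by linarith))]
  have hp1 : 0 ≤ ∫ s in (L / 4)..(L / 3), |v s| :=
    intervalIntegral.integral_nonneg (by linarith) (fun s _ => abs_nonneg _)
  have hp2 : 0 ≤ ∫ s in (L / 3)..(5 * L / 12), |v s| :=
    intervalIntegral.integral_nonneg (by linarith) (fun s _ => abs_nonneg _)
  have hp3 : 0 ≤ ∫ s in (5 * L / 12)..(L / 2), |v s| :=
    intervalIntegral.integral_nonneg (by linarith) (fun s _ => abs_nonneg _)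
  have e3 : 1 / (L / 2 - 5 * L / 12) = 12 / L := by field_simp; ring
  have e4 : 1 / (L / 3 - L / 4) = 12 / L := by field_simp; ring
  rw [e3] at hm1
  rw [e4] at hm2
  have hratio : (x - y1) / (y1 - y2) ≤ 10 := by
    rw [div_le_iff₀ (by linarith)]
    linarith [hy1.1, hy1.2, hy2.2]
  have hr3 : 0 < 12 / L := by positivity
  have h5 : (x - y1) / (y1 - y2) * (|v y1| + |v y2|) ≤ 10 * (|v y1| + |v y2|) :=
    mul_le_mul_of_nonneg_right hratio (by positivity)
  have e5 : 132 / L = 11 * (12 / L) := by ring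
  rw [e5, ← hA]
  set I1 := ∫ s in (5 * L / 12)..(L / 2), |v s|
  set I2 := ∫ s in (L / 3)..(5 * L / 12), |v s|
  set I3 := ∫ s in (L / 4)..(L / 3), |v s|
  have : 0 ≤ (12 / L) * I2 := mul_nonneg hr3.le hp2
  have : 0 ≤ (12 / L) * I3 := mul_nonneg hr3.le hp1
  nlinarith

/-! ### Landau–Kolmogorov, one step -/

/-- `|f'| ≤ 2ε/h + C h` for any `0 < h ≤ (b-a)/2`. -/
theorem deriv_le_of_sup {a b ε C h : ℝ} (hh : 0 < h) (hab : a + 2 * h ≤ b) {f f1 f2 : ℝ → ℝ}
    (h1 : ∀ s ∈ Icc a b, HasDerivWithinAt f (f1 s) (Icc a b) s)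
    (h2 : ∀ s ∈ Icc a b, HasDerivWithinAt f1 (f2 s) (Icc a b) s)
    (hf : ∀ s ∈ Icc a b, |f s| ≤ ε) (hf2 : ∀ s ∈ Icc a b, |f2 s| ≤ C) {x : ℝ} (hx : x ∈ Icc a b) :
    |f1 x| ≤ 2 * ε / h + C * h := by
  have hlt : a < b := by linarith
  have hfc : ContinuousOn f (Icc a b) := fun s hs => (h1 s hs).continuousWithinAt
  have hC : 0 ≤ C := (abs_nonneg _).trans (hf2 x hx)
  -- Lipschitz bound of `f1`
  have lip : ∀ y ∈ Icc a b, |f1 y - f1 x| ≤ C * |y - x| := by
    intro y hy
    have := (convex_Icc a b).norm_image_sub_le_of_norm_hasDerivWithin_le (f := f1) (f' := f2)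
      (C := C) h2 (fun s hs => by simpa using hf2 s hs) hx hy
    simpa using this
  -- a neighbouring point
  obtain ⟨p, q, hp, hq, hpq, hqp, hxpq⟩ : ∃ p q : ℝ, a ≤ p ∧ q ≤ b ∧ p < q ∧ q - p = h ∧
      (p = x ∨ q = x) := by
    by_cases hc : x + h ≤ b
    · exact ⟨x, x + h, hx.1, hc, by linarith, by ring, Or.inl rfl⟩
    · push Not at hc
      exact ⟨x - h, x, by linarith, hx.2, by linarith, by ring, Or.inr rfl⟩
  obtain ⟨ξ, hξ, hslope⟩ := exists_hasDerivAt_eq_slope f f1 hpq
    (hfc.mono (Icc_subset_Icc hp hq)) (fun s hs => (h1 s ⟨hp.trans hs.1.le, hs.2.le.trans hq⟩).hasDerivAt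
      (Icc_mem_nhds (lt_of_le_of_lt hp hs.1) (lt_of_lt_of_le hs.2 hq)))
  have hξ' : ξ ∈ Icc a b := ⟨hp.trans hξ.1.le, hξ.2.le.trans hq⟩
  have b1 : |f1 ξ| ≤ 2 * ε / h := by
    rw [hslope, hqp, abs_div, abs_of_pos hh]
    apply div_le_div_of_nonneg_right _ hh.le
    have := hf p ⟨hp, hpq.le.trans hq⟩
    have := hf q ⟨hp.trans hpq.le, hq⟩
    refine (abs_sub _ _).trans ?_
    linarith
  have b2 : |ξ - x| ≤ h := by
    rcases hxpq with rfl | rfl
    · rw [abs_of_pos (by linarith [hξ.1])]; linarith [hξ.2]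
    · rw [abs_of_neg (by linarith [hξ.2])]; linarith [hξ.1]
  have b3 := lip ξ hξ'
  have b4 : |f1 x| ≤ |f1 ξ| + |f1 ξ - f1 x| := by
    have : f1 x = f1 ξ - (f1 ξ - f1 x) := by ring
    calc |f1 x| = |f1 ξ - (f1 ξ - f1 x)| := by rw [← this]
      _ ≤ _ := abs_sub _ _
  have b5 : C * |ξ - x| ≤ C * h := mul_le_mul_of_nonneg_left b2 hC
  linarith

end Crest.Agent.R213.C
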