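import Crest.Agent.R213.C.Algebra

/-!
# Row 213, part C: sums in `NB` (exact triangle inequality)
-/

set_option autoImplicit false

open Set MeasureTheory Filter Topology

noncomputable section

namespace Crest.Agent.R213.C

variable {L κ N N' : ℝ} {u v : ℝ → ℝ → ℝ}

theorem PB.add (hu : PB L N u) (hv : PB L N' v) (hsu : Sm (Ioo (0 : ℝ) (1 / 2)) L u)
    (hsv : Sm (Ioo (0 : ℝ) (1 / 2)) L v) : PB L (N + N') (fun t x => u t x + v t x) := by
  intro j hj τ hτ x hx
  rw [dt_iter_add isOpen_Ioo hsu hsv hτ hx j]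
  have h1 := hu j hj τ hτ x hx
  have h2 := hv j hj τ hτ x hx
  have hr : 0 ≤ (x ^ 2 + τ) := (rho_pos hx.1 hτ.1).le
  have hh : 0 ≤ xh τ x := xh_nonneg hx.1
  calc |(dt^[j] u) τ x + (dt^[j] v) τ x| * xh τ x ^ aa j * (x ^ 2 + τ) ^ j
      ≤ (|(dt^[j] u) τ x| + |(dt^[j] v) τ x|) * xh τ x ^ aa j * (x ^ 2 + τ) ^ j := by
        gcongr
        exact abs_add_le _ _
    _ ≤ (N + N') * (x ^ 2 + τ) ^ 25 := by linarith

theorem two_sq_le {a b s r : ℝ} (hs : 0 < s) (hr : 0 < r) :
    (a + b) ^ 2 ≤ (1 + r / s) * a ^ 2 + (1 + s / r) * b ^ 2 := by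
  have h : 0 ≤ (r * a - s * b) ^ 2 / (r * s) := by positivity
  have e : (1 + r / s) * a ^ 2 + (1 + s / r) * b ^ 2 - (a + b) ^ 2
      = (r * a - s * b) ^ 2 / (r * s) := by
    field_simp
    ring
  linarith

theorem QB.add (hL : 0 < L) (hN : 0 < N) (hN' : 0 < N') (hu : QB κ L N u) (hv : QB κ L N' v)
    (hsu : Sm (Ioo (0 : ℝ) (1 / 2)) L u) (hsv : Sm (Ioo (0 : ℝ) (1 / 2)) L v) :
    QB κ L (N + N') (fun t x => u t x + v t x) := by
  intro j hj
  have key := QQ_le (κ := κ) (Finset.univ : Finset Bool) hL j (fun t x => u t x + v t x)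
    (fun b => if b then 1 + N' / N else 1 + N / N') (fun _ => j) (fun b => if b then u else v)
    (by
      intro i _
      cases i <;> simp <;> positivity)
    (by
      intro i _
      cases i
      · simpa using hsv
      · simpa using hsu)
    (by
      intro p hp
      simp only [Fintype.sum_bool, if_true, Bool.false_eq_true, if_false]
      unfold qq
      rw [dt_iter_add isOpen_Ioo hsu hsv hp.1 (Ioo_subset_Icc_self hp.2) j]
      have hW : 0 ≤ WJ κ j p.1 p.2 * p.2 ^ 9 :=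
        mul_nonneg (WJ_nonneg hp.1.1 hp.2.1.le) (pow_nonneg hp.2.1.le 9)
      have := mul_le_mul_of_nonneg_left
        (two_sq_le (a := (dt^[j] u) p.1 p.2) (b := (dt^[j] v) p.1 p.2) hN hN') hW
      nlinarith [this])
  refine key.trans ?_
  simp only [Fintype.sum_bool, if_true, Bool.false_eq_true, if_false]
  have h1 : QQ κ L j u ≤ ENNReal.ofReal (N ^ 2) := hu j hj
  have h2 : QQ κ L j v ≤ ENNReal.ofReal (N' ^ 2) := hv j hj
  calc ENNReal.ofReal (1 + N' / N) * QQ κ L j u + ENNReal.ofReal (1 + N / N') * QQ κ L j v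
      ≤ ENNReal.ofReal (1 + N' / N) * ENNReal.ofReal (N ^ 2)
        + ENNReal.ofReal (1 + N / N') * ENNReal.ofReal (N' ^ 2) := by gcongr
    _ = ENNReal.ofReal ((N + N') ^ 2) := by
        rw [← ENNReal.ofReal_mul (by positivity), ← ENNReal.ofReal_mul (by positivity),
          ← ENNReal.ofReal_add (by positivity) (by positivity)]
        congr 1
        field_simp
        ring

theorem NB.add (hL : 0 < L) (hN : 0 < N) (hN' : 0 < N') (hu : NB κ L N u) (hv : NB κ L N' v) :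
    NB κ L (N + N') (fun t x => u t x + v t x) :=
  ⟨hu.sm.add hv.sm, hu.pb.add hv.pb hu.sm hv.sm, hu.qb.add hL hN hN' hv.qb hu.sm hv.sm⟩

theorem NB.neg (hu : NB κ L N u) : NB κ L N (fun t x => - u t x) := by
  refine ⟨hu.sm.neg, ?_, ?_⟩
  · intro j hj τ hτ x hx
    rw [dt_iter_neg, abs_neg]
    exact hu.pb j hj τ hτ x hx
  · intro j hj
    refine le_trans (le_of_eq ?_) (hu.qb j hj)
    unfold N2T
    refine lintegral_congr fun p => ?_
    rw [dt_iter_neg, neg_sq]

theorem NB.sub (hL : 0 < L) (hN : 0 < N) (hN' : 0 < N') (hu : NB κ L N u) (hv : NB κ L N' v) :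
    NB κ L (N + N') (fun t x => u t x - v t x) := by
  have := NB.add hL hN hN' hu hv.neg
  simpa only [sub_eq_add_neg] using this

/-- pointwise bound of the function itself -/
theorem PB.abs_le (hu : PB L N u) (hN : 0 ≤ N) {τ x : ℝ} (hτ : τ ∈ Ioo (0 : ℝ) (1 / 2))
    (hx : x ∈ Icc 0 L) : |u τ x| ≤ N * (L ^ 2 + 1) ^ 25 := by
  have h := hu.low (j := 0) (by norm_num) hτ hx
  simp only [pow_zero, mul_one] at h
  refine h.trans ?_
  have h1 := rho_le hx hτ
  have h2 := (rho_pos hx.1 hτ.1).le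
  gcongr

end Crest.Agent.R213.C
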