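import Crest.Agent.R213.C.Norms

/-!
# Row 213, part C5: algebra of the norms `NB` (products, division, the nonlinearity `η b²/(1+b)`)
-/

set_option autoImplicit false

open Set MeasureTheory Filter Topology

noncomputable section

namespace Crest.Agent.R213.C

variable {L κ N N' t x : ℝ} {u v : ℝ → ℝ → ℝ}

theorem dt_iter_eq (u : ℝ → ℝ → ℝ) (j : ℕ) (t x : ℝ) :
    (dt^[j] u) t x = iteratedDeriv j (fun r => u r x) t := by
  induction j generalizing u with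
  | zero => simp
  | succ j ih =>
    rw [Function.iterate_succ_apply, ih, iteratedDeriv_succ']
    rfl

theorem contDiffAt_slice {s : Set ℝ} (hs : IsOpen s) (hu : Sm s L u) (ht : t ∈ s)
    (hx : x ∈ Icc 0 L) (n : ℕ) : ContDiffAt ℝ n (fun r => u r x) t :=
  ((hu.contDiffOn_left hx).contDiffAt (hs.mem_nhds ht)).of_le (by exact_mod_cast le_top)

/-- Leibniz -/
theorem dt_iter_mul {s : Set ℝ} (hs : IsOpen s) (hu : Sm s L u) (hv : Sm s L v) (ht : t ∈ s)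
    (hx : x ∈ Icc 0 L) (j : ℕ) :
    (dt^[j] (fun t x => u t x * v t x)) t x =
      ∑ i ∈ Finset.range (j + 1), (j.choose i : ℝ) * (dt^[i] u) t x * (dt^[j - i] v) t x := by
  simp only [dt_iter_eq]
  have h := iteratedDerivWithin_mul (𝕜 := ℝ) (n := j) (s := univ) (x := t) (mem_univ t)
    uniqueDiffOn_univ (f := fun r => u r x) (g := fun r => v r x)
    (contDiffAt_slice hs hu ht hx j).contDiffWithinAt
    (contDiffAt_slice hs hv ht hx j).contDiffWithinAt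
  simp only [iteratedDerivWithin_univ] at h
  exact h

theorem dt_iter_add {s : Set ℝ} (hs : IsOpen s) (hu : Sm s L u) (hv : Sm s L v) (ht : t ∈ s)
    (hx : x ∈ Icc 0 L) (j : ℕ) :
    (dt^[j] (fun t x => u t x + v t x)) t x = (dt^[j] u) t x + (dt^[j] v) t x := by
  simp only [dt_iter_eq]
  exact iteratedDeriv_fun_add (contDiffAt_slice hs hu ht hx j) (contDiffAt_slice hs hv ht hx j)

theorem dt_iter_neg (u : ℝ → ℝ → ℝ) (j : ℕ) (t x : ℝ) :
    (dt^[j] (fun t x => - u t x)) t x = - (dt^[j] u) t x := by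
  simp only [dt_iter_eq]
  exact iteratedDeriv_fun_neg _ _ _

theorem dt_iter_sub {s : Set ℝ} (hs : IsOpen s) (hu : Sm s L u) (hv : Sm s L v) (ht : t ∈ s)
    (hx : x ∈ Icc 0 L) (j : ℕ) :
    (dt^[j] (fun t x => u t x - v t x)) t x = (dt^[j] u) t x - (dt^[j] v) t x := by
  simp only [dt_iter_eq]
  exact iteratedDeriv_fun_sub (contDiffAt_slice hs hu ht hx j) (contDiffAt_slice hs hv ht hx j)

theorem dt_iter_const_mul (c : ℝ) (u : ℝ → ℝ → ℝ) (j : ℕ) (t x : ℝ) :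
    (dt^[j] (fun t x => c * u t x)) t x = c * (dt^[j] u) t x := by
  simp only [dt_iter_eq]
  exact iteratedDeriv_const_mul_field c _

/-! ### Elementary facts about the weights -/

theorem rho_pos (hx : 0 ≤ x) (ht : 0 < t) : 0 < x ^ 2 + t := by positivity

theorem rho_le (hx : x ∈ Icc 0 L) (ht : t ∈ Ioo (0 : ℝ) (1 / 2)) : x ^ 2 + t ≤ L ^ 2 + 1 := by
  have h1 : x ^ 2 ≤ L ^ 2 := pow_le_pow_left₀ hx.1 hx.2 2
  linarith [ht.2]

theorem xh_nonneg (hx : 0 ≤ x) : 0 ≤ xh t x := div_nonneg hx (Real.sqrt_nonneg _)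

theorem xh_le_one (hx : 0 ≤ x) (ht : 0 < t) : xh t x ≤ 1 := by
  unfold xh
  rw [div_le_one (Real.sqrt_pos.2 (rho_pos hx ht))]
  exact Real.le_sqrt_of_sq_le (by linarith)

theorem aa_add {i j : ℕ} (hi : i ≤ j) (hj : j ≤ 6) : aa i + aa (j - i) ≤ aa j := by
  interval_cases j <;> interval_cases i <;> simp [aa]

theorem aa_mono {i j : ℕ} (hi : i ≤ j) (hj : j ≤ 6) : aa (j - i) ≤ aa j :=
  (Nat.le_add_left _ _).trans (aa_add hi hj)

theorem aa_zero {i : ℕ} (hi : i ≤ 4) : aa i = 0 := by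
  unfold aa
  rw [if_neg (by omega), if_neg (by omega)]

theorem sum_choose_real (j : ℕ) : ∑ i ∈ Finset.range (j + 1), (j.choose i : ℝ) = 2 ^ j := by
  exact_mod_cast Nat.sum_range_choose j

theorem PB.nonneg (h : PB L N u) (hL : 0 ≤ L) : 0 ≤ N := by
  have h1 := h 0 (by norm_num) (1 / 4) (by constructor <;> norm_num) 0 ⟨le_refl _, hL⟩
  have h2 : 0 ≤ |(dt^[0] u) (1 / 4) 0| * xh (1 / 4) 0 ^ aa 0 * ((0 : ℝ) ^ 2 + 1 / 4) ^ 0 := by
    have : 0 ≤ xh (1 / 4) 0 := xh_nonneg le_rfl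
    positivity
  have h3 := h2.trans h1
  exact nonneg_of_mul_nonneg_left h3 (by positivity)

theorem PB.mono (h : PB L N u) (hN : N ≤ N') : PB L N' u := by
  intro j hj τ hτ x hx
  exact (h j hj τ hτ x hx).trans
    (mul_le_mul_of_nonneg_right hN (pow_nonneg (rho_pos hx.1 hτ.1).le _))

theorem QB.mono (h : QB κ L N u) (h0 : 0 ≤ N) (hN : N ≤ N') : QB κ L N' u := by
  intro j hj
  exact (h j hj).trans (ENNReal.ofReal_le_ofReal (pow_le_pow_left₀ h0 hN 2))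

theorem NB.mono (h : NB κ L N u) (h0 : 0 ≤ N) (hN : N ≤ N') : NB κ L N' u :=
  ⟨h.sm, h.pb.mono hN, h.qb.mono h0 hN⟩

/-- for `j ≤ 4` there is no singularity -/
theorem PB.low (h : PB L N u) {j : ℕ} (hj : j ≤ 4) {τ x : ℝ} (hτ : τ ∈ Ioo (0 : ℝ) (1 / 2))
    (hx : x ∈ Icc 0 L) : |(dt^[j] u) τ x| * (x ^ 2 + τ) ^ j ≤ N * (x ^ 2 + τ) ^ 25 := by
  have h1 := h j (by omega) τ hτ x hx
  rwa [aa_zero hj, pow_zero, mul_one] at h1

/-! ### Congruence, sums -/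

theorem dt_iter_congr_half {j : ℕ} (h : ∀ τ ∈ Ioo (0 : ℝ) (1 / 2), ∀ x ∈ Icc 0 L, v τ x = u τ x)
    {τ x : ℝ} (hτ : τ ∈ Ioo (0 : ℝ) (1 / 2)) (hx : x ∈ Icc 0 L) :
    (dt^[j] v) τ x = (dt^[j] u) τ x :=
  dt_iter_congr isOpen_Ioo (fun r hr => h r hr x hx) hτ j

/-- the region `(0,1/2) × (0,L)` -/
def Rg (L : ℝ) : Set (ℝ × ℝ) := Ioo (0 : ℝ) (1 / 2) ×ˢ Ioo (0 : ℝ) L

/-- weighted `L²` norm of the `j`-th time derivative -/
def QQ (κ L : ℝ) (j : ℕ) (u : ℝ → ℝ → ℝ) : ENNReal := N2T (1 / 2) L (WJ κ j) (dt^[j] u)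

theorem measurableSet_Rg (L : ℝ) : MeasurableSet (Rg L) := measurableSet_Ioo.prod measurableSet_Ioo

theorem NB.congr (hu : NB κ L N u)
    (h : ∀ τ ∈ Ioo (0 : ℝ) (1 / 2), ∀ x ∈ Icc 0 L, v τ x = u τ x) : NB κ L N v := by
  refine ⟨hu.sm.congr h, ?_, ?_⟩
  · intro j hj τ hτ x hx
    rw [dt_iter_congr_half h hτ hx]
    exact hu.pb j hj τ hτ x hx
  · intro j hj
    refine le_trans (le_of_eq ?_) (hu.qb j hj)
    refine setLIntegral_congr_fun (measurableSet_Rg L) ?_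
    intro p hp
    simp only
    rw [dt_iter_congr_half h hp.1 (Ioo_subset_Icc_self hp.2)]

/-- the integrand of `QQ` -/
def qq (κ : ℝ) (j : ℕ) (u : ℝ → ℝ → ℝ) (p : ℝ × ℝ) : ℝ :=
  WJ κ j p.1 p.2 * p.2 ^ 9 * ((dt^[j] u) p.1 p.2) ^ 2

theorem WJ_nonneg {κ τ x : ℝ} {j : ℕ} (hτ : 0 < τ) (hx : 0 ≤ x) : 0 ≤ WJ κ j τ x :=
  div_nonneg (Real.rpow_nonneg hτ.le _) (pow_nonneg (rho_pos hx hτ).le _)

/-- shifting the index: `W_{i+k} = ρ^{2k} W_i` for `i + k ≤ 30` -/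
theorem WJ_add {κ τ x : ℝ} {i k : ℕ} (h : i + k ≤ 30) (hτ : 0 < τ) (hx : 0 ≤ x) :
    WJ κ (i + k) τ x = (x ^ 2 + τ) ^ (2 * k) * WJ κ i τ x := by
  have hr : (x ^ 2 + τ) ≠ 0 := (rho_pos hx hτ).ne'
  unfold WJ
  rw [mul_div_assoc', div_eq_div_iff (pow_ne_zero _ hr) (pow_ne_zero _ hr)]
  have e : (60 - 2 * i) = 2 * k + (60 - 2 * (i + k)) := by omega
  rw [e, pow_add]
  ring

theorem qq_nonneg {j : ℕ} {p : ℝ × ℝ} (hp : p ∈ Rg L) : 0 ≤ qq κ j u p := by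
  have h1 := WJ_nonneg (κ := κ) (j := j) hp.1.1 hp.2.1.le
  have h2 : 0 < p.2 ^ 2 + p.1 := rho_pos hp.2.1.le hp.1.1
  have h3 : 0 ≤ p.2 := hp.2.1.le
  unfold qq
  positivity

theorem qq_aemeasurable (hL : 0 < L) (hu : Sm (Ioo (0 : ℝ) (1 / 2)) L u) (j : ℕ) :
    AEMeasurable (fun p => ENNReal.ofReal (qq κ j u p)) (volume.restrict (Rg L)) := by
  have h1 : AEMeasurable (fun p : ℝ × ℝ => (dt^[j] u) p.1 p.2) (volume.restrict (Rg L)) := by
    have := (hu.dt_iter isOpen_Ioo hL j).continuousOn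
    exact (this.mono (Set.prod_mono subset_rfl Ioo_subset_Icc_self)).aemeasurable
      (measurableSet_Rg L)
  refine AEMeasurable.ennreal_ofReal ?_
  unfold qq
  refine AEMeasurable.mul (Measurable.aemeasurable ?_) (h1.pow_const 2)
  unfold WJ
  fun_prop

theorem QQ_le {ι : Type*} (I : Finset ι) (hL : 0 < L) (j : ℕ) (w : ℝ → ℝ → ℝ) (c : ι → ℝ)
    (k : ι → ℕ) (ws : ι → ℝ → ℝ → ℝ) (hc : ∀ i ∈ I, 0 ≤ c i)
    (hw : ∀ i ∈ I, Sm (Ioo (0 : ℝ) (1 / 2)) L (ws i))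
    (h : ∀ p ∈ Rg L, qq κ j w p ≤ ∑ i ∈ I, c i * qq κ (k i) (ws i) p) :
    QQ κ L j w ≤ ∑ i ∈ I, ENNReal.ofReal (c i) * QQ κ L (k i) (ws i) := by
  calc QQ κ L j w = ∫⁻ p in Rg L, ENNReal.ofReal (qq κ j w p) := rfl
    _ ≤ ∫⁻ p in Rg L, ∑ i ∈ I, ENNReal.ofReal (c i) * ENNReal.ofReal (qq κ (k i) (ws i) p) := by
        refine setLIntegral_mono' (measurableSet_Rg L) ?_
        intro p hp
        refine (ENNReal.ofReal_le_ofReal (h p hp)).trans ?_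
        rw [ENNReal.ofReal_sum_of_nonneg (fun i hi => mul_nonneg (hc i hi) (qq_nonneg hp))]
        refine le_of_eq (Finset.sum_congr rfl fun i hi => ?_)
        rw [ENNReal.ofReal_mul (hc i hi)]
    _ = ∑ i ∈ I, ∫⁻ p in Rg L, ENNReal.ofReal (c i) * ENNReal.ofReal (qq κ (k i) (ws i) p) := by
        refine lintegral_finsetSum' _ ?_
        intro i hi
        exact (qq_aemeasurable hL (hw i hi) (k i)).const_mul _
    _ = ∑ i ∈ I, ENNReal.ofReal (c i) * QQ κ L (k i) (ws i) := by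
        refine Finset.sum_congr rfl fun i hi => ?_
        rw [lintegral_const_mul'' _ (qq_aemeasurable hL (hw i hi) (k i))]
        rfl

end Crest.Agent.R213.C
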