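import Crest.Agent.R213.C.Leib

/-!
# Row 213, part C8: the nonlinearity `h (1+b) = η b²` at level `J`

`h_J (1+b) = (2 η b - h) b_J + lower_J`, where `lower_J` only contains products of levels `< J`
with sum of levels `≤ J`.
-/

set_option autoImplicit false

open Set Finset

noncomputable section

namespace Crest.Agent.R213.C8

open Crest.Agent.R213.Leib

variable {s : Set ℝ} {L t x : ℝ} {u v : ℝ → ℝ → ℝ}

/-- The nonlinearity relation `h (1+b) = η b²` on `s × [0,L]`. -/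
structure NL (s : Set ℝ) (L : ℝ) (η : ℝ → ℝ) (b h : ℝ → ℝ → ℝ) : Prop where
  smη : ContDiff ℝ (⊤ : ℕ∞) η
  η0 : ∀ τ, 0 ≤ η τ
  η1 : ∀ τ, η τ ≤ 1
  smb : Sm s L b
  smh : Sm s L h
  eq : ∀ τ ∈ s, ∀ x ∈ Icc 0 L, h τ x * (1 + b τ x) = η τ * b τ x ^ 2

theorem dt_iter_left (f : ℝ → ℝ) (j : ℕ) :
    (dt^[j]) (fun t _ => f t) t x = iteratedDeriv j f t := by
  rw [dt_iter_eq]

theorem sm_left {f : ℝ → ℝ} (hf : ContDiff ℝ (⊤ : ℕ∞) f) : Sm s L (fun t _ => f t) :=
  Sm.of_left hf.contDiffOn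

theorem dt_iter_one_add (hu : Sm s L u) (hs : IsOpen s) (ht : t ∈ s) (hx : x ∈ Icc 0 L) (j : ℕ) :
    (dt^[j + 1]) (fun t x => 1 + u t x) t x = (dt^[j + 1]) u t x := by
  rw [dt_iter_add (Sm.const 1) hu hs ht hx]
  rw [dt_iter_left (fun _ => (1 : ℝ))]
  simp [iteratedDeriv_const]

/-- the square -/
theorem dt_iter_sq (hu : Sm s L u) (hs : IsOpen s) (ht : t ∈ s) (hx : x ∈ Icc 0 L) (j : ℕ) :
    (dt^[j]) (fun t x => u t x ^ 2) t x =
      ∑ i ∈ range (j + 1), (j.choose i : ℝ) * (dt^[i]) u t x * (dt^[j - i]) u t x := by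
  rw [← dt_iter_mul hu hu hs ht hx j]
  exact dt_iter_congr hs (fun r _ => by ring) ht j

theorem sum_choose_succ_le (J : ℕ) : ∑ l ∈ range J, ((J + 1).choose (l + 1) : ℝ) ≤ 2 ^ (J + 1) := by
  have h := sum_choose_real (J + 1)
  rw [Finset.sum_range_succ, Finset.sum_range_succ'] at h
  have h1 : (0 : ℝ) ≤ ((J + 1).choose 0 : ℝ) := Nat.cast_nonneg _
  have h2 : (0 : ℝ) ≤ ((J + 1).choose (J + 1) : ℝ) := Nat.cast_nonneg _
  linarith

theorem sum_choose_succ_le' (J : ℕ) :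
    ∑ l ∈ range (J + 1), ((J + 1).choose (l + 1) : ℝ) ≤ 2 ^ (J + 1) := by
  have h := sum_choose_real (J + 1)
  rw [Finset.sum_range_succ'] at h
  have h1 : (0 : ℝ) ≤ ((J + 1).choose 0 : ℝ) := Nat.cast_nonneg _
  linarith

/-- The nonlinearity at level `J+1`: pointwise bound, with an arbitrary bound `T` for the products
of lower levels. -/
theorem alg {η : ℝ → ℝ} {b h : ℝ → ℝ → ℝ} (hN : NL s L η b h) (hs : IsOpen s) (ht : t ∈ s)
    (hx : x ∈ Icc 0 L) (J : ℕ) {K T : ℝ} (hK : 0 ≤ K)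
    (hη : ∀ l ≤ J + 1, |iteratedDeriv l η t| ≤ K) (hb : |b t x| ≤ 1 / 20)
    (hT1 : ∀ p q, p ≤ J → q ≤ J → p + q ≤ J + 1 → |(dt^[p]) b t x| * |(dt^[q]) b t x| ≤ T)
    (hT2 : ∀ p q, p ≤ J → q ≤ J → p + q ≤ J + 1 → |(dt^[p]) h t x| * |(dt^[q]) b t x| ≤ T) :
    |(dt^[J + 1]) h t x| ≤ 1 / 8 * |(dt^[J + 1]) b t x| + 8 * (1 + K) * 4 ^ (J + 1) * T := by
  set B : ℕ → ℝ := fun j => (dt^[j]) b t x with hB
  set H : ℕ → ℝ := fun j => (dt^[j]) h t x with hH
  set G : ℕ → ℝ := fun l => iteratedDeriv l η t with hG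
  have hT : 0 ≤ T := le_trans (by positivity) (hT1 0 0 (Nat.zero_le _) (Nat.zero_le _) (by omega))
  have hB0 : B 0 = b t x := rfl
  have hH0 : H 0 = h t x := rfl
  have hG0 : G 0 = η t := by simp [hG]
  -- the two expansions
  have e1 : (dt^[J + 1]) (fun t x => h t x * (1 + b t x)) t x =
      (∑ l ∈ range J, ((J + 1).choose (l + 1) : ℝ) * H (l + 1) * B (J - l)) + H 0 * B (J + 1)
        + H (J + 1) * (1 + B 0) := by
    rw [dt_iter_mul hN.smh ((Sm.const 1).add hN.smb) hs ht hx (J + 1)]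
    rw [Finset.sum_range_succ, Finset.sum_range_succ']
    congr 1
    · congr 1
      · refine Finset.sum_congr rfl fun l hl => ?_
        have hlJ : l < J := Finset.mem_range.mp hl
        have : J + 1 - (l + 1) = (J - l - 1) + 1 := by omega
        rw [this, dt_iter_one_add hN.smb hs ht hx]
        have : J - l - 1 + 1 = J - l := by omega
        rw [this]
      · rw [Nat.sub_zero, dt_iter_one_add hN.smb hs ht hx]
        simp [hB, hH]
    · simp [hB, hH]
  have e3 : ∀ k, (dt^[k]) (fun t x => b t x ^ 2) t x =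
      ∑ i ∈ range (k + 1), (k.choose i : ℝ) * B i * B (k - i) := fun k =>
    dt_iter_sq hN.smb hs ht hx k
  have e2 : (dt^[J + 1]) (fun t x => η t * b t x ^ 2) t x =
      (∑ l ∈ range (J + 1), ((J + 1).choose (l + 1) : ℝ) * G (l + 1) *
        (dt^[J - l]) (fun t x => b t x ^ 2) t x) +
      G 0 * ((∑ l ∈ range J, ((J + 1).choose (l + 1) : ℝ) * B (l + 1) * B (J - l))
        + B 0 * B (J + 1) + B (J + 1) * B 0) := by
    rw [dt_iter_mul (u := fun t _ => η t) (sm_left hN.smη) (hN.smb.pow 2) hs ht hx (J + 1)]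
    rw [Finset.sum_range_succ']
    congr 1
    · refine Finset.sum_congr rfl fun l hl => ?_
      rw [dt_iter_left]
      have : J + 1 - (l + 1) = J - l := by omega
      rw [this]
    · rw [dt_iter_left, Nat.sub_zero, e3, Finset.sum_range_succ, Finset.sum_range_succ']
      simp only [Nat.choose_zero_right, Nat.cast_one, one_mul, Nat.sub_zero, Nat.choose_self,
        Nat.sub_self, hG]
      congr 1
      congr 1
      congr 1
      refine Finset.sum_congr rfl fun l hl => ?_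
      have : J + 1 - (l + 1) = J - l := by omega
      rw [this]
  have e4 : (dt^[J + 1]) (fun t x => h t x * (1 + b t x)) t x =
      (dt^[J + 1]) (fun t x => η t * b t x ^ 2) t x :=
    dt_iter_congr hs (fun r hr => hN.eq r hr x hx) ht (J + 1)
  -- bounds of the three lower order sums
  have c1 : |∑ l ∈ range J, ((J + 1).choose (l + 1) : ℝ) * H (l + 1) * B (J - l)|
      ≤ 2 ^ (J + 1) * T := by
    calc |∑ l ∈ range J, ((J + 1).choose (l + 1) : ℝ) * H (l + 1) * B (J - l)|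
        ≤ ∑ l ∈ range J, |((J + 1).choose (l + 1) : ℝ) * H (l + 1) * B (J - l)| :=
          Finset.abs_sum_le_sum_abs _ _
      _ ≤ ∑ l ∈ range J, ((J + 1).choose (l + 1) : ℝ) * T := by
          refine Finset.sum_le_sum fun l hl => ?_
          have hlJ : l < J := Finset.mem_range.mp hl
          rw [abs_mul, abs_mul, Nat.abs_cast, mul_assoc]
          exact mul_le_mul_of_nonneg_left (hT2 _ _ (by omega) (by omega) (by omega))
            (Nat.cast_nonneg _)
      _ = (∑ l ∈ range J, ((J + 1).choose (l + 1) : ℝ)) * T := by rw [Finset.sum_mul]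
      _ ≤ 2 ^ (J + 1) * T := mul_le_mul_of_nonneg_right (sum_choose_succ_le J) hT
  have c2 : |∑ l ∈ range J, ((J + 1).choose (l + 1) : ℝ) * B (l + 1) * B (J - l)|
      ≤ 2 ^ (J + 1) * T := by
    calc |∑ l ∈ range J, ((J + 1).choose (l + 1) : ℝ) * B (l + 1) * B (J - l)|
        ≤ ∑ l ∈ range J, |((J + 1).choose (l + 1) : ℝ) * B (l + 1) * B (J - l)| :=
          Finset.abs_sum_le_sum_abs _ _
      _ ≤ ∑ l ∈ range J, ((J + 1).choose (l + 1) : ℝ) * T := by
          refine Finset.sum_le_sum fun l hl => ?_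
          have hlJ : l < J := Finset.mem_range.mp hl
          rw [abs_mul, abs_mul, Nat.abs_cast, mul_assoc]
          exact mul_le_mul_of_nonneg_left (hT1 _ _ (by omega) (by omega) (by omega))
            (Nat.cast_nonneg _)
      _ = (∑ l ∈ range J, ((J + 1).choose (l + 1) : ℝ)) * T := by rw [Finset.sum_mul]
      _ ≤ 2 ^ (J + 1) * T := mul_le_mul_of_nonneg_right (sum_choose_succ_le J) hT
  have c3 : ∀ k ≤ J, |(dt^[k]) (fun t x => b t x ^ 2) t x| ≤ 2 ^ k * T := by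
    intro k hk
    rw [e3]
    calc |∑ i ∈ range (k + 1), (k.choose i : ℝ) * B i * B (k - i)|
        ≤ ∑ i ∈ range (k + 1), |(k.choose i : ℝ) * B i * B (k - i)| :=
          Finset.abs_sum_le_sum_abs _ _
      _ ≤ ∑ i ∈ range (k + 1), (k.choose i : ℝ) * T := by
          refine Finset.sum_le_sum fun l hl => ?_
          have hlJ : l < k + 1 := Finset.mem_range.mp hl
          rw [abs_mul, abs_mul, Nat.abs_cast, mul_assoc]
          exact mul_le_mul_of_nonneg_left (hT1 _ _ (by omega) (by omega) (by omega))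
            (Nat.cast_nonneg _)
      _ = 2 ^ k * T := by rw [← Finset.sum_mul, sum_choose_real]
  have c4 : |∑ l ∈ range (J + 1), ((J + 1).choose (l + 1) : ℝ) * G (l + 1) *
        (dt^[J - l]) (fun t x => b t x ^ 2) t x| ≤ 2 ^ (J + 1) * (K * (2 ^ J * T)) := by
    calc |∑ l ∈ range (J + 1), ((J + 1).choose (l + 1) : ℝ) * G (l + 1) *
        (dt^[J - l]) (fun t x => b t x ^ 2) t x|
        ≤ ∑ l ∈ range (J + 1), |((J + 1).choose (l + 1) : ℝ) * G (l + 1) *
        (dt^[J - l]) (fun t x => b t x ^ 2) t x| := Finset.abs_sum_le_sum_abs _ _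
      _ ≤ ∑ l ∈ range (J + 1), ((J + 1).choose (l + 1) : ℝ) * (K * (2 ^ J * T)) := by
          refine Finset.sum_le_sum fun l hl => ?_
          have hlJ : l < J + 1 := Finset.mem_range.mp hl
          rw [abs_mul, abs_mul, Nat.abs_cast, mul_assoc]
          refine mul_le_mul_of_nonneg_left ?_ (Nat.cast_nonneg _)
          refine mul_le_mul (hη _ (by omega)) ?_ (abs_nonneg _) hK
          refine (c3 (J - l) (by omega)).trans ?_
          refine mul_le_mul_of_nonneg_right ?_ hT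
          exact pow_le_pow_right₀ (by norm_num) (by omega)
      _ = (∑ l ∈ range (J + 1), ((J + 1).choose (l + 1) : ℝ)) * (K * (2 ^ J * T)) := by
          rw [Finset.sum_mul]
      _ ≤ 2 ^ (J + 1) * (K * (2 ^ J * T)) :=
          mul_le_mul_of_nonneg_right (sum_choose_succ_le' J) (by positivity)
  -- conclusion
  set S1 := ∑ l ∈ range J, ((J + 1).choose (l + 1) : ℝ) * H (l + 1) * B (J - l)
  set S2 := ∑ l ∈ range J, ((J + 1).choose (l + 1) : ℝ) * B (l + 1) * B (J - l)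
  set S3 := ∑ l ∈ range (J + 1), ((J + 1).choose (l + 1) : ℝ) * G (l + 1) *
        (dt^[J - l]) (fun t x => b t x ^ 2) t x
  have key : H (J + 1) * (1 + B 0) = (2 * G 0 * B 0 - H 0) * B (J + 1) + (S3 + G 0 * S2 - S1) := by
    have := e1.symm.trans (e4.trans e2)
    linear_combination this
  have hG01 : 0 ≤ G 0 ∧ G 0 ≤ 1 := by rw [hG0]; exact ⟨hN.η0 t, hN.η1 t⟩
  have hb' : |B 0| ≤ 1 / 20 := hb
  have hbl : -(1 / 20) ≤ B 0 ∧ B 0 ≤ 1 / 20 := abs_le.mp hb'
  have h1b : 19 / 20 ≤ 1 + B 0 := by linarith [hbl.1]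
  have hH0' : H 0 * (1 + B 0) = G 0 * B 0 ^ 2 := by
    have := hN.eq t ht x hx
    rw [hG0]; exact this
  have hH0b : |H 0| ≤ 1 / 380 := by
    have h5 : |H 0| * (1 + B 0) ≤ 1 / 400 := by
      have : |H 0| * (1 + B 0) = |H 0 * (1 + B 0)| := by
        rw [abs_mul, abs_of_nonneg (by linarith : (0 : ℝ) ≤ 1 + B 0)]
      rw [this, hH0', abs_of_nonneg (mul_nonneg hG01.1 (sq_nonneg _))]
      have h6 : B 0 ^ 2 ≤ 1 / 400 := by
        have := sq_abs (B 0)
        nlinarith [abs_nonneg (B 0)]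
      calc G 0 * B 0 ^ 2 ≤ 1 * B 0 ^ 2 := mul_le_mul_of_nonneg_right hG01.2 (sq_nonneg _)
        _ ≤ 1 / 400 := by linarith
    nlinarith [abs_nonneg (H 0)]
  have hcoef : |2 * G 0 * B 0 - H 0| ≤ 39 / 380 := by
    calc |2 * G 0 * B 0 - H 0| ≤ |2 * G 0 * B 0| + |H 0| := abs_sub _ _
      _ ≤ 1 / 10 + 1 / 380 := by
          refine add_le_add ?_ hH0b
          rw [abs_mul, abs_mul, abs_of_nonneg hG01.1, abs_two]
          nlinarith [abs_nonneg (B 0)]
      _ = 39 / 380 := by norm_num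
  have hlow : |S3 + G 0 * S2 - S1| ≤ (2 ^ (J + 1) * (K * (2 ^ J * T)) + 2 * (2 ^ (J + 1) * T)) := by
    calc |S3 + G 0 * S2 - S1| ≤ |S3 + G 0 * S2| + |S1| := abs_sub _ _
      _ ≤ |S3| + |G 0 * S2| + |S1| := by gcongr; exact abs_add_le _ _
      _ ≤ 2 ^ (J + 1) * (K * (2 ^ J * T)) + 1 * (2 ^ (J + 1) * T) + 2 ^ (J + 1) * T := by
          refine add_le_add (add_le_add c4 ?_) c1
          rw [abs_mul, abs_of_nonneg hG01.1]
          exact mul_le_mul hG01.2 c2 (abs_nonneg _) zero_le_one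
      _ = _ := by ring
  have hmain : |H (J + 1)| * (19 / 20) ≤
      39 / 380 * |B (J + 1)| + (2 ^ (J + 1) * (K * (2 ^ J * T)) + 2 * (2 ^ (J + 1) * T)) := by
    calc |H (J + 1)| * (19 / 20) ≤ |H (J + 1)| * (1 + B 0) :=
          mul_le_mul_of_nonneg_left h1b (abs_nonneg _)
      _ = |H (J + 1) * (1 + B 0)| := by
          rw [abs_mul, abs_of_nonneg (by linarith : (0 : ℝ) ≤ 1 + B 0)]
      _ = |(2 * G 0 * B 0 - H 0) * B (J + 1) + (S3 + G 0 * S2 - S1)| := by rw [key]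
      _ ≤ |(2 * G 0 * B 0 - H 0) * B (J + 1)| + |S3 + G 0 * S2 - S1| := abs_add_le _ _
      _ ≤ _ := by
          refine add_le_add ?_ hlow
          rw [abs_mul]
          exact mul_le_mul_of_nonneg_right hcoef (abs_nonneg _)
  have hp : (2 : ℝ) ^ (J + 1) * (K * (2 ^ J * T)) + 2 * (2 ^ (J + 1) * T) ≤
      2 * ((1 + K) * 4 ^ (J + 1) * T) := by
    have h4 : (4 : ℝ) ^ (J + 1) = 2 ^ (J + 1) * 2 ^ (J + 1) := by
      rw [← mul_pow]; norm_num
    have h2J : (2 : ℝ) ^ (J + 1) = 2 * 2 ^ J := by rw [pow_succ]; ring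
    have h21 : (1 : ℝ) ≤ 2 ^ J := one_le_pow₀ (by norm_num)
    rw [h4, h2J]
    have hKT : 0 ≤ K * T := mul_nonneg hK hT
    have h1 : (2 : ℝ) ^ J * 2 ^ J ≥ 2 ^ J := by nlinarith
    have hR : (2 : ℝ) ^ J * (2 : ℝ) ^ J - 2 ^ J ≥ 0 := by linarith
    have hA1 : 0 ≤ K * T * ((2 : ℝ) ^ J * 2 ^ J) := by positivity
    have hA2 : 0 ≤ T * ((2 : ℝ) ^ J * 2 ^ J - 2 ^ J) := mul_nonneg hT hR
    have hA3 : 0 ≤ T * ((2 : ℝ) ^ J * 2 ^ J) := by positivity
    clear_value S1 S2 S3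
    generalize (2 : ℝ) ^ J = y at *
    linarith
  have hpos : 0 ≤ (1 + K) * 4 ^ (J + 1) * T := by positivity
  have hBn := abs_nonneg (B (J + 1))
  show |H (J + 1)| ≤ 1 / 8 * |B (J + 1)| + 8 * (1 + K) * 4 ^ (J + 1) * T
  have h8 : 8 * (1 + K) * 4 ^ (J + 1) * T = 8 * ((1 + K) * 4 ^ (J + 1) * T) := by ring
  rw [h8]
  generalize (1 + K) * 4 ^ (J + 1) * T = Q at hp hpos ⊢
  generalize |H (J + 1)| = A at hmain ⊢
  generalize |B (J + 1)| = B' at hmain hBn ⊢
  generalize (2 : ℝ) ^ (J + 1) * (K * (2 ^ J * T)) + 2 * (2 ^ (J + 1) * T) = X at hmain hp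
  linarith

end Crest.Agent.R213.C8
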