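import Crest.Agent.R213.C.C8Defs
import Crest.Agent.R213.C.AllJAlg

/-!
# Row 213, part C8: base case and generic facts (helper523)
-/

set_option autoImplicit false

open Set MeasureTheory Filter Topology

noncomputable section

namespace Crest.Agent.R213.C8

open Crest.Agent.R213 Crest.Agent.R213.C

namespace Base

variable {c0 C0 κ L : ℝ} {g : ℝ → ℝ} {φ m E : ℝ → ℝ → ℝ} {η : ℝ → ℝ} {d : ℕ → ℝ → ℝ → ℝ}

theorem phi_sm (hB : Bg c0 C0 g L φ m) : Sm (Ioo 0 1) L φ := by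
  have hL : 0 < L := by linarith [hB.L_ge]
  refine Sm.congr (u := fun τ x => x * (1 - x / L) * m τ x) ?_ (fun t ht x hx => hB.phi_eq t ht x hx)
  refine Sm.mul (Sm.mul Sm.snd ?_) hB.sm
  exact (Sm.const 1).sub (Sm.div Sm.snd (Sm.const L) (fun _ _ _ _ => hL.ne'))

theorem bb_sm (hB : Bg c0 C0 g L φ m) {δ : ℝ → ℝ → ℝ} (hδ : Sm (Ioo 0 1) L δ) :
    Sm (Ioo 0 1) L (bb L φ δ) := by
  have hL : 0 < L := by linarith [hB.L_ge]
  exact (phi_sm hB).mul ((hδ.dx isOpen_Ioo hL).dx isOpen_Ioo hL)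

theorem half_sub : Ioo (0 : ℝ) (1 / 2) ⊆ Ioo 0 1 := Ioo_subset_Ioo_right (by norm_num)

/-- gluing of smooth functions along `τ` -/
theorem sm_glue {s1 s2 s : Set ℝ} {u : ℝ → ℝ → ℝ} (h1o : IsOpen s1) (h2o : IsOpen s2)
    (hs : s ⊆ s1 ∪ s2) (h1 : Sm (s ∩ s1) L u) (h2 : Sm (s ∩ s2) L u) : Sm s L u := by
  rintro ⟨t, x⟩ ⟨ht, hx⟩
  rcases hs ht with h | h
  · refine (h1 (t, x) ⟨⟨ht, h⟩, hx⟩).mono_of_mem_nhdsWithin ?_
    rw [mem_nhdsWithin]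
    exact ⟨s1 ×ˢ univ, h1o.prod isOpen_univ, ⟨h, mem_univ _⟩,
      fun p hp => ⟨⟨hp.2.1, hp.1.1⟩, hp.2.2⟩⟩
  · refine (h2 (t, x) ⟨⟨ht, h⟩, hx⟩).mono_of_mem_nhdsWithin ?_
    rw [mem_nhdsWithin]
    exact ⟨s2 ×ˢ univ, h2o.prod isOpen_univ, ⟨h, mem_univ _⟩,
      fun p hp => ⟨⟨hp.2.1, hp.1.1⟩, hp.2.2⟩⟩

theorem one_add_ne {b : ℝ} (h : |b| ≤ 1 / 20) : (1 + b) ≠ 0 := by
  have := (abs_le.1 h).1
  intro h0
  linarith

end Base

open Base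

variable {c0 C0 κ L : ℝ} {g : ℝ → ℝ} {φ m E : ℝ → ℝ → ℝ} {η : ℝ → ℝ} {d : ℕ → ℝ → ℝ → ℝ}

theorem hNL_sm (hB : Bg c0 C0 g L φ m) (hη : EtaOK η) {δ : ℝ → ℝ → ℝ} (hδ : Sm (Ioo 0 1) L δ)
    (hb : ∀ τ ∈ Ioo (0 : ℝ) (1 / 2), ∀ x ∈ Icc 0 L, |bb L φ δ τ x| ≤ 1 / 20) :
    Sm (Ioo 0 1) L (hNL L φ η δ) := by
  have hL : 0 < L := by linarith [hB.L_ge]
  have hxx : Sm (Ioo 0 1) L (dx L (dx L δ)) := (hδ.dx isOpen_Ioo hL).dx isOpen_Ioo hL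
  have hφ := phi_sm hB
  have hηs : Sm (Ioo 0 1) L (fun t _ => η t) := Sm.of_left hη.smooth.contDiffOn
  refine sm_glue (s1 := Ioo 0 (1 / 2)) (s2 := Ioi (3 / 8)) isOpen_Ioo isOpen_Ioi ?_ ?_ ?_
  · intro t ht
    by_cases h : t < 1 / 2
    · left; exact ⟨ht.1, h⟩
    · right
      rw [not_lt] at h
      exact lt_of_lt_of_le (by norm_num) h
  · have hsub : Ioo (0 : ℝ) 1 ∩ Ioo 0 (1 / 2) ⊆ Ioo 0 1 := inter_subset_left
    refine (hηs.mono hsub).mul (Sm.div ((hφ.mono hsub).mul ((hxx.mono hsub).pow 2))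
      ((Sm.const 1).add ((hφ.mono hsub).mul (hxx.mono hsub))) ?_)
    intro t ht x hx
    exact one_add_ne (hb t ht.2 x hx)
  · refine (Sm.const 0).congr ?_
    intro t ht x _
    simp [hNL, hη.eq_zero t (le_of_lt ht.2)]

theorem nl (hB : Bg c0 C0 g L φ m) (hη : EtaOK η) {δ : ℝ → ℝ → ℝ} (hδ : Sm (Ioo 0 1) L δ)
    (hb : ∀ τ ∈ Ioo (0 : ℝ) (1 / 2), ∀ x ∈ Icc 0 L, |bb L φ δ τ x| ≤ 1 / 20) :
    NL (Ioo 0 (1 / 2)) L η (bb L φ δ) (hh L φ η δ) := by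
  refine ⟨hη.smooth, hη.nonneg, hη.le_one, (bb_sm hB hδ).mono half_sub,
    ((phi_sm hB).mul (hNL_sm hB hη hδ hb)).mono half_sub, ?_⟩
  intro τ hτ x hx
  have h := one_add_ne (hb τ hτ x hx)
  simp only [hh, hNL, bb] at h ⊢
  field_simp

/-! ### Uniform pointwise bounds -/

theorem Base.rho_bd {τ x a : ℝ} (hx : x ∈ Icc 0 L) (hτ : τ ∈ Icc a (1 / 2)) (ha : 0 < a) :
    a ≤ x ^ 2 + τ ∧ x ^ 2 + τ ≤ L ^ 2 + 1 := by
  have h1 : x ^ 2 ≤ L ^ 2 := pow_le_pow_left₀ hx.1 hx.2 2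
  have h2 := sq_nonneg x
  constructor <;> linarith [hτ.1, hτ.2]

theorem Base.pt_bd {v τ x a : ℝ} {e j : ℕ} (hL : 0 ≤ L) (hx : x ∈ Icc 0 L) (hτ : τ ∈ Icc a (1 / 2))
    (ha : 0 < a) (h : |v| * xh τ x ^ e * (x ^ 2 + τ) ^ j ≤ 1 * (x ^ 2 + τ) ^ 25) :
    |v| * x ^ e ≤ (L ^ 2 + 1) ^ 25 * (L ^ 2 + 1) ^ e / a ^ j := by
  obtain ⟨h1, h2⟩ := Base.rho_bd hx hτ ha
  have hr : 0 < x ^ 2 + τ := lt_of_lt_of_le ha h1
  have hsq : 0 < √(x ^ 2 + τ) := Real.sqrt_pos.2 hr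
  have hs1 : √(x ^ 2 + τ) ≤ L ^ 2 + 1 := by
    have h3 : (1 : ℝ) ≤ L ^ 2 + 1 := by nlinarith [sq_nonneg L]
    calc √(x ^ 2 + τ) ≤ √(L ^ 2 + 1) := Real.sqrt_le_sqrt h2
      _ ≤ L ^ 2 + 1 := by
        rw [Real.sqrt_le_left (by linarith)]
        nlinarith
  have e1 : x ^ e = xh τ x ^ e * √(x ^ 2 + τ) ^ e := by
    rw [xh, ← mul_pow, div_mul_cancel₀ _ hsq.ne']
  have hxh : 0 ≤ xh τ x := div_nonneg hx.1 hsq.le
  have haj : 0 < a ^ j := pow_pos ha j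
  rw [le_div_iff₀ haj, e1]
  calc |v| * (xh τ x ^ e * √(x ^ 2 + τ) ^ e) * a ^ j
      ≤ |v| * (xh τ x ^ e * √(x ^ 2 + τ) ^ e) * (x ^ 2 + τ) ^ j := by
        gcongr
    _ = (|v| * xh τ x ^ e * (x ^ 2 + τ) ^ j) * √(x ^ 2 + τ) ^ e := by ring
    _ ≤ (1 * (x ^ 2 + τ) ^ 25) * √(x ^ 2 + τ) ^ e := by gcongr
    _ ≤ (L ^ 2 + 1) ^ 25 * (L ^ 2 + 1) ^ e := by
        rw [one_mul]
        gcongr

theorem base_d (hB : Bg c0 C0 g L φ m) (hI : Iter κ L φ E η d) :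
    ∀ j ≤ 4, UB L 0 (dj d j) := by
  intro j hj a b ha hab hb
  have hL : 0 ≤ L := by linarith [hB.L_ge]
  refine ⟨(L ^ 2 + 1) ^ 25 * (L ^ 2 + 1) ^ 0 / a ^ j, fun i τ hτ x hx => ?_⟩
  have hτ' : τ ∈ Ioo (0 : ℝ) (1 / 2) := ⟨lt_of_lt_of_le ha hτ.1, lt_of_le_of_lt hτ.2 hb⟩
  have h := hI.db i j hj τ hτ' x (Ioo_subset_Icc_self hx)
  refine Base.pt_bd (τ := τ) (e := 0) hL (Ioo_subset_Icc_self hx) ⟨hτ.1, hτ.2.trans hb.le⟩ ha ?_
  simpa [dj] using h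

/-! ### `L²` bounds -/

theorem Base.ul2 {c R K : ℝ} {a b : ℝ} (hL : 0 < L) (ha : 0 < a) (hab : a < b) (hb : b < 1 / 2)
    {V u : ℝ → ℝ → ℝ} (hu : Sm (Ioo 0 (1 / 2)) L u) (hc : 0 < c)
    (hV : ∀ τ ∈ Icc a b, ∀ x ∈ Icc 0 L, c ≤ V τ x)
    (h : N2T (1 / 2) L V u ≤ ENNReal.ofReal R) (hR : 0 ≤ R) (hK : K = R / c) :
    ∫ t in a..b, nsq L u t ≤ K := by
  have hcont : ContinuousOn (fun p : ℝ × ℝ => p.2 ^ 9 * u p.1 p.2 ^ 2) (Icc a b ×ˢ Icc 0 L) := by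
    have h1 : ContinuousOn (fun p : ℝ × ℝ => u p.1 p.2) (Icc a b ×ˢ Icc 0 L) :=
      hu.continuousOn.mono (prod_mono_left fun r hr =>
        ⟨lt_of_lt_of_le ha hr.1, lt_of_le_of_lt hr.2 hb⟩)
    exact (continuous_snd.pow 9).continuousOn.mul (h1.pow 2)
  have hint : IntegrableOn (fun p : ℝ × ℝ => p.2 ^ 9 * u p.1 p.2 ^ 2) (Ioo a b ×ˢ Ioo 0 L) :=
    (hcont.integrableOn_compact (isCompact_Icc.prod isCompact_Icc)).mono_set
      (prod_mono Ioo_subset_Icc_self Ioo_subset_Icc_self)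
  have e1 : ∫ t in a..b, nsq L u t = ∫ p in Ioo a b ×ˢ Ioo 0 L, p.2 ^ 9 * u p.1 p.2 ^ 2 := by
    rw [Measure.volume_eq_prod] at hint ⊢
    rw [setIntegral_prod _ hint, intervalIntegral.integral_of_le hab.le,
      integral_Ioc_eq_integral_Ioo]
    refine setIntegral_congr_fun measurableSet_Ioo fun t _ => ?_
    simp only [nsq]
    rw [intervalIntegral.integral_of_le hL.le, integral_Ioc_eq_integral_Ioo]
  have hmeas : MeasurableSet (Ioo a b ×ˢ Ioo (0 : ℝ) L) := measurableSet_Ioo.prod measurableSet_Ioo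
  have hnn : ∀ᵐ p ∂(volume.restrict (Ioo a b ×ˢ Ioo (0 : ℝ) L)), 0 ≤ p.2 ^ 9 * u p.1 p.2 ^ 2 := by
    rw [ae_restrict_iff' hmeas]
    refine Eventually.of_forall fun p hp => ?_
    have := hp.2.1
    positivity
  rw [e1, integral_eq_lintegral_of_nonneg_ae hnn hint.aestronglyMeasurable]
  have h2 : ∫⁻ p in Ioo a b ×ˢ Ioo (0 : ℝ) L, ENNReal.ofReal (p.2 ^ 9 * u p.1 p.2 ^ 2)
      ≤ ENNReal.ofReal (1 / c) * ENNReal.ofReal R := by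
    calc ∫⁻ p in Ioo a b ×ˢ Ioo (0 : ℝ) L, ENNReal.ofReal (p.2 ^ 9 * u p.1 p.2 ^ 2)
        ≤ ∫⁻ p in Ioo a b ×ˢ Ioo (0 : ℝ) L, ENNReal.ofReal (1 / c) *
            ENNReal.ofReal (V p.1 p.2 * p.2 ^ 9 * u p.1 p.2 ^ 2) := by
          refine setLIntegral_mono_ae' hmeas (Eventually.of_forall fun p hp => ?_)
          rw [← ENNReal.ofReal_mul (by positivity)]
          apply ENNReal.ofReal_le_ofReal
          have hv := hV p.1 (Ioo_subset_Icc_self hp.1) p.2 (Ioo_subset_Icc_self hp.2)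
          have hx := hp.2.1
          have : 1 / c * (V p.1 p.2 * p.2 ^ 9 * u p.1 p.2 ^ 2)
              = (V p.1 p.2 / c) * (p.2 ^ 9 * u p.1 p.2 ^ 2) := by ring
          rw [this]
          have h1 : 1 ≤ V p.1 p.2 / c := by rwa [le_div_iff₀ hc, one_mul]
          have h0 : 0 ≤ p.2 ^ 9 * u p.1 p.2 ^ 2 := by positivity
          nlinarith
      _ = ENNReal.ofReal (1 / c) * ∫⁻ p in Ioo a b ×ˢ Ioo (0 : ℝ) L,
            ENNReal.ofReal (V p.1 p.2 * p.2 ^ 9 * u p.1 p.2 ^ 2) :=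
          lintegral_const_mul' _ _ ENNReal.ofReal_ne_top
      _ ≤ ENNReal.ofReal (1 / c) * N2T (1 / 2) L V u := by
          gcongr
          apply lintegral_mono_set
          exact prod_mono_left (Ioo_subset_Ioo ha.le hb.le)
      _ ≤ _ := by gcongr
  rw [← ENNReal.ofReal_mul (by positivity)] at h2
  have h3 := ENNReal.toReal_mono ENNReal.ofReal_ne_top h2
  rw [ENNReal.toReal_ofReal (by positivity)] at h3
  refine h3.trans (le_of_eq ?_)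
  rw [hK]; ring

/-- `Hyp 9` from `Iter.pb`, `Iter.qb`. -/
theorem base (hB : Bg c0 C0 g L φ m) (hκ : κ ∈ Ioo (1 / 8 : ℝ) (1 / 4))
    (hI : Iter κ L φ E η d) : Hyp L φ d 9 := by
  have hL : 0 < L := by linarith [hB.L_ge]
  have hub : ∀ j ≤ 6, UB L (aa j) (bj L φ d j) := by
    intro j hj a b ha hab hb
    refine ⟨(L ^ 2 + 1) ^ 25 * (L ^ 2 + 1) ^ aa j / a ^ j, fun i τ hτ x hx => ?_⟩
    have hτ' : τ ∈ Ioo (0 : ℝ) (1 / 2) := ⟨lt_of_lt_of_le ha hτ.1, lt_of_le_of_lt hτ.2 hb⟩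
    have h := hI.pb i j hj τ hτ' x (Ioo_subset_Icc_self hx)
    exact Base.pt_bd (τ := τ) hL.le (Ioo_subset_Icc_self hx) ⟨hτ.1, hτ.2.trans hb.le⟩ ha h
  refine ⟨?_, ?_, ?_, ?_⟩
  · intro l hl a b ha hab hb
    have hκ0 : 0 < κ := lt_trans (by norm_num) hκ.1
    set c : ℝ := a ^ (2 * κ) / (L ^ 2 + 1) ^ (60 - 2 * l) with hc
    have hcp : 0 < c := div_pos (Real.rpow_pos_of_pos ha _) (by positivity)
    refine ⟨1 / c, fun i => ?_⟩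
    refine Base.ul2 (V := WJ κ l) (R := 1 ^ 2) hL ha hab hb ?_ hcp ?_ (hI.qb i l (by omega))
      (by norm_num) (by norm_num)
    · exact (((bb_sm hB (hI.sm i)).dt_iter isOpen_Ioo hL l)).mono half_sub
    · intro τ hτ x hx
      obtain ⟨h1, h2⟩ := Base.rho_bd hx (⟨hτ.1, hτ.2.trans hb.le⟩ : τ ∈ Icc a (1 / 2)) ha
      have hr : 0 < x ^ 2 + τ := lt_of_lt_of_le ha h1
      rw [hc, WJ]
      apply div_le_div₀
      · exact Real.rpow_nonneg (ha.le.trans hτ.1) _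
      · exact Real.rpow_le_rpow ha.le hτ.1 (by linarith)
      · exact pow_pos hr _
      · exact pow_le_pow_left₀ hr.le h2 _
  · intro l hl
    have h := hub l (by omega)
    have e : aa l = 0 := by
      unfold aa
      rw [if_neg (by omega), if_neg (by omega)]
    rwa [e] at h
  · intro l hl
    have e0 : l = 5 := by omega
    subst e0
    have h := hub 5 (by omega)
    have e : aa 5 = 2 := by decide
    rwa [e] at h
  · intro l hl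
    have e0 : l = 6 := by omega
    subst e0
    have h := hub 6 (by omega)
    have e : aa 6 = 4 := by decide
    rwa [e] at h

/-- iteration in `i` for sup norms. -/
theorem it_ub (hL : 0 < L) {u : ℕ → ℝ → ℝ → ℝ} (hu : ∀ i, Sm (Ioo 0 (1 / 2)) L (u i)) {e : ℕ}
    (h : ∀ a b : ℝ, 0 < a → a < b → b < 1 / 2 → ∃ C : ℝ, ∀ i, ∀ τ ∈ Icc a b, ∀ x ∈ Ioo 0 L,
      |u (i + 1) τ x| * x ^ e ≤ 1 / 2 * (|u i τ x| * x ^ e) + C) :
    UB L e u := by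
  intro a b ha hab hb
  obtain ⟨C, hC⟩ := h a b ha hab hb
  have hcont : ContinuousOn (fun p : ℝ × ℝ => |u 0 p.1 p.2| * p.2 ^ e) (Icc a b ×ˢ Icc 0 L) := by
    have h1 : ContinuousOn (fun p : ℝ × ℝ => u 0 p.1 p.2) (Icc a b ×ˢ Icc 0 L) :=
      (hu 0).continuousOn.mono (prod_mono_left fun r hr =>
        ⟨lt_of_lt_of_le ha hr.1, lt_of_le_of_lt hr.2 hb⟩)
    exact h1.abs.mul (continuous_snd.pow e).continuousOn
  obtain ⟨C', hC'⟩ := (isCompact_Icc.prod isCompact_Icc).exists_bound_of_continuousOn hcont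
  refine ⟨max C' (2 * C), fun i => ?_⟩
  induction i with
  | zero =>
    intro τ hτ x hx
    exact ((le_abs_self _).trans (hC' (τ, x) ⟨hτ, Ioo_subset_Icc_self hx⟩)).trans
      (le_max_left _ _)
  | succ i ih =>
    intro τ hτ x hx
    have h1 := hC i τ hτ x hx
    have h2 := ih τ hτ x hx
    have h3 : 2 * C ≤ max C' (2 * C) := le_max_right _ _
    linarith

end Crest.Agent.R213.C8
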