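import Crest.Agent.R213.Defs

/-!
# Row 213, part C: definitions (frozen by helper302)
-/

set_option autoImplicit false

open Set MeasureTheory Filter Topology

noncomputable section

namespace Crest.Agent.R213.C

/-- `ρ = x² + τ`. -/
def rho (τ x : ℝ) : ℝ := x ^ 2 + τ

/-- `x̂ = x / √ρ ∈ [0,1]`. -/
def xh (τ x : ℝ) : ℝ := x / √(x ^ 2 + τ)

/-- exponents of the admissible singularity at `x = 0` of the `j`-th time derivative. -/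
def aa (j : ℕ) : ℕ := if j = 5 then 2 else if j = 6 then 4 else 0

/-- `W_j = τ^{2κ} ρ^{2j-60}` (`j ≤ 8`). -/
def WJ (κ : ℝ) (j : ℕ) : ℝ → ℝ → ℝ := fun τ x => τ ^ (2 * κ) / (x ^ 2 + τ) ^ (60 - 2 * j)

/-- `W_j (1 + 1/ρ)`. -/
def WA (κ : ℝ) (j : ℕ) : ℝ → ℝ → ℝ := fun τ x => WJ κ j τ x * (1 + 1 / (x ^ 2 + τ))

/-- weighted squared norm over `(0,T) × (0,L)`; `N2 L = N2T 1 L`. -/
def N2T (T L : ℝ) (V u : ℝ → ℝ → ℝ) : ENNReal :=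
  ∫⁻ p in (Ioo (0 : ℝ) T ×ˢ Ioo (0 : ℝ) L), ENNReal.ofReal (V p.1 p.2 * p.2 ^ 9 * (u p.1 p.2) ^ 2)

/-- `φ ∂ₓ² ∂_τ^j δ`. -/
def be (L : ℝ) (φ : ℝ → ℝ → ℝ) (j : ℕ) (δ : ℝ → ℝ → ℝ) : ℝ → ℝ → ℝ :=
  fun τ x => φ τ x * dx L (dx L (dt^[j] δ)) τ x

/-- `b = φ ∂ₓ² δ`. -/
def bb (L : ℝ) (φ δ : ℝ → ℝ → ℝ) : ℝ → ℝ → ℝ := fun τ x => φ τ x * dx L (dx L δ) τ x

/-- the integrated linear equation, on `(0,1) × [0,L]`. -/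
def LinEq (L : ℝ) (φ E ht δ : ℝ → ℝ → ℝ) : Prop :=
  ∀ τ ∈ Ioo (0 : ℝ) 1, ∀ x ∈ Icc 0 L,
    x ^ 9 * (φ τ x ^ 2 * dx L (dx L δ) τ x - φ τ x ^ 2 * ht τ x) =
      Kint (fun ξ => E τ ξ + dt δ τ ξ) x

/-- the body of `lin`. -/
def LinSolv (c0 C0 : ℝ) (g : ℝ → ℝ) (κ L1 C : ℝ) : Prop :=
  ∀ L ≥ L1, ∀ φ m : ℝ → ℝ → ℝ, Bg c0 C0 g L φ m →
      ∀ E ht : ℝ → ℝ → ℝ, Sm (Ioo 0 1) L E → Sm (Ioo 0 1) L ht →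
        N2 L (Wt'' κ) E < ⊤ → N2 L (Wt κ) (fun τ x => φ τ x * ht τ x) < ⊤ →
      ∃ δ : ℝ → ℝ → ℝ, Sm (Ioo 0 1) L δ ∧
        N2 L (Wt κ) (fun τ x => φ τ x * dx L (dx L δ) τ x) + N2 L (Wt' κ) δ ≤
          ENNReal.ofReal C *
            (N2 L (Wt κ) (fun τ x => φ τ x * ht τ x) + N2 L (Wt'' κ) E) ∧
        ∀ τ ∈ Ioo (0 : ℝ) 1, ∀ x ∈ Icc 0 L,
          x ^ 9 * (φ τ x ^ 2 * dx L (dx L δ) τ x - φ τ x ^ 2 * ht τ x) =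
            Kint (fun ξ => E τ ξ + dt δ τ ξ) x

/-- pointwise bounds of the time derivatives up to order 6, on `(0,1/2) × [0,L]`. -/
def PB (L N : ℝ) (u : ℝ → ℝ → ℝ) : Prop :=
  ∀ j ≤ 6, ∀ τ ∈ Ioo (0 : ℝ) (1 / 2), ∀ x ∈ Icc 0 L,
    |(dt^[j] u) τ x| * xh τ x ^ aa j * (x ^ 2 + τ) ^ j ≤ N * (x ^ 2 + τ) ^ 25

/-- pointwise bounds of the time derivatives up to order 4 (no singularity), on `(0,1/2) × [0,L]`. -/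
def DB (L N : ℝ) (u : ℝ → ℝ → ℝ) : Prop :=
  ∀ j ≤ 4, ∀ τ ∈ Ioo (0 : ℝ) (1 / 2), ∀ x ∈ Icc 0 L,
    |(dt^[j] u) τ x| * (x ^ 2 + τ) ^ j ≤ N * (x ^ 2 + τ) ^ 25

/-- weighted `L²` bounds of the time derivatives up to order 8, on `(0,1/2) × (0,L)`. -/
def QB (κ L N : ℝ) (u : ℝ → ℝ → ℝ) : Prop :=
  ∀ j ≤ 8, N2T (1 / 2) L (WJ κ j) (dt^[j] u) ≤ ENNReal.ofReal (N ^ 2)

/-- weighted `L²(x⁹dx)` norm of the `j`-th time derivative at time `τ` (`j ≤ 7`). -/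
def MM (L : ℝ) (j : ℕ) (τ : ℝ) (u : ℝ → ℝ → ℝ) : ENNReal :=
  ∫⁻ x in Ioo (0 : ℝ) L,
    ENNReal.ofReal (x ^ 9 * ((dt^[j] u) τ x) ^ 2 / (x ^ 2 + τ) ^ (58 - 2 * j))

/-- time cut-off for the nonlinearity. -/
structure EtaOK (η : ℝ → ℝ) : Prop where
  smooth : ContDiff ℝ (⊤ : ℕ∞) η
  nonneg : ∀ τ, 0 ≤ η τ
  le_one : ∀ τ, η τ ≤ 1
  eq_one : ∀ τ ≤ 1 / 4, η τ = 1
  eq_zero : ∀ τ, 3 / 8 ≤ τ → η τ = 0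

/-- the nonlinear term `ht = η φ (δ_xx)² / (1 + φ δ_xx)` (so `φ ht = η b²/(1+b)`). -/
def hNL (L : ℝ) (φ : ℝ → ℝ → ℝ) (η : ℝ → ℝ) (δ : ℝ → ℝ → ℝ) : ℝ → ℝ → ℝ :=
  fun τ x => η τ * (φ τ x * dx L (dx L δ) τ x ^ 2 / (1 + φ τ x * dx L (dx L δ) τ x))

/-- the iteration produced by C7. -/
structure Iter (κ L : ℝ) (φ E : ℝ → ℝ → ℝ) (η : ℝ → ℝ) (d : ℕ → ℝ → ℝ → ℝ) : Prop where
  sm : ∀ i, Sm (Ioo 0 1) L (d i)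
  eq0 : LinEq L φ E (fun _ _ => 0) (d 0)
  eqS : ∀ i, LinEq L φ E (hNL L φ η (d i)) (d (i + 1))
  small : ∀ i, ∀ τ ∈ Ioo (0 : ℝ) (1 / 2), ∀ x ∈ Icc 0 L, |bb L φ (d i) τ x| ≤ 1 / 20
  pb : ∀ i, PB L 1 (bb L φ (d i))
  qb : ∀ i, QB κ L 1 (bb L φ (d i))
  db : ∀ i, DB L 1 (d i)
  pb_diff : ∀ i, PB L ((1 / 2) ^ i) (fun τ x => bb L φ (d (i + 1)) τ x - bb L φ (d i) τ x)
  db_diff : ∀ i, DB L ((1 / 2) ^ i) (fun τ x => d (i + 1) τ x - d i τ x)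

end Crest.Agent.R213.C
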