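import Crest.Agent.R213.Defs

/-!
# Row 213, part C4: hypotheses of the static pointwise chain (one fixed `τ`) (helper198)
-/

set_option autoImplicit false

open Set MeasureTheory Filter Topology Finset

noncomputable section

namespace Crest.Agent.R213.C

/-- everything at one fixed time `τ`; `D i = ∂_τ^i δ`, `D1 i, D2 i` its space derivatives,
`Z i = ∂_τ^i (φ²(δ_xx - ht))`, `h i = ∂_τ^i (φ ht)`, `b i = ∂_τ^i (φ δ_xx)`, `E i = ∂_τ^i E`. -/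
structure ChainHyp (L τ c C M H : ℝ) (φ : ℝ → ℝ) (D D1 D2 Z h b E : ℕ → ℝ → ℝ) : Prop where
  L_ge : 8 ≤ L
  tau : τ ∈ Ioo (0 : ℝ) 1
  c_pos : 0 < c
  C_ge : 1 ≤ C
  M_nn : 0 ≤ M
  H_nn : 0 ≤ H
  phi_lower : ∀ x ∈ Icc 0 L, c * (x * (1 - x / L)) ≤ φ x
  phi_upper : ∀ x ∈ Icc 0 L, φ x ≤ C * (x * (1 - x / L))
  hD1 : ∀ i ≤ 7, ∀ x ∈ Icc 0 L, HasDerivWithinAt (D i) (D1 i x) (Icc 0 L) x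
  hD2 : ∀ i ≤ 7, ∀ x ∈ Icc 0 L, HasDerivWithinAt (D1 i) (D2 i x) (Icc 0 L) x
  cD2 : ∀ i ≤ 7, ContinuousOn (D2 i) (Icc 0 L)
  cE : ∀ i ≤ 6, ContinuousOn (E i) (Icc 0 L)
  E_bd : ∀ i ≤ 6, ∀ x ∈ Icc 0 L, |E i x| ≤ M
  E_zero : ∀ i ≤ 6, ∀ x ∈ Icc (0 : ℝ) 1, E i x = 0
  mass : ∀ i ≤ 7, ∫ x in (0 : ℝ)..L, x ^ 9 * (D i x) ^ 2 / (x ^ 2 + τ) ^ (58 - 2 * i) ≤ M ^ 2
  Z_eq : ∀ i ≤ 6, ∀ x ∈ Icc 0 L, x ^ 9 * Z i x = Kint (fun s => E i s + D (i + 1) s) x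
  mom9 : ∀ i ≤ 6, ∫ s in (0 : ℝ)..L, s ^ 9 * (E i s + D (i + 1) s) = 0
  mom10 : ∀ i ≤ 6, ∫ s in (0 : ℝ)..L, s ^ 10 * (E i s + D (i + 1) s) = 0
  D2_bd : ∀ i ≤ 6, ∀ x ∈ Ioo 0 L, |D2 i x| ≤
    C * ∑ l ∈ Finset.range (i + 1), (|Z l x| / φ x ^ 2 + |h l x| / φ x) / (x ^ 2 + τ) ^ (i - l)
  b_bd : ∀ i ≤ 6, ∀ x ∈ Ioo 0 L, |b i x| ≤
    C * φ x * ∑ l ∈ Finset.range (i + 1), |D2 l x| / (x ^ 2 + τ) ^ (i - l)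
  h_bd : ∀ i ≤ 6, ∀ x ∈ Ioo 0 L,
    |h i x| * x ^ (2 * (i - 4)) ≤ H * (x ^ 2 + τ) ^ (25 + (i - 4) - i)

/-- the conclusion of the static chain -/
def ChainConcl (L τ N : ℝ) (D b : ℕ → ℝ → ℝ) : Prop :=
  (∀ i ≤ 6, ∀ x ∈ Ioo 0 L, |b i x| * x ^ (2 * (i - 4)) ≤ N * (x ^ 2 + τ) ^ (25 + (i - 4) - i)) ∧
  (∀ i ≤ 4, ∀ x ∈ Ioo 0 L, |D i x| ≤ N * (x ^ 2 + τ) ^ (25 - i))

/-- statement of the static chain (to be proved in `Chain.lean`) -/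
def ChainThm : Prop :=
  ∀ c C : ℝ, 0 < c → ∃ K : ℝ, 1 ≤ K ∧ ∃ q : ℕ, ∀ (L τ M H : ℝ) (φ : ℝ → ℝ)
    (D D1 D2 Z h b E : ℕ → ℝ → ℝ), ChainHyp L τ c C M H φ D D1 D2 Z h b E →
      ChainConcl L τ (K * L ^ q * (M + H)) D b

end Crest.Agent.R213.C
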