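import Crest.Agent.R213.C.KintBd

/-!
# Row 213, part C, block C4b: pass lemmas at a fixed time (helper337)

`ρ = x² + τ`, `r = max x √τ`.
* `Kint_bd_L2`, `Kint_bd_pt` : bounds of `Kint (E + D)`;
* `pass_D` : `|D| ≤ K M ρ^p / r⁵ + K N ρ^e / x^k` from `|D''| s^{k+2} (1 - s/L) ≤ N ρ^e`, `k ≥ 1`;
* `pass_D0` : the same with `|D''| s (1 - s/L) ≤ N ρ^e` and conclusion `… + K N ρ^e r`;
* `rmax_*` : comparison of `r` with `ρ`.
-/

set_option autoImplicit false

open Set MeasureTheory Filter Topology intervalIntegral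

noncomputable section

namespace Crest.Agent.R213.C

/-- mass bound for the error term `E` (vanishing for `x ≤ 1`). -/
theorem mass_of_E {E : ℝ → ℝ} {L τ M : ℝ} {n : ℕ} (e : ℕ) (hn : n ≤ 10) (hτ : 0 ≤ τ) (hM : 0 ≤ M)
    (hE : ContinuousOn E (Icc 0 L)) (hb : ∀ x ∈ Icc 0 L, |E x| ≤ M)
    (hz : ∀ x ∈ Icc (0 : ℝ) 1, E x = 0) {x : ℝ} (hx : x ∈ Icc 0 L) :
    ∫ s in (0 : ℝ)..x, s ^ 9 * |E s| ≤ L ^ n * M * x ^ (10 - n) * (x ^ 2 + τ) ^ e := by
  have hx0 := hx.1
  have hL0 : 0 ≤ L := hx0.trans hx.2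
  have hEx : ContinuousOn E (Icc 0 x) := hE.mono (Icc_subset_Icc_right hx.2)
  rcases le_or_gt x 1 with h1 | h1
  · have : ∫ s in (0 : ℝ)..x, s ^ 9 * |E s| = ∫ s in (0 : ℝ)..x, (0 : ℝ) := by
      apply intervalIntegral.integral_congr
      intro s hs
      rw [uIcc_of_le hx0] at hs
      simp [hz s ⟨hs.1, hs.2.trans h1⟩]
    rw [this]
    simp only [intervalIntegral.integral_zero]
    positivity
  · calc ∫ s in (0 : ℝ)..x, s ^ 9 * |E s|
        ≤ ∫ s in (0 : ℝ)..x, x ^ 9 * M := by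
          apply intervalIntegral.integral_mono_on hx0
          · apply ContinuousOn.intervalIntegrable
            rw [uIcc_of_le hx0]
            fun_prop
          · exact intervalIntegrable_const
          · intro s hs
            exact mul_le_mul (pow_le_pow_left₀ hs.1 hs.2 9) (hb s ⟨hs.1, hs.2.trans hx.2⟩)
              (abs_nonneg _) (pow_nonneg hx0 9)
      _ = x ^ n * M * x ^ (10 - n) * 1 := by
          rw [intervalIntegral.integral_const, smul_eq_mul]
          have : x ^ 10 = x ^ n * x ^ (10 - n) := by rw [← pow_add]; congr 1; omega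
          calc (x - 0) * (x ^ 9 * M) = x ^ 10 * M := by ring
            _ = x ^ n * M * x ^ (10 - n) * 1 := by rw [this]; ring
      _ ≤ L ^ n * M * x ^ (10 - n) * (x ^ 2 + τ) ^ e := by
          have h2 : (1 : ℝ) ≤ (x ^ 2 + τ) ^ e := one_le_pow₀ (by nlinarith)
          have h3 : x ^ n ≤ L ^ n := pow_le_pow_left₀ hx0 hx.2 n
          gcongr

theorem mass_add_le {E D : ℝ → ℝ} {L : ℝ} (hE : ContinuousOn E (Icc 0 L))
    (hD : ContinuousOn D (Icc 0 L)) {x : ℝ} (hx : x ∈ Icc 0 L) :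
    ∫ s in (0 : ℝ)..x, s ^ 9 * |E s + D s| ≤
      (∫ s in (0 : ℝ)..x, s ^ 9 * |E s|) + ∫ s in (0 : ℝ)..x, s ^ 9 * |D s| := by
  have hx0 := hx.1
  have hEx : ContinuousOn E (Icc 0 x) := hE.mono (Icc_subset_Icc_right hx.2)
  have hDx : ContinuousOn D (Icc 0 x) := hD.mono (Icc_subset_Icc_right hx.2)
  have i1 : IntervalIntegrable (fun s => s ^ 9 * |E s|) volume 0 x := by
    apply ContinuousOn.intervalIntegrable
    rw [uIcc_of_le hx0]; fun_prop
  have i2 : IntervalIntegrable (fun s => s ^ 9 * |D s|) volume 0 x := by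
    apply ContinuousOn.intervalIntegrable
    rw [uIcc_of_le hx0]; fun_prop
  rw [← intervalIntegral.integral_add i1 i2]
  apply intervalIntegral.integral_mono_on hx0
  · apply ContinuousOn.intervalIntegrable
    rw [uIcc_of_le hx0]; fun_prop
  · exact i1.add i2
  · intro s hs
    have := abs_add_le (E s) (D s)
    have h9 : 0 ≤ s ^ 9 := pow_nonneg hs.1 9
    nlinarith

/-- **(Z1)** first pass: `Kint (E + D)` from the weighted `L²` norm of `D`. -/
theorem Kint_bd_L2 {E D : ℝ → ℝ} {L τ M : ℝ} {e : ℕ} (hL : 1 ≤ L) (hτ : 0 < τ) (hM : 0 ≤ M)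
    (hE : ContinuousOn E (Icc 0 L)) (hb : ∀ x ∈ Icc 0 L, |E x| ≤ M)
    (hz : ∀ x ∈ Icc (0 : ℝ) 1, E x = 0) (hD : ContinuousOn D (Icc 0 L))
    (hm : ∫ s in (0 : ℝ)..L, s ^ 9 * D s ^ 2 / (s ^ 2 + τ) ^ (2 * e) ≤ M ^ 2)
    (h0 : ∫ s in (0 : ℝ)..L, s ^ 9 * (E s + D s) = 0)
    (h1 : ∫ s in (0 : ℝ)..L, s ^ 10 * (E s + D s) = 0) {x : ℝ} (hx : x ∈ Icc 0 L) :
    |Kint (fun s => E s + D s) x| ≤
      128 * 4 ^ e * L ^ 5 * M * x ^ 6 * (x ^ 2 + τ) ^ e * (1 - x / L) := by
  have hL0 : 0 < L := by linarith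
  have key := Kint_bd (F := fun s => E s + D s) (L := L) (τ := τ) (A := 2 * (L ^ 5 * M)) (m := 5)
    (e := e) hL0 hτ.le (by positivity) (hE.add hD) h0 h1 (fun y hy => by
      have a1 := mass_add_le hE hD hy
      have a2 := mass_of_E (n := 5) e (by norm_num) hτ.le hM hE hb hz hy
      have a3 := mass_of_L2 hτ hM hD hm hy
      have hL5 : (1 : ℝ) ≤ L ^ 5 := one_le_pow₀ hL
      have hρ : 0 ≤ y ^ 2 + τ := by positivity
      have hX : 0 ≤ M * y ^ 5 * (y ^ 2 + τ) ^ e := by have := hy.1; positivity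
      have a4 : M * y ^ 5 * (y ^ 2 + τ) ^ e ≤ L ^ 5 * (M * y ^ 5 * (y ^ 2 + τ) ^ e) := by
        nlinarith
      calc _ ≤ _ := a1
        _ ≤ L ^ 5 * M * y ^ (10 - 5) * (y ^ 2 + τ) ^ e + L ^ 5 * (M * y ^ 5 * (y ^ 2 + τ) ^ e) := by
            linarith
        _ = 2 * (L ^ 5 * M) * y ^ 5 * (y ^ 2 + τ) ^ e := by norm_num; ring) hx
  calc _ ≤ _ := key
    _ = _ := by ring

/-- **(Za)** later passes: `Kint (E + D)` from a pointwise bound of `D`. -/
theorem Kint_bd_pt {E D : ℝ → ℝ} {L τ M N : ℝ} {a e : ℕ} (ha : a ≤ 9) (hL : 0 < L) (hτ : 0 ≤ τ)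
    (hM : 0 ≤ M) (hN : 0 ≤ N)
    (hE : ContinuousOn E (Icc 0 L)) (hb : ∀ x ∈ Icc 0 L, |E x| ≤ M)
    (hz : ∀ x ∈ Icc (0 : ℝ) 1, E x = 0) (hD : ContinuousOn D (Icc 0 L))
    (hm : ∀ s ∈ Ioo 0 L, |D s| * s ^ a ≤ N * (s ^ 2 + τ) ^ e)
    (h0 : ∫ s in (0 : ℝ)..L, s ^ 9 * (E s + D s) = 0)
    (h1 : ∫ s in (0 : ℝ)..L, s ^ 10 * (E s + D s) = 0) {x : ℝ} (hx : x ∈ Icc 0 L) :
    |Kint (fun s => E s + D s) x| ≤
      2 ^ (11 - a) * 4 ^ e * (L ^ a * M + N) * x ^ (11 - a) * (x ^ 2 + τ) ^ e * (1 - x / L) := by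
  have key := Kint_bd (F := fun s => E s + D s) (L := L) (τ := τ) (A := L ^ a * M + N) (m := 10 - a)
    (e := e) hL hτ (by positivity) (hE.add hD) h0 h1 (fun y hy => by
      have a1 := mass_add_le hE hD hy
      have a2 := mass_of_E (n := a) e (by omega) hτ hM hE hb hz hy
      have a3 := mass_of_pt ha hτ hN hD hm hy
      calc _ ≤ _ := a1
        _ ≤ L ^ a * M * y ^ (10 - a) * (y ^ 2 + τ) ^ e + N * y ^ (10 - a) * (y ^ 2 + τ) ^ e := by
            linarith
        _ = (L ^ a * M + N) * y ^ (10 - a) * (y ^ 2 + τ) ^ e := by ring) hx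
  have e1 : 10 - a + 1 = 11 - a := by omega
  rw [e1] at key
  exact key

/-! ### the moments vanish -/

/-- **(MZ)** both moments vanish if `Kint F` vanishes to second order at `L`. -/
theorem moments_zero {F : ℝ → ℝ} {L B : ℝ} (hL : 0 < L) (hF : ContinuousOn F (Icc 0 L))
    (hB : ∀ x ∈ Icc 0 L, |Kint F x| ≤ B * (1 - x / L) ^ 2) :
    (∫ s in (0 : ℝ)..L, s ^ 9 * F s = 0) ∧ ∫ s in (0 : ℝ)..L, s ^ 10 * F s = 0 := by
  have hi9 : IntervalIntegrable (fun s => s ^ 9 * F s) volume 0 L := by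
    apply ContinuousOn.intervalIntegrable
    rw [uIcc_of_le hL.le]; fun_prop
  have hi10 : IntervalIntegrable (fun s => s ^ 10 * F s) volume 0 L := by
    apply ContinuousOn.intervalIntegrable
    rw [uIcc_of_le hL.le]; fun_prop
  set m9 := ∫ s in (0 : ℝ)..L, s ^ 9 * F s with hm9
  set m10 := ∫ s in (0 : ℝ)..L, s ^ 10 * F s with hm10
  have hKL : Kint F L = 0 := by
    have := hB L ⟨hL.le, le_rfl⟩
    rw [div_self hL.ne'] at this
    simpa using this
  have hrel : L * m9 - m10 = 0 := by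
    rw [← hKL]
    unfold Kint
    have : ∀ s : ℝ, (L - s) * s ^ 9 * F s = L * (s ^ 9 * F s) - s ^ 10 * F s := by
      intro s; ring
    simp_rw [this]
    rw [intervalIntegral.integral_sub (hi9.const_mul _) hi10, intervalIntegral.integral_const_mul]
  -- bound of `F`
  obtain ⟨CF, hCF⟩ := (isCompact_Icc.image_of_continuousOn hF.abs).bddAbove
  have hCF' : ∀ s ∈ Icc 0 L, |F s| ≤ CF := fun s hs => hCF (mem_image_of_mem _ hs)
  have hCF0 : 0 ≤ CF := (abs_nonneg _).trans (hCF' 0 ⟨le_rfl, hL.le⟩)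
  have hm9z : m9 = 0 := by
    by_contra hne
    have hpos : 0 < |m9| := abs_pos.2 hne
    -- for x close to L:  Kint F x = x m9 - m10 - ∫_x^L (x - s) s^9 F = (x - L) m9 + O((L-x)²)
    have hest : ∀ x ∈ Icc 0 L, (L - x) * |m9| ≤ (|B| / L ^ 2 + L ^ 9 * CF) * (L - x) ^ 2 := by
      intro x hx
      have hxi : ∀ a b : ℝ, a ∈ Icc 0 L → b ∈ Icc 0 L →
          IntervalIntegrable (fun s => (x - s) * s ^ 9 * F s) volume a b := by
        intro a b ha hb
        apply ContinuousOn.intervalIntegrable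
        have : uIcc a b ⊆ Icc 0 L := by
          rw [uIcc]
          intro y hy
          exact ⟨le_trans (le_min ha.1 hb.1) hy.1, le_trans hy.2 (max_le ha.2 hb.2)⟩
        have hF' := hF.mono this
        fun_prop
      have h0L : (0 : ℝ) ∈ Icc 0 L := ⟨le_rfl, hL.le⟩
      have hLL : L ∈ Icc 0 L := ⟨hL.le, le_rfl⟩
      have hadd := intervalIntegral.integral_add_adjacent_intervals (hxi 0 x h0L hx) (hxi x L hx hLL)
      have hfull : ∫ s in (0 : ℝ)..L, (x - s) * s ^ 9 * F s = x * m9 - m10 := by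
        have : ∀ s : ℝ, (x - s) * s ^ 9 * F s = x * (s ^ 9 * F s) - s ^ 10 * F s := by
          intro s; ring
        simp_rw [this]
        rw [intervalIntegral.integral_sub (hi9.const_mul _) hi10,
          intervalIntegral.integral_const_mul]
      have hK : Kint F x = (x - L) * m9 - ∫ s in x..L, (x - s) * s ^ 9 * F s := by
        have : Kint F x = ∫ s in (0 : ℝ)..x, (x - s) * s ^ 9 * F s := rfl
        rw [this]
        have : m10 = L * m9 := by linarith
        linarith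
      have hrem : |∫ s in x..L, (x - s) * s ^ 9 * F s| ≤ L ^ 9 * CF * (L - x) ^ 2 := by
        have hFx : ContinuousOn F (Icc x L) := hF.mono (Icc_subset_Icc_left hx.1)
        calc |∫ s in x..L, (x - s) * s ^ 9 * F s|
            ≤ ∫ s in x..L, |(x - s) * s ^ 9 * F s| := abs_integral_le_integral_abs hx.2
          _ ≤ ∫ s in x..L, (L - x) * (L ^ 9 * CF) := by
              apply intervalIntegral.integral_mono_on hx.2
              · apply ContinuousOn.intervalIntegrable
                rw [uIcc_of_le hx.2]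
                fun_prop
              · exact intervalIntegrable_const
              · intro s hs
                have hs0 : 0 ≤ s := hx.1.trans hs.1
                rw [abs_mul, abs_mul, abs_of_nonneg (pow_nonneg hs0 9)]
                have g1 : |x - s| ≤ L - x := by
                  rw [abs_sub_comm, abs_of_nonneg (by linarith [hs.1])]
                  linarith [hs.2]
                have g2 : s ^ 9 ≤ L ^ 9 := pow_le_pow_left₀ hs0 hs.2 9
                have g3 := hCF' s ⟨hs0, hs.2⟩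
                rw [mul_assoc]
                exact mul_le_mul g1 (mul_le_mul g2 g3 (abs_nonneg _) (by positivity))
                  (by positivity) (by linarith [hx.2])
          _ = L ^ 9 * CF * (L - x) ^ 2 := by
              rw [intervalIntegral.integral_const, smul_eq_mul]; ring
      have hBx := hB x hx
      have hBx' : |Kint F x| ≤ |B| / L ^ 2 * (L - x) ^ 2 := by
        refine hBx.trans ?_
        have : (1 - x / L) ^ 2 = (L - x) ^ 2 / L ^ 2 := by field_simp
        rw [this]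
        calc B * ((L - x) ^ 2 / L ^ 2) ≤ |B| * ((L - x) ^ 2 / L ^ 2) :=
              mul_le_mul_of_nonneg_right (le_abs_self _) (by positivity)
          _ = |B| / L ^ 2 * (L - x) ^ 2 := by ring
      have htri : (L - x) * |m9| ≤ |Kint F x| + |∫ s in x..L, (x - s) * s ^ 9 * F s| := by
        have : (L - x) * |m9| = |(x - L) * m9| := by
          rw [abs_mul, abs_sub_comm x L, abs_of_nonneg (by linarith [hx.2] : 0 ≤ L - x)]
        rw [this]
        have h2 : (x - L) * m9 = Kint F x + ∫ s in x..L, (x - s) * s ^ 9 * F s := by linarith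
        rw [h2]
        exact abs_add_le _ _
      nlinarith
    set Q := |B| / L ^ 2 + L ^ 9 * CF with hQ
    have hQ0 : 0 ≤ Q := by positivity
    -- choose x with L - x small
    set d := min L (|m9| / (2 * (Q + 1))) with hd
    have hd0 : 0 < d := lt_min hL (by positivity)
    have hx : L - d ∈ Icc 0 L := ⟨by have := min_le_left L (|m9| / (2 * (Q + 1))); linarith,
      by linarith⟩
    have h2 := hest (L - d) hx
    have h3 : L - (L - d) = d := by ring
    rw [h3] at h2
    have h4 : d ≤ |m9| / (2 * (Q + 1)) := min_le_right _ _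
    have h5 : Q * d ≤ |m9| / 2 := by
      have : (Q + 1) * d ≤ |m9| / 2 := by
        calc (Q + 1) * d ≤ (Q + 1) * (|m9| / (2 * (Q + 1))) :=
              mul_le_mul_of_nonneg_left h4 (by positivity)
          _ = |m9| / 2 := by field_simp
      nlinarith
    have h6 : |m9| ≤ Q * d := by
      by_contra hcon
      push Not at hcon
      have : Q * d ^ 2 < d * |m9| := by nlinarith
      linarith
    linarith
  refine ⟨hm9z, ?_⟩
  rw [hm9z] at hrel
  linarith

end Crest.Agent.R213.C
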