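import Crest.Agent.R213.C.C8Defs
import Crest.Agent.R213.C.ChainApp
import Crest.Agent.R213.C.PassD

/-!
# Row 213, part C8: one pass at level `j` (`pass4`, `pass2`, `pass0`) (helper337)
-/

set_option autoImplicit false

open Set MeasureTheory Filter Topology

noncomputable section

namespace Crest.Agent.R213.C8

open Crest.Agent.R213 Crest.Agent.R213.C Crest.Agent.R213.C.App

variable {c0 C0 κ L : ℝ} {g : ℝ → ℝ} {φ m E : ℝ → ℝ → ℝ}

theorem dtIter_sub {s : Set ℝ} {u v : ℝ → ℝ → ℝ} {t x : ℝ} (hs : IsOpen s) (hu : Sm s L u)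
    (hv : Sm s L v) (ht : t ∈ s) (hx : x ∈ Icc 0 L) (j : ℕ) :
    (dt^[j] (fun t x => u t x - v t x)) t x = (dt^[j] u) t x - (dt^[j] v) t x := by
  simp only [dtIter_eq]
  exact iteratedDeriv_fun_sub (contDiffAt_left hs hu ht hx j) (contDiffAt_left hs hv ht hx j)

/-- sup bound of a smooth function on a compact strip. -/
theorem exists_sup {u : ℝ → ℝ → ℝ} (hu : Sm (Ioo 0 1) L u) {a b : ℝ} (ha : 0 < a)
    (hb : b < 1 / 2) : ∃ C : ℝ, 0 ≤ C ∧ ∀ τ ∈ Icc a b, ∀ x ∈ Icc 0 L, |u τ x| ≤ C := by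
  have hc : ContinuousOn (fun p : ℝ × ℝ => u p.1 p.2) (Icc a b ×ˢ Icc 0 L) :=
    hu.continuousOn.mono (prod_mono (fun t ht => ⟨ha.trans_le ht.1, by linarith [ht.2]⟩)
      (subset_refl _))
  obtain ⟨C, hC⟩ := (isCompact_Icc.prod isCompact_Icc).exists_bound_of_continuousOn hc
  refine ⟨max C 0, le_max_right _ _, fun τ hτ x hx => ?_⟩
  have := hC (τ, x) ⟨hτ, hx⟩
  exact (le_of_eq (Real.norm_eq_abs _).symm).trans (this.trans (le_max_left _ _))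

/-- The core: mass bound `A x^{m'}` of the source, `m' + e = 9`. -/
theorem pass_core (hB : Bg c0 C0 g L φ m) (hg : Prof c0 C0 g) (hE : Sm (Ioo 0 1) L E)
    {ht δ : ℕ → ℝ → ℝ → ℝ} (hsm : ∀ i, Sm (Ioo 0 1) L (ht i)) (hδ : ∀ i, Sm (Ioo 0 1) L (δ i))
    (heq : ∀ i, LinEq L φ E (ht i) (δ i)) (j : ℕ) {e n : ℕ} (hn : n + e = 9)
    (hlow : ∀ l < j, UB L e (fun i => dt^[l] (bb L φ (δ i))) ∧
      UB L e (fun i => dt^[l] (fun τ x => φ τ x * ht i τ x)))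
    (hmass : ∀ a b : ℝ, 0 < a → a < b → b < 1 / 2 → ∃ A : ℝ, 0 ≤ A ∧ ∀ i, ∀ τ ∈ Icc a b,
      ∀ x ∈ Icc 0 L, ∫ s in (0 : ℝ)..x, s ^ 9 * |(dt^[j] E) τ s + (dt^[j + 1] (δ i)) τ s| ≤
        A * x ^ n) :
    UB L e (fun i => fun τ x => (dt^[j] (bb L φ (δ i))) τ x -
      (dt^[j] (fun τ x => φ τ x * ht i τ x)) τ x) := by
  intro a b ha hab hb
  have hL := Bg.Lpos hB
  have hc0 := hg.c0_pos
  obtain ⟨A, hA0, hA⟩ := hmass a b ha hab hb
  -- bounds of the derivatives of m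
  have hmk : ∀ k, ∃ C : ℝ, 0 ≤ C ∧ ∀ τ ∈ Icc a b, ∀ x ∈ Icc 0 L, |(dt^[k] m) τ x| ≤ C :=
    fun k => exists_sup (hB.sm.dt_iter isOpen_Ioo hL k) ha hb
  choose Cm hCm0 hCm using hmk
  -- lower levels
  have hlo : ∀ l, ∃ C : ℝ, 0 ≤ C ∧ (l < j → ∀ i, ∀ τ ∈ Icc a b, ∀ x ∈ Ioo 0 L,
      |(dt^[l] (bb L φ (δ i))) τ x - (dt^[l] (fun τ x => φ τ x * ht i τ x)) τ x| * x ^ e ≤ C) := by
    intro l
    by_cases hl : l < j
    · obtain ⟨C1, hC1⟩ := (hlow l hl).1 a b ha hab hb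
      obtain ⟨C2, hC2⟩ := (hlow l hl).2 a b ha hab hb
      refine ⟨max (C1 + C2) 0, le_max_right _ _, fun _ i τ hτ x hx => ?_⟩
      have h1 := hC1 i τ hτ x hx
      have h2 := hC2 i τ hτ x hx
      have hxe : 0 ≤ x ^ e := pow_nonneg hx.1.le e
      have h3 := abs_sub (( dt^[l] (bb L φ (δ i))) τ x)
        ((dt^[l] (fun τ x => φ τ x * ht i τ x)) τ x)
      refine le_trans ?_ (le_max_left _ _)
      calc _ ≤ (|(dt^[l] (bb L φ (δ i))) τ x| +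
            |(dt^[l] (fun τ x => φ τ x * ht i τ x)) τ x|) * x ^ e :=
            mul_le_mul_of_nonneg_right h3 hxe
        _ ≤ C1 + C2 := by rw [add_mul]; exact add_le_add h1 h2
    · exact ⟨0, le_rfl, fun h => absurd h hl⟩
  choose Cl hCl0 hCl using hlo
  refine ⟨(1 / c0) * (2 ^ (n + 1) * A + ∑ l ∈ Finset.range j, (j.choose l : ℝ) * Cm (j - l) * Cl l),
    fun i τ hτ x hx => ?_⟩
  have hτ1 : τ ∈ Ioo (0 : ℝ) 1 := ⟨ha.trans_le hτ.1, by linarith [hτ.2]⟩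
  have hxI : x ∈ Icc 0 L := Ioo_subset_Icc_self hx
  have hx0 : 0 < x := hx.1
  have hq := qf_pos hL hx
  have hφs := Bg.sm_phi hB
  have hbbs : Sm (Ioo 0 1) L (bb L φ (δ i)) :=
    hφs.mul (((hδ i).dx isOpen_Ioo hL).dx isOpen_Ioo hL)
  have hhs : Sm (Ioo 0 1) L (fun τ x => φ τ x * ht i τ x) := hφs.mul (hsm i)
  set Dd : ℝ → ℝ → ℝ := fun τ x => bb L φ (δ i) τ x - φ τ x * ht i τ x with hDd
  have hDds : Sm (Ioo 0 1) L Dd := hbbs.sub hhs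
  have hDdl : ∀ l, (dt^[l] Dd) τ x = (dt^[l] (bb L φ (δ i))) τ x -
      (dt^[l] (fun τ x => φ τ x * ht i τ x)) τ x :=
    fun l => dtIter_sub isOpen_Ioo hbbs hhs hτ1 hxI l
  -- Z = qf * (m * Dd)
  have hZ : (dt^[j] (Zf L φ (ht i) (δ i))) τ x =
      qf L x * (dt^[j] (fun t x => m t x * Dd t x)) τ x := by
    rw [← dtIter_left_mul (fun x => qf L x)]
    refine dtIter_congr_at isOpen_Ioo (fun r hr => ?_) hτ1 j
    simp only [Zf, hDd, bb, Bg.phi_eq' hB hr hxI]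
    ring
  have hLeib := dtIter_mul' isOpen_Ioo hB.sm hDds hτ1 hxI j
  rw [Finset.sum_range_succ] at hLeib
  simp only [Nat.choose_self, Nat.cast_one, one_mul, Nat.sub_self, Function.iterate_zero,
    id_eq] at hLeib
  -- the Kint bound
  have hrel := Z_rel hB hE (hsm i) (hδ i) (heq i) j τ hτ1 x hxI
  obtain ⟨mo9, mo10⟩ := moments hB hE (hsm i) (hδ i) (heq i) j hτ1
  have hK := Kint_bd (F := fun ξ => (dt^[j] E) τ ξ + (dt^[j + 1] (δ i)) τ ξ) (L := L) (τ := 0)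
    (A := A) (m := n) (e := 0) hL le_rfl hA0 (contF hB hE (hδ i) j hτ1) mo9 mo10
    (fun y hy => by simpa using hA i τ hτ y hy) hxI
  rw [← hrel] at hK
  simp only [pow_zero, mul_one] at hK
  -- combine
  set S : ℝ := ∑ l ∈ Finset.range j, (j.choose l : ℝ) * (dt^[j - l] m) τ x * (dt^[l] Dd) τ x with hS
  have hmain : x ^ 9 * qf L x * (m τ x * (dt^[j] Dd) τ x) =
      x ^ 9 * (dt^[j] (Zf L φ (ht i) (δ i))) τ x - x ^ 9 * qf L x * S := by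
    rw [hZ, hLeib]; ring
  have hSb : |S| * x ^ e ≤ ∑ l ∈ Finset.range j, (j.choose l : ℝ) * Cm (j - l) * Cl l := by
    calc |S| * x ^ e ≤ (∑ l ∈ Finset.range j,
          |(j.choose l : ℝ) * (dt^[j - l] m) τ x * (dt^[l] Dd) τ x|) * x ^ e :=
          mul_le_mul_of_nonneg_right (Finset.abs_sum_le_sum_abs _ _) (pow_nonneg hx0.le e)
      _ = ∑ l ∈ Finset.range j,
          |(j.choose l : ℝ) * (dt^[j - l] m) τ x * (dt^[l] Dd) τ x| * x ^ e := by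
          rw [Finset.sum_mul]
      _ ≤ _ := by
          refine Finset.sum_le_sum (fun l hl => ?_)
          have hl' : l < j := Finset.mem_range.1 hl
          have e1 := hCm (j - l) τ hτ x hxI
          have e2 := hCl l hl' i τ hτ x hx
          rw [← hDdl l] at e2
          rw [abs_mul, abs_mul, abs_of_nonneg (by positivity : (0 : ℝ) ≤ (j.choose l : ℝ))]
          calc (j.choose l : ℝ) * |(dt^[j - l] m) τ x| * |(dt^[l] Dd) τ x| * x ^ e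
              = (j.choose l : ℝ) * (|(dt^[j - l] m) τ x| * (|(dt^[l] Dd) τ x| * x ^ e)) := by ring
            _ ≤ (j.choose l : ℝ) * (Cm (j - l) * Cl l) := by
                apply mul_le_mul_of_nonneg_left _ (by positivity)
                exact mul_le_mul e1 e2 (mul_nonneg (abs_nonneg _) (pow_nonneg hx0.le e)) (hCm0 _)
            _ = _ := by ring
  have hm0 : c0 ≤ m τ x := hB.lower τ hτ1 x hxI
  have hmpos : 0 < m τ x := hc0.trans_le hm0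
  have hpos9 : 0 < x ^ 9 * qf L x := mul_pos (pow_pos hx0 9) hq
  have hxe : 0 ≤ x ^ e := pow_nonneg hx0.le e
  have hfin : (x ^ 9 * qf L x) * (c0 * (|(dt^[j] Dd) τ x| * x ^ e)) ≤
      (x ^ 9 * qf L x) * (2 ^ (n + 1) * A +
        ∑ l ∈ Finset.range j, (j.choose l : ℝ) * Cm (j - l) * Cl l) := by
    have g1 : (x ^ 9 * qf L x) * (m τ x * |(dt^[j] Dd) τ x|) ≤
        |x ^ 9 * (dt^[j] (Zf L φ (ht i) (δ i))) τ x| + (x ^ 9 * qf L x) * |S| := by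
      have e1 : (x ^ 9 * qf L x) * (m τ x * |(dt^[j] Dd) τ x|) =
          |x ^ 9 * qf L x * (m τ x * (dt^[j] Dd) τ x)| := by
        rw [abs_mul, abs_mul (m τ x), abs_of_pos hpos9, abs_of_pos hmpos]
      rw [e1, hmain]
      refine (abs_sub _ _).trans ?_
      rw [abs_mul (x ^ 9 * qf L x), abs_of_pos hpos9]
    have g2 : |x ^ 9 * (dt^[j] (Zf L φ (ht i) (δ i))) τ x| * x ^ e ≤
        (x ^ 9 * qf L x) * (2 ^ (n + 1) * A) := by
      have e2 : x ^ (n + 1) * x ^ e = x ^ 10 := by rw [← pow_add]; congr 1; omega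
      calc _ ≤ (2 ^ (n + 1) * A * x ^ (n + 1) * (1 - x / L)) * x ^ e :=
            mul_le_mul_of_nonneg_right hK hxe
        _ = 2 ^ (n + 1) * A * (x ^ (n + 1) * x ^ e) * (1 - x / L) := by ring
        _ = (x ^ 9 * qf L x) * (2 ^ (n + 1) * A) := by rw [e2]; unfold qf; ring
    have g3 : (x ^ 9 * qf L x) * (m τ x * |(dt^[j] Dd) τ x|) * x ^ e ≤
        (x ^ 9 * qf L x) * (2 ^ (n + 1) * A) + (x ^ 9 * qf L x) * (|S| * x ^ e) := by
      calc _ ≤ (|x ^ 9 * (dt^[j] (Zf L φ (ht i) (δ i))) τ x| + (x ^ 9 * qf L x) * |S|) * x ^ e :=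
            mul_le_mul_of_nonneg_right g1 hxe
        _ = |x ^ 9 * (dt^[j] (Zf L φ (ht i) (δ i))) τ x| * x ^ e +
            (x ^ 9 * qf L x) * (|S| * x ^ e) := by ring
        _ ≤ _ := by linarith
    have g4 : (x ^ 9 * qf L x) * (c0 * (|(dt^[j] Dd) τ x| * x ^ e)) ≤
        (x ^ 9 * qf L x) * (m τ x * |(dt^[j] Dd) τ x|) * x ^ e := by
      have : c0 * (|(dt^[j] Dd) τ x| * x ^ e) ≤ m τ x * (|(dt^[j] Dd) τ x| * x ^ e) :=
        mul_le_mul_of_nonneg_right hm0 (mul_nonneg (abs_nonneg _) hxe)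
      calc _ ≤ (x ^ 9 * qf L x) * (m τ x * (|(dt^[j] Dd) τ x| * x ^ e)) :=
            mul_le_mul_of_nonneg_left this hpos9.le
        _ = _ := by ring
    calc _ ≤ _ := g4
      _ ≤ _ := g3
      _ = (x ^ 9 * qf L x) * (2 ^ (n + 1) * A + |S| * x ^ e) := by ring
      _ ≤ _ := by
          apply mul_le_mul_of_nonneg_left _ hpos9.le
          linarith
  have hfin2 := le_of_mul_le_mul_left hfin hpos9
  simp only
  rw [← hDdl j]
  rw [one_div, inv_mul_eq_div, le_div_iff₀ hc0]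
  linarith

/-- mass of `E_j`. -/
theorem mass_E (hB : Bg c0 C0 g L φ m) (hE : Sm (Ioo 0 1) L E) (j : ℕ) {a b : ℝ} (ha : 0 < a)
    (hb : b < 1 / 2) : ∃ C : ℝ, 0 ≤ C ∧ ∀ τ ∈ Icc a b, ∀ x ∈ Icc 0 L,
      ∫ s in (0 : ℝ)..x, s ^ 9 * |(dt^[j] E) τ s| ≤ C * x ^ 10 := by
  have hL := Bg.Lpos hB
  obtain ⟨C, hC0, hC⟩ := exists_sup (hE.dt_iter isOpen_Ioo hL j) ha hb
  refine ⟨C, hC0, fun τ hτ x hx => ?_⟩
  have hτ1 : τ ∈ Ioo (0 : ℝ) 1 := ⟨ha.trans_le hτ.1, by linarith [hτ.2]⟩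
  have := mass_of_pt (D := fun s => (dt^[j] E) τ s) (L := L) (τ := 0) (N := C) (a := 0) (e := 0)
    (by norm_num) le_rfl hC0 ((hE.dt_iter isOpen_Ioo hL j).continuousOn_right hτ1)
    (fun s hs => by simpa using hC τ hτ s (Ioo_subset_Icc_self hs)) hx
  simpa using this

theorem pow_le_of {x : ℝ} (hx : x ∈ Icc 0 L) (n : ℕ) (hn : n ≤ 10) :
    x ^ 10 ≤ L ^ (10 - n) * x ^ n := by
  have h1 : x ^ 10 = x ^ (10 - n) * x ^ n := by rw [← pow_add]; congr 1; omega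
  rw [h1]
  exact mul_le_mul_of_nonneg_right (pow_le_pow_left₀ hx.1 hx.2 _) (pow_nonneg hx.1 n)

theorem pass4 (hB : Bg c0 C0 g L φ m) (hg : Prof c0 C0 g) (hE : Sm (Ioo 0 1) L E)
    {ht δ : ℕ → ℝ → ℝ → ℝ} (hsm : ∀ i, Sm (Ioo 0 1) L (ht i)) (hδ : ∀ i, Sm (Ioo 0 1) L (δ i))
    (heq : ∀ i, LinEq L φ E (ht i) (δ i)) (j : ℕ)
    (hlow : ∀ l < j, UB L 4 (fun i => dt^[l] (bb L φ (δ i))) ∧
      UB L 4 (fun i => dt^[l] (fun τ x => φ τ x * ht i τ x)))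
    (hsrc : USup L (fun i => dt^[j + 1] (δ i))) :
    UB L 4 (fun i => fun τ x => (dt^[j] (bb L φ (δ i))) τ x -
      (dt^[j] (fun τ x => φ τ x * ht i τ x)) τ x) := by
  refine pass_core hB hg hE hsm hδ heq j (n := 5) (by norm_num) hlow ?_
  intro a b ha hab hb
  have hL := Bg.Lpos hB
  obtain ⟨CE, hCE0, hCE⟩ := mass_E hB hE j ha hb
  obtain ⟨C, hC⟩ := hsrc a b ha hab hb
  refine ⟨CE * L ^ 5 + √(max C 0), by positivity, fun i τ hτ x hx => ?_⟩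
  have hτ1 : τ ∈ Ioo (0 : ℝ) 1 := ⟨ha.trans_le hτ.1, by linarith [hτ.2]⟩
  have c1 := (hE.dt_iter isOpen_Ioo hL j).continuousOn_right hτ1
  have c2 := ((hδ i).dt_iter isOpen_Ioo hL (j + 1)).continuousOn_right hτ1
  have h1 := mass_add_le c1 c2 hx
  have h2 := hCE τ hτ x hx
  have h3 := mass_of_L2 (D := fun s => (dt^[j + 1] (δ i)) τ s) (L := L) (τ := 1)
    (M := √(max C 0)) (e := 0) one_pos (Real.sqrt_nonneg _) c2 (by
      rw [Real.sq_sqrt (le_max_right _ _)]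
      have := hC i τ hτ
      unfold nsq at this
      simpa using Or.inl this) hx
  simp only [pow_zero, mul_one] at h3
  have h4 := pow_le_of hx 5 (by norm_num)
  have h5 : CE * x ^ 10 ≤ CE * L ^ 5 * x ^ 5 := by
    calc CE * x ^ 10 ≤ CE * (L ^ (10 - 5) * x ^ 5) := mul_le_mul_of_nonneg_left h4 hCE0
      _ = _ := by norm_num; ring
  calc _ ≤ _ := h1
    _ ≤ CE * L ^ 5 * x ^ 5 + √(max C 0) * x ^ 5 := by linarith
    _ = _ := by ring

theorem pass_pt (hB : Bg c0 C0 g L φ m) (hg : Prof c0 C0 g) (hE : Sm (Ioo 0 1) L E)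
    {ht δ : ℕ → ℝ → ℝ → ℝ} (hsm : ∀ i, Sm (Ioo 0 1) L (ht i)) (hδ : ∀ i, Sm (Ioo 0 1) L (δ i))
    (heq : ∀ i, LinEq L φ E (ht i) (δ i)) (j : ℕ) {e a0 n : ℕ} (ha0 : a0 ≤ 9) (hna : n = 10 - a0)
    (hn : n + e = 9)
    (hlow : ∀ l < j, UB L e (fun i => dt^[l] (bb L φ (δ i))) ∧
      UB L e (fun i => dt^[l] (fun τ x => φ τ x * ht i τ x)))
    (hsrc : UB L a0 (fun i => dt^[j + 1] (δ i))) :
    UB L e (fun i => fun τ x => (dt^[j] (bb L φ (δ i))) τ x -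
      (dt^[j] (fun τ x => φ τ x * ht i τ x)) τ x) := by
  refine pass_core hB hg hE hsm hδ heq j hn hlow ?_
  intro a b ha hab hb
  have hL := Bg.Lpos hB
  obtain ⟨CE, hCE0, hCE⟩ := mass_E hB hE j ha hb
  obtain ⟨C, hC⟩ := hsrc a b ha hab hb
  refine ⟨CE * L ^ (10 - n) + max C 0, by positivity, fun i τ hτ x hx => ?_⟩
  have hτ1 : τ ∈ Ioo (0 : ℝ) 1 := ⟨ha.trans_le hτ.1, by linarith [hτ.2]⟩
  have c1 := (hE.dt_iter isOpen_Ioo hL j).continuousOn_right hτ1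
  have c2 := ((hδ i).dt_iter isOpen_Ioo hL (j + 1)).continuousOn_right hτ1
  have h1 := mass_add_le c1 c2 hx
  have h2 := hCE τ hτ x hx
  have h3 := mass_of_pt (D := fun s => (dt^[j + 1] (δ i)) τ s) (L := L) (τ := 0)
    (N := max C 0) (a := a0) (e := 0) ha0 le_rfl (le_max_right _ _) c2 (fun s hs => by
      simpa using Or.inl (hC i τ hτ s hs)) hx
  rw [← hna] at h3
  simp only [pow_zero, mul_one] at h3
  have h4 := pow_le_of hx n (by omega)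
  have h5 : CE * x ^ 10 ≤ CE * L ^ (10 - n) * x ^ n := by
    calc CE * x ^ 10 ≤ CE * (L ^ (10 - n) * x ^ n) := mul_le_mul_of_nonneg_left h4 hCE0
      _ = _ := by ring
  calc _ ≤ _ := h1
    _ ≤ CE * L ^ (10 - n) * x ^ n + max C 0 * x ^ n := by linarith
    _ = _ := by ring

theorem pass2 (hB : Bg c0 C0 g L φ m) (hg : Prof c0 C0 g) (hE : Sm (Ioo 0 1) L E)
    {ht δ : ℕ → ℝ → ℝ → ℝ} (hsm : ∀ i, Sm (Ioo 0 1) L (ht i)) (hδ : ∀ i, Sm (Ioo 0 1) L (δ i))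
    (heq : ∀ i, LinEq L φ E (ht i) (δ i)) (j : ℕ)
    (hlow : ∀ l < j, UB L 2 (fun i => dt^[l] (bb L φ (δ i))) ∧
      UB L 2 (fun i => dt^[l] (fun τ x => φ τ x * ht i τ x)))
    (hsrc : UB L 3 (fun i => dt^[j + 1] (δ i))) :
    UB L 2 (fun i => fun τ x => (dt^[j] (bb L φ (δ i))) τ x -
      (dt^[j] (fun τ x => φ τ x * ht i τ x)) τ x) :=
  pass_pt hB hg hE hsm hδ heq j (a0 := 3) (n := 7) (by norm_num) (by norm_num) (by norm_num)
    hlow hsrc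

theorem pass0 (hB : Bg c0 C0 g L φ m) (hg : Prof c0 C0 g) (hE : Sm (Ioo 0 1) L E)
    {ht δ : ℕ → ℝ → ℝ → ℝ} (hsm : ∀ i, Sm (Ioo 0 1) L (ht i)) (hδ : ∀ i, Sm (Ioo 0 1) L (δ i))
    (heq : ∀ i, LinEq L φ E (ht i) (δ i)) (j : ℕ)
    (hlow : ∀ l < j, UB L 0 (fun i => dt^[l] (bb L φ (δ i))) ∧
      UB L 0 (fun i => dt^[l] (fun τ x => φ τ x * ht i τ x)))
    (hsrc : UB L 1 (fun i => dt^[j + 1] (δ i))) :
    UB L 0 (fun i => fun τ x => (dt^[j] (bb L φ (δ i))) τ x -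
      (dt^[j] (fun τ x => φ τ x * ht i τ x)) τ x) :=
  pass_pt hB hg hE hsm hδ heq j (a0 := 1) (n := 9) (by norm_num) (by norm_num) (by norm_num)
    hlow hsrc

end Crest.Agent.R213.C8
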