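import Crest.Agent.R213.J0

/-!
# Row 213, part C: iterated `τ`-derivatives (Leibniz rule) and graded bounds

`(dt^[j]) u t x` is `iteratedDeriv j (fun r => u r x) t`.
-/

set_option autoImplicit false

open Set Finset

noncomputable section

namespace Crest.Agent.R213.Leib

variable {s : Set ℝ} {L t x : ℝ} {u v : ℝ → ℝ → ℝ}

theorem dt_iter_eq (u : ℝ → ℝ → ℝ) (j : ℕ) (t x : ℝ) :
    (dt^[j]) u t x = iteratedDeriv j (fun r => u r x) t := by
  rw [iteratedDeriv_eq_iterate]
  induction j generalizing u t with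
  | zero => rfl
  | succ j ih =>
    rw [Function.iterate_succ_apply, Function.iterate_succ_apply, ih]
    rfl

theorem contDiffAt_left_of_Sm (hu : Sm s L u) (hs : IsOpen s) (ht : t ∈ s) (hx : x ∈ Icc 0 L)
    (n : ℕ) : ContDiffAt ℝ n (fun r => u r x) t :=
  ((hu.contDiffOn_left hx).contDiffAt (hs.mem_nhds ht)).of_le (by exact_mod_cast le_top)

theorem dt_iter_mul (hu : Sm s L u) (hv : Sm s L v) (hs : IsOpen s) (ht : t ∈ s)
    (hx : x ∈ Icc 0 L) (j : ℕ) :
    (dt^[j]) (fun t x => u t x * v t x) t x =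
      ∑ i ∈ range (j + 1), (j.choose i : ℝ) * (dt^[i]) u t x * (dt^[j - i]) v t x := by
  simp only [dt_iter_eq]
  exact iteratedDeriv_mul (contDiffAt_left_of_Sm hu hs ht hx j) (contDiffAt_left_of_Sm hv hs ht hx j)

theorem dt_iter_add (hu : Sm s L u) (hv : Sm s L v) (hs : IsOpen s) (ht : t ∈ s)
    (hx : x ∈ Icc 0 L) (j : ℕ) :
    (dt^[j]) (fun t x => u t x + v t x) t x = (dt^[j]) u t x + (dt^[j]) v t x := by
  simp only [dt_iter_eq]
  exact iteratedDeriv_add (contDiffAt_left_of_Sm hu hs ht hx j) (contDiffAt_left_of_Sm hv hs ht hx j)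

theorem dt_iter_sub (hu : Sm s L u) (hv : Sm s L v) (hs : IsOpen s) (ht : t ∈ s)
    (hx : x ∈ Icc 0 L) (j : ℕ) :
    (dt^[j]) (fun t x => u t x - v t x) t x = (dt^[j]) u t x - (dt^[j]) v t x := by
  simp only [dt_iter_eq]
  exact iteratedDeriv_sub (contDiffAt_left_of_Sm hu hs ht hx j) (contDiffAt_left_of_Sm hv hs ht hx j)

theorem dt_iter_neg (j : ℕ) :
    (dt^[j]) (fun t x => - u t x) t x = - (dt^[j]) u t x := by
  simp only [dt_iter_eq]
  exact iteratedDeriv_neg j _ _

theorem dt_iter_const_mul (c : ℝ) (j : ℕ) :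
    (dt^[j]) (fun t x => c * u t x) t x = c * (dt^[j]) u t x := by
  simp only [dt_iter_eq]
  exact iteratedDeriv_const_mul_field c _

theorem dt_iter_right_mul (f : ℝ → ℝ) (j : ℕ) :
    (dt^[j]) (fun t x => f x * u t x) t x = f x * (dt^[j]) u t x := by
  simp only [dt_iter_eq]
  exact iteratedDeriv_const_mul_field (f x) _

theorem dt_iter_succ (j : ℕ) (u : ℝ → ℝ → ℝ) : (dt^[j + 1]) u = dt ((dt^[j]) u) :=
  Function.iterate_succ_apply' _ _ _

theorem dt_iter_add_index (i j : ℕ) (u : ℝ → ℝ → ℝ) :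
    (dt^[i + j]) u = (dt^[i]) ((dt^[j]) u) :=
  Function.iterate_add_apply _ _ _ _

/-- `∂_τ^j` commutes with `∂ₓ`. -/
theorem dt_iter_dx (hs : IsOpen s) (hL : 0 < L) (hu : Sm s L u) (ht : t ∈ s)
    (hx : x ∈ Icc 0 L) (j : ℕ) :
    (dt^[j]) (dx L u) t x = dx L ((dt^[j]) u) t x := by
  induction j generalizing t x with
  | zero => rfl
  | succ j ih =>
    rw [dt_iter_succ, dt_iter_succ]
    rw [dt_congr hs (fun r hr => ih hr hx) ht]
    exact (hu.dt_iter hs hL j).dt_dx hs hL ht hx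

theorem dt_iter_dx_dx (hs : IsOpen s) (hL : 0 < L) (hu : Sm s L u) (ht : t ∈ s)
    (hx : x ∈ Icc 0 L) (j : ℕ) :
    (dt^[j]) (dx L (dx L u)) t x
      = dx L (dx L ((dt^[j]) u)) t x := by
  rw [dt_iter_dx hs hL (hu.dx hs hL) ht hx j]
  exact dx_congr (fun y hy => dt_iter_dx hs hL hu ht hy j) hx

/-! ### Leibniz bounds -/

/-- Leibniz bound with arbitrary graded weights `a i`, `b i`. -/
theorem abs_dt_iter_mul_le (hu : Sm s L u) (hv : Sm s L v) (hs : IsOpen s) (ht : t ∈ s)
    (hx : x ∈ Icc 0 L) (j : ℕ) :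
    |(dt^[j]) (fun t x => u t x * v t x) t x| ≤
      ∑ i ∈ range (j + 1), (j.choose i : ℝ) * (|(dt^[i]) u t x| * |(dt^[j - i]) v t x|) := by
  rw [dt_iter_mul hu hv hs ht hx j]
  refine (Finset.abs_sum_le_sum_abs _ _).trans (le_of_eq (Finset.sum_congr rfl fun i _ => ?_))
  rw [abs_mul, abs_mul, Nat.abs_cast, mul_assoc]

theorem sum_choose_real (j : ℕ) : ∑ i ∈ range (j + 1), (j.choose i : ℝ) = 2 ^ j := by
  exact_mod_cast Nat.sum_range_choose j

/-- Products of functions with graded bounds `|u_i| ≤ A ρ^{-i}`, `|v_i| ≤ B ρ^{-i}`. -/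
theorem graded_mul (hu : Sm s L u) (hv : Sm s L v) (hs : IsOpen s) (ht : t ∈ s)
    (hx : x ∈ Icc 0 L) {n : ℕ} {A B ρ : ℝ} (hA : 0 ≤ A) (hρ : 0 < ρ)
    (h1 : ∀ i ≤ n, ρ ^ i * |(dt^[i]) u t x| ≤ A) (h2 : ∀ i ≤ n, ρ ^ i * |(dt^[i]) v t x| ≤ B) :
    ∀ j ≤ n, ρ ^ j * |(dt^[j]) (fun t x => u t x * v t x) t x| ≤ 2 ^ j * (A * B) := by
  intro j hj
  calc ρ ^ j * |(dt^[j]) (fun t x => u t x * v t x) t x|
      ≤ ρ ^ j * ∑ i ∈ range (j + 1),
          (j.choose i : ℝ) * (|(dt^[i]) u t x| * |(dt^[j - i]) v t x|) :=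
        mul_le_mul_of_nonneg_left (abs_dt_iter_mul_le hu hv hs ht hx j) (by positivity)
    _ = ∑ i ∈ range (j + 1), (j.choose i : ℝ) *
          ((ρ ^ i * |(dt^[i]) u t x|) * (ρ ^ (j - i) * |(dt^[j - i]) v t x|)) := by
        rw [Finset.mul_sum]
        refine Finset.sum_congr rfl fun i hi => ?_
        have hij : i ≤ j := Nat.lt_succ_iff.mp (Finset.mem_range.mp hi)
        have : ρ ^ j = ρ ^ i * ρ ^ (j - i) := by rw [← pow_add, Nat.add_sub_cancel' hij]
        rw [this]; ring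
    _ ≤ ∑ i ∈ range (j + 1), (j.choose i : ℝ) * (A * B) := by
        refine Finset.sum_le_sum fun i hi => ?_
        have hij : i ≤ j := Nat.lt_succ_iff.mp (Finset.mem_range.mp hi)
        refine mul_le_mul_of_nonneg_left ?_ (Nat.cast_nonneg _)
        exact mul_le_mul (h1 i (hij.trans hj)) (h2 (j - i) ((Nat.sub_le _ _).trans hj))
          (by positivity) hA
    _ = 2 ^ j * (A * B) := by rw [← Finset.sum_mul, sum_choose_real]

/-- Recursion for a quotient: if `D * v = F` then `v D_j = F_j - ∑_{i<j} C(j,i) D_i v_{j-i}`. -/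
theorem dt_iter_of_mul_eq {D F : ℝ → ℝ → ℝ} (hD : Sm s L D) (hv : Sm s L v) (hs : IsOpen s)
    (ht : t ∈ s) (hx : x ∈ Icc 0 L)
    (h : ∀ r ∈ s, D r x * v r x = F r x) (j : ℕ) :
    (dt^[j]) D t x * v t x =
      (dt^[j]) F t x -
        ∑ i ∈ range j, (j.choose i : ℝ) * (dt^[i]) D t x * (dt^[j - i]) v t x := by
  have h1 : (dt^[j]) F t x = (dt^[j]) (fun t x => D t x * v t x) t x :=
    dt_iter_congr hs (fun r hr => (h r hr).symm) ht j
  rw [h1, dt_iter_mul hD hv hs ht hx j, Finset.sum_range_succ]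
  simp

/-- graded bound for a quotient. -/
theorem graded_quot {D F : ℝ → ℝ → ℝ} (hD : Sm s L D) (hv : Sm s L v) (hs : IsOpen s)
    (ht : t ∈ s) (hx : x ∈ Icc 0 L) (h : ∀ r ∈ s, D r x * v r x = F r x)
    {n : ℕ} {A B c ρ : ℝ} (hA : 0 ≤ A) (hB : 0 ≤ B) (hc : 0 < c) (hρ : 0 < ρ)
    (h1 : ∀ i ≤ n, ρ ^ i * |(dt^[i]) F t x| ≤ A) (h2 : ∀ i ≤ n, ρ ^ i * |(dt^[i]) v t x| ≤ B)
    (hcv : c ≤ |v t x|) :
    ∀ j ≤ n, ρ ^ j * |(dt^[j]) D t x| ≤ A / c * (1 + 2 ^ n * B / c) ^ j := by
  intro j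
  induction j using Nat.strong_induction_on with
  | _ j ih =>
    intro hj
    have hKK : 1 ≤ 1 + 2 ^ n * B / c := by
      have : 0 ≤ 2 ^ n * B / c := by positivity
      linarith
    set K := 1 + 2 ^ n * B / c with hK
    have e := dt_iter_of_mul_eq hD hv hs ht hx h j
    have e2 : ρ ^ j * |(dt^[j]) D t x| * |v t x| ≤
        A + ∑ i ∈ range j, (j.choose i : ℝ) * (A / c * K ^ i * B) := by
      calc ρ ^ j * |(dt^[j]) D t x| * |v t x| = ρ ^ j * |(dt^[j]) D t x * v t x| := by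
            rw [abs_mul, mul_assoc]
        _ = ρ ^ j * |(dt^[j]) F t x -
              ∑ i ∈ range j, (j.choose i : ℝ) * (dt^[i]) D t x * (dt^[j - i]) v t x| := by rw [e]
        _ ≤ ρ ^ j * (|(dt^[j]) F t x| + |∑ i ∈ range j,
              (j.choose i : ℝ) * (dt^[i]) D t x * (dt^[j - i]) v t x|) :=
            mul_le_mul_of_nonneg_left (abs_sub _ _) (by positivity)
        _ ≤ ρ ^ j * (|(dt^[j]) F t x| + ∑ i ∈ range j,
              |(j.choose i : ℝ) * (dt^[i]) D t x * (dt^[j - i]) v t x|) := by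
            refine mul_le_mul_of_nonneg_left ?_ (by positivity)
            gcongr
            exact Finset.abs_sum_le_sum_abs _ _
        _ = ρ ^ j * |(dt^[j]) F t x| + ∑ i ∈ range j, (j.choose i : ℝ) *
              ((ρ ^ i * |(dt^[i]) D t x|) * (ρ ^ (j - i) * |(dt^[j - i]) v t x|)) := by
            rw [mul_add, Finset.mul_sum]
            congr 1
            refine Finset.sum_congr rfl fun i hi => ?_
            have hij : i < j := Finset.mem_range.mp hi
            have : ρ ^ j = ρ ^ i * ρ ^ (j - i) := by rw [← pow_add, Nat.add_sub_cancel' hij.le]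
            rw [this, abs_mul, abs_mul, Nat.abs_cast]; ring
        _ ≤ A + ∑ i ∈ range j, (j.choose i : ℝ) * (A / c * K ^ i * B) := by
            refine add_le_add (h1 j hj) (Finset.sum_le_sum fun i hi => ?_)
            have hij : i < j := Finset.mem_range.mp hi
            refine mul_le_mul_of_nonneg_left ?_ (Nat.cast_nonneg _)
            refine mul_le_mul (ih i hij (hij.le.trans hj)) (h2 (j - i) ((Nat.sub_le _ _).trans hj))
              (by positivity) (by positivity)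
    -- bound the sum by `2^n * B * A / c * K^(j-1)`-type quantity
    have e3 : A + ∑ i ∈ range j, (j.choose i : ℝ) * (A / c * K ^ i * B) ≤ A * K ^ j := by
      rcases Nat.eq_zero_or_pos j with rfl | hjp
      · simp
      · have h3 : ∑ i ∈ range j, (j.choose i : ℝ) * (A / c * K ^ i * B) ≤
            2 ^ n * (A / c * K ^ (j - 1) * B) := by
          calc ∑ i ∈ range j, (j.choose i : ℝ) * (A / c * K ^ i * B)
              ≤ ∑ i ∈ range j, (j.choose i : ℝ) * (A / c * K ^ (j - 1) * B) := by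
                refine Finset.sum_le_sum fun i hi => ?_
                have hij : i < j := Finset.mem_range.mp hi
                have : K ^ i ≤ K ^ (j - 1) := pow_le_pow_right₀ hKK (by omega)
                gcongr
            _ = (∑ i ∈ range j, (j.choose i : ℝ)) * (A / c * K ^ (j - 1) * B) := by
                rw [Finset.sum_mul]
            _ ≤ 2 ^ n * (A / c * K ^ (j - 1) * B) := by
                refine mul_le_mul_of_nonneg_right ?_ (by positivity)
                calc ∑ i ∈ range j, (j.choose i : ℝ) ≤ ∑ i ∈ range (j + 1), (j.choose i : ℝ) := by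
                      rw [Finset.sum_range_succ]
                      exact le_add_of_nonneg_right (Nat.cast_nonneg _)
                  _ = 2 ^ j := sum_choose_real j
                  _ ≤ 2 ^ n := pow_le_pow_right₀ (by norm_num) hj
        have h4 : K ^ j = K ^ (j - 1) * K := by
          rw [← pow_succ, Nat.sub_add_cancel hjp]
        have h5 : A ≤ A * K ^ (j - 1) := le_mul_of_one_le_right hA (one_le_pow₀ hKK)
        calc A + ∑ i ∈ range j, (j.choose i : ℝ) * (A / c * K ^ i * B)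
            ≤ A * K ^ (j - 1) + 2 ^ n * (A / c * K ^ (j - 1) * B) := add_le_add h5 h3
          _ = A * K ^ j := by rw [h4, hK]; ring
    have e4 : ρ ^ j * |(dt^[j]) D t x| * c ≤ A * K ^ j :=
      (mul_le_mul_of_nonneg_left hcv (by positivity)).trans (e2.trans e3)
    rw [div_mul_eq_mul_div, le_div_iff₀ hc]
    exact e4

end Crest.Agent.R213.Leib
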