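import Crest.Agent.R213.C.CDefs
import Crest.Agent.R213.C.Leib

/-!
# Row 213, Part C8: `dt^[j] (bb L φ δ)` versus `be L φ j δ` on compact time intervals (helper236)
-/

set_option autoImplicit false

open Set MeasureTheory Filter Topology

noncomputable section

namespace Crest.Agent.R213.C8.LE

open Crest.Agent.R213 Crest.Agent.R213.C

variable {c0 C0 : ℝ} {g : ℝ → ℝ} {L : ℝ} {φ m δ u : ℝ → ℝ → ℝ} {a b : ℝ}

theorem exists_bd (hu : Sm (Ioo 0 1) L u) (ha : 0 < a) (hb : b < 1) :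
    ∃ C : ℝ, 0 ≤ C ∧ ∀ τ ∈ Icc a b, ∀ x ∈ Icc 0 L, |u τ x| ≤ C := by
  have hsub : Icc a b ⊆ Ioo (0 : ℝ) 1 := fun τ hτ => ⟨lt_of_lt_of_le ha hτ.1, lt_of_le_of_lt hτ.2 hb⟩
  obtain ⟨C, hC⟩ := (isCompact_Icc.prod isCompact_Icc).exists_bound_of_continuousOn
    (hu.continuousOn.mono (prod_mono_left hsub) : ContinuousOn (fun p : ℝ × ℝ => u p.1 p.2)
      (Icc a b ×ˢ Icc 0 L))
  refine ⟨max C 0, le_max_right _ _, fun τ hτ x hx => ?_⟩
  exact (hC (τ, x) ⟨hτ, hx⟩).trans (le_max_left _ _)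

theorem exists_bd_iter (hL : 0 < L) (hu : Sm (Ioo 0 1) L u) (ha : 0 < a) (hb : b < 1) (J : ℕ) :
    ∃ M : ℝ, 1 ≤ M ∧ ∀ i ≤ J, ∀ τ ∈ Icc a b, ∀ x ∈ Icc 0 L, |(dt^[i] u) τ x| ≤ M := by
  induction J with
  | zero =>
    obtain ⟨C, hC0, hC⟩ := exists_bd (a := a) (b := b) hu ha hb
    refine ⟨C + 1, by linarith, fun i hi τ hτ x hx => ?_⟩
    have : i = 0 := by omega
    subst this
    exact (hC τ hτ x hx).trans (by linarith)
  | succ J ih =>
    obtain ⟨M, hM1, hM⟩ := ih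
    obtain ⟨C, hC0, hC⟩ := exists_bd (a := a) (b := b) (hu.dt_iter isOpen_Ioo hL (J + 1)) ha hb
    refine ⟨M + C, by linarith, fun i hi τ hτ x hx => ?_⟩
    rcases Nat.lt_or_ge J i with h | h
    · have : i = J + 1 := by omega
      subst this
      exact (hC τ hτ x hx).trans (by linarith)
    · exact (hM i h τ hτ x hx).trans (by linarith)

/-- `b_j - be_j` is controlled by the lower `be_l`. -/
theorem b_sub_be (hB : Bg c0 C0 g L φ m) (hc0 : 0 < c0) (hδ : Sm (Ioo 0 1) L δ) {τ x : ℝ}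
    (hτ : τ ∈ Ioo (0 : ℝ) 1) (hx : x ∈ Icc 0 L) (j : ℕ) {M : ℝ}
    (hM : ∀ i ≤ j, |(dt^[i] m) τ x| ≤ M) :
    |(dt^[j] (bb L φ δ)) τ x - be L φ j δ τ x| ≤
      2 ^ j * (M / c0) * ∑ l ∈ Finset.range j, |be L φ l δ τ x| := by
  have hL : 0 < L := by have := hB.L_ge; linarith
  have hM0 : 0 ≤ M := (abs_nonneg _).trans (hM 0 (Nat.zero_le _))
  have hxx := (hδ.dx isOpen_Ioo hL).dx isOpen_Ioo hL
  have hm0 : 0 < m τ x := lt_of_lt_of_le hc0 (hB.lower τ hτ x hx)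
  have e1 : (dt^[j] (bb L φ δ)) τ x =
      (x * (1 - x / L)) * (dt^[j] (fun t x => dx L (dx L δ) t x * m t x)) τ x := by
    rw [← Leib.dt_iter_right_mul (fun x => x * (1 - x / L))]
    refine dt_iter_congr isOpen_Ioo (fun r hr => ?_) hτ j
    simp only [bb]
    rw [hB.phi_eq r hr x hx]; ring
  rw [Leib.dt_iter_mul hxx hB.sm isOpen_Ioo hτ hx j, Finset.sum_range_succ] at e1
  simp only [Nat.choose_self, Nat.cast_one, one_mul, Nat.sub_self, Function.iterate_zero, id] at e1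
  have e2 : ∀ l, (dt^[l] (dx L (dx L δ))) τ x = dx L (dx L (dt^[l] δ)) τ x := fun l =>
    Leib.dt_iter_dx_dx isOpen_Ioo hL hδ hτ hx l
  have e3 : ∀ l, (x * (1 - x / L)) * dx L (dx L (dt^[l] δ)) τ x = be L φ l δ τ x / m τ x := by
    intro l
    rw [eq_div_iff hm0.ne']
    simp only [be]
    rw [hB.phi_eq τ hτ x hx]; ring
  have e4 : (dt^[j] (bb L φ δ)) τ x - be L φ j δ τ x =
      ∑ l ∈ Finset.range j, (j.choose l : ℝ) * (be L φ l δ τ x / m τ x) * (dt^[j - l] m) τ x := by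
    rw [e1, mul_add, Finset.mul_sum]
    have h5 : (x * (1 - x / L)) * ((dt^[j] (dx L (dx L δ))) τ x * m τ x) = be L φ j δ τ x := by
      rw [← mul_assoc, e2, e3, div_mul_cancel₀ _ hm0.ne']
    rw [h5, add_sub_cancel_right]
    refine Finset.sum_congr rfl fun l _ => ?_
    rw [e2, ← e3 l]; ring
  rw [e4, Finset.mul_sum]
  refine (Finset.abs_sum_le_sum_abs _ _).trans (Finset.sum_le_sum fun l hl => ?_)
  have hl' : l ≤ j := (Finset.mem_range.1 hl).le
  rw [abs_mul, abs_mul, abs_div, abs_of_pos hm0, abs_of_nonneg (Nat.cast_nonneg _ : (0:ℝ) ≤ (j.choose l : ℝ))]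
  have h6 : (j.choose l : ℝ) ≤ 2 ^ j := by
    have h7 : j.choose l ≤ 2 ^ j := by
      rw [← Nat.sum_range_choose j]
      exact Finset.single_le_sum (f := fun i => j.choose i) (fun _ _ => Nat.zero_le _)
        (Finset.mem_range.2 (Nat.lt_succ_of_le hl'))
    exact_mod_cast h7
  have h8 : |be L φ l δ τ x| / m τ x ≤ |be L φ l δ τ x| / c0 :=
    div_le_div_of_nonneg_left (abs_nonneg _) hc0 (hB.lower τ hτ x hx)
  have h9 := hM (j - l) (Nat.sub_le _ _)
  calc (j.choose l : ℝ) * (|be L φ l δ τ x| / m τ x) * |(dt^[j - l] m) τ x|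
      ≤ 2 ^ j * (|be L φ l δ τ x| / c0) * M := by
        apply mul_le_mul _ h9 (abs_nonneg _) (by positivity)
        exact mul_le_mul h6 h8 (by positivity) (by positivity)
    _ = 2 ^ j * (M / c0) * |be L φ l δ τ x| := by ring

/-- sums of `be_l` are controlled by sums of `b_l`. -/
theorem sum_be_le (hB : Bg c0 C0 g L φ m) (hc0 : 0 < c0) (hδ : Sm (Ioo 0 1) L δ) {τ x : ℝ}
    (hτ : τ ∈ Ioo (0 : ℝ) 1) (hx : x ∈ Icc 0 L) (J : ℕ) {M : ℝ}
    (hM : ∀ i ≤ J, |(dt^[i] m) τ x| ≤ M) : ∀ j ≤ J + 1,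
    ∑ l ∈ Finset.range j, |be L φ l δ τ x| ≤
      (1 + 2 ^ J * (M / c0)) ^ j * ∑ l ∈ Finset.range j, |(dt^[l] (bb L φ δ)) τ x| := by
  have hM0 : 0 ≤ M := (abs_nonneg _).trans (hM 0 (Nat.zero_le _))
  have hK : 0 ≤ 2 ^ J * (M / c0) := by positivity
  intro j
  induction j with
  | zero => intro _; simp
  | succ j ih =>
    intro hj
    have h1 := ih (by omega)
    have h2 := b_sub_be hB hc0 hδ hτ hx j (M := M) (fun i hi => hM i (by omega))
    have h3 : (2 : ℝ) ^ j * (M / c0) ≤ 2 ^ J * (M / c0) :=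
      mul_le_mul_of_nonneg_right (pow_le_pow_right₀ one_le_two (by omega)) (by positivity)
    rw [Finset.sum_range_succ, Finset.sum_range_succ]
    set S := ∑ l ∈ Finset.range j, |be L φ l δ τ x|
    set T := ∑ l ∈ Finset.range j, |(dt^[l] (bb L φ δ)) τ x|
    have hS : 0 ≤ S := Finset.sum_nonneg fun _ _ => abs_nonneg _
    have hT : 0 ≤ T := Finset.sum_nonneg fun _ _ => abs_nonneg _
    set K := 1 + 2 ^ J * (M / c0) with hKdef
    have hK1 : 1 ≤ K := by linarith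
    have hKj : 1 ≤ K ^ j := one_le_pow₀ hK1
    have h4 : |be L φ j δ τ x| ≤ |(dt^[j] (bb L φ δ)) τ x| + (K - 1) * S := by
      have h5 : |be L φ j δ τ x| ≤ |(dt^[j] (bb L φ δ)) τ x| +
          |(dt^[j] (bb L φ δ)) τ x - be L φ j δ τ x| := by
        have := abs_sub_abs_le_abs_sub (be L φ j δ τ x) ((dt^[j] (bb L φ δ)) τ x)
        rw [abs_sub_comm] at this
        linarith
      have h6 : 2 ^ j * (M / c0) * S ≤ (K - 1) * S :=
        mul_le_mul_of_nonneg_right (by linarith) hS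
      linarith
    have h7 : K * S ≤ K ^ (j + 1) * T := by
      rw [pow_succ']
      rw [mul_assoc]
      exact mul_le_mul_of_nonneg_left h1 (by linarith)
    have h8 : |(dt^[j] (bb L φ δ)) τ x| ≤ K ^ (j + 1) * |(dt^[j] (bb L φ δ)) τ x| :=
      le_mul_of_one_le_left (abs_nonneg _) (one_le_pow₀ hK1)
    calc S + |be L φ j δ τ x| ≤ K * S + |(dt^[j] (bb L φ δ)) τ x| := by linarith
      _ ≤ K ^ (j + 1) * T + K ^ (j + 1) * |(dt^[j] (bb L φ δ)) τ x| := add_le_add h7 h8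
      _ = _ := by ring

end Crest.Agent.R213.C8.LE
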