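import Crest.Agent.R213.C.CDefs
import Crest.Agent.R213.C.SupLoc

/-!
# Row 213, part C8: definitions (frozen by helper189)

All predicates are uniform in the index `i` of the iteration, on compact time intervals of
`(0,1/2)`, and all constants may depend on the interval, on `L`, `φ` and on the level.
-/

set_option autoImplicit false

open Set MeasureTheory Filter Topology

noncomputable section

namespace Crest.Agent.R213.C8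

open Crest.Agent.R213 Crest.Agent.R213.C

/-- `|u_i| x^e ≤ C` uniformly in `i`, on compact time intervals. -/
def UB (L : ℝ) (e : ℕ) (u : ℕ → ℝ → ℝ → ℝ) : Prop :=
  ∀ a b : ℝ, 0 < a → a < b → b < 1 / 2 →
    ∃ C : ℝ, ∀ i, ∀ τ ∈ Icc a b, ∀ x ∈ Ioo 0 L, |u i τ x| * x ^ e ≤ C

/-- `∫_a^b ∫_0^L x⁹ u_i² ≤ C` uniformly in `i`. -/
def UL2 (L : ℝ) (u : ℕ → ℝ → ℝ → ℝ) : Prop :=
  ∀ a b : ℝ, 0 < a → a < b → b < 1 / 2 →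
    ∃ C : ℝ, ∀ i, ∫ t in a..b, nsq L (u i) t ≤ C

/-- `sup_τ ∫_0^L x⁹ u_i² ≤ C` uniformly in `i`. -/
def USup (L : ℝ) (u : ℕ → ℝ → ℝ → ℝ) : Prop :=
  ∀ a b : ℝ, 0 < a → a < b → b < 1 / 2 →
    ∃ C : ℝ, ∀ i, ∀ τ ∈ Icc a b, nsq L (u i) τ ≤ C

/-- `h = φ ht`, `ht = hNL`. -/
def hh (L : ℝ) (φ : ℝ → ℝ → ℝ) (η : ℝ → ℝ) (δ : ℝ → ℝ → ℝ) : ℝ → ℝ → ℝ :=
  fun τ x => φ τ x * hNL L φ η δ τ x

/-- levels of `b = φ δ_xx` along the iteration -/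
def bj (L : ℝ) (φ : ℝ → ℝ → ℝ) (d : ℕ → ℝ → ℝ → ℝ) (j : ℕ) : ℕ → ℝ → ℝ → ℝ :=
  fun i => dt^[j] (bb L φ (d i))

/-- levels of `h = η b²/(1+b)` along the iteration -/
def hj (L : ℝ) (φ : ℝ → ℝ → ℝ) (η : ℝ → ℝ) (d : ℕ → ℝ → ℝ → ℝ) (j : ℕ) : ℕ → ℝ → ℝ → ℝ :=
  fun i => dt^[j] (hh L φ η (d i))

/-- levels of `δ` along the iteration -/
def dj (d : ℕ → ℝ → ℝ → ℝ) (j : ℕ) : ℕ → ℝ → ℝ → ℝ := fun i => dt^[j] (d i)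

/-- Induction hypothesis at stage `J ≥ 9`. -/
structure Hyp (L : ℝ) (φ : ℝ → ℝ → ℝ) (d : ℕ → ℝ → ℝ → ℝ) (J : ℕ) : Prop where
  l2 : ∀ l, l < J → UL2 L (bj L φ d l)
  ub0 : ∀ l, l + 5 ≤ J → UB L 0 (bj L φ d l)
  ub2 : ∀ l, l + 4 = J → UB L 2 (bj L φ d l)
  ub4 : ∀ l, l + 3 = J → UB L 4 (bj L φ d l)

end Crest.Agent.R213.C8
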