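import Crest.Agent.R213.J0K

/-!
# Row 213, part C: level structure (helper539)
-/

set_option autoImplicit false

open Set MeasureTheory Filter Topology

noncomputable section

namespace Crest.Agent.R213.C

open Crest.Agent.R213

/-- constant of the level structure -/
def CLev (c0 M : ℝ) (j : ℕ) : ℝ := 1 + 4 ^ j * (M ^ 2 / c0 ^ 2 + M / c0)

namespace Level

variable {s : Set ℝ} {L τ x : ℝ}

theorem dt_iter_Kint {u : ℝ → ℝ → ℝ} (hs : Convex ℝ s) (hso : IsOpen s) (hL : 0 < L)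
    (hu : Sm s L u) (j : ℕ) :
    ∀ τ ∈ s, ∀ x ∈ Icc 0 L,
      (dt^[j] (fun t x => Kint (u t) x)) τ x = Kint ((dt^[j] u) τ) x := by
  induction j generalizing u with
  | zero => intro τ _ x _; rfl
  | succ j ih =>
    intro τ hτ x hx
    rw [Function.iterate_succ_apply]
    have h1 : (dt^[j] (dt (fun t x => Kint (u t) x))) τ x
        = (dt^[j] (fun t x => Kint (dt u t) x)) τ x :=
      dt_iter_congr hso (fun ρ hρ => J310.dt_Kint hs hso hL hu hρ hx) hτ j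
    rw [h1, ih (hu.dt hso hL) τ hτ x hx]
    rfl

/-- derivatives of the square of a function with scale-invariant bounds -/
theorem abs_dt_iter_sq {m : ℝ → ℝ → ℝ} (hso : IsOpen s) (hm : Sm s L m) (hτ : τ ∈ s)
    (hx : x ∈ Icc 0 L) {ρ M : ℝ} (hρ : 0 < ρ) (hM : 0 ≤ M) {j : ℕ}
    (hb : ∀ i ≤ j, |(dt^[i] m) τ x| ≤ M / ρ ^ i) {k : ℕ} (hk : k ≤ j) :
    |(dt^[k] (fun τ x => m τ x * m τ x)) τ x| ≤ 2 ^ k * (M ^ 2 / ρ ^ k) := by
  rw [sm_iter_dt_mul hm hm hso hτ hx k]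
  refine (Finset.abs_sum_le_sum_abs _ _).trans ?_
  have h1 : ∀ i ∈ Finset.range (k + 1),
      |((k.choose i : ℕ) : ℝ) * (dt^[i] m) τ x * (dt^[k - i] m) τ x|
        ≤ (k.choose i : ℝ) * (M ^ 2 / ρ ^ k) := by
    intro i hi
    have hik : i ≤ k := Nat.lt_succ_iff.1 (Finset.mem_range.1 hi)
    rw [abs_mul, abs_mul, abs_of_nonneg (Nat.cast_nonneg (k.choose i) : (0 : ℝ) ≤ _), mul_assoc]
    apply mul_le_mul_of_nonneg_left _ (Nat.cast_nonneg _)
    calc |(dt^[i] m) τ x| * |(dt^[k - i] m) τ x|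
        ≤ (M / ρ ^ i) * (M / ρ ^ (k - i)) :=
          mul_le_mul (hb i (hik.trans hk)) (hb (k - i) ((Nat.sub_le _ _).trans hk))
            (abs_nonneg _) (by positivity)
      _ = M ^ 2 / ρ ^ k := by
          rw [div_mul_div_comm, ← pow_add, Nat.add_sub_cancel' hik, sq]
  refine (Finset.sum_le_sum h1).trans ?_
  rw [← Finset.sum_mul]
  have : (∑ i ∈ Finset.range (k + 1), (k.choose i : ℝ)) = 2 ^ k := by
    exact_mod_cast Nat.sum_range_choose k
  rw [this]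

end Level

open Level in
theorem level {c0 C0 : ℝ} {g : ℝ → ℝ} {L : ℝ} {φ m : ℝ → ℝ → ℝ} (hc0 : 0 < c0)
    (hB : Bg c0 C0 g L φ m) {E ht δ : ℝ → ℝ → ℝ} (hE : Sm (Ioo 0 1) L E)
    (hh : Sm (Ioo 0 1) L ht) (hd : Sm (Ioo 0 1) L δ)
    (heq : ∀ τ ∈ Ioo (0 : ℝ) 1, ∀ x ∈ Icc 0 L,
      x ^ 9 * (φ τ x ^ 2 * dx L (dx L δ) τ x - φ τ x ^ 2 * ht τ x) =
        Kint (fun ξ => E τ ξ + dt δ τ ξ) x) (j : ℕ) :
    ∃ R : ℝ → ℝ → ℝ, Sm (Ioo 0 1) L R ∧ (∀ τ ∈ Ioo (0 : ℝ) 1, R τ L = 0) ∧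
      (∀ τ ∈ Ioo (0 : ℝ) 1, ∀ x ∈ Icc 0 L,
        x ^ 9 * (φ τ x * (φ τ x * dx L (dx L (dt^[j] δ)) τ x + R τ x)) =
          Kint (fun ξ => (dt^[j] E) τ ξ + (dt^[j + 1] δ) τ ξ) x) ∧
      (∀ M : ℝ, 1 ≤ M → ∀ τ ∈ Ioo (0 : ℝ) 1, ∀ x ∈ Icc 0 L,
        (∀ i ≤ j, (x ^ 2 + τ) ^ i * |(dt^[i] m) τ x| ≤ M) →
        |R τ x| ≤ |(dt^[j] (fun τ x => φ τ x * ht τ x)) τ x| +
          CLev c0 M j * ∑ i ∈ Finset.range j,
            (|φ τ x * dx L (dx L (dt^[i] δ)) τ x| + |(dt^[i] (fun τ x => φ τ x * ht τ x)) τ x|) /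
              (x ^ 2 + τ) ^ (j - i)) := by
  have hL : 0 < L := by linarith [hB.L_ge]
  have hso : IsOpen (Ioo (0 : ℝ) 1) := isOpen_Ioo
  have hsc : Convex ℝ (Ioo (0 : ℝ) 1) := convex_Ioo 0 1
  have hm : Sm (Ioo 0 1) L m := hB.sm
  have hmpos : ∀ τ ∈ Ioo (0 : ℝ) 1, ∀ x ∈ Icc 0 L, 0 < m τ x := fun τ hτ x hx =>
    lt_of_lt_of_le hc0 (hB.lower τ hτ x hx)
  have hmne : ∀ τ ∈ Ioo (0 : ℝ) 1, ∀ x ∈ Icc 0 L, m τ x ≠ 0 := fun τ hτ x hx =>
    (hmpos τ hτ x hx).ne'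
  set r : ℝ → ℝ := fun x => x * (1 - x / L) with hr
  have hrL : r L = 0 := by simp [hr, div_self hL.ne']
  have hrs : ∀ {s : Set ℝ}, Sm s L (fun _ x => r x) := fun {s} =>
    Sm.of_right (ContDiff.contDiffOn (by rw [hr]; fun_prop))
  have hδxx : ∀ i, Sm (Ioo 0 1) L (dx L (dx L (dt^[i] δ))) := fun i =>
    ((hd.dt_iter hso hL i).dx hso hL).dx hso hL
  have hδxx0 : Sm (Ioo 0 1) L (dx L (dx L δ)) := hδxx 0
  -- auxiliary smooth functions
  set mm : ℝ → ℝ → ℝ := fun τ x => m τ x * m τ x with hmm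
  have hmms : Sm (Ioo 0 1) L mm := hm.mul hm
  have hmmpos : ∀ τ ∈ Ioo (0 : ℝ) 1, ∀ x ∈ Icc 0 L, 0 < mm τ x := fun τ hτ x hx =>
    mul_pos (hmpos τ hτ x hx) (hmpos τ hτ x hx)
  set h' : ℝ → ℝ → ℝ := fun τ x => r x * (m τ x * ht τ x) with hh'
  have hmh : Sm (Ioo 0 1) L (fun τ x => m τ x * ht τ x) := hm.mul hh
  have hh's : Sm (Ioo 0 1) L h' := hrs.mul hmh
  have hφ : ∀ τ ∈ Ioo (0 : ℝ) 1, ∀ x ∈ Icc 0 L, φ τ x = r x * m τ x := fun τ hτ x hx =>
    hB.phi_eq τ hτ x hx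
  have hhh : ∀ i : ℕ, ∀ τ ∈ Ioo (0 : ℝ) 1, ∀ x ∈ Icc 0 L,
      (dt^[i] (fun τ x => φ τ x * ht τ x)) τ x = (dt^[i] h') τ x := by
    intro i τ hτ x hx
    refine dt_iter_congr hso (fun ρ hρ => ?_) hτ i
    simp only [hh']
    rw [hφ ρ hρ x hx]
    ring
  -- the remainder
  set R : ℝ → ℝ → ℝ := fun τ x =>
    (∑ i ∈ Finset.range j, (j.choose i : ℝ) * ((dt^[j - i] mm) τ x / mm τ x) *
      (r x * m τ x * dx L (dx L (dt^[i] δ)) τ x))
    + (-1) * ∑ i ∈ Finset.range (j + 1), (j.choose i : ℝ) * (dt^[i] h') τ x *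
      ((dt^[j - i] m) τ x / m τ x) with hR
  refine ⟨R, ?_, ?_, ?_, ?_⟩
  · -- smoothness
    refine Sm.add (Sm.sum fun i _ => ?_) ((Sm.sum fun i _ => ?_).const_mul (-1))
    · refine Sm.mul (Sm.const_mul _ ?_) ((hrs.mul hm).mul (hδxx i))
      exact (hmms.dt_iter hso hL (j - i)).div hmms (fun τ hτ x hx => (hmmpos τ hτ x hx).ne')
    · refine Sm.mul (Sm.const_mul _ (hh's.dt_iter hso hL i)) ?_
      exact (hm.dt_iter hso hL (j - i)).div hm hmne
  · -- zero at `L`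
    intro τ hτ
    have h1 : ∀ i : ℕ, (dt^[i] h') τ L = 0 := by
      intro i
      have := iter_dt_right_mul r (fun τ x => m τ x * ht τ x) i τ L
      simp only [hh']
      rw [this, hrL, zero_mul]
    simp only [hR, hrL, h1]
    simp
  · -- the equation at level `j`
    intro τ hτ x hx
    have hA : ∀ ρ ∈ Ioo (0 : ℝ) 1,
        (fun τ x => x ^ 9 * (r x * (r x * (dx L (dx L δ) τ x * mm τ x) +
          (-1) * (h' τ x * m τ x)))) ρ x
          = (fun τ x => Kint (fun ξ => E τ ξ + dt δ τ ξ) x) ρ x := by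
      intro ρ hρ
      simp only
      rw [← heq ρ hρ x hx, hφ ρ hρ x hx]
      simp only [hmm, hh']
      ring
    have h1 := dt_iter_congr (v := fun τ x => x ^ 9 * (r x * (r x *
        (dx L (dx L δ) τ x * mm τ x) + (-1) * (h' τ x * m τ x))))
        (u := fun τ x => Kint (fun ξ => E τ ξ + dt δ τ ξ) x) hso hA hτ j
    have hU : Sm (Ioo 0 1) L (fun τ x => dx L (dx L δ) τ x * mm τ x) := hδxx0.mul hmms
    have hV : Sm (Ioo 0 1) L (fun τ x => h' τ x * m τ x) := hh's.mul hm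
    rw [iter_dt_right_mul (fun x => x ^ 9) (fun τ x => r x * (r x *
        (dx L (dx L δ) τ x * mm τ x) + (-1) * (h' τ x * m τ x))),
      iter_dt_right_mul r (fun τ x => r x *
        (dx L (dx L δ) τ x * mm τ x) + (-1) * (h' τ x * m τ x)),
      sm_iter_dt_add (hrs.mul hU) (hV.const_mul (-1)) hso hτ hx j,
      iter_dt_right_mul r (fun τ x => dx L (dx L δ) τ x * mm τ x),
      iter_dt_const_mul (-1) (fun τ x => h' τ x * m τ x),
      sm_iter_dt_mul hδxx0 hmms hso hτ hx j, sm_iter_dt_mul hh's hm hso hτ hx j] at h1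
    have hEd : Sm (Ioo 0 1) L (fun τ x => E τ x + dt δ τ x) := hE.add (hd.dt hso hL)
    rw [dt_iter_Kint hsc hso hL hEd j τ hτ x hx] at h1
    have hK : Kint (fun ξ => (dt^[j] E) τ ξ + (dt^[j + 1] δ) τ ξ) x
        = Kint ((dt^[j] (fun τ x => E τ x + dt δ τ x)) τ) x := by
      refine J310.Kint_congr hx (fun y hy => ?_)
      rw [sm_iter_dt_add hE (hd.dt hso hL) hso hτ hy j]
      rfl
    rw [hK, ← h1]
    -- commute the derivatives
    have hcomm : ∀ i : ℕ, (dt^[i] (dx L (dx L δ))) τ x = dx L (dx L (dt^[i] δ)) τ x := by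
      intro i
      rw [← sm_dx_iter_dt (hd.dx hso hL) hso hL i hτ hx]
      exact dx_congr (fun y hy => (sm_dx_iter_dt hd hso hL i hτ hy).symm) hx
    simp only [hcomm]
    rw [hφ τ hτ x hx]
    simp only [hR]
    rw [Finset.sum_range_succ (fun i => ((j.choose i : ℕ) : ℝ) * dx L (dx L (dt^[i] δ)) τ x *
      (dt^[j - i] mm) τ x)]
    simp only [Nat.choose_self, Nat.cast_one, one_mul, Nat.sub_self, Function.iterate_zero, id]
    have hm0 := hmne τ hτ x hx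
    have e1 : r x * m τ x * (∑ i ∈ Finset.range j, (j.choose i : ℝ) *
        ((dt^[j - i] mm) τ x / mm τ x) * (r x * m τ x * dx L (dx L (dt^[i] δ)) τ x))
        = r x * r x * ∑ i ∈ Finset.range j, (j.choose i : ℝ) * dx L (dx L (dt^[i] δ)) τ x *
          (dt^[j - i] mm) τ x := by
      rw [Finset.mul_sum, Finset.mul_sum]
      refine Finset.sum_congr rfl fun i _ => ?_
      have : mm τ x = m τ x * m τ x := rfl
      rw [this]
      field_simp
    have e2 : r x * m τ x * (∑ i ∈ Finset.range (j + 1), (j.choose i : ℝ) * (dt^[i] h') τ x *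
        ((dt^[j - i] m) τ x / m τ x))
        = r x * ∑ i ∈ Finset.range (j + 1), (j.choose i : ℝ) * (dt^[i] h') τ x *
          (dt^[j - i] m) τ x := by
      rw [Finset.mul_sum, Finset.mul_sum]
      refine Finset.sum_congr rfl fun i _ => ?_
      field_simp
    have e3 : mm τ x = m τ x * m τ x := rfl
    linear_combination x ^ 9 * e1 - x ^ 9 * e2
      - x ^ 9 * r x * r x * dx L (dx L (dt^[j] δ)) τ x * e3
  · -- the bound
    intro M hM τ hτ x hx hb
    have hρ : 0 < x ^ 2 + τ := by have := hτ.1; positivity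
    set ρ := x ^ 2 + τ with hρdef
    have hM0 : 0 ≤ M := by linarith
    have hb' : ∀ i ≤ j, |(dt^[i] m) τ x| ≤ M / ρ ^ i := by
      intro i hi
      rw [le_div_iff₀ (by positivity), mul_comm]
      exact hb i hi
    have hm1 : c0 ≤ m τ x := hB.lower τ hτ x hx
    have hm0 : 0 < m τ x := hmpos τ hτ x hx
    simp only [hhh _ τ hτ x hx]
    have hch : ∀ i, i ≤ j → ((j.choose i : ℕ) : ℝ) ≤ 2 ^ j := by
      intro i hi
      have h1 : j.choose i ≤ 2 ^ j := by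
        rw [← Nat.sum_range_choose j]
        exact Finset.single_le_sum (f := fun i => j.choose i) (fun _ _ => Nat.zero_le _)
          (Finset.mem_range.2 (Nat.lt_succ_iff.2 hi))
      exact_mod_cast h1
    -- bounds of the coefficients
    have hc1 : ∀ i ∈ Finset.range j,
        |(j.choose i : ℝ) * ((dt^[j - i] mm) τ x / mm τ x) *
          (r x * m τ x * dx L (dx L (dt^[i] δ)) τ x)|
          ≤ (4 ^ j * (M ^ 2 / c0 ^ 2)) *
            (|φ τ x * dx L (dx L (dt^[i] δ)) τ x| / ρ ^ (j - i)) := by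
      intro i hi
      have hij : i < j := Finset.mem_range.1 hi
      have h1 := abs_dt_iter_sq hso hm hτ hx hρ hM0 hb' (Nat.sub_le j i)
      rw [abs_mul, abs_mul, ← hφ τ hτ x hx,
        abs_of_nonneg (Nat.cast_nonneg (j.choose i) : (0 : ℝ) ≤ _), abs_div]
      have h2 : |mm τ x| = m τ x ^ 2 := by
        rw [abs_of_pos (hmmpos τ hτ x hx), sq]
      rw [h2]
      have h3 : |(dt^[j - i] mm) τ x| / m τ x ^ 2 ≤ 2 ^ j * (M ^ 2 / c0 ^ 2) / ρ ^ (j - i) := by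
        rw [div_le_iff₀ (by positivity)]
        refine h1.trans ?_
        have h4 : (2 : ℝ) ^ (j - i) ≤ 2 ^ j := pow_le_pow_right₀ (by norm_num) (Nat.sub_le _ _)
        have h5 : (1 : ℝ) ≤ m τ x ^ 2 / c0 ^ 2 := by
          rw [le_div_iff₀ (by positivity), one_mul]
          exact pow_le_pow_left₀ hc0.le hm1 2
        have h6 : 0 ≤ M ^ 2 / ρ ^ (j - i) := by positivity
        calc (2 : ℝ) ^ (j - i) * (M ^ 2 / ρ ^ (j - i))
            ≤ 2 ^ j * (M ^ 2 / ρ ^ (j - i)) := mul_le_mul_of_nonneg_right h4 h6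
          _ ≤ 2 ^ j * (M ^ 2 / ρ ^ (j - i)) * (m τ x ^ 2 / c0 ^ 2) :=
              le_mul_of_one_le_right (by positivity) h5
          _ = 2 ^ j * (M ^ 2 / c0 ^ 2) / ρ ^ (j - i) * m τ x ^ 2 := by ring
      calc ((j.choose i : ℕ) : ℝ) * (|(dt^[j - i] mm) τ x| / m τ x ^ 2) *
            |φ τ x * dx L (dx L (dt^[i] δ)) τ x|
          ≤ 2 ^ j * (2 ^ j * (M ^ 2 / c0 ^ 2) / ρ ^ (j - i)) *
            |φ τ x * dx L (dx L (dt^[i] δ)) τ x| := by
              gcongr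
              exact hch i hij.le
        _ = (4 ^ j * (M ^ 2 / c0 ^ 2)) *
            (|φ τ x * dx L (dx L (dt^[i] δ)) τ x| / ρ ^ (j - i)) := by
              have : (4 : ℝ) ^ j = 2 ^ j * 2 ^ j := by rw [← mul_pow]; norm_num
              rw [this]; ring
    have hc2 : ∀ i ∈ Finset.range j,
        |(j.choose i : ℝ) * (dt^[i] h') τ x * ((dt^[j - i] m) τ x / m τ x)|
          ≤ (4 ^ j * (M / c0)) * (|(dt^[i] h') τ x| / ρ ^ (j - i)) := by
      intro i hi
      have hij : i < j := Finset.mem_range.1 hi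
      have h1 := hb' (j - i) (Nat.sub_le j i)
      rw [abs_mul, abs_mul, abs_of_nonneg (Nat.cast_nonneg (j.choose i) : (0 : ℝ) ≤ _), abs_div,
        abs_of_pos hm0]
      have h3 : |(dt^[j - i] m) τ x| / m τ x ≤ (M / c0) / ρ ^ (j - i) := by
        rw [div_le_iff₀ hm0]
        refine h1.trans ?_
        have h5 : (1 : ℝ) ≤ m τ x / c0 := by rwa [le_div_iff₀ hc0, one_mul]
        calc M / ρ ^ (j - i) ≤ M / ρ ^ (j - i) * (m τ x / c0) :=
              le_mul_of_one_le_right (by positivity) h5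
          _ = M / c0 / ρ ^ (j - i) * m τ x := by ring
      calc ((j.choose i : ℕ) : ℝ) * |(dt^[i] h') τ x| * (|(dt^[j - i] m) τ x| / m τ x)
          ≤ 4 ^ j * |(dt^[i] h') τ x| * ((M / c0) / ρ ^ (j - i)) := by
              gcongr
              refine (hch i hij.le).trans ?_
              exact pow_le_pow_left₀ (by norm_num) (by norm_num) j
        _ = (4 ^ j * (M / c0)) * (|(dt^[i] h') τ x| / ρ ^ (j - i)) := by ring
    have htop : (j.choose j : ℝ) * (dt^[j] h') τ x * ((dt^[j - j] m) τ x / m τ x)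
        = (dt^[j] h') τ x := by
      simp only [Nat.choose_self, Nat.cast_one, one_mul, Nat.sub_self, Function.iterate_zero, id]
      rw [div_self hm0.ne', mul_one]
    have hsplit : R τ x = (∑ i ∈ Finset.range j, (j.choose i : ℝ) *
        ((dt^[j - i] mm) τ x / mm τ x) * (r x * m τ x * dx L (dx L (dt^[i] δ)) τ x))
        + (-1) * (∑ i ∈ Finset.range j, (j.choose i : ℝ) * (dt^[i] h') τ x *
      ((dt^[j - i] m) τ x / m τ x)) + (-1) * (dt^[j] h') τ x := by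
      simp only [hR]
      rw [Finset.sum_range_succ, htop]
      ring
    rw [hsplit]
    have t1 := (Finset.abs_sum_le_sum_abs (fun i => (j.choose i : ℝ) *
        ((dt^[j - i] mm) τ x / mm τ x) * (r x * m τ x * dx L (dx L (dt^[i] δ)) τ x))
        (Finset.range j)).trans (Finset.sum_le_sum hc1)
    have t2 := (Finset.abs_sum_le_sum_abs (fun i => (j.choose i : ℝ) * (dt^[i] h') τ x *
      ((dt^[j - i] m) τ x / m τ x)) (Finset.range j)).trans (Finset.sum_le_sum hc2)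
    rw [← Finset.mul_sum] at t1 t2
    set S1 := ∑ i ∈ Finset.range j, |φ τ x * dx L (dx L (dt^[i] δ)) τ x| / ρ ^ (j - i) with hS1
    set S2 := ∑ i ∈ Finset.range j, |(dt^[i] h') τ x| / ρ ^ (j - i) with hS2
    have hS1n : 0 ≤ S1 := Finset.sum_nonneg fun i _ => by positivity
    have hS2n : 0 ≤ S2 := Finset.sum_nonneg fun i _ => by positivity
    have hsum : ∑ i ∈ Finset.range j,
        (|φ τ x * dx L (dx L (dt^[i] δ)) τ x| + |(dt^[i] h') τ x|) / ρ ^ (j - i) = S1 + S2 := by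
      rw [hS1, hS2, ← Finset.sum_add_distrib]
      refine Finset.sum_congr rfl fun i _ => ?_
      rw [add_div]
    rw [hsum]
    have hk1 : 0 ≤ 4 ^ j * (M ^ 2 / c0 ^ 2) := by positivity
    have hk2 : 0 ≤ 4 ^ j * (M / c0) := by positivity
    have habs := abs_add_three (∑ i ∈ Finset.range j, (j.choose i : ℝ) *
        ((dt^[j - i] mm) τ x / mm τ x) * (r x * m τ x * dx L (dx L (dt^[i] δ)) τ x))
        ((-1) * (∑ i ∈ Finset.range j, (j.choose i : ℝ) * (dt^[i] h') τ x *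
      ((dt^[j - i] m) τ x / m τ x))) ((-1) * (dt^[j] h') τ x)
    refine habs.trans ?_
    rw [abs_mul, abs_mul, abs_neg, abs_one, one_mul, one_mul]
    have hCL : CLev c0 M j = 1 + (4 ^ j * (M ^ 2 / c0 ^ 2) + 4 ^ j * (M / c0)) := by
      unfold CLev; ring
    rw [hCL]
    nlinarith [mul_nonneg hk1 hS2n, mul_nonneg hk2 hS1n]

end Crest.Agent.R213.C
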