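import Crest.Agent.R213.C.LocEn
import Crest.Agent.R213.C.BBe
import Crest.Agent.R213.C.Level
import Crest.Agent.R213.C.C8Defs

/-!
# Row 213, Part C8: `loc_en`, `loc_delta` (interface forms, helper236)
-/

set_option autoImplicit false

open Set MeasureTheory Filter Topology

noncomputable section

namespace Crest.Agent.R213.C8

open Crest.Agent.R213 Crest.Agent.R213.C

variable {c0 C0 : ℝ} {g : ℝ → ℝ} {L : ℝ} {φ m E : ℝ → ℝ → ℝ}

namespace LE

theorem phi_sm (hB : Bg c0 C0 g L φ m) : Sm (Ioo 0 1) L φ := by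
  have hL : 0 < L := by have := hB.L_ge; linarith
  have h1 : Sm (Ioo 0 1) L (fun τ x => x * (1 - x / L) * m τ x) :=
    Sm.mul (Sm.of_right (ContDiff.contDiffOn (by fun_prop))) hB.sm
  exact h1.congr fun τ hτ x hx => hB.phi_eq τ hτ x hx

theorem phi_L (hB : Bg c0 C0 g L φ m) : ∀ τ ∈ Ioo (0 : ℝ) 1, φ τ L = 0 := by
  have hL : 0 < L := by have := hB.L_ge; linarith
  intro τ hτ
  rw [hB.phi_eq τ hτ L ⟨hL.le, le_rfl⟩, div_self hL.ne']; ring

/-- the level structure, uniformly over the solutions -/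
theorem lev_of (hB : Bg c0 C0 g L φ m) (hc0 : 0 < c0) (hE : Sm (Ioo 0 1) L E) {a b : ℝ}
    (ha : 0 < a) (hb : b < 1) (J : ℕ) :
    ∃ K : ℝ, 0 ≤ K ∧ ∀ ht δ : ℝ → ℝ → ℝ, Sm (Ioo 0 1) L ht → Sm (Ioo 0 1) L δ →
      LinEq L φ E ht δ → ∀ j ≤ J, Lev L φ E (fun τ x => φ τ x * ht τ x) δ a b K j := by
  have hL : 0 < L := by have := hB.L_ge; linarith
  obtain ⟨M, hM1, hM⟩ := exists_bd_iter (a := a) (b := b) hL hB.sm ha hb J
  set M' := M * (L ^ 2 + 1) ^ J with hM'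
  have hL1 : 1 ≤ L ^ 2 + 1 := by nlinarith
  have hM'1 : 1 ≤ M' := by
    have : 1 ≤ (L ^ 2 + 1) ^ J := one_le_pow₀ hL1
    calc (1 : ℝ) = 1 * 1 := by ring
      _ ≤ M * (L ^ 2 + 1) ^ J := mul_le_mul hM1 this zero_le_one (by linarith)
  set A := (1 + 1 / a) ^ J with hA
  have hA1 : 1 ≤ 1 + 1 / a := by
    have : 0 < 1 / a := by positivity
    linarith
  have hA0 : 0 ≤ A := by positivity
  have hC0 : 0 ≤ CLev c0 M' J := by unfold CLev; positivity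
  refine ⟨CLev c0 M' J * A, by positivity, fun ht δ hht hδ heq j hj => ?_⟩
  obtain ⟨R, hR, hRL, hReq, hRb⟩ := level hc0 hB hE hht hδ heq j
  refine ⟨R, hR, hRL, fun τ hτ x hx => ?_, fun τ hτ x hx => ?_⟩
  · exact hReq τ hτ x hx
  · have hτ1 : τ ∈ Ioo (0 : ℝ) 1 := ⟨lt_of_lt_of_le ha hτ.1, lt_of_le_of_lt hτ.2 hb⟩
    have hρ : a ≤ x ^ 2 + τ := by nlinarith [hτ.1, sq_nonneg x]
    have hρ0 : 0 < x ^ 2 + τ := lt_of_lt_of_le ha hρ
    have hρ1 : x ^ 2 + τ ≤ L ^ 2 + 1 := by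
      have : x ^ 2 ≤ L ^ 2 := pow_le_pow_left₀ hx.1 hx.2 2
      linarith [hτ1.2]
    have h1 := hRb M' hM'1 τ hτ1 x hx (fun i hi => by
      have h2 := hM i (hi.trans hj) τ hτ x hx
      have h3 : (x ^ 2 + τ) ^ i ≤ (L ^ 2 + 1) ^ J :=
        (pow_le_pow_left₀ hρ0.le hρ1 i).trans (pow_le_pow_right₀ hL1 (hi.trans hj))
      calc (x ^ 2 + τ) ^ i * |(dt^[i] m) τ x| ≤ (L ^ 2 + 1) ^ J * M :=
            mul_le_mul h3 h2 (abs_nonneg _) (by positivity)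
        _ = M' := by rw [hM']; ring)
    refine h1.trans (add_le_add le_rfl ?_)
    have h4 : CLev c0 M' j ≤ CLev c0 M' J := by
      unfold CLev
      have h5 : (4 : ℝ) ^ j ≤ 4 ^ J := pow_le_pow_right₀ (by norm_num) hj
      have h6 : 0 ≤ M' ^ 2 / c0 ^ 2 + M' / c0 := by positivity
      have := mul_le_mul_of_nonneg_right h5 h6
      linarith
    have h7 : ∑ i ∈ Finset.range j, (|φ τ x * dx L (dx L (dt^[i] δ)) τ x| +
        |(dt^[i] (fun τ x => φ τ x * ht τ x)) τ x|) / (x ^ 2 + τ) ^ (j - i) ≤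
        A * ∑ i ∈ Finset.range j, (|be L φ i δ τ x| +
          |(dt^[i] (fun τ x => φ τ x * ht τ x)) τ x|) := by
      rw [Finset.mul_sum]
      refine Finset.sum_le_sum fun i hi => ?_
      have h8 : 1 / (x ^ 2 + τ) ^ (j - i) ≤ A := by
        rw [hA, ← one_div_pow]
        have h9 : 1 / (x ^ 2 + τ) ≤ 1 + 1 / a := by
          have : 1 / (x ^ 2 + τ) ≤ 1 / a := one_div_le_one_div_of_le ha hρ
          linarith
        exact (pow_le_pow_left₀ (by positivity) h9 _).trans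
          (pow_le_pow_right₀ hA1 ((Nat.sub_le _ _).trans hj))
      rw [div_eq_mul_one_div, mul_comm]
      exact mul_le_mul_of_nonneg_right h8 (by positivity)
    calc CLev c0 M' j * ∑ i ∈ Finset.range j, (|φ τ x * dx L (dx L (dt^[i] δ)) τ x| +
        |(dt^[i] (fun τ x => φ τ x * ht τ x)) τ x|) / (x ^ 2 + τ) ^ (j - i)
        ≤ CLev c0 M' J * (A * ∑ i ∈ Finset.range j, (|be L φ i δ τ x| +
          |(dt^[i] (fun τ x => φ τ x * ht τ x)) τ x|)) := by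
          refine mul_le_mul h4 h7 (Finset.sum_nonneg fun i _ => by positivity) hC0
      _ = _ := by ring

/-- `nsq` of a function dominated by a sum -/
theorem nsq_sum_le (hL : 0 < L) {u : ℝ → ℝ → ℝ} {v : ℕ → ℝ → ℝ → ℝ} {τ K : ℝ} {j : ℕ}
    (hu : ContinuousOn (u τ) (Icc 0 L)) (hv : ∀ i, ContinuousOn (v i τ) (Icc 0 L))
    (h : ∀ x ∈ Icc 0 L, |u τ x| ≤ K * ∑ i ∈ Finset.range j, |v i τ x|) :
    nsq L u τ ≤ K ^ 2 * j * ∑ i ∈ Finset.range j, nsq L (v i) τ := by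
  unfold nsq
  rw [← intervalIntegral.integral_finsetSum, ← intervalIntegral.integral_const_mul]
  · refine intervalIntegral.integral_mono_on hL.le
      (ii hL.le ((continuous_pow 9).continuousOn.mul (hu.pow 2)))
      (ii hL.le (continuousOn_const.mul (continuousOn_finsetSum _ fun i _ =>
        (continuous_pow 9).continuousOn.mul ((hv i).pow 2)))) fun x hx => ?_
    have h1 : u τ x ^ 2 ≤ K ^ 2 * (j * ∑ i ∈ Finset.range j, (v i τ x) ^ 2) := by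
      have h2 : u τ x ^ 2 ≤ (K * ∑ i ∈ Finset.range j, |v i τ x|) ^ 2 := by
        rw [← sq_abs]
        exact pow_le_pow_left₀ (abs_nonneg _) (h x hx) 2
      rw [mul_pow] at h2
      refine h2.trans (mul_le_mul_of_nonneg_left ?_ (sq_nonneg K))
      have h3 := sq_sum_le_card_mul_sum_sq (s := Finset.range j) (f := fun i => |v i τ x|)
      simpa [sq_abs] using h3
    calc x ^ 9 * u τ x ^ 2 ≤ x ^ 9 * (K ^ 2 * (j * ∑ i ∈ Finset.range j, (v i τ x) ^ 2)) :=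
          mul_le_mul_of_nonneg_left h1 (pow_nonneg hx.1 9)
      _ = K ^ 2 * j * ∑ i ∈ Finset.range j, x ^ 9 * (v i τ x) ^ 2 := by
          rw [← Finset.mul_sum]; ring
  · intro i _
    exact ii hL.le ((continuous_pow 9).continuousOn.mul ((hv i).pow 2))

/-- the sum of the lower levels, interface form -/
def SJ (L : ℝ) (φ ht δ : ℝ → ℝ → ℝ) (J : ℕ) (τ : ℝ) : ℝ :=
  ∑ l ∈ Finset.range J, (nsq L (dt^[l] (bb L φ δ)) τ +
    nsq L (dt^[l] (fun τ x => φ τ x * ht τ x)) τ)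

theorem bb_sm (hL : 0 < L) {φ δ : ℝ → ℝ → ℝ} (hφ : Sm (Ioo 0 1) L φ) (hδ : Sm (Ioo 0 1) L δ) :
    Sm (Ioo 0 1) L (bb L φ δ) := hφ.mul ((hδ.dx isOpen_Ioo hL).dx isOpen_Ioo hL)

theorem fixed_time (hB : Bg c0 C0 g L φ m) (hc0 : 0 < c0) {a b : ℝ} (ha : 0 < a) (hb : b < 1)
    (J : ℕ) :
    ∃ C1 : ℝ, 0 ≤ C1 ∧ ∀ ht δ : ℝ → ℝ → ℝ, Sm (Ioo 0 1) L ht → Sm (Ioo 0 1) L δ →
      ∀ τ ∈ Icc a b,
        low L φ (fun τ x => φ τ x * ht τ x) δ J τ ≤ C1 * SJ L φ ht δ J τ ∧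
        nsq L (be L φ J δ) τ ≤ C1 * SJ L φ ht δ (J + 1) τ ∧
        nsq L (dt^[J] (bb L φ δ)) τ ≤ 3 / 2 * nsq L (be L φ J δ) τ +
          C1 * low L φ (fun τ x => φ τ x * ht τ x) δ J τ := by
  have hL : 0 < L := by have := hB.L_ge; linarith
  have hφ := phi_sm hB
  obtain ⟨M, hM1, hM⟩ := exists_bd_iter (a := a) (b := b) hL hB.sm ha hb J
  have hM0 : 0 ≤ M := by linarith
  set K1 := (1 + 2 ^ J * (M / c0)) ^ (J + 1) with hK1
  have hbase : 1 ≤ 1 + 2 ^ J * (M / c0) := by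
    have : 0 ≤ 2 ^ J * (M / c0) := by positivity
    linarith
  have hK10 : 0 ≤ K1 := by positivity
  set K2 := 2 ^ J * (M / c0) with hK2
  have hK20 : 0 ≤ K2 := by positivity
  set C1 := K1 ^ 2 * (J + 1) * (J + 1) + 1 + 6 * K2 ^ 2 * J with hC1
  refine ⟨C1, by positivity, fun ht δ hht hδ τ hτ => ?_⟩
  have hτ1 : τ ∈ Ioo (0 : ℝ) 1 := ⟨lt_of_lt_of_le ha hτ.1, lt_of_le_of_lt hτ.2 hb⟩
  have hh : Sm (Ioo 0 1) L (fun τ x => φ τ x * ht τ x) := hφ.mul hht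
  have hbb := bb_sm hL hφ hδ
  have cb : ∀ l, ContinuousOn ((dt^[l] (bb L φ δ)) τ) (Icc 0 L) := fun l =>
    cont_w (hbb.dt_iter isOpen_Ioo hL l) hτ1
  have cbe : ∀ l, ContinuousOn (be L φ l δ τ) (Icc 0 L) := fun l =>
    cont_w (sm_be hL hφ hδ l) hτ1
  -- each `be_i`
  have hone : ∀ i ≤ J, nsq L (be L φ i δ) τ ≤
      K1 ^ 2 * (J + 1) * ∑ l ∈ Finset.range (i + 1), nsq L (dt^[l] (bb L φ δ)) τ := by
    intro i hi
    have h1 : ∀ x ∈ Icc 0 L, |be L φ i δ τ x| ≤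
        K1 * ∑ l ∈ Finset.range (i + 1), |(dt^[l] (bb L φ δ)) τ x| := by
      intro x hx
      have h2 := sum_be_le hB hc0 hδ hτ1 hx J (M := M) (fun i hi => hM i hi τ hτ x hx) (i + 1)
        (by omega)
      have h3 : |be L φ i δ τ x| ≤ ∑ l ∈ Finset.range (i + 1), |be L φ l δ τ x| :=
        Finset.single_le_sum (f := fun l => |be L φ l δ τ x|) (fun _ _ => abs_nonneg _)
          (Finset.mem_range.2 (Nat.lt_succ_self i))
      refine (h3.trans h2).trans (mul_le_mul_of_nonneg_right ?_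
        (Finset.sum_nonneg fun _ _ => abs_nonneg _))
      rw [hK1]
      exact pow_le_pow_right₀ hbase (by omega)
    have h4 := nsq_sum_le (u := be L φ i δ) (v := fun l => dt^[l] (bb L φ δ)) (j := i + 1) hL
      (cbe i) cb h1
    refine h4.trans (mul_le_mul_of_nonneg_right ?_
      (Finset.sum_nonneg fun _ _ => nsq_nonneg hL.le _ _))
    have h5 : ((i + 1 : ℕ) : ℝ) ≤ (J : ℝ) + 1 := by exact_mod_cast Nat.succ_le_succ hi
    exact mul_le_mul_of_nonneg_left h5 (sq_nonneg _)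
  have hSJ : ∀ n, ∑ l ∈ Finset.range n, nsq L (dt^[l] (bb L φ δ)) τ ≤ SJ L φ ht δ n τ := by
    intro n
    unfold SJ
    exact Finset.sum_le_sum fun l _ => le_add_of_nonneg_right (nsq_nonneg hL.le _ _)
  have hSJ0 : ∀ n, 0 ≤ SJ L φ ht δ n τ := fun n =>
    Finset.sum_nonneg fun _ _ => add_nonneg (nsq_nonneg hL.le _ _) (nsq_nonneg hL.le _ _)
  have hSJm : ∀ {n k : ℕ}, n ≤ k → SJ L φ ht δ n τ ≤ SJ L φ ht δ k τ := by
    intro n k hnk
    exact Finset.sum_le_sum_of_subset_of_nonneg (Finset.range_mono hnk)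
      fun _ _ _ => add_nonneg (nsq_nonneg hL.le _ _) (nsq_nonneg hL.le _ _)
  refine ⟨?_, ?_, ?_⟩
  · unfold low
    rw [Finset.sum_add_distrib]
    have h6 : ∑ i ∈ Finset.range J, nn L (be L φ i δ) τ ≤
        ∑ _i ∈ Finset.range J, K1 ^ 2 * (J + 1) * SJ L φ ht δ J τ := by
      refine Finset.sum_le_sum fun i hi => ?_
      have hi' := Finset.mem_range.1 hi
      exact (hone i hi'.le).trans (mul_le_mul_of_nonneg_left ((hSJ _).trans (hSJm hi'))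
        (by positivity))
    rw [Finset.sum_const, Finset.card_range, nsmul_eq_mul] at h6
    have h7 : ∑ i ∈ Finset.range J, nn L (dt^[i] (fun τ x => φ τ x * ht τ x)) τ ≤
        SJ L φ ht δ J τ :=
      Finset.sum_le_sum fun l _ => le_add_of_nonneg_left (nsq_nonneg hL.le _ _)
    have h8 : (J : ℝ) * (K1 ^ 2 * (J + 1) * SJ L φ ht δ J τ) ≤
        (J + 1) * (K1 ^ 2 * (J + 1) * SJ L φ ht δ J τ) :=
      mul_le_mul_of_nonneg_right (by linarith) (mul_nonneg (by positivity) (hSJ0 J))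
    have h9 : 0 ≤ 6 * K2 ^ 2 * J * SJ L φ ht δ J τ := mul_nonneg (by positivity) (hSJ0 J)
    rw [hC1]
    nlinarith
  · have h6 := (hone J le_rfl).trans (mul_le_mul_of_nonneg_left (hSJ (J + 1)) (by positivity))
    refine h6.trans (mul_le_mul_of_nonneg_right ?_ (hSJ0 _))
    rw [hC1]
    have h7 : K1 ^ 2 * (J + 1) * 1 ≤ K1 ^ 2 * (J + 1) * ((J : ℝ) + 1) := by
      refine mul_le_mul_of_nonneg_left ?_ (by positivity)
      have : (0 : ℝ) ≤ J := Nat.cast_nonneg _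
      linarith
    have h8 : 0 ≤ 6 * K2 ^ 2 * (J : ℝ) := by positivity
    linarith
  · have hbx : ∀ x ∈ Icc 0 L, |(dt^[J] (bb L φ δ)) τ x| ≤ |be L φ J δ τ x| +
        K2 * ls L φ (fun τ x => φ τ x * ht τ x) δ J τ x := by
      intro x hx
      have h1 := b_sub_be hB hc0 hδ hτ1 hx J (M := M) (fun i hi => hM i hi τ hτ x hx)
      have h2 : ∑ l ∈ Finset.range J, |be L φ l δ τ x| ≤
          ls L φ (fun τ x => φ τ x * ht τ x) δ J τ x :=
        Finset.sum_le_sum fun l _ => le_add_of_nonneg_right (abs_nonneg _)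
      have h3 := mul_le_mul_of_nonneg_left h2 hK20
      have h4 := abs_sub_abs_le_abs_sub ((dt^[J] (bb L φ δ)) τ x) (be L φ J δ τ x)
      linarith
    have c9 : ContinuousOn (fun x : ℝ => x ^ 9) (Icc 0 L) := (continuous_pow 9).continuousOn
    have cl := cont_ls hL hφ hδ hh J hτ1
    have h5 : nsq L (dt^[J] (bb L φ δ)) τ ≤ ∫ x in (0 : ℝ)..L,
        (3 / 2 * (x ^ 9 * (be L φ J δ τ x) ^ 2) +
          3 * K2 ^ 2 * (x ^ 9 * (ls L φ (fun τ x => φ τ x * ht τ x) δ J τ x) ^ 2)) := by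
      refine intervalIntegral.integral_mono_on hL.le (ii hL.le (c9.mul ((cb J).pow 2)))
        (ii hL.le ((continuousOn_const.mul (c9.mul ((cbe J).pow 2))).add
          (continuousOn_const.mul (c9.mul (cl.pow 2))))) fun x hx => ?_
      have h6 := hbx x hx
      set B := (dt^[J] (bb L φ δ)) τ x
      set e := be L φ J δ τ x
      set S := ls L φ (fun τ x => φ τ x * ht τ x) δ J τ x
      have h7 : B ^ 2 ≤ 3 / 2 * e ^ 2 + 3 * (K2 * S) ^ 2 := by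
        have h8 : B ^ 2 ≤ (|e| + K2 * S) ^ 2 := by
          rw [← sq_abs B]; exact pow_le_pow_left₀ (abs_nonneg _) h6 2
        nlinarith [sq_nonneg (|e| - 2 * (K2 * S)), sq_abs e]
      calc x ^ 9 * B ^ 2 ≤ x ^ 9 * (3 / 2 * e ^ 2 + 3 * (K2 * S) ^ 2) :=
            mul_le_mul_of_nonneg_left h7 (pow_nonneg hx.1 9)
        _ = _ := by ring
    rw [intervalIntegral.integral_add, intervalIntegral.integral_const_mul,
      intervalIntegral.integral_const_mul] at h5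
    · have h6 := int_ls_sq hL hφ hδ hh J hτ1
      have h7 := mul_le_mul_of_nonneg_left h6 (by positivity : 0 ≤ 3 * K2 ^ 2)
      have hl0 : 0 ≤ low L φ (fun τ x => φ τ x * ht τ x) δ J τ := low_nonneg hL.le _ _
      have h8 : 3 * K2 ^ 2 * (2 * J * low L φ (fun τ x => φ τ x * ht τ x) δ J τ) ≤
          C1 * low L φ (fun τ x => φ τ x * ht τ x) δ J τ := by
        have h9 : 6 * K2 ^ 2 * J ≤ C1 := by
          rw [hC1]
          have : 0 ≤ K1 ^ 2 * (J + 1) * ((J : ℝ) + 1) := by positivity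
          linarith
        have := mul_le_mul_of_nonneg_right h9 hl0
        linarith
      have h9 : (∫ x in (0 : ℝ)..L, x ^ 9 * (be L φ J δ τ x) ^ 2) = nsq L (be L φ J δ) τ := rfl
      rw [h9] at h5
      linarith
    · exact ii hL.le (continuousOn_const.mul (c9.mul ((cbe J).pow 2)))
    · exact ii hL.le (continuousOn_const.mul (c9.mul (cl.pow 2)))

end LE

open Crest.Agent.R213.C8.LE

/-- `δ_J` from the levels `≤ J` of `b` and `h` (fixed time). -/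
theorem loc_delta (hB : Bg c0 C0 g L φ m) (hg : Prof c0 C0 g) (hE : Sm (Ioo 0 1) L E) (J : ℕ)
    (hJ : 1 ≤ J) {a b : ℝ} (ha : 0 < a) (_hab : a < b) (hb : b < 1 / 2) :
    ∃ C : ℝ, ∀ ht δ : ℝ → ℝ → ℝ, Sm (Ioo 0 1) L ht → Sm (Ioo 0 1) L δ → LinEq L φ E ht δ →
      ∀ τ ∈ Icc a b, nsq L (dt^[J] δ) τ ≤
        C * (1 + ∑ l ∈ Finset.range (J + 1), (nsq L (dt^[l] (bb L φ δ)) τ +
          nsq L (dt^[l] (fun τ x => φ τ x * ht τ x)) τ)) := by
  have hL : 0 < L := by have := hB.L_ge; linarith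
  have hc0 := hg.c0_pos
  have hb1 : b < 1 := by linarith
  obtain ⟨j, rfl⟩ : ∃ j, J = j + 1 := ⟨J - 1, by omega⟩
  obtain ⟨K, hK0, hK⟩ := lev_of hB hc0 hE ha hb1 (j + 1)
  obtain ⟨C1, hC10, hC1⟩ := fixed_time hB hc0 ha hb1 (j + 1)
  have hEj : ∀ i, Sm (Ioo 0 1) L (dt^[i] E) := fun i => Sm.dt_iter isOpen_Ioo hL hE i
  have hsub : Icc a b ⊆ Ioo (0 : ℝ) 1 := fun τ hτ => ⟨lt_of_lt_of_le ha hτ.1, lt_of_le_of_lt hτ.2 hb1⟩
  obtain ⟨CE0, hCE0⟩ := isCompact_Icc.exists_bound_of_continuousOn ((cont_nn hL (hEj j)).mono hsub)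
  set A := 2 * (1 + K) ^ 2 * ((j + 1 : ℕ) : ℝ) with hA
  have hA0 : 0 ≤ A := by positivity
  refine ⟨C1 + A * C1 + |CE0|, fun ht δ hht hδ heq τ hτ => ?_⟩
  have hh : Sm (Ioo 0 1) L (fun τ x => φ τ x * ht τ x) := (phi_sm hB).mul hht
  have h1 := loc_delta_be hL (phi_sm hB) (phi_L hB) hδ hh hE hK0 (hK ht δ hht hδ heq j (by omega))
    (hsub hτ) hτ
  obtain ⟨h2, h3, -⟩ := hC1 ht δ hht hδ τ hτ
  have h4 := hCE0 τ hτ
  have h5 : nn L (dt^[j] E) τ ≤ |CE0| := (le_abs_self _).trans (h4.trans (le_abs_self _))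
  have hS0 : ∀ n, 0 ≤ SJ L φ ht δ n τ := fun n =>
    Finset.sum_nonneg fun _ _ => add_nonneg (nsq_nonneg hL.le _ _) (nsq_nonneg hL.le _ _)
  have hSm : SJ L φ ht δ (j + 1) τ ≤ SJ L φ ht δ (j + 1 + 1) τ :=
    Finset.sum_le_sum_of_subset_of_nonneg (Finset.range_mono (Nat.le_succ _))
      fun _ _ _ => add_nonneg (nsq_nonneg hL.le _ _) (nsq_nonneg hL.le _ _)
  have e1 : (∑ l ∈ Finset.range (j + 1 + 1), (nsq L (dt^[l] (bb L φ δ)) τ +
          nsq L (dt^[l] (fun τ x => φ τ x * ht τ x)) τ)) = SJ L φ ht δ (j + 1 + 1) τ := rfl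
  rw [e1]
  have e2 : nsq L (dt^[j + 1] δ) τ = nn L (dt^[j + 1] δ) τ := rfl
  have e3 : nn L (be L φ (j + 1) δ) τ = nsq L (be L φ (j + 1) δ) τ := rfl
  rw [e2]
  rw [e3] at h1
  set S := SJ L φ ht δ (j + 1 + 1) τ
  have h6 : A * low L φ (fun τ x => φ τ x * ht τ x) δ (j + 1) τ ≤ A * (C1 * S) :=
    mul_le_mul_of_nonneg_left (h2.trans (mul_le_mul_of_nonneg_left hSm hC10)) hA0
  have h7 : 0 ≤ |CE0| * S := mul_nonneg (abs_nonneg _) (hS0 _)
  have h8 : 0 ≤ A * C1 := mul_nonneg hA0 hC10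
  nlinarith

/-- local energy at level `J ≥ 1`, uniform over all solutions. -/
theorem loc_en (hB : Bg c0 C0 g L φ m) (hg : Prof c0 C0 g) (hE : Sm (Ioo 0 1) L E) (J : ℕ)
    (hJ : 1 ≤ J) {ζ : ℝ → ℝ} (hζ : ContDiff ℝ (⊤ : ℕ∞) ζ) {a b : ℝ} (ha : 0 < a) (hab : a < b)
    (hb : b < 1 / 2) (hζs : ∀ τ, τ ∉ Icc a b → ζ τ = 0) :
    ∃ C : ℝ, ∀ ht δ : ℝ → ℝ → ℝ, Sm (Ioo 0 1) L ht → Sm (Ioo 0 1) L δ → LinEq L φ E ht δ →
      ∫ τ in a..b, ζ τ ^ 2 * nsq L (dt^[J] (bb L φ δ)) τ ≤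
        3 * (∫ τ in a..b, ζ τ ^ 2 * nsq L (dt^[J] (fun τ x => φ τ x * ht τ x)) τ) +
        C * (1 + ∑ l ∈ Finset.range J, ∫ τ in a..b, (nsq L (dt^[l] (bb L φ δ)) τ +
          nsq L (dt^[l] (fun τ x => φ τ x * ht τ x)) τ)) := by
  have hL : 0 < L := by have := hB.L_ge; linarith
  have hc0 := hg.c0_pos
  have hb1 : b < 1 := by linarith
  obtain ⟨j, rfl⟩ : ∃ j, J = j + 1 := ⟨J - 1, by omega⟩
  obtain ⟨K, hK0, hK⟩ := lev_of hB hc0 hE ha hb1 (j + 1)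
  obtain ⟨C1, hC10, hC1⟩ := fixed_time hB hc0 ha hb1 (j + 1)
  have hEj : ∀ i, Sm (Ioo 0 1) L (dt^[i] E) := fun i => Sm.dt_iter isOpen_Ioo hL hE i
  have hsub : Icc a b ⊆ Ioo (0 : ℝ) 1 := fun τ hτ => ⟨lt_of_lt_of_le ha hτ.1, lt_of_le_of_lt hτ.2 hb1⟩
  have cEE : ContinuousOn (fun τ => nn L (dt^[j + 1] E) τ + nn L (dt^[j] E) τ) (Icc a b) :=
    (((cont_nn hL (hEj (j + 1))).mono hsub)).add ((cont_nn hL (hEj j)).mono hsub)
  obtain ⟨CE0, hCE0⟩ := isCompact_Icc.exists_bound_of_continuousOn cEE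
  have hζd : ∀ τ, HasDerivAt ζ (deriv ζ τ) τ := fun τ =>
    (hζ.differentiable (by simp)).differentiableAt.hasDerivAt
  have hζc : Continuous ζ := hζ.continuous
  have hζ'c : Continuous (deriv ζ) := hζ.continuous_deriv (by exact_mod_cast le_top)
  obtain ⟨Z, hZ⟩ := isCompact_Icc.exists_bound_of_continuousOn
    (f := fun τ => ζ τ ^ 2 + deriv ζ τ ^ 2) (s := Icc a b)
    ((hζc.pow 2).add (hζ'c.pow 2)).continuousOn
  have hza : ζ a = 0 := by
    have h1 : a ∈ closure (Iio a) := by rw [closure_Iio]; exact Set.mem_Iic.2 le_rfl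
    have h2 : closure (Iio a) ⊆ {τ | ζ τ = 0} :=
      closure_minimal (fun τ hτ => hζs τ fun h => absurd h.1 (not_le.2 hτ))
        (isClosed_eq hζc continuous_const)
    exact h2 h1
  have hzb : ζ b = 0 := by
    have h1 : b ∈ closure (Ioi b) := by rw [closure_Ioi]; exact Set.mem_Ici.2 le_rfl
    have h2 : closure (Ioi b) ⊆ {τ | ζ τ = 0} :=
      closure_minimal (fun τ hτ => hζs τ fun h => absurd h.2 (not_le.2 hτ))
        (isClosed_eq hζc continuous_const)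
    exact h2 h1
  have hCEn : 0 ≤ CE K j := by unfold CE; positivity
  refine ⟨3 / 2 * CE K j * |Z| * (C1 + |CE0| * (b - a)) + C1 * |Z| * C1,
    fun ht δ hht hδ heq => ?_⟩
  have hh : Sm (Ioo 0 1) L (fun τ x => φ τ x * ht τ x) := (phi_sm hB).mul hht
  have hbb := bb_sm hL (phi_sm hB) hδ
  have hEn := loc_energy hL (phi_sm hB) (phi_L hB) hδ hh hE hK0 ha hab.le hb1
    (hK ht δ hht hδ heq j (by omega)) (hK ht δ hht hδ heq (j + 1) le_rfl) hζd hζ'c hza hzb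
  have cn : ∀ {u : ℝ → ℝ → ℝ}, Sm (Ioo 0 1) L u → ContinuousOn (nsq L u) (Icc a b) :=
    fun hu => (cont_nn hL hu).mono hsub
  have iab : ∀ {f : ℝ → ℝ}, ContinuousOn f (Icc a b) → IntervalIntegrable f volume a b := by
    intro f hf
    apply ContinuousOn.intervalIntegrable; rwa [uIcc_of_le hab.le]
  have cS : ContinuousOn (SJ L φ ht δ (j + 1)) (Icc a b) := by
    unfold SJ
    exact continuousOn_finsetSum _ fun i _ => (cn (hbb.dt_iter isOpen_Ioo hL i)).add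
      (cn (hh.dt_iter isOpen_Ioo hL i))
  have clow : ContinuousOn (low L φ (fun τ x => φ τ x * ht τ x) δ (j + 1)) (Icc a b) := by
    unfold low
    exact continuousOn_finsetSum _ fun i _ => (cn (sm_be hL (phi_sm hB) hδ i)).add
      (cn (hh.dt_iter isOpen_Ioo hL i))
  have cz : ContinuousOn (fun τ => ζ τ ^ 2) (Icc a b) := (hζc.pow 2).continuousOn
  have cz' : ContinuousOn (fun τ => ζ τ ^ 2 + deriv ζ τ ^ 2) (Icc a b) :=
    ((hζc.pow 2).add (hζ'c.pow 2)).continuousOn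
  have hS0 : ∀ τ, 0 ≤ SJ L φ ht δ (j + 1) τ := fun τ =>
    Finset.sum_nonneg fun _ _ => add_nonneg (nsq_nonneg hL.le _ _) (nsq_nonneg hL.le _ _)
  have eS : (∑ l ∈ Finset.range (j + 1), ∫ τ in a..b, (nsq L (dt^[l] (bb L φ δ)) τ +
      nsq L (dt^[l] (fun τ x => φ τ x * ht τ x)) τ)) = ∫ τ in a..b, SJ L φ ht δ (j + 1) τ := by
    unfold SJ
    rw [intervalIntegral.integral_finsetSum]
    intro i _
    exact iab ((cn (hbb.dt_iter isOpen_Ioo hL i)).add (cn (hh.dt_iter isOpen_Ioo hL i)))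
  rw [eS]
  -- step 1
  have s1 : ∫ τ in a..b, ζ τ ^ 2 * nsq L (dt^[j + 1] (bb L φ δ)) τ ≤
      ∫ τ in a..b, (3 / 2 * (ζ τ ^ 2 * nn L (be L φ (j + 1) δ) τ) +
        C1 * |Z| * C1 * SJ L φ ht δ (j + 1) τ) := by
    refine intervalIntegral.integral_mono_on hab.le
      (iab (cz.mul (cn (hbb.dt_iter isOpen_Ioo hL (j + 1)))))
      (iab ((continuousOn_const.mul (cz.mul (cn (sm_be hL (phi_sm hB) hδ (j + 1))))).add
        (continuousOn_const.mul cS))) fun τ hτ => ?_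
    obtain ⟨h2, -, h3⟩ := hC1 ht δ hht hδ τ hτ
    have h4 := hZ τ hτ
    rw [Real.norm_eq_abs, abs_of_nonneg (by positivity)] at h4
    have h5 : ζ τ ^ 2 ≤ |Z| := by
      have := sq_nonneg (deriv ζ τ)
      linarith [le_abs_self Z]
    have h6 : C1 * low L φ (fun τ x => φ τ x * ht τ x) δ (j + 1) τ ≤
        C1 * (C1 * SJ L φ ht δ (j + 1) τ) := mul_le_mul_of_nonneg_left h2 hC10
    have h7 : 0 ≤ C1 * (C1 * SJ L φ ht δ (j + 1) τ) := mul_nonneg hC10 (mul_nonneg hC10 (hS0 τ))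
    have h8 : ζ τ ^ 2 * (C1 * low L φ (fun τ x => φ τ x * ht τ x) δ (j + 1) τ) ≤
        |Z| * (C1 * (C1 * SJ L φ ht δ (j + 1) τ)) :=
      (mul_le_mul_of_nonneg_left h6 (sq_nonneg _)).trans (mul_le_mul_of_nonneg_right h5 h7)
    have h9 := mul_le_mul_of_nonneg_left h3 (sq_nonneg (ζ τ))
    have e3 : nn L (be L φ (j + 1) δ) τ = nsq L (be L φ (j + 1) δ) τ := rfl
    rw [e3]
    linarith
  have q1 : IntervalIntegrable (fun τ => 3 / 2 * (ζ τ ^ 2 * nn L (be L φ (j + 1) δ) τ))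
      volume a b := iab (continuousOn_const.mul (cz.mul (cn (sm_be hL (phi_sm hB) hδ (j + 1)))))
  have q2 : IntervalIntegrable (fun τ => C1 * |Z| * C1 * SJ L φ ht δ (j + 1) τ)
      volume a b := iab (continuousOn_const.mul cS)
  have q3 : IntervalIntegrable (fun τ => |Z| * C1 * SJ L φ ht δ (j + 1) τ)
      volume a b := iab (continuousOn_const.mul cS)
  have q4 : IntervalIntegrable (fun _ : ℝ => |Z| * |CE0|) volume a b := iab continuousOn_const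
  rw [intervalIntegral.integral_add q1 q2, intervalIntegral.integral_const_mul,
    intervalIntegral.integral_const_mul] at s1
  -- step 2
  have s2 : ∫ τ in a..b, (ζ τ ^ 2 + deriv ζ τ ^ 2) *
        (low L φ (fun τ x => φ τ x * ht τ x) δ (j + 1) τ + nn L (dt^[j + 1] E) τ
          + nn L (dt^[j] E) τ) ≤
      ∫ τ in a..b, (|Z| * C1 * SJ L φ ht δ (j + 1) τ + |Z| * |CE0|) := by
    refine intervalIntegral.integral_mono_on hab.le
      (iab (cz'.mul ((clow.add (cn (hEj (j + 1)))).add (cn (hEj j)))))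
      (iab ((continuousOn_const.mul cS).add continuousOn_const)) fun τ hτ => ?_
    obtain ⟨h2, -, -⟩ := hC1 ht δ hht hδ τ hτ
    have h4 := hZ τ hτ
    rw [Real.norm_eq_abs, abs_of_nonneg (by positivity)] at h4
    have h5 := hCE0 τ hτ
    rw [Real.norm_eq_abs] at h5
    have h6 : nn L (dt^[j + 1] E) τ + nn L (dt^[j] E) τ ≤ |CE0| :=
      (le_abs_self _).trans (h5.trans (le_abs_self _))
    have h7 : low L φ (fun τ x => φ τ x * ht τ x) δ (j + 1) τ + nn L (dt^[j + 1] E) τ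
          + nn L (dt^[j] E) τ ≤ C1 * SJ L φ ht δ (j + 1) τ + |CE0| := by linarith
    calc (ζ τ ^ 2 + deriv ζ τ ^ 2) *
        (low L φ (fun τ x => φ τ x * ht τ x) δ (j + 1) τ + nn L (dt^[j + 1] E) τ
          + nn L (dt^[j] E) τ) ≤
        (ζ τ ^ 2 + deriv ζ τ ^ 2) * (C1 * SJ L φ ht δ (j + 1) τ + |CE0|) :=
          mul_le_mul_of_nonneg_left h7 (by positivity)
      _ ≤ |Z| * (C1 * SJ L φ ht δ (j + 1) τ + |CE0|) :=
          mul_le_mul_of_nonneg_right (h4.trans (le_abs_self _))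
            (add_nonneg (mul_nonneg hC10 (hS0 τ)) (abs_nonneg _))
      _ = _ := by ring
  rw [intervalIntegral.integral_add q3 q4,
    intervalIntegral.integral_const_mul, intervalIntegral.integral_const, smul_eq_mul] at s2
  have hI0 : 0 ≤ ∫ τ in a..b, SJ L φ ht δ (j + 1) τ :=
    intervalIntegral.integral_nonneg hab.le fun τ _ => hS0 τ
  have e4 : (∫ τ in a..b, ζ τ ^ 2 * nn L (dt^[j + 1] (fun τ x => φ τ x * ht τ x)) τ) =
    ∫ τ in a..b, ζ τ ^ 2 * nsq L (dt^[j + 1] (fun τ x => φ τ x * ht τ x)) τ := rfl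
  rw [e4] at hEn
  have e5 : (∫ τ in a..b, ζ τ ^ 2 * nn L (be L φ (j + 1) δ) τ) =
    ∫ τ in a..b, ζ τ ^ 2 * nsq L (be L φ (j + 1) δ) τ := rfl
  rw [e5] at hEn s1
  set X := ∫ τ in a..b, ζ τ ^ 2 * nsq L (be L φ (j + 1) δ) τ
  set Y := ∫ τ in a..b, ζ τ ^ 2 * nsq L (dt^[j + 1] (fun τ x => φ τ x * ht τ x)) τ
  set W := ∫ τ in a..b, (ζ τ ^ 2 + deriv ζ τ ^ 2) *
        (low L φ (fun τ x => φ τ x * ht τ x) δ (j + 1) τ + nn L (dt^[j + 1] E) τ
          + nn L (dt^[j] E) τ)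
  set I := ∫ τ in a..b, SJ L φ ht δ (j + 1) τ
  have hba : 0 < b - a := sub_pos.2 hab
  have t1 : CE K j * W ≤ CE K j * (|Z| * C1 * I + (b - a) * (|Z| * |CE0|)) :=
    mul_le_mul_of_nonneg_left s2 hCEn
  have t2 : 0 ≤ CE K j * |Z| * C1 := by positivity
  have t3 : 0 ≤ CE K j * |Z| * (|CE0| * (b - a)) * I := by positivity
  have t4 : 0 ≤ C1 * |Z| * C1 := by positivity
  nlinarith

end Crest.Agent.R213.C8
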