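import Crest.Agent.R213.C.ChainApp
import Crest.Agent.R213.C.C8Defs
import Crest.Agent.R213.C.Intp

/-!
# Row 213, part C8: `recover` (bounds of `∂_τ^j δ` from the bounds of the levels of `b`)
-/

set_option autoImplicit false

open Set MeasureTheory Filter Topology

noncomputable section

namespace Crest.Agent.R213.C8

open Crest.Agent.R213 Crest.Agent.R213.C Crest.Agent.R213.C.App

/-! ### one variable -/

/-- Taylor's formula with integral remainder on `(0,L)` -/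
theorem taylor2 {L : ℝ} {v v1 v2 : ℝ → ℝ} (h1 : ∀ s ∈ Ioo 0 L, HasDerivAt v (v1 s) s)
    (h2 : ∀ s ∈ Ioo 0 L, HasDerivAt v1 (v2 s) s) (hc : ContinuousOn v2 (Ioo 0 L))
    {x ξ : ℝ} (hx : x ∈ Ioo 0 L) (hξ : ξ ∈ Ioo 0 L) :
    v x = v ξ + v1 ξ * (x - ξ) + ∫ s in ξ..x, (x - s) * v2 s := by
  have hsub : uIcc ξ x ⊆ Ioo 0 L := ordConnected_Ioo.uIcc_subset hξ hx
  have e : ∫ s in ξ..x, (x - s) * v2 s = (v x + (x - x) * v1 x) - (v ξ + (x - ξ) * v1 ξ) := by
    refine intervalIntegral.integral_eq_sub_of_hasDerivAt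
      (f := fun s => v s + (x - s) * v1 s) (fun s hs => ?_) ?_
    · have := (h1 s (hsub hs)).add (((hasDerivAt_id s).const_sub x).mul (h2 s (hsub hs)))
      refine this.congr_deriv ?_
      simp only [id]
      ring
    · exact ((continuousOn_const.sub continuousOn_id).mul (hc.mono hsub)).intervalIntegrable
  rw [e]
  ring

theorem int_inv_sq_le {x ξ : ℝ} (hx : 0 < x) (hxξ : x ≤ ξ) :
    x * ∫ s in x..ξ, (s ^ 2)⁻¹ ≤ 1 := by
  have e : ∫ s in x..ξ, (s ^ 2)⁻¹ = (-ξ⁻¹) - (-x⁻¹) := by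
    refine intervalIntegral.integral_eq_sub_of_hasDerivAt (f := fun s => -s⁻¹) (fun s hs => ?_) ?_
    · rw [uIcc_of_le hxξ] at hs
      have hs0 : s ≠ 0 := (lt_of_lt_of_le hx hs.1).ne'
      have := (hasDerivAt_inv hs0).neg
      refine this.congr_deriv ?_
      rw [neg_neg]
    · refine ContinuousOn.intervalIntegrable fun s hs => ?_
      rw [uIcc_of_le hxξ] at hs
      have hs0 : s ≠ 0 := (lt_of_lt_of_le hx hs.1).ne'
      exact ((continuousAt_id.pow 2).inv₀ (pow_ne_zero 2 hs0)).continuousWithinAt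
  rw [e]
  have hξ : 0 < ξ⁻¹ := inv_pos.2 (hx.trans_le hxξ)
  have h1 : x * x⁻¹ = 1 := mul_inv_cancel₀ hx.ne'
  nlinarith [mul_pos hx hξ]

/-- a point with small value, from the weighted `L²` norm -/
theorem exists_pt {L S a b : ℝ} (hL : 0 < L) {v : ℝ → ℝ} (hv : ContinuousOn v (Icc 0 L))
    (hS : ∫ x in (0 : ℝ)..L, x ^ 9 * v x ^ 2 ≤ S) (ha : L / 4 ≤ a) (hab : b - a = L / 12)
    (hb : b ≤ L / 2) : ∃ y ∈ Icc a b, v y ^ 2 ≤ 12 / L * ((4 / L) ^ 9 * S) := by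
  have hab' : a < b := by linarith [div_pos hL (by norm_num : (0 : ℝ) < 12)]
  have ha0 : 0 ≤ a := by linarith [div_pos hL (by norm_num : (0 : ℝ) < 4)]
  have hbL : b ≤ L := by linarith
  have hsub : Icc a b ⊆ Icc 0 L := Icc_subset_Icc ha0 hbL
  obtain ⟨y, hy, hm⟩ := exists_le_mean (v := fun x => v x ^ 2) hab' ((hv.mono hsub).pow 2)
  refine ⟨y, hy, ?_⟩
  have e0 : |v y ^ 2| = v y ^ 2 := abs_of_nonneg (sq_nonneg _)
  have e1 : ∫ s in a..b, |v s ^ 2| ≤ (4 / L) ^ 9 * S := by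
    have h1 : ∫ s in a..b, |v s ^ 2| ≤ ∫ s in a..b, (4 / L) ^ 9 * (s ^ 9 * v s ^ 2) := by
      refine intervalIntegral.integral_mono_on hab'.le
        (ContinuousOn.intervalIntegrable (by
          rw [uIcc_of_le hab'.le]; exact ((hv.mono hsub).pow 2).abs))
        (ContinuousOn.intervalIntegrable (by
          rw [uIcc_of_le hab'.le]
          exact continuousOn_const.mul ((continuousOn_pow 9).mul ((hv.mono hsub).pow 2))))
        fun s hs => ?_
      rw [abs_of_nonneg (sq_nonneg _)]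
      have h2 : 1 ≤ (4 / L) ^ 9 * s ^ 9 := by
        rw [← mul_pow]
        refine one_le_pow₀ ?_
        rw [div_mul_eq_mul_div, le_div_iff₀ hL]
        linarith [hs.1]
      nlinarith [sq_nonneg (v s)]
    rw [intervalIntegral.integral_const_mul] at h1
    have h3 : ∫ s in a..b, s ^ 9 * v s ^ 2 ≤ ∫ x in (0 : ℝ)..L, x ^ 9 * v x ^ 2 := by
      refine intervalIntegral.integral_mono_interval ha0 hab'.le hbL ?_
        (ContinuousOn.intervalIntegrable (by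
          rw [uIcc_of_le hL.le]; exact (continuousOn_pow 9).mul (hv.pow 2)))
      filter_upwards [ae_restrict_mem measurableSet_Ioc] with t ht
      exact mul_nonneg (pow_nonneg ht.1.le 9) (sq_nonneg _)
    exact h1.trans (mul_le_mul_of_nonneg_left (h3.trans hS) (by positivity))
  rw [e0, hab] at hm
  refine hm.trans ?_
  have e2 : 1 / (L / 12) = 12 / L := by field_simp
  rw [e2]
  exact mul_le_mul_of_nonneg_left e1 (by positivity)

theorem left_bd {x ξ : ℝ} (hx : 0 < x) (hxξ : x ≤ ξ) {e : ℕ} (he : e = 4 ∨ e = 2 ∨ e = 0) :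
    x ^ (e - 1) * ∫ s in x..ξ, (s ^ e)⁻¹ ≤ (ξ - x) + 1 := by
  have h1 := int_inv_sq_le hx hxξ
  have h0 : 0 ≤ ξ - x := sub_nonneg.2 hxξ
  have hci : ∀ n : ℕ, IntervalIntegrable (fun s : ℝ => (s ^ n)⁻¹) volume x ξ := fun n => by
    refine ContinuousOn.intervalIntegrable fun s hs => ?_
    rw [uIcc_of_le hxξ] at hs
    have hs0 : s ≠ 0 := (lt_of_lt_of_le hx hs.1).ne'
    exact ((continuousAt_id.pow n).inv₀ (pow_ne_zero n hs0)).continuousWithinAt
  rcases he with rfl | rfl | rfl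
  · have h2 : ∫ s in x..ξ, (s ^ 4)⁻¹ ≤ ∫ s in x..ξ, (x ^ 2)⁻¹ * (s ^ 2)⁻¹ := by
      refine intervalIntegral.integral_mono_on hxξ (hci 4) ((hci 2).const_mul _) fun s hs => ?_
      have hs0 : 0 < s := lt_of_lt_of_le hx hs.1
      have e1 : (s ^ 4)⁻¹ = (s ^ 2)⁻¹ * (s ^ 2)⁻¹ := by
        rw [← mul_inv, ← pow_add]
      rw [e1]
      refine mul_le_mul_of_nonneg_right ?_ (by positivity)
      exact inv_anti₀ (by positivity) (pow_le_pow_left₀ hx.le hs.1 2)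
    rw [intervalIntegral.integral_const_mul] at h2
    have h3 : x ^ (4 - 1) * ∫ s in x..ξ, (s ^ 4)⁻¹ ≤
        x ^ 3 * ((x ^ 2)⁻¹ * ∫ s in x..ξ, (s ^ 2)⁻¹) :=
      mul_le_mul_of_nonneg_left h2 (by positivity)
    have e2 : x ^ 3 * ((x ^ 2)⁻¹ * ∫ s in x..ξ, (s ^ 2)⁻¹) = x * ∫ s in x..ξ, (s ^ 2)⁻¹ := by
      field_simp
    rw [e2] at h3
    linarith
  · have e1 : x ^ (2 - 1) = x := by norm_num
    rw [e1]
    linarith
  · simp

/-- `|v| x^{e-1} ≤ C` from `x(1-x/L)|v''| x^e ≤ K` and the weighted `L²` norm. -/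
theorem interp_rec {L : ℝ} (hL : 0 < L) {e : ℕ} (he : e = 4 ∨ e = 2 ∨ e = 0) (K S : ℝ) :
    ∃ C : ℝ, ∀ v v1 v2 : ℝ → ℝ, ContinuousOn v (Icc 0 L) →
      (∀ s ∈ Ioo 0 L, HasDerivAt v (v1 s) s) → (∀ s ∈ Ioo 0 L, HasDerivAt v1 (v2 s) s) →
      ContinuousOn v2 (Ioo 0 L) → (∀ x ∈ Ioo 0 L, qf L x * |v2 x| * x ^ e ≤ K) →
      ∫ x in (0 : ℝ)..L, x ^ 9 * v x ^ 2 ≤ S → ∀ x ∈ Ioo 0 L, |v x| * x ^ (e - 1) ≤ C := by
  set R : ℝ := √(12 / L * ((4 / L) ^ 9 * S)) with hR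
  set B1 : ℝ := 2 * K * (L + 1) with hB1
  set K' : ℝ := L * K * (4 / L) ^ (e + 1) * L with hK'
  set V1 : ℝ := 24 * R / L with hV1
  set V0 : ℝ := R + V1 * L + B1 * (4 / L) ^ (e - 1) with hV0
  refine ⟨(V0 + V1 * L) * L ^ (e - 1) + B1 + K' * L ^ (e - 1), ?_⟩
  intro v v1 v2 hv h1 h2 hc hK hS x hx
  have hR0 : 0 ≤ R := Real.sqrt_nonneg _
  have hV10 : 0 ≤ V1 := by positivity
  have hmid : L / 2 ∈ Ioo 0 L := ⟨by positivity, by linarith⟩
  have hK0 : 0 ≤ K := by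
    refine le_trans ?_ (hK (L / 2) hmid)
    have := (qf_pos hL hmid).le
    have := abs_nonneg (v2 (L / 2))
    positivity
  have hB10 : 0 ≤ B1 := by positivity
  have hK'0 : 0 ≤ K' := by positivity
  -- reference points
  obtain ⟨y1, hy1, hm1⟩ := exists_pt (a := L / 4) (b := L / 3) hL hv hS le_rfl (by ring)
    (by linarith)
  obtain ⟨y2, hy2, hm2⟩ := exists_pt (a := 5 * L / 12) (b := L / 2) hL hv hS (by linarith)
    (by ring) le_rfl
  have hv1 : |v y1| ≤ R := Real.abs_le_sqrt hm1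
  have hv2 : |v y2| ≤ R := Real.abs_le_sqrt hm2
  have h12 : L / 12 ≤ y2 - y1 := by linarith [hy1.2, hy2.1]
  have hL12 : 0 < L / 12 := by positivity
  have hlt : y1 < y2 := by linarith
  have hy10 : 0 < y1 := by linarith [hy1.1, div_pos hL (by norm_num : (0 : ℝ) < 4)]
  have hy2L : y2 < L := by linarith [hy2.2]
  obtain ⟨ξ, hξ, hsl⟩ := exists_hasDerivAt_eq_slope v v1 hlt
    (hv.mono (Icc_subset_Icc hy10.le hy2L.le))
    (fun s hs => h1 s ⟨hy10.trans hs.1, hs.2.trans hy2L⟩)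
  have hξ0 : 0 < ξ := hy10.trans hξ.1
  have hξ4 : L / 4 ≤ ξ := hy1.1.trans hξ.1.le
  have hξ2 : ξ ≤ L / 2 := hξ.2.le.trans hy2.2
  have hξm : ξ ∈ Ioo 0 L := ⟨hξ0, by linarith⟩
  have hslope : |v1 ξ| ≤ V1 := by
    rw [hsl, abs_div, abs_of_pos (by linarith : 0 < y2 - y1), div_le_iff₀ (by linarith)]
    have h3 : |v y2 - v y1| ≤ 2 * R := by
      have := abs_sub (v y2) (v y1)
      linarith
    have h4 : V1 * (L / 12) ≤ V1 * (y2 - y1) := mul_le_mul_of_nonneg_left h12 hV10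
    have h5 : V1 * (L / 12) = 2 * R := by rw [hV1]; field_simp; ring
    linarith
  -- the remainder
  have hleft : ∀ z ∈ Ioo 0 L, z ≤ ξ → |∫ s in ξ..z, (z - s) * v2 s| * z ^ (e - 1) ≤ B1 := by
    intro z hz hzξ
    have hci : IntervalIntegrable (fun s : ℝ => 2 * K * (s ^ e)⁻¹) volume z ξ := by
      refine ContinuousOn.intervalIntegrable fun s hs => ?_
      rw [uIcc_of_le hzξ] at hs
      have hs0 : s ≠ 0 := (lt_of_lt_of_le hz.1 hs.1).ne'
      exact (continuousAt_const.mul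
        ((continuousAt_id.pow e).inv₀ (pow_ne_zero e hs0))).continuousWithinAt
    have h3 : |∫ s in ξ..z, (z - s) * v2 s| ≤ ∫ s in z..ξ, 2 * K * (s ^ e)⁻¹ := by
      rw [intervalIntegral.integral_symm, abs_neg, ← Real.norm_eq_abs]
      refine intervalIntegral.norm_integral_le_of_norm_le hzξ ?_ hci
      refine Eventually.of_forall fun s hs => ?_
      have hs0 : 0 < s := hz.1.trans hs.1
      have hsL : s ∈ Ioo 0 L := ⟨hs0, by linarith [hs.2]⟩
      have h4 := hK s hsL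
      have h5 : s / 2 ≤ qf L s := by
        unfold qf
        have : s / L ≤ 1 / 2 := by rw [div_le_iff₀ hL]; linarith [hs.2]
        nlinarith
      have h6 : s * |v2 s| * s ^ e ≤ 2 * K := by
        have : s / 2 * |v2 s| * s ^ e ≤ qf L s * |v2 s| * s ^ e := by
          have := abs_nonneg (v2 s)
          gcongr
        linarith
      rw [Real.norm_eq_abs, abs_mul]
      have h7 : |z - s| ≤ s := by
        rw [abs_sub_comm, abs_of_nonneg (by linarith [hs.1])]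
        linarith [hz.1]
      have h8 : |z - s| * |v2 s| ≤ s * |v2 s| := mul_le_mul_of_nonneg_right h7 (abs_nonneg _)
      refine h8.trans ?_
      rw [← div_eq_mul_inv, le_div_iff₀ (by positivity)]
      exact h6
    rw [intervalIntegral.integral_const_mul] at h3
    have h4 := left_bd hz.1 hzξ he
    have hz0 : 0 ≤ z ^ (e - 1) := pow_nonneg hz.1.le _
    calc |∫ s in ξ..z, (z - s) * v2 s| * z ^ (e - 1)
        ≤ (2 * K * ∫ s in z..ξ, (s ^ e)⁻¹) * z ^ (e - 1) := mul_le_mul_of_nonneg_right h3 hz0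
      _ = 2 * K * (z ^ (e - 1) * ∫ s in z..ξ, (s ^ e)⁻¹) := by ring
      _ ≤ 2 * K * ((ξ - z) + 1) := mul_le_mul_of_nonneg_left h4 (by positivity)
      _ ≤ B1 := mul_le_mul_of_nonneg_left (by linarith [hz.1]) (by positivity)
  have hright : ∀ z ∈ Ioo 0 L, ξ ≤ z → |∫ s in ξ..z, (z - s) * v2 s| ≤ K' := by
    intro z hz hzξ
    have h3 : ∀ s ∈ uIoc ξ z, ‖(z - s) * v2 s‖ ≤ L * K * (4 / L) ^ (e + 1) := by
      intro s hs
      rw [uIoc_of_le hzξ] at hs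
      have hs0 : 0 < s := hξ0.trans hs.1
      have hsL : s ∈ Ioo 0 L := ⟨hs0, lt_of_le_of_lt hs.2 hz.2⟩
      have h4 := hK s hsL
      have h5 : 1 ≤ (4 / L) ^ (e + 1) * s ^ (e + 1) := by
        rw [← mul_pow]
        refine one_le_pow₀ ?_
        rw [div_mul_eq_mul_div, le_div_iff₀ hL]
        linarith [hs.1]
      have h6 : qf L s * |v2 s| * s ^ e * L = (L - s) * |v2 s| * s ^ (e + 1) := by
        unfold qf
        rw [pow_succ]
        field_simp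
      have h7 : (L - s) * |v2 s| * s ^ (e + 1) ≤ L * K := by
        rw [← h6]; nlinarith
      have h8 : 0 ≤ (L - s) * |v2 s| := mul_nonneg (by linarith [hsL.2]) (abs_nonneg _)
      have h9 : (L - s) * |v2 s| ≤ L * K * (4 / L) ^ (e + 1) := by
        calc (L - s) * |v2 s| = (L - s) * |v2 s| * 1 := by ring
          _ ≤ (L - s) * |v2 s| * ((4 / L) ^ (e + 1) * s ^ (e + 1)) :=
            mul_le_mul_of_nonneg_left h5 h8
          _ = ((L - s) * |v2 s| * s ^ (e + 1)) * (4 / L) ^ (e + 1) := by ring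
          _ ≤ L * K * (4 / L) ^ (e + 1) := mul_le_mul_of_nonneg_right h7 (by positivity)
      rw [Real.norm_eq_abs, abs_mul, abs_of_nonneg (by linarith [hs.2] : 0 ≤ z - s)]
      exact (mul_le_mul_of_nonneg_right (by linarith [hz.2]) (abs_nonneg _)).trans h9
    have h4 := intervalIntegral.norm_integral_le_of_norm_le_const h3
    rw [Real.norm_eq_abs] at h4
    refine h4.trans ?_
    refine mul_le_mul_of_nonneg_left ?_ (by positivity)
    rw [abs_of_nonneg (by linarith)]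
    linarith [hz.2]
  -- value at `ξ`
  have hy1m : y1 ∈ Ioo 0 L := ⟨hy10, hlt.trans hy2L⟩
  have hvξ : |v ξ| ≤ V0 := by
    have h3 := taylor2 h1 h2 hc hy1m hξm
    have h4 := hleft y1 hy1m hξ.1.le
    have h5 : 1 ≤ y1 ^ (e - 1) * (4 / L) ^ (e - 1) := by
      rw [← mul_pow]
      refine one_le_pow₀ ?_
      rw [mul_div_assoc', le_div_iff₀ hL]
      linarith [hy1.1]
    have h6 : |∫ s in ξ..y1, (y1 - s) * v2 s| ≤ B1 * (4 / L) ^ (e - 1) := by
      calc |∫ s in ξ..y1, (y1 - s) * v2 s| = |∫ s in ξ..y1, (y1 - s) * v2 s| * 1 := by ring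
        _ ≤ |∫ s in ξ..y1, (y1 - s) * v2 s| * (y1 ^ (e - 1) * (4 / L) ^ (e - 1)) :=
          mul_le_mul_of_nonneg_left h5 (abs_nonneg _)
        _ = (|∫ s in ξ..y1, (y1 - s) * v2 s| * y1 ^ (e - 1)) * (4 / L) ^ (e - 1) := by ring
        _ ≤ B1 * (4 / L) ^ (e - 1) := mul_le_mul_of_nonneg_right h4 (by positivity)
    have h7 : |v1 ξ * (y1 - ξ)| ≤ V1 * L := by
      rw [abs_mul]
      refine mul_le_mul hslope ?_ (abs_nonneg _) hV10
      rw [abs_le]
      constructor <;> linarith [hξ.1]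
    have h8 : v ξ = v y1 - v1 ξ * (y1 - ξ) - ∫ s in ξ..y1, (y1 - s) * v2 s := by linarith
    rw [h8]
    refine (abs_sub _ _).trans ?_
    have := abs_sub (v y1) (v1 ξ * (y1 - ξ))
    linarith
  have h3 := taylor2 h1 h2 hc hx hξm
  have h7 : |v1 ξ * (x - ξ)| ≤ V1 * L := by
    rw [abs_mul]
    refine mul_le_mul hslope ?_ (abs_nonneg _) hV10
    rw [abs_le]
    constructor <;> linarith [hx.1, hx.2]
  have hxe : x ^ (e - 1) ≤ L ^ (e - 1) := pow_le_pow_left₀ hx.1.le hx.2.le _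
  have hx0 : 0 ≤ x ^ (e - 1) := pow_nonneg hx.1.le _
  have h9 : |∫ s in ξ..x, (x - s) * v2 s| * x ^ (e - 1) ≤ B1 + K' * L ^ (e - 1) := by
    rcases le_total x ξ with h | h
    · have := hleft x hx h
      have : 0 ≤ K' * L ^ (e - 1) := by positivity
      linarith
    · have h10 := hright x hx h
      have h11 : |∫ s in ξ..x, (x - s) * v2 s| * x ^ (e - 1) ≤ K' * L ^ (e - 1) :=
        mul_le_mul h10 hxe hx0 hK'0
      linarith
  have hV00 : 0 ≤ V0 := (abs_nonneg _).trans hvξ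
  have h10 : |v x| ≤ (V0 + V1 * L) + |∫ s in ξ..x, (x - s) * v2 s| := by
    rw [h3]
    refine (abs_add_le _ _).trans (add_le_add ((abs_add_le _ _).trans ?_) le_rfl)
    linarith
  calc |v x| * x ^ (e - 1) ≤ ((V0 + V1 * L) + |∫ s in ξ..x, (x - s) * v2 s|) * x ^ (e - 1) :=
        mul_le_mul_of_nonneg_right h10 hx0
    _ = (V0 + V1 * L) * x ^ (e - 1) + |∫ s in ξ..x, (x - s) * v2 s| * x ^ (e - 1) := by ring
    _ ≤ (V0 + V1 * L) * L ^ (e - 1) + (B1 + K' * L ^ (e - 1)) :=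
        add_le_add (mul_le_mul_of_nonneg_left hxe (by positivity)) h9
    _ = _ := by ring

/-! ### algebra of the levels -/

section levels

variable {c0 C0 L : ℝ} {g : ℝ → ℝ} {φ m : ℝ → ℝ → ℝ}

/-- `∂_τ^k φ = x(1-x/L) ∂_τ^k m` -/
theorem dt_iter_phi (hB : Bg c0 C0 g L φ m) (k : ℕ) {τ x : ℝ} (hτ : τ ∈ Ioo (0 : ℝ) 1)
    (hx : x ∈ Icc 0 L) : (dt^[k] φ) τ x = qf L x * (dt^[k] m) τ x := by
  rw [dtIter_congr_at isOpen_Ioo (u := fun t x => qf L x * m t x)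
    (fun r hr => Bg.phi_eq' hB hr hx) hτ k, dtIter_left_mul]

/-- Leibniz formula for the levels of `b = φ δ_xx`, with the factor `x(1-x/L)` extracted. -/
theorem bb_level (hB : Bg c0 C0 g L φ m) {δ : ℝ → ℝ → ℝ} (hδ : Sm (Ioo 0 1) L δ) (l : ℕ)
    {τ x : ℝ} (hτ : τ ∈ Ioo (0 : ℝ) 1) (hx : x ∈ Icc 0 L) :
    (dt^[l] (bb L φ δ)) τ x = ∑ k ∈ Finset.range (l + 1), (l.choose k : ℝ) *
      (dt^[l - k] m) τ x * (qf L x * dx L (dx L (dt^[k] δ)) τ x) := by
  have hL := Bg.Lpos hB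
  have h2 : Sm (Ioo 0 1) L (dx L (dx L δ)) := (hδ.dx isOpen_Ioo hL).dx isOpen_Ioo hL
  have h3 := dtIter_mul' isOpen_Ioo (Bg.sm_phi hB) h2 hτ hx l
  change (dt^[l] (fun t x => φ t x * dx L (dx L δ) t x)) τ x = _
  rw [h3]
  refine Finset.sum_congr rfl fun k _ => ?_
  rw [dt_iter_phi hB _ hτ hx, dtIter_dxdx isOpen_Ioo hL hδ k τ hτ x hx]
  ring

/-- bound of a smooth function on a compact time interval -/
theorem sm_bdd {u : ℝ → ℝ → ℝ} (hu : Sm (Ioo 0 1) L u) {a b : ℝ} (ha : 0 < a) (hb : b < 1) :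
    ∃ A : ℝ, 0 ≤ A ∧ ∀ τ ∈ Icc a b, ∀ x ∈ Icc 0 L, |u τ x| ≤ A := by
  have hc : ContinuousOn (fun p : ℝ × ℝ => u p.1 p.2) (Icc a b ×ˢ Icc 0 L) :=
    hu.continuousOn.mono (prod_mono_left fun r hr => ⟨ha.trans_le hr.1, hr.2.trans_lt hb⟩)
  obtain ⟨M, hM⟩ := (isCompact_Icc.prod isCompact_Icc).exists_bound_of_continuousOn hc
  exact ⟨max M 0, le_max_right _ _, fun τ hτ x hx => (hM (τ, x) ⟨hτ, hx⟩).trans (le_max_left _ _)⟩

/-- bounds of `x(1-x/L) ∂_τ^l δ_xx` from the bounds of the levels of `b` -/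
theorem dxx_bd (hc0 : 0 < c0) (hB : Bg c0 C0 g L φ m) {δ : ℕ → ℝ → ℝ → ℝ}
    (hδ : ∀ i, Sm (Ioo 0 1) L (δ i)) {e : ℕ} (j : ℕ)
    (hb : ∀ l ≤ j, UB L e (fun i => dt^[l] (bb L φ (δ i)))) {a b : ℝ} (ha : 0 < a) (hab : a < b)
    (hb2 : b < 1 / 2) : ∀ l ≤ j, ∃ K : ℝ, ∀ i, ∀ τ ∈ Icc a b, ∀ x ∈ Ioo 0 L,
      qf L x * |dx L (dx L (dt^[l] (δ i))) τ x| * x ^ e ≤ K := by
  have hL := Bg.Lpos hB
  intro l
  induction l using Nat.strong_induction_on with
  | _ l ih =>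
    intro hl
    obtain ⟨Cb, hCb⟩ := hb l hl a b ha hab hb2
    choose! K hK using fun k (hk : k < l) => ih k hk (hk.le.trans hl)
    choose A hA0 hA using fun k : ℕ =>
      sm_bdd (L := L) (hB.sm.dt_iter isOpen_Ioo hL k) ha (by linarith : b < 1)
    refine ⟨(Cb + ∑ k ∈ Finset.range l, (l.choose k : ℝ) * A (l - k) * K k) / c0, ?_⟩
    intro i τ hτ x hx
    have hτ1 : τ ∈ Ioo (0 : ℝ) 1 := ⟨ha.trans_le hτ.1, by linarith [hτ.2]⟩
    have hxI : x ∈ Icc 0 L := Ioo_subset_Icc_self hx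
    have h1 := bb_level hB (hδ i) l hτ1 hxI
    rw [Finset.sum_range_succ] at h1
    set D := dx L (dx L (dt^[l] (δ i))) τ x with hD
    have hq := qf_pos hL hx
    have hxe : 0 ≤ x ^ e := pow_nonneg hx.1.le e
    have hm := hB.lower τ hτ1 x hxI
    have h2 : m τ x * (qf L x * D) = (dt^[l] (bb L φ (δ i))) τ x -
        ∑ k ∈ Finset.range l, (l.choose k : ℝ) *
          (dt^[l - k] m) τ x * (qf L x * dx L (dx L (dt^[k] (δ i))) τ x) := by
      rw [h1]
      simp only [Nat.choose_self, Nat.cast_one, one_mul, Nat.sub_self, Function.iterate_zero, id]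
      ring
    have h3 : c0 * (qf L x * |D|) ≤ |(dt^[l] (bb L φ (δ i))) τ x| +
        ∑ k ∈ Finset.range l, (l.choose k : ℝ) * A (l - k) *
          (qf L x * |dx L (dx L (dt^[k] (δ i))) τ x|) := by
      have h4 : c0 * (qf L x * |D|) ≤ |m τ x * (qf L x * D)| := by
        rw [abs_mul, abs_mul, abs_of_pos hq, abs_of_pos (hc0.trans_le hm)]
        exact mul_le_mul_of_nonneg_right hm (mul_nonneg hq.le (abs_nonneg _))
      refine h4.trans ?_
      rw [h2]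
      refine (abs_sub _ _).trans (add_le_add le_rfl ?_)
      refine (Finset.abs_sum_le_sum_abs _ _).trans (Finset.sum_le_sum fun k _ => ?_)
      rw [abs_mul, abs_mul, abs_mul, abs_of_pos hq,
        abs_of_nonneg (by positivity : (0 : ℝ) ≤ (l.choose k : ℝ))]
      exact mul_le_mul_of_nonneg_right (mul_le_mul_of_nonneg_left (hA (l - k) τ hτ x hxI)
        (by positivity)) (mul_nonneg hq.le (abs_nonneg _))
    rw [le_div_iff₀ hc0]
    calc qf L x * |D| * x ^ e * c0 = c0 * (qf L x * |D|) * x ^ e := by ring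
      _ ≤ (|(dt^[l] (bb L φ (δ i))) τ x| + ∑ k ∈ Finset.range l, (l.choose k : ℝ) * A (l - k) *
          (qf L x * |dx L (dx L (dt^[k] (δ i))) τ x|)) * x ^ e :=
        mul_le_mul_of_nonneg_right h3 hxe
      _ = |(dt^[l] (bb L φ (δ i))) τ x| * x ^ e + ∑ k ∈ Finset.range l, (l.choose k : ℝ) *
          A (l - k) * (qf L x * |dx L (dx L (dt^[k] (δ i))) τ x| * x ^ e) := by
        rw [add_mul, Finset.sum_mul]
        congr 1
        refine Finset.sum_congr rfl fun k _ => ?_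
        ring
      _ ≤ Cb + ∑ k ∈ Finset.range l, (l.choose k : ℝ) * A (l - k) * K k := by
        refine add_le_add (hCb i τ hτ x hx) (Finset.sum_le_sum fun k hk => ?_)
        exact mul_le_mul_of_nonneg_left (hK k (Finset.mem_range.1 hk) i τ hτ x hx)
          (mul_nonneg (by positivity) (hA0 _))

/-- **recover**: `δ_j = O(x^{-(e-1)})` from `b_l = O(x^{-e})`, `l ≤ j`. -/
theorem recover (hB : Bg c0 C0 g L φ m) (hg : Prof c0 C0 g) {δ : ℕ → ℝ → ℝ → ℝ}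
    (hδ : ∀ i, Sm (Ioo 0 1) L (δ i)) {e : ℕ} (he : e = 4 ∨ e = 2 ∨ e = 0) (j : ℕ)
    (hb : ∀ l ≤ j, UB L e (fun i => dt^[l] (bb L φ (δ i))))
    (hs : USup L (fun i => dt^[j] (δ i))) :
    UB L (e - 1) (fun i => dt^[j] (δ i)) := by
  have hL := Bg.Lpos hB
  intro a b ha hab hb2
  obtain ⟨K, hK⟩ := dxx_bd hg.c0_pos hB hδ j hb ha hab hb2 j le_rfl
  obtain ⟨S, hS⟩ := hs a b ha hab hb2
  obtain ⟨C, hC⟩ := interp_rec hL he K S
  refine ⟨C, fun i τ hτ x hx => ?_⟩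
  have hτ1 : τ ∈ Ioo (0 : ℝ) 1 := ⟨ha.trans_le hτ.1, by linarith [hτ.2]⟩
  have hu : Sm (Ioo 0 1) L (dt^[j] (δ i)) := (hδ i).dt_iter isOpen_Ioo hL j
  have hu1 : Sm (Ioo 0 1) L (dx L (dt^[j] (δ i))) := hu.dx isOpen_Ioo hL
  have hu2 : Sm (Ioo 0 1) L (dx L (dx L (dt^[j] (δ i)))) := hu1.dx isOpen_Ioo hL
  exact hC (fun x => (dt^[j] (δ i)) τ x) (fun x => dx L (dt^[j] (δ i)) τ x)
    (fun x => dx L (dx L (dt^[j] (δ i))) τ x) (hu.continuousOn_right hτ1)
    (fun s hs => hu.hasDx_interior hL hτ1 hs) (fun s hs => hu1.hasDx_interior hL hτ1 hs)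
    ((hu2.continuousOn_right hτ1).mono Ioo_subset_Icc_self)
    (fun x hx => hK i τ hτ x hx) (hS i τ hτ) x hx

end levels

end Crest.Agent.R213.C8
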