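import Crest.Agent.R213.C.AllJEn
import Crest.Agent.R213.C.C8Base
import Crest.Agent.R213.C.C8Pass
import Crest.Agent.R213.C.Recover
import Crest.Agent.R213.C.LocEnI

/-!
# Row 213, part C8: assembly (helper302's version)
-/

set_option autoImplicit false

open Set MeasureTheory Filter Topology

noncomputable section

namespace Crest.Agent.R213.C8.H302

open Crest.Agent.R213 Crest.Agent.R213.C Crest.Agent.R213.C8

variable {c0 C0 κ L : ℝ} {g : ℝ → ℝ} {φ m E : ℝ → ℝ → ℝ} {η : ℝ → ℝ} {d : ℕ → ℝ → ℝ → ℝ}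

/-- shifted nonlinear terms: `(hs i, d i)` solves the linear equation for all `i` -/
def hs (L : ℝ) (φ : ℝ → ℝ → ℝ) (η : ℝ → ℝ) (d : ℕ → ℝ → ℝ → ℝ) : ℕ → ℝ → ℝ → ℝ
  | 0 => fun _ _ => 0
  | i + 1 => hNL L φ η (d i)

theorem dt_iter_zero' (l : ℕ) (τ x : ℝ) :
    (dt^[l] (fun τ x => φ τ x * (0 : ℝ))) τ x = 0 := by
  have h : (fun τ x => φ τ x * (0 : ℝ)) = fun _ _ => (0 : ℝ) := by
    funext τ x
    exact mul_zero _
  rw [h]
  induction l generalizing τ x with
  | zero => rfl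
  | succ l ih =>
    rw [Function.iterate_succ_apply']
    have : (dt^[l] fun _ _ => (0 : ℝ)) = fun _ _ => (0 : ℝ) := by
      funext a b
      exact ih a b
    rw [this]
    exact dt_const 0

theorem ub_shift {e l : ℕ} (h : UB L e (fun i => dt^[l] (hh L φ η (d i)))) :
    UB L e (fun i => dt^[l] (fun τ x => φ τ x * hs L φ η d i τ x)) := by
  intro a b ha hab hb
  obtain ⟨C, hC0, hC⟩ := h.exists_nonneg ha hab hb
  refine ⟨C, fun i τ hτ x hx => ?_⟩
  rcases i with _ | i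
  · have : (dt^[l] (fun τ x => φ τ x * hs L φ η d 0 τ x)) τ x = 0 := dt_iter_zero' l τ x
    simp only [this, abs_zero, zero_mul]
    exact hC0
  · exact hC i τ hτ x hx

theorem nsq_zero_fn {τ : ℝ} {f : ℝ → ℝ → ℝ} (h : ∀ x, f τ x = 0) : nsq L f τ = 0 := by
  unfold nsq
  simp [h]

theorem ul2_shift {l : ℕ} (h : UL2 L (fun i => dt^[l] (hh L φ η (d i)))) :
    UL2 L (fun i => dt^[l] (fun τ x => φ τ x * hs L φ η d i τ x)) := by
  intro a b ha hab hb
  obtain ⟨C, hC0, hC⟩ := h.exists_nonneg ha hab hb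
  refine ⟨C, fun i => ?_⟩
  rcases i with _ | i
  · have : ∀ t, nsq L (dt^[l] (fun τ x => φ τ x * hs L φ η d 0 τ x)) t = 0 := fun t =>
      nsq_zero_fn (fun x => dt_iter_zero' l t x)
    simp only [this, intervalIntegral.integral_zero]
    exact hC0
  · exact hC i

section

variable (hB : Bg c0 C0 g L φ m) (hg : Prof c0 C0 g) (hη : EtaOK η) (hE : Sm (Ioo 0 1) L E)
  (hI : Iter κ L φ E η d)

include hB hη hI

theorem hN (i : ℕ) : NL (Ioo 0 (1 / 2)) L η (bb L φ (d i)) (hh L φ η (d i)) :=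
  nl hB hη (hI.sm i) (hI.small i)

theorem sm_hs (i : ℕ) : Sm (Ioo 0 1) L (hs L φ η d i) := by
  rcases i with _ | i
  · exact Sm.const 0
  · exact hNL_sm hB hη (hI.sm i) (hI.small i)

omit hB hη in
theorem eq_hs (i : ℕ) : LinEq L φ E (hs L φ η d i) (d i) := by
  rcases i with _ | i
  · exact hI.eq0
  · exact hI.eqS i

/-- closing a pass -/
theorem close (hL : 0 < L) {e : ℕ → ℕ} {J : ℕ} (he : ExpOK e (J + 1))
    (h1 : ∀ l < J + 1, UB L (e l) (bj L φ d l))
    (hR : UB L (e (J + 1)) (fun i => fun τ x => (dt^[J + 1] (bb L φ (d i))) τ x -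
      (dt^[J + 1] (fun τ x => φ τ x * hs L φ η d i τ x)) τ x)) :
    UB L (e (J + 1)) (bj L φ d (J + 1)) := by
  have h2 : ∀ l < J + 1, UB L (e l) (fun i => dt^[l] (hh L φ η (d i))) := fun l hl =>
    h_ub (he.le (Nat.le_succ J)) (hN hB hη hI) hI.small (fun l hl => h1 l (by omega)) l (by omega)
  refine it_ub hL (fun i => (hN hB hη hI i).smb.dt_iter isOpen_Ioo hL (J + 1)) ?_
  intro a b ha hab hb
  obtain ⟨C1, hC1⟩ := h_level he (hN hB hη hI) hI.small h1 h2 ha hab hb
  obtain ⟨C2, hC2⟩ := hR a b ha hab hb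
  refine ⟨C1 + C2, fun i τ hτ x hx => ?_⟩
  have k1 := hC1 i τ hτ x hx
  have k2 := hC2 (i + 1) τ hτ x hx
  have hx0 : 0 ≤ x ^ e (J + 1) := pow_nonneg hx.1.le _
  have k3 : |(dt^[J + 1] (bb L φ (d (i + 1)))) τ x| ≤
      |(dt^[J + 1] (bb L φ (d (i + 1)))) τ x - (dt^[J + 1] (hh L φ η (d i))) τ x| +
        |(dt^[J + 1] (hh L φ η (d i))) τ x| := by
    have := abs_add_le ((dt^[J + 1] (bb L φ (d (i + 1)))) τ x - (dt^[J + 1] (hh L φ η (d i))) τ x)
      ((dt^[J + 1] (hh L φ η (d i))) τ x)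
    rwa [sub_add_cancel] at this
  have k4 := mul_le_mul_of_nonneg_right k3 hx0
  rw [add_mul] at k4
  have k5 : |(dt^[J + 1] (bb L φ (d (i + 1)))) τ x - (dt^[J + 1] (hh L φ η (d i))) τ x| *
      x ^ e (J + 1) ≤ C2 := k2
  have k6 : 0 ≤ |(dt^[J + 1] (bb L φ (d i))) τ x| * x ^ e (J + 1) := by positivity
  linarith

end

theorem expOK_zero (n : ℕ) : ExpOK (fun _ => 0) n := ⟨fun _ _ _ _ => le_rfl, fun _ _ _ => le_rfl⟩

def e4 (K l : ℕ) : ℕ := if l < K then 0 else if l = K then 2 else 4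

def e2 (K l : ℕ) : ℕ := if l < K then 0 else 2

theorem expOK_e4 {K : ℕ} (hK : 5 ≤ K) : ExpOK (e4 K) (K + 2) := by
  constructor
  · intro p q hpq hq
    unfold e4
    split_ifs <;> omega
  · intro p q hpq
    unfold e4
    split_ifs <;> omega

theorem expOK_e2 {K : ℕ} (hK : 5 ≤ K) : ExpOK (e2 K) (K + 1) := by
  constructor
  · intro p q hpq hq
    unfold e2
    split_ifs <;> omega
  · intro p q hpq
    unfold e2
    split_ifs <;> omega

theorem step (hB : Bg c0 C0 g L φ m) (hg : Prof c0 C0 g) (hη : EtaOK η) (hE : Sm (Ioo 0 1) L E)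
    (hI : Iter κ L φ E η d) {K : ℕ} (hK : 5 ≤ K) (H : Hyp L φ d (K + 4)) :
    Hyp L φ d (K + 5) ∧ UB L 0 (dj d K) := by
  have hL : 0 < L := by linarith [hB.L_ge]
  have hNL' := hN hB hη hI
  -- pointwise classes of b, l ≤ K + 1
  have hb0 : ∀ l < K, UB L 0 (bj L φ d l) := fun l hl => H.ub0 l (by omega)
  have hbK : UB L 2 (bj L φ d K) := H.ub2 K rfl
  have hbK1 : UB L 4 (bj L φ d (K + 1)) := H.ub4 (K + 1) rfl
  have cb4 : ∀ l < K + 2, UB L (e4 K l) (bj L φ d l) := by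
    intro l hl
    unfold e4
    split_ifs with h1 h2
    · exact hb0 l h1
    · subst h2; exact hbK
    · obtain rfl : l = K + 1 := by omega
      exact hbK1
  have cb2 : ∀ l < K + 1, UB L (e2 K l) (bj L φ d l) := by
    intro l hl
    unfold e2
    split_ifs with h1
    · exact hb0 l h1
    · obtain rfl : l = K := by omega
      exact hbK
  have ch4 : ∀ l < K + 2, UB L (e4 K l) (fun i => dt^[l] (hh L φ η (d i))) := fun l hl =>
    h_ub ((expOK_e4 hK).le (show K + 1 ≤ K + 2 by omega)) hNL' hI.small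
      (fun l hl => cb4 l (by omega)) l (by omega)
  have ch2 : ∀ l < K + 1, UB L (e2 K l) (fun i => dt^[l] (hh L φ η (d i))) := fun l hl =>
    h_ub ((expOK_e2 hK).le (show K ≤ K + 1 by omega)) hNL' hI.small
      (fun l hl => cb2 l (by omega)) l (by omega)
  have ch0 : ∀ l < K, UB L 0 (fun i => dt^[l] (hh L φ η (d i))) := by
    intro l hl
    have h1 := h_ub (expOK_zero (K - 1)) hNL' hI.small
      (fun l hl => hb0 l (by omega)) l (by omega)
    exact h1
  -- L² levels of h, l < K + 4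
  have hh2 : ∀ l < K + 4, UL2 L (fun i => dt^[l] (hh L φ η (d i))) :=
    h_l2 hL hNL' hI.small (fun l hl => hb0 l (by omega)) (fun l hl => ch0 l (by omega)) H.l2
  -- energy step
  have hb2 : UL2 L (bj L φ d (K + 4)) := by
    refine energy_step (J := K + 3) hL hNL' hI.small (fun l hl => hb0 l (by omega))
      (fun l hl => ch0 l (by omega)) H.l2 hh2 ?_
    intro ζ hζ a c ha hac hc hz
    obtain ⟨C, hC⟩ := loc_en hB hg hE (K + 4) (by omega) hζ ha hac hc hz
    exact ⟨C, fun i => hC (hNL L φ η (d i)) (d (i + 1)) (hNL_sm hB hη (hI.sm i) (hI.small i))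
      (hI.sm (i + 1)) (hI.eqS i)⟩
  have hball : ∀ l < K + 5, UL2 L (bj L φ d l) := by
    intro l hl
    rcases Nat.lt_or_ge l (K + 4) with h | h
    · exact H.l2 l h
    · obtain rfl : l = K + 4 := by omega
      exact hb2
  have hhall : ∀ l < K + 5, UL2 L (fun i => dt^[l] (hh L φ η (d i))) :=
    h_l2 hL hNL' hI.small (fun l hl => hb0 l (by omega)) (fun l hl => ch0 l (by omega)) hball
  -- L² levels of δ
  have hd2 : ∀ j, 1 ≤ j → j < K + 5 → UL2 L (dj d j) := by
    intro j hj1 hj a b ha hab hb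
    obtain ⟨C, hC⟩ := loc_delta hB hg hE j hj1 ha hab hb
    obtain ⟨B1, hB10, hB1⟩ := UL2.common (n := j + 1) (v := fun l => bj L φ d l)
      (fun l hl => hball l (by omega)) ha hab hb
    obtain ⟨B2, hB20, hB2⟩ := UL2.common (n := j + 1)
      (v := fun l i => dt^[l] (fun τ x => φ τ x * hs L φ η d i τ x))
      (fun l hl => ul2_shift (hhall l (by omega))) ha hab hb
    have hsub : Icc a b ⊆ Ioo (0 : ℝ) (1 / 2) := fun t ht => mem_half ha hb ht
    have cn : ∀ {f : ℝ → ℝ → ℝ}, Sm (Ioo 0 (1 / 2)) L f → ContinuousOn (nsq L f) (Icc a b) :=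
      fun hf => (continuousOn_nsq isOpen_Ioo hL.le hf).mono hsub
    have ii : ∀ {f : ℝ → ℝ}, ContinuousOn f (Icc a b) → IntervalIntegrable f volume a b :=
      fun hf => ContinuousOn.intervalIntegrable (by rwa [uIcc_of_le hab.le])
    have half : Ioo (0 : ℝ) (1 / 2) ⊆ Ioo (0 : ℝ) 1 := Ioo_subset_Ioo_right (by norm_num)
    have smb : ∀ l i, Sm (Ioo 0 (1 / 2)) L (dt^[l] (bb L φ (d i))) := fun l i =>
      (hNL' i).smb.dt_iter isOpen_Ioo hL l
    have smh : ∀ l i, Sm (Ioo 0 (1 / 2)) L (dt^[l] (fun τ x => φ τ x * hs L φ η d i τ x)) :=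
      fun l i => (((Base.phi_sm hB).mul (sm_hs hB hη hI i)).dt_iter isOpen_Ioo hL l).mono half
    refine ⟨max C 0 * ((b - a) + ∑ l ∈ Finset.range (j + 1), (B1 + B2)), fun i => ?_⟩
    have hpt : ∀ τ ∈ Icc a b, nsq L (dt^[j] (d i)) τ ≤
        max C 0 * (1 + ∑ l ∈ Finset.range (j + 1), (nsq L (dt^[l] (bb L φ (d i))) τ +
          nsq L (dt^[l] (fun τ x => φ τ x * hs L φ η d i τ x)) τ)) := by
      intro τ hτ
      refine (hC (hs L φ η d i) (d i) (sm_hs hB hη hI i) (hI.sm i) (eq_hs hI i) τ hτ).trans ?_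
      refine mul_le_mul_of_nonneg_right (le_max_left _ _) ?_
      have : 0 ≤ ∑ l ∈ Finset.range (j + 1), (nsq L (dt^[l] (bb L φ (d i))) τ +
          nsq L (dt^[l] (fun τ x => φ τ x * hs L φ η d i τ x)) τ) :=
        Finset.sum_nonneg fun l _ => add_nonneg (nsq_nonneg hL.le _ _) (nsq_nonneg hL.le _ _)
      linarith
    have cs : ∀ l, ContinuousOn (fun τ => nsq L (dt^[l] (bb L φ (d i))) τ +
          nsq L (dt^[l] (fun τ x => φ τ x * hs L φ η d i τ x)) τ) (Icc a b) := fun l =>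
      (cn (smb l i)).add (cn (smh l i))
    have csum : ContinuousOn (fun τ => ∑ l ∈ Finset.range (j + 1),
        (nsq L (dt^[l] (bb L φ (d i))) τ +
          nsq L (dt^[l] (fun τ x => φ τ x * hs L φ η d i τ x)) τ)) (Icc a b) :=
      continuousOn_finsetSum _ fun l _ => cs l
    have smd : Sm (Ioo 0 (1 / 2)) L (dt^[j] (d i)) :=
      ((hI.sm i).dt_iter isOpen_Ioo hL j).mono half
    calc ∫ t in a..b, nsq L (dj d j i) t ≤ ∫ t in a..b,
          max C 0 * (1 + ∑ l ∈ Finset.range (j + 1), (nsq L (dt^[l] (bb L φ (d i))) t +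
          nsq L (dt^[l] (fun τ x => φ τ x * hs L φ η d i τ x)) t)) :=
          intervalIntegral.integral_mono_on hab.le (ii (cn smd))
            (ii (continuousOn_const.mul (continuousOn_const.add csum))) hpt
      _ = max C 0 * ((b - a) + ∑ l ∈ Finset.range (j + 1),
          (∫ t in a..b, nsq L (dt^[l] (bb L φ (d i))) t) +
          ∑ l ∈ Finset.range (j + 1),
          (∫ t in a..b, nsq L (dt^[l] (fun τ x => φ τ x * hs L φ η d i τ x)) t)) := by
          rw [intervalIntegral.integral_const_mul,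
            intervalIntegral.integral_add (ii continuousOn_const) (ii csum),
            intervalIntegral.integral_const,
            intervalIntegral.integral_finsetSum (fun l _ => ii (cs l))]
          congr 1
          rw [add_assoc]
          congr 1
          · simp
          · rw [← Finset.sum_add_distrib]
            refine Finset.sum_congr rfl fun l _ => ?_
            exact intervalIntegral.integral_add (ii (cn (smb l i))) (ii (cn (smh l i)))
      _ ≤ _ := by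
          refine mul_le_mul_of_nonneg_left ?_ (le_max_right _ _)
          rw [add_assoc, ← Finset.sum_add_distrib]
          refine add_le_add le_rfl (Finset.sum_le_sum fun l hl => ?_)
          have hl' : l < j + 1 := Finset.mem_range.1 hl
          exact add_le_add (hB1 l hl' i) (hB2 l hl' i)
  have hdsup : ∀ j, 1 ≤ j → j + 1 < K + 5 → USup L (dj d j) := by
    intro j hj1 hj
    have half : Ioo (0 : ℝ) (1 / 2) ⊆ Ioo (0 : ℝ) 1 := Ioo_subset_Ioo_right (by norm_num)
    refine USup.of_UL2 hL (fun i => ((hI.sm i).dt_iter isOpen_Ioo hL j).mono half)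
      (hd2 j hj1 (by omega)) ?_
    have h1 := hd2 (j + 1) (by omega) (by omega)
    have h2 : (fun i => dt (dj d j i)) = dj d (j + 1) := by
      funext i
      simp only [dj]
      rw [Function.iterate_succ_apply']
    rw [h2]
    exact h1
  -- pass 4
  have r4 := pass4 hB hg hE (sm_hs hB hη hI) hI.sm (eq_hs hI) (K + 2)
    (fun l hl => ⟨(cb4 l hl).mono_exp ((expOK_e4 hK).mono l (K + 2) (by omega) le_rfl |>.trans
        (by unfold e4; split_ifs <;> omega)),
      ub_shift ((ch4 l hl).mono_exp ((expOK_e4 hK).mono l (K + 2) (by omega) le_rfl |>.trans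
        (by unfold e4; split_ifs <;> omega)))⟩) (hdsup (K + 3) (by omega) (by omega))
  have e4K2 : e4 K (K + 2) = 4 := by unfold e4; split_ifs <;> omega
  have b4 : UB L 4 (bj L φ d (K + 2)) := by
    have := close hB hη hI hL (e := e4 K) (J := K + 1) (expOK_e4 hK) cb4
      (by rw [e4K2]; exact r4)
    rwa [e4K2] at this
  have hd3 : UB L 3 (dj d (K + 2)) := by
    refine recover hB hg hI.sm (e := 4) (Or.inl rfl) (K + 2) ?_ (hdsup (K + 2) (by omega) (by omega))
    intro l hl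
    rcases Nat.lt_or_ge l (K + 2) with h | h
    · exact (cb4 l h).mono_exp ((expOK_e4 hK).mono l (K + 2) (by omega) le_rfl |>.trans e4K2.le)
    · obtain rfl : l = K + 2 := by omega
      exact b4
  -- pass 2
  have e2le : ∀ l, e2 K l ≤ 2 := fun l => by unfold e2; split_ifs <;> omega
  have e2K1 : e2 K (K + 1) = 2 := by unfold e2; split_ifs <;> omega
  have r2 := pass2 hB hg hE (sm_hs hB hη hI) hI.sm (eq_hs hI) (K + 1)
    (fun l hl => ⟨(cb2 l hl).mono_exp (e2le l), ub_shift ((ch2 l hl).mono_exp (e2le l))⟩) hd3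
  have b2 : UB L 2 (bj L φ d (K + 1)) := by
    have := close hB hη hI hL (e := e2 K) (J := K) (expOK_e2 hK) cb2
      (by rw [e2K1]; exact r2)
    rwa [e2K1] at this
  have hd1 : UB L 1 (dj d (K + 1)) := by
    refine recover hB hg hI.sm (e := 2) (Or.inr (Or.inl rfl)) (K + 1) ?_
      (hdsup (K + 1) (by omega) (by omega))
    intro l hl
    rcases Nat.lt_or_ge l (K + 1) with h | h
    · exact (cb2 l h).mono_exp (e2le l)
    · obtain rfl : l = K + 1 := by omega
      exact b2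
  -- pass 0
  have r0 := pass0 hB hg hE (sm_hs hB hη hI) hI.sm (eq_hs hI) K
    (fun l hl => ⟨hb0 l hl, ub_shift (ch0 l hl)⟩) hd1
  have b0 : UB L 0 (bj L φ d K) := by
    obtain ⟨K', rfl⟩ : ∃ K', K = K' + 1 := ⟨K - 1, by omega⟩
    exact close hB hη hI hL (e := fun _ => 0) (J := K') (expOK_zero _) hb0 r0
  have hd0 : UB L 0 (dj d K) := by
    refine recover hB hg hI.sm (e := 0) (Or.inr (Or.inr rfl)) K ?_
      (hdsup K (by omega) (by omega))
    intro l hl
    rcases Nat.lt_or_ge l K with h | h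
    · exact hb0 l h
    · obtain rfl : l = K := by omega
      exact b0
  refine ⟨⟨hball, ?_, ?_, ?_⟩, hd0⟩
  · intro l hl
    rcases Nat.lt_or_ge l K with h | h
    · exact hb0 l h
    · obtain rfl : l = K := by omega
      exact b0
  · intro l hl
    obtain rfl : l = K + 1 := by omega
    exact b2
  · intro l hl
    obtain rfl : l = K + 2 := by omega
    exact b4

theorem hyp_all (hB : Bg c0 C0 g L φ m) (hg : Prof c0 C0 g) (hκ : κ ∈ Ioo (1 / 8 : ℝ) (1 / 4))
    (hη : EtaOK η) (hE : Sm (Ioo 0 1) L E) (hI : Iter κ L φ E η d) (n : ℕ) :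
    Hyp L φ d (n + 5 + 4) := by
  induction n with
  | zero => exact base hB hκ hI
  | succ n ih => exact (step hB hg hη hE hI (K := n + 5) (by omega) ih).1

theorem ub_dj (hB : Bg c0 C0 g L φ m) (hg : Prof c0 C0 g) (hκ : κ ∈ Ioo (1 / 8 : ℝ) (1 / 4))
    (hη : EtaOK η) (hE : Sm (Ioo 0 1) L E) (hI : Iter κ L φ E η d) (J : ℕ) :
    UB L 0 (dj d J) := by
  rcases Nat.lt_or_ge J 5 with h | h
  · exact base_d hB hI J (by omega)
  · obtain ⟨n, rfl⟩ : ∃ n, J = n + 5 := ⟨J - 5, by omega⟩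
    exact (step hB hg hη hE hI (K := n + 5) (by omega) (hyp_all hB hg hκ hη hE hI n)).2

theorem all_levels (hB : Bg c0 C0 g L φ m) (hg : Prof c0 C0 g)
    (hκ : κ ∈ Ioo (1 / 8 : ℝ) (1 / 4)) (hη : EtaOK η) (hE : Sm (Ioo 0 1) L E)
    (hI : Iter κ L φ E η d) :
    ∀ (J : ℕ) (τ1 : ℝ), 0 < τ1 → ∃ M : ℝ, ∀ i, ∀ τ ∈ Ioo τ1 (3 / 8), ∀ x ∈ Icc 0 L,
      |(dt^[J] (d i)) τ x| ≤ M := by
  intro J τ1 hτ1
  have hL : 0 < L := by linarith [hB.L_ge]
  rcases lt_or_ge τ1 (3 / 8) with h | h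
  · obtain ⟨C, hC⟩ := ub_dj hB hg hκ hη hE hI J τ1 (3 / 8) hτ1 h (by norm_num)
    refine ⟨C, fun i τ hτ x hx => ?_⟩
    have hτ' : τ ∈ Ioo (0 : ℝ) 1 := ⟨hτ1.trans hτ.1, by linarith [hτ.2]⟩
    have hcont : ContinuousOn (fun y => |(dt^[J] (d i)) τ y|) (Icc 0 L) :=
      (((hI.sm i).dt_iter isOpen_Ioo hL J).continuousOn_right hτ').abs
    have hcl : Icc 0 L = closure (Ioo 0 L) := (closure_Ioo hL.ne).symm
    have hx' : x ∈ closure (Ioo 0 L) := hcl ▸ hx
    have hin : ∀ y ∈ Ioo 0 L, |(dt^[J] (d i)) τ y| ≤ C := fun y hy => by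
      have := hC i τ ⟨hτ.1.le, hτ.2.le⟩ y hy
      simpa [dj] using this
    have hcw : ContinuousWithinAt (fun y => |(dt^[J] (d i)) τ y|) (Ioo 0 L) x :=
      (hcont x hx).mono Ioo_subset_Icc_self
    have : (𝓝[Ioo 0 L] x).NeBot := mem_closure_iff_nhdsWithin_neBot.1 hx'
    exact le_of_tendsto hcw (eventually_nhdsWithin_of_forall hin)
  · exact ⟨0, fun i τ hτ => absurd (hτ.1.trans hτ.2) (not_lt.2 h)⟩

end Crest.Agent.R213.C8.H302
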