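import Crest.Agent.R213.C.C8Defs
import Crest.Agent.R213.C.AllJAlg

/-!
# Row 213, part C8: closure lemmas for `UB`, `UL2`, `USup`
-/

set_option autoImplicit false

open Set MeasureTheory Filter Topology

noncomputable section

namespace Crest.Agent.R213.C8

open Crest.Agent.R213 Crest.Agent.R213.C

variable {L : ℝ} {u v : ℕ → ℝ → ℝ → ℝ}

theorem UB.exists_nonneg {e : ℕ} (h : UB L e u) {a b : ℝ} (ha : 0 < a) (hab : a < b)
    (hb : b < 1 / 2) :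
    ∃ C : ℝ, 0 ≤ C ∧ ∀ i, ∀ τ ∈ Icc a b, ∀ x ∈ Ioo 0 L, |u i τ x| * x ^ e ≤ C := by
  obtain ⟨C, hC⟩ := h a b ha hab hb
  exact ⟨max C 0, le_max_right _ _, fun i τ hτ x hx => (hC i τ hτ x hx).trans (le_max_left _ _)⟩

theorem UB.mono_exp {e e' : ℕ} (he : e ≤ e') (h : UB L e u) : UB L e' u := by
  intro a b ha hab hb
  obtain ⟨C, hC0, hC⟩ := h.exists_nonneg ha hab hb
  refine ⟨C * (max L 0) ^ (e' - e), fun i τ hτ x hx => ?_⟩
  have h1 : x ^ e' = x ^ e * x ^ (e' - e) := by rw [← pow_add, Nat.add_sub_cancel' he]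
  have hx0 : 0 ≤ x := hx.1.le
  rw [h1, ← mul_assoc]
  exact mul_le_mul (hC i τ hτ x hx) (pow_le_pow_left₀ hx0 (hx.2.le.trans (le_max_left _ _)) _)
    (by positivity) hC0

/-- a common constant for finitely many levels -/
theorem UB.common {n : ℕ} {e : ℕ → ℕ} {v : ℕ → ℕ → ℝ → ℝ → ℝ}
    (h : ∀ l < n, UB L (e l) (v l)) {a b : ℝ} (ha : 0 < a) (hab : a < b) (hb : b < 1 / 2) :
    ∃ C : ℝ, 0 ≤ C ∧ ∀ l < n, ∀ i, ∀ τ ∈ Icc a b, ∀ x ∈ Ioo 0 L, |v l i τ x| * x ^ e l ≤ C := by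
  induction n with
  | zero => exact ⟨0, le_rfl, fun l hl => absurd hl (Nat.not_lt_zero l)⟩
  | succ n ih =>
    obtain ⟨C, hC0, hC⟩ := ih fun l hl => h l (Nat.lt_succ_of_lt hl)
    obtain ⟨C', hC0', hC'⟩ := (h n (Nat.lt_succ_self n)).exists_nonneg ha hab hb
    refine ⟨max C C', le_max_of_le_left hC0, fun l hl i τ hτ x hx => ?_⟩
    rcases Nat.lt_succ_iff_lt_or_eq.mp hl with hl | rfl
    · exact (hC l hl i τ hτ x hx).trans (le_max_left _ _)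
    · exact (hC' i τ hτ x hx).trans (le_max_right _ _)

theorem UL2.exists_nonneg (h : UL2 L u) {a b : ℝ} (ha : 0 < a) (hab : a < b)
    (hb : b < 1 / 2) : ∃ C : ℝ, 0 ≤ C ∧ ∀ i, ∫ t in a..b, nsq L (u i) t ≤ C := by
  obtain ⟨C, hC⟩ := h a b ha hab hb
  exact ⟨max C 0, le_max_right _ _, fun i => (hC i).trans (le_max_left _ _)⟩

theorem UL2.common {n : ℕ} {v : ℕ → ℕ → ℝ → ℝ → ℝ}
    (h : ∀ l < n, UL2 L (v l)) {a b : ℝ} (ha : 0 < a) (hab : a < b) (hb : b < 1 / 2) :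
    ∃ C : ℝ, 0 ≤ C ∧ ∀ l < n, ∀ i, ∫ t in a..b, nsq L (v l i) t ≤ C := by
  induction n with
  | zero => exact ⟨0, le_rfl, fun l hl => absurd hl (Nat.not_lt_zero l)⟩
  | succ n ih =>
    obtain ⟨C, hC0, hC⟩ := ih fun l hl => h l (Nat.lt_succ_of_lt hl)
    obtain ⟨C', hC0', hC'⟩ := (h n (Nat.lt_succ_self n)).exists_nonneg ha hab hb
    refine ⟨max C C', le_max_of_le_left hC0, fun l hl i => ?_⟩
    rcases Nat.lt_succ_iff_lt_or_eq.mp hl with hl | rfl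
    · exact (hC l hl i).trans (le_max_left _ _)
    · exact (hC' i).trans (le_max_right _ _)

/-- fixed time comparison of the norms, with a finite sum on the right -/
theorem nsq_le_sum (hL : 0 < L) {ι : Type*} (I : Finset ι) {s : Set ℝ} {f : ℝ → ℝ → ℝ}
    {w : ι → ℝ → ℝ → ℝ} {τ : ℝ} (hτ : τ ∈ s) (hf : Sm s L f) (hw : ∀ k ∈ I, Sm s L (w k)) {A : ℝ}
    (h : ∀ x ∈ Ioo 0 L, |f τ x| ≤ A * ∑ k ∈ I, |w k τ x|) :
    nsq L f τ ≤ A ^ 2 * I.card * ∑ k ∈ I, nsq L (w k) τ := by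
  have hfc := hf.continuousOn_right hτ
  have hwc : ∀ k ∈ I, ContinuousOn (w k τ) (Icc 0 L) := fun k hk => (hw k hk).continuousOn_right hτ
  have hint : ∀ k ∈ I, IntervalIntegrable (fun x => x ^ 9 * w k τ x ^ 2) volume 0 L := by
    intro k hk
    have := hwc k hk
    exact ContinuousOn.intervalIntegrable (by rw [uIcc_of_le hL.le]; fun_prop)
  have e1 : A ^ 2 * I.card * ∑ k ∈ I, nsq L (w k) τ =
      ∫ x in (0 : ℝ)..L, A ^ 2 * I.card * ∑ k ∈ I, x ^ 9 * w k τ x ^ 2 := by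
    rw [intervalIntegral.integral_const_mul, intervalIntegral.integral_finset_sum hint]
    rfl
  rw [e1]
  unfold nsq
  refine intervalIntegral.integral_mono_on_of_le_Ioo hL.le
    (ContinuousOn.intervalIntegrable (by rw [uIcc_of_le hL.le]; fun_prop)) ?_ fun x hx => ?_
  · refine ContinuousOn.intervalIntegrable ?_
    rw [uIcc_of_le hL.le]
    refine continuousOn_const.mul (continuousOn_finset_sum _ fun k hk => ?_)
    have := hwc k hk
    fun_prop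
  · have h9 : 0 ≤ x ^ 9 := pow_nonneg hx.1.le 9
    have h1 : f τ x ^ 2 ≤ (A * ∑ k ∈ I, |w k τ x|) ^ 2 := by
      have := h x hx
      have h0 := abs_nonneg (f τ x)
      rw [← sq_abs (f τ x)]
      exact pow_le_pow_left₀ h0 this 2
    have h2 : (∑ k ∈ I, |w k τ x|) ^ 2 ≤ I.card * ∑ k ∈ I, |w k τ x| ^ 2 :=
      sq_sum_le_card_mul_sum_sq
    have h3 : ∑ k ∈ I, |w k τ x| ^ 2 = ∑ k ∈ I, w k τ x ^ 2 :=
      Finset.sum_congr rfl fun k _ => sq_abs _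
    calc x ^ 9 * f τ x ^ 2 ≤ x ^ 9 * (A * ∑ k ∈ I, |w k τ x|) ^ 2 :=
          mul_le_mul_of_nonneg_left h1 h9
      _ = x ^ 9 * (A ^ 2 * (∑ k ∈ I, |w k τ x|) ^ 2) := by ring
      _ ≤ x ^ 9 * (A ^ 2 * (I.card * ∑ k ∈ I, |w k τ x| ^ 2)) := by gcongr
      _ = A ^ 2 * I.card * ∑ k ∈ I, x ^ 9 * w k τ x ^ 2 := by
          rw [h3, ← Finset.mul_sum]; ring

theorem ii_nsq (hL : 0 < L) {f : ℝ → ℝ → ℝ} (hf : Sm (Ioo 0 (1 / 2)) L f) {a b : ℝ} (ha : 0 < a)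
    (hab : a ≤ b) (hb : b < 1 / 2) : IntervalIntegrable (nsq L f) volume a b :=
  ContinuousOn.intervalIntegrable (by
    rw [uIcc_of_le hab]
    exact (continuousOn_nsq isOpen_Ioo hL.le hf).mono fun t ht =>
      ⟨ha.trans_le ht.1, ht.2.trans_lt hb⟩)

/-- closure of `UL2` under pointwise domination by finite sums -/
theorem UL2.of_le (hL : 0 < L) {ι : Type*} (I : Finset ι) {w : ι → ℕ → ℝ → ℝ → ℝ}
    (hu : ∀ i, Sm (Ioo 0 (1 / 2)) L (u i)) (hw : ∀ k ∈ I, ∀ i, Sm (Ioo 0 (1 / 2)) L (w k i))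
    (hw2 : ∀ k ∈ I, UL2 L (w k))
    (h : ∀ a b : ℝ, 0 < a → a < b → b < 1 / 2 → ∃ C : ℝ, ∀ i, ∀ τ ∈ Icc a b, ∀ x ∈ Ioo 0 L,
      |u i τ x| ≤ C * ∑ k ∈ I, |w k i τ x|) : UL2 L u := by
  classical
  intro a b ha hab hb
  obtain ⟨A, hA⟩ := h a b ha hab hb
  have hcm : ∀ k ∈ I, ∃ C : ℝ, ∀ i, ∫ t in a..b, nsq L (w k i) t ≤ C := fun k hk =>
    hw2 k hk a b ha hab hb
  choose! C hC using hcm
  refine ⟨A ^ 2 * I.card * ∑ k ∈ I, C k, fun i => ?_⟩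
  have e1 : ∫ t in a..b, A ^ 2 * I.card * ∑ k ∈ I, nsq L (w k i) t =
      A ^ 2 * I.card * ∑ k ∈ I, ∫ t in a..b, nsq L (w k i) t := by
    rw [intervalIntegral.integral_const_mul, intervalIntegral.integral_finset_sum]
    exact fun k hk => ii_nsq hL (hw k hk i) ha hab.le hb
  calc ∫ t in a..b, nsq L (u i) t ≤ ∫ t in a..b, A ^ 2 * I.card * ∑ k ∈ I, nsq L (w k i) t := by
        refine intervalIntegral.integral_mono_on hab.le (ii_nsq hL (hu i) ha hab.le hb) ?_ ?_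
        · refine IntervalIntegrable.const_mul ?_ _
          have : (fun t => ∑ k ∈ I, nsq L (w k i) t) = ∑ k ∈ I, nsq L (w k i) := by
            ext t; simp
          rw [this]
          exact IntervalIntegrable.sum _ fun k hk => ii_nsq hL (hw k hk i) ha hab.le hb
        · intro t ht
          have hts : t ∈ Ioo (0 : ℝ) (1 / 2) := ⟨ha.trans_le ht.1, ht.2.trans_lt hb⟩
          exact nsq_le_sum hL I hts (hu i) (fun k hk => hw k hk i) (hA i t ht)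
    _ = _ := e1
    _ ≤ _ := by
        refine mul_le_mul_of_nonneg_left (Finset.sum_le_sum fun k hk => hC k hk i) (by positivity)

/-- `USup` from `UL2` of `u` and `∂_τ u`. -/
theorem USup.of_UL2 (hL : 0 < L) (hu : ∀ i, Sm (Ioo 0 (1 / 2)) L (u i)) (h1 : UL2 L u)
    (h2 : UL2 L (fun i => dt (u i))) : USup L u := by
  intro a b ha hab hb
  obtain ⟨C1, hC1, H1⟩ := h1.exists_nonneg ha hab hb
  obtain ⟨C2, hC2, H2⟩ := h2.exists_nonneg ha hab hb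
  refine ⟨2 / (b - a) * C1 + 2 * (b - a) * C2, fun i τ hτ => ?_⟩
  have hba : 0 < b - a := sub_pos.2 hab
  have hsub : Icc a b ⊆ Ioo (0 : ℝ) (1 / 2) := fun t ht => ⟨ha.trans_le ht.1, ht.2.trans_lt hb⟩
  refine (sup_loc isOpen_Ioo hL (hu i) hab hsub hτ).trans (add_le_add ?_ ?_)
  · exact mul_le_mul_of_nonneg_left (H1 i) (by positivity)
  · exact mul_le_mul_of_nonneg_left (H2 i) (by positivity)

end Crest.Agent.R213.C8
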