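import Crest.Agent.R213.C.AllJNl

/-!
# Row 213, part C8: the energy step at level `J` and the iteration in `i` (`L²`)
-/

set_option autoImplicit false

open Set MeasureTheory Filter Topology

noncomputable section

namespace Crest.Agent.R213.C8

open Crest.Agent.R213 Crest.Agent.R213.C

variable {L : ℝ} {η : ℝ → ℝ} {b h : ℕ → ℝ → ℝ → ℝ}

/-- cut-off functions in time -/
theorem exists_cut {a c : ℝ} (ha : 0 < a) (hac : a < c) (hc : c < 1 / 2) :
    ∃ (ζ : ℝ → ℝ) (a' c' : ℝ), ContDiff ℝ (⊤ : ℕ∞) ζ ∧ 0 < a' ∧ a' < a ∧ c < c' ∧ c' < 1 / 2 ∧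
      (∀ τ ∈ Icc a c, ζ τ = 1) ∧ (∀ τ, τ ∉ Icc a' c' → ζ τ = 0) := by
  set r := min a (1 / 2 - c) / 2 with hr
  have hr0 : 0 < r := by
    have : 0 < min a (1 / 2 - c) := lt_min ha (by linarith)
    positivity
  have hra : r ≤ a / 2 := by
    have := min_le_left a (1 / 2 - c)
    rw [hr]; linarith
  have hrc : r ≤ (1 / 2 - c) / 2 := by
    have := min_le_right a (1 / 2 - c)
    rw [hr]; linarith
  let f : ContDiffBump ((a + c) / 2) := ⟨(c - a) / 2, (c - a) / 2 + r, by linarith, by linarith⟩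
  refine ⟨f, a - r, c + r, f.contDiff, by linarith, by linarith, by linarith, by linarith,
    fun τ hτ => ?_, fun τ hτ => ?_⟩
  · refine f.one_of_mem_closedBall ?_
    rw [Real.closedBall_eq_Icc, mem_Icc]
    show (a + c) / 2 - (c - a) / 2 ≤ τ ∧ τ ≤ (a + c) / 2 + (c - a) / 2
    constructor <;> linarith [hτ.1, hτ.2]
  · have h1 : τ ∉ Function.support f := by
      rw [f.support_eq, Real.ball_eq_Ioo]
      show τ ∉ Ioo ((a + c) / 2 - ((c - a) / 2 + r)) ((a + c) / 2 + ((c - a) / 2 + r))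
      intro h
      exact hτ ⟨by linarith [h.1], by linarith [h.2]⟩
    simpa using h1

/-- `y_{i+1} ≤ y_i / 2 + C` implies boundedness. -/
theorem bdd_of_rec {y : ℕ → ℝ} {C : ℝ} (h : ∀ i, y (i + 1) ≤ 1 / 2 * y i + C) :
    ∀ i, y i ≤ max (y 0) (2 * C) := by
  intro i
  induction i with
  | zero => exact le_max_left _ _
  | succ i ih =>
    have h1 := h i
    have h2 : 2 * C ≤ max (y 0) (2 * C) := le_max_right _ _
    linarith

/-- fixed time: `nsq h ≤ (1/32) nsq b + A' ∑ nsq w` if `|h| ≤ |b|/8 + A ∑ |w|`. -/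
theorem nsq_le_add (hL : 0 < L) {ι : Type*} (I : Finset ι) {s : Set ℝ} {f p : ℝ → ℝ → ℝ}
    {w : ι → ℝ → ℝ → ℝ} {τ : ℝ} (hτ : τ ∈ s) (hf : Sm s L f) (hp : Sm s L p)
    (hw : ∀ k ∈ I, Sm s L (w k)) {A : ℝ}
    (h : ∀ x ∈ Ioo 0 L, |f τ x| ≤ 1 / 8 * |p τ x| + A * ∑ k ∈ I, |w k τ x|) :
    nsq L f τ ≤ 1 / 32 * nsq L p τ + 2 * A ^ 2 * I.card * ∑ k ∈ I, nsq L (w k) τ := by
  have hfc := hf.continuousOn_right hτ
  have hpc := hp.continuousOn_right hτ
  have hwc : ∀ k ∈ I, ContinuousOn (w k τ) (Icc 0 L) := fun k hk => (hw k hk).continuousOn_right hτ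
  have hint : ∀ k ∈ I, IntervalIntegrable (fun x => x ^ 9 * w k τ x ^ 2) volume 0 L := by
    intro k hk
    have := hwc k hk
    exact ContinuousOn.intervalIntegrable (by rw [uIcc_of_le hL.le]; fun_prop)
  have hsum : ContinuousOn (fun x => 2 * A ^ 2 * I.card * ∑ k ∈ I, x ^ 9 * w k τ x ^ 2)
      (Icc 0 L) := by
    refine continuousOn_const.mul (continuousOn_finsetSum _ fun k hk => ?_)
    have := hwc k hk
    fun_prop
  have e1 : 1 / 32 * nsq L p τ + 2 * A ^ 2 * I.card * ∑ k ∈ I, nsq L (w k) τ =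
      ∫ x in (0 : ℝ)..L, (1 / 32 * (x ^ 9 * p τ x ^ 2) +
        2 * A ^ 2 * I.card * ∑ k ∈ I, x ^ 9 * w k τ x ^ 2) := by
    rw [intervalIntegral.integral_add, intervalIntegral.integral_const_mul,
      intervalIntegral.integral_const_mul, intervalIntegral.integral_finsetSum hint]
    · rfl
    · exact ContinuousOn.intervalIntegrable (by rw [uIcc_of_le hL.le]; fun_prop)
    · exact ContinuousOn.intervalIntegrable (by rw [uIcc_of_le hL.le]; exact hsum)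
  rw [e1]
  unfold nsq
  refine intervalIntegral.integral_mono_on_of_le_Ioo hL.le
    (ContinuousOn.intervalIntegrable (by rw [uIcc_of_le hL.le]; fun_prop)) ?_ fun x hx => ?_
  · refine ContinuousOn.intervalIntegrable ?_
    rw [uIcc_of_le hL.le]
    refine ContinuousOn.add ?_ hsum
    fun_prop
  · have h9 : 0 ≤ x ^ 9 := pow_nonneg hx.1.le 9
    set S := ∑ k ∈ I, |w k τ x| with hS
    have h1 : f τ x ^ 2 ≤ 1 / 32 * p τ x ^ 2 + 2 * A ^ 2 * S ^ 2 := by
      have h2 := h x hx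
      have h0 := abs_nonneg (f τ x)
      have h3 : |f τ x| ^ 2 ≤ (1 / 8 * |p τ x| + A * S) ^ 2 := pow_le_pow_left₀ h0 h2 2
      rw [← sq_abs (f τ x), ← sq_abs (p τ x)]
      nlinarith [sq_nonneg (1 / 8 * |p τ x| - A * S)]
    have h2 : S ^ 2 ≤ I.card * ∑ k ∈ I, |w k τ x| ^ 2 := sq_sum_le_card_mul_sum_sq
    have h3 : ∑ k ∈ I, |w k τ x| ^ 2 = ∑ k ∈ I, w k τ x ^ 2 :=
      Finset.sum_congr rfl fun k _ => sq_abs _
    rw [h3] at h2
    calc x ^ 9 * f τ x ^ 2 ≤ x ^ 9 * (1 / 32 * p τ x ^ 2 + 2 * A ^ 2 * S ^ 2) :=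
          mul_le_mul_of_nonneg_left h1 h9
      _ ≤ x ^ 9 * (1 / 32 * p τ x ^ 2 + 2 * A ^ 2 * (I.card * ∑ k ∈ I, w k τ x ^ 2)) := by gcongr
      _ = _ := by rw [← Finset.mul_sum]; ring

/-- **energy step**: level `J+1` of `b` is in `UL2`. The hypothesis `hen` is the local energy
inequality for the pairs `(h i, b (i+1))`. -/
theorem energy_step (hL : 0 < L) {J : ℕ} (hN : ∀ i, NL (Ioo 0 (1 / 2)) L η (b i) (h i))
    (hb : ∀ i, ∀ τ ∈ Ioo (0 : ℝ) (1 / 2), ∀ x ∈ Icc 0 L, |b i τ x| ≤ 1 / 20)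
    (h1 : ∀ l, 2 * l ≤ J + 1 → UB L 0 (fun i => dt^[l] (b i)))
    (h2 : ∀ l, 2 * l ≤ J + 1 → UB L 0 (fun i => dt^[l] (h i)))
    (h3 : ∀ l < J + 1, UL2 L (fun i => dt^[l] (b i)))
    (h4 : ∀ l < J + 1, UL2 L (fun i => dt^[l] (h i)))
    (hen : ∀ ζ : ℝ → ℝ, ContDiff ℝ (⊤ : ℕ∞) ζ → ∀ a c : ℝ, 0 < a → a < c → c < 1 / 2 →
      (∀ τ, τ ∉ Icc a c → ζ τ = 0) → ∃ C : ℝ, ∀ i,
      ∫ τ in a..c, ζ τ ^ 2 * nsq L (dt^[J + 1] (b (i + 1))) τ ≤
        3 * (∫ τ in a..c, ζ τ ^ 2 * nsq L (dt^[J + 1] (h i)) τ) +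
        C * (1 + ∑ l ∈ Finset.range (J + 1), ∫ τ in a..c, (nsq L (dt^[l] (b (i + 1))) τ +
          nsq L (dt^[l] (h i)) τ))) :
    UL2 L (fun i => dt^[J + 1] (b i)) := by
  have smb : ∀ l i, Sm (Ioo 0 (1 / 2)) L (dt^[l] (b i)) := fun l i =>
    (hN i).smb.dt_iter isOpen_Ioo hL l
  have smh : ∀ l i, Sm (Ioo 0 (1 / 2)) L (dt^[l] (h i)) := fun l i =>
    (hN i).smh.dt_iter isOpen_Ioo hL l
  intro a c ha hac hc
  obtain ⟨ζ, a', c', hζ, ha', haa, hcc, hc', hone, hzero⟩ := exists_cut ha hac hc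
  have hac' : a' < c' := by linarith
  obtain ⟨C, hC⟩ := hen ζ hζ a' c' ha' hac' hc' hzero
  obtain ⟨A, hA0, hA⟩ := h_level_l2 (J := J) hN hb h1 h2 ha' hac' hc'
  obtain ⟨B1, hB10, hB1⟩ := UL2.common h3 ha' hac' hc'
  obtain ⟨B2, hB20, hB2⟩ := UL2.common h4 ha' hac' hc'
  obtain ⟨Z, hZ⟩ := (isCompact_Icc (a := a') (b := c')).exists_bound_of_continuousOn
    (hζ.continuous.continuousOn (s := Icc a' c'))
  have hZ0 : ∀ τ ∈ Icc a' c', ζ τ ^ 2 ≤ Z ^ 2 := fun τ hτ => by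
    have := hZ τ hτ
    rw [Real.norm_eq_abs] at this
    rw [← sq_abs (ζ τ)]
    exact pow_le_pow_left₀ (abs_nonneg _) this 2
  have hsub : Icc a' c' ⊆ Ioo (0 : ℝ) (1 / 2) := fun t ht => mem_half ha' hc' ht
  have cn : ∀ {f : ℝ → ℝ → ℝ}, Sm (Ioo 0 (1 / 2)) L f → ContinuousOn (nsq L f) (Icc a' c') :=
    fun hf => (continuousOn_nsq isOpen_Ioo hL.le hf).mono hsub
  have ii : ∀ {f : ℝ → ℝ}, ContinuousOn f (Icc a' c') → IntervalIntegrable f volume a' c' :=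
    fun hf => ContinuousOn.intervalIntegrable (by rwa [uIcc_of_le hac'.le])
  have cζ : ContinuousOn ζ (Icc a' c') := hζ.continuous.continuousOn
  -- index family of lower levels
  let w : ℕ ⊕ ℕ → ℕ → ℝ → ℝ → ℝ := fun k i =>
    match k with
    | Sum.inl q => dt^[q] (b i)
    | Sum.inr q => dt^[q] (h i)
  set I : Finset (ℕ ⊕ ℕ) := (Finset.range (J + 1)).disjSum (Finset.range (J + 1)) with hI
  have smw : ∀ k i, Sm (Ioo 0 (1 / 2)) L (w k i) := by
    rintro (q | q) i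
    · exact smb q i
    · exact smh q i
  have hwb : ∀ k ∈ I, ∀ i, ∫ t in a'..c', nsq L (w k i) t ≤ B1 + B2 := by
    rintro (q | q) hq i
    · have := hB1 q (Finset.mem_range.mp (Finset.inl_mem_disjSum.mp hq)) i
      exact this.trans (by linarith)
    · have := hB2 q (Finset.mem_range.mp (Finset.inr_mem_disjSum.mp hq)) i
      exact this.trans (by linarith)
  -- bound of the `h` term
  have hterm : ∀ i, ∫ τ in a'..c', ζ τ ^ 2 * nsq L (dt^[J + 1] (h i)) τ ≤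
      1 / 32 * (∫ τ in a'..c', ζ τ ^ 2 * nsq L (dt^[J + 1] (b i)) τ) +
        Z ^ 2 * (2 * A ^ 2 * I.card * (I.card * (B1 + B2))) := by
    intro i
    have hpt : ∀ τ ∈ Icc a' c', ζ τ ^ 2 * nsq L (dt^[J + 1] (h i)) τ ≤
        1 / 32 * (ζ τ ^ 2 * nsq L (dt^[J + 1] (b i)) τ) +
          Z ^ 2 * (2 * A ^ 2 * I.card * ∑ k ∈ I, nsq L (w k i) τ) := by
      intro τ hτ
      have hS : ∀ x ∈ Ioo 0 L, |(dt^[J + 1] (h i)) τ x| ≤
          1 / 8 * |(dt^[J + 1] (b i)) τ x| + A * ∑ k ∈ I, |w k i τ x| := by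
        intro x hx
        refine (hA i τ hτ x hx).trans (le_of_eq ?_)
        rw [hI, Finset.sum_disjSum, Finset.sum_add_distrib]
      have key := nsq_le_add hL I (hsub hτ) (smh (J + 1) i) (smb (J + 1) i)
        (fun k _ => smw k i) hS
      have hn : 0 ≤ ∑ k ∈ I, nsq L (w k i) τ :=
        Finset.sum_nonneg fun k _ => nsq_nonneg hL.le _ _
      have hz := hZ0 τ hτ
      calc ζ τ ^ 2 * nsq L (dt^[J + 1] (h i)) τ
          ≤ ζ τ ^ 2 * (1 / 32 * nsq L (dt^[J + 1] (b i)) τ +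
            2 * A ^ 2 * I.card * ∑ k ∈ I, nsq L (w k i) τ) :=
            mul_le_mul_of_nonneg_left key (sq_nonneg _)
        _ = 1 / 32 * (ζ τ ^ 2 * nsq L (dt^[J + 1] (b i)) τ) +
            ζ τ ^ 2 * (2 * A ^ 2 * I.card * ∑ k ∈ I, nsq L (w k i) τ) := by ring
        _ ≤ _ := by gcongr
    have c1 : ContinuousOn (fun τ => 1 / 32 * (ζ τ ^ 2 * nsq L (dt^[J + 1] (b i)) τ))
        (Icc a' c') := continuousOn_const.mul ((cζ.pow 2).mul (cn (smb _ i)))
    have c3 : ContinuousOn (fun τ => ∑ k ∈ I, nsq L (w k i) τ) (Icc a' c') :=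
      continuousOn_finsetSum _ fun k _ => cn (smw k i)
    have c2 : ContinuousOn (fun τ => Z ^ 2 * (2 * A ^ 2 * I.card * ∑ k ∈ I, nsq L (w k i) τ))
        (Icc a' c') := continuousOn_const.mul (continuousOn_const.mul c3)
    have c12 : ContinuousOn (fun τ => 1 / 32 * (ζ τ ^ 2 * nsq L (dt^[J + 1] (b i)) τ) +
        Z ^ 2 * (2 * A ^ 2 * I.card * ∑ k ∈ I, nsq L (w k i) τ)) (Icc a' c') := c1.add c2
    refine (intervalIntegral.integral_mono_on hac'.le (ii ((cζ.pow 2).mul (cn (smh _ i))))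
      (ii c12) hpt).trans ?_
    rw [intervalIntegral.integral_add (ii c1) (ii c2), intervalIntegral.integral_const_mul,
      intervalIntegral.integral_const_mul, intervalIntegral.integral_const_mul,
      intervalIntegral.integral_finsetSum fun k _ => ii (cn (smw k i))]
    have hs : ∑ k ∈ I, ∫ τ in a'..c', nsq L (w k i) τ ≤ I.card * (B1 + B2) := by
      calc ∑ k ∈ I, ∫ τ in a'..c', nsq L (w k i) τ ≤ ∑ _k ∈ I, (B1 + B2) :=
            Finset.sum_le_sum fun k hk => hwb k hk i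
        _ = I.card * (B1 + B2) := by rw [Finset.sum_const, nsmul_eq_mul]
    gcongr
  -- bound of the lower order terms
  have hlow : ∀ i, C * (1 + ∑ l ∈ Finset.range (J + 1),
      ∫ τ in a'..c', (nsq L (dt^[l] (b (i + 1))) τ + nsq L (dt^[l] (h i)) τ)) ≤
      |C| * (1 + (J + 1) * (B1 + B2)) := by
    intro i
    have hs0 : 0 ≤ ∑ l ∈ Finset.range (J + 1),
      ∫ τ in a'..c', (nsq L (dt^[l] (b (i + 1))) τ + nsq L (dt^[l] (h i)) τ) := by
      refine Finset.sum_nonneg fun l _ => intervalIntegral.integral_nonneg hac'.le fun t _ => ?_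
      exact add_nonneg (nsq_nonneg hL.le _ _) (nsq_nonneg hL.le _ _)
    have hs : ∑ l ∈ Finset.range (J + 1),
      ∫ τ in a'..c', (nsq L (dt^[l] (b (i + 1))) τ + nsq L (dt^[l] (h i)) τ) ≤
        (J + 1) * (B1 + B2) := by
      calc _ ≤ ∑ _l ∈ Finset.range (J + 1), (B1 + B2) := by
            refine Finset.sum_le_sum fun l hl => ?_
            rw [intervalIntegral.integral_add (ii (cn (smb l _))) (ii (cn (smh l _)))]
            exact add_le_add (hB1 l (Finset.mem_range.mp hl) _) (hB2 l (Finset.mem_range.mp hl) _)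
        _ = (J + 1) * (B1 + B2) := by
            rw [Finset.sum_const, nsmul_eq_mul, Finset.card_range]; push_cast; ring
    calc _ ≤ |C| * (1 + ∑ l ∈ Finset.range (J + 1),
          ∫ τ in a'..c', (nsq L (dt^[l] (b (i + 1))) τ + nsq L (dt^[l] (h i)) τ)) :=
          mul_le_mul_of_nonneg_right (le_abs_self C) (by linarith)
      _ ≤ _ := by gcongr
  -- recursion
  set D := 3 * (Z ^ 2 * (2 * A ^ 2 * I.card * (I.card * (B1 + B2)))) +
    |C| * (1 + (J + 1) * (B1 + B2)) with hD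
  have hrec : ∀ i, ∫ τ in a'..c', ζ τ ^ 2 * nsq L (dt^[J + 1] (b (i + 1))) τ ≤
      1 / 2 * (∫ τ in a'..c', ζ τ ^ 2 * nsq L (dt^[J + 1] (b i)) τ) + D := by
    intro i
    have e1 := hC i
    have e2 := hterm i
    have e3 := hlow i
    have e4 : 0 ≤ ∫ τ in a'..c', ζ τ ^ 2 * nsq L (dt^[J + 1] (b i)) τ :=
      intervalIntegral.integral_nonneg hac'.le fun t _ =>
        mul_nonneg (sq_nonneg _) (nsq_nonneg hL.le _ _)
    rw [hD]
    linarith
  have hb' := bdd_of_rec (y := fun i => ∫ τ in a'..c', ζ τ ^ 2 * nsq L (dt^[J + 1] (b i)) τ) hrec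
  refine ⟨_, fun i => le_trans ?_ (hb' i)⟩
  -- restriction to `[a,c]`
  have f0 : ∀ t, 0 ≤ ζ t ^ 2 * nsq L (dt^[J + 1] (b i)) t := fun t =>
    mul_nonneg (sq_nonneg _) (nsq_nonneg hL.le _ _)
  have f1 : ∫ t in a..c, nsq L (dt^[J + 1] (b i)) t =
      ∫ t in a..c, ζ t ^ 2 * nsq L (dt^[J + 1] (b i)) t := by
    refine intervalIntegral.integral_congr fun t ht => ?_
    rw [uIcc_of_le hac.le] at ht
    simp only [hone t ht, one_pow, one_mul]
  rw [f1]
  refine intervalIntegral.integral_mono_interval haa.le hac.le hcc.le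
    (Eventually.of_forall f0) (ii ((cζ.pow 2).mul (cn (smb _ i))))

end Crest.Agent.R213.C8
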