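import Crest.Agent.R213.C.AllJCl

/-!
# Row 213, part C8: classes of `h_l` from the classes of `b_l`
-/

set_option autoImplicit false

open Set MeasureTheory Filter Topology

noncomputable section

namespace Crest.Agent.R213.C8

open Crest.Agent.R213 Crest.Agent.R213.C

variable {L : ℝ} {η : ℝ → ℝ} {b h : ℕ → ℝ → ℝ → ℝ}

/-- bound of the derivatives of the cut-off on a compact interval -/
theorem eta_bound {η : ℝ → ℝ} (hη : ContDiff ℝ (⊤ : ℕ∞) η) (n : ℕ) (a c : ℝ) :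
    ∃ K : ℝ, 0 ≤ K ∧ ∀ l ≤ n, ∀ t ∈ Icc a c, |iteratedDeriv l η t| ≤ K := by
  induction n with
  | zero =>
    obtain ⟨K, hK⟩ := (isCompact_Icc (a := a) (b := c)).exists_bound_of_continuousOn
      ((hη.continuous_iteratedDeriv 0 (by simp)).continuousOn)
    refine ⟨max K 0, le_max_right _ _, fun l hl t ht => ?_⟩
    obtain rfl : l = 0 := Nat.le_zero.mp hl
    exact (hK t ht).trans (le_max_left _ _)
  | succ n ih =>
    obtain ⟨K, hK0, hK⟩ := ih
    obtain ⟨K', hK'⟩ := (isCompact_Icc (a := a) (b := c)).exists_bound_of_continuousOn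
      ((hη.continuous_iteratedDeriv (n + 1) (by exact_mod_cast le_top)).continuousOn)
    refine ⟨max K K', le_max_of_le_left hK0, fun l hl t ht => ?_⟩
    rcases Nat.lt_or_ge l (n + 1) with h | h
    · exact (hK l (Nat.lt_succ_iff.mp h) t ht).trans (le_max_left _ _)
    · obtain rfl : l = n + 1 := le_antisymm hl h
      exact (hK' t ht).trans (le_max_right _ _)

theorem mem_half {a c τ : ℝ} (ha : 0 < a) (hc : c < 1 / 2) (hτ : τ ∈ Icc a c) :
    τ ∈ Ioo (0 : ℝ) (1 / 2) := ⟨ha.trans_le hτ.1, hτ.2.trans_lt hc⟩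

/-- level `0`: `|h| ≤ |b|`. -/
theorem abs_h_le {s : Set ℝ} {η : ℝ → ℝ} {b h : ℝ → ℝ → ℝ} (hN : NL s L η b h) {τ x : ℝ}
    (hτ : τ ∈ s) (hx : x ∈ Icc 0 L) (hb : |b τ x| ≤ 1 / 20) : |h τ x| ≤ 1 / 8 * |b τ x| := by
  have e := hN.eq τ hτ x hx
  have hbl := abs_le.mp hb
  have h1 : |h τ x| * (1 + b τ x) = η τ * |b τ x| * |b τ x| := by
    have : |h τ x * (1 + b τ x)| = |η τ * b τ x ^ 2| := by rw [e]
    rw [abs_mul, abs_mul, abs_of_nonneg (by linarith : (0 : ℝ) ≤ 1 + b τ x),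
      abs_of_nonneg (hN.η0 τ), abs_pow] at this
    rw [this]; ring
  have h2 : |h τ x| * (19 / 20) ≤ |h τ x| * (1 + b τ x) :=
    mul_le_mul_of_nonneg_left (by linarith) (abs_nonneg _)
  have h3 : η τ * |b τ x| * |b τ x| ≤ 1 / 20 * |b τ x| := by
    refine mul_le_mul_of_nonneg_right ?_ (abs_nonneg _)
    calc η τ * |b τ x| ≤ 1 * |b τ x| := mul_le_mul_of_nonneg_right (hN.η1 τ) (abs_nonneg _)
      _ ≤ 1 / 20 := by rw [one_mul]; exact hb
  have := abs_nonneg (b τ x)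
  linarith

/-- superadditive exponents up to `n` -/
structure ExpOK (e : ℕ → ℕ) (n : ℕ) : Prop where
  mono : ∀ p q, p ≤ q → q ≤ n → e p ≤ e q
  add : ∀ p q, p + q ≤ n → e p + e q ≤ e (p + q)

theorem ExpOK.le {e : ℕ → ℕ} {n m : ℕ} (h : ExpOK e n) (hm : m ≤ n) : ExpOK e m :=
  ⟨fun p q h1 h2 => h.mono p q h1 (h2.trans hm), fun p q h1 => h.add p q (h1.trans hm)⟩

/-- products of classes -/
theorem prod_le {C x y z : ℝ} (hC : 0 ≤ C) {p q r : ℕ} (hx : 0 < x) (hxL : x ≤ L)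
    (h1 : |y| * x ^ p ≤ C) (h2 : |z| * x ^ q ≤ C) (hpq : p + q ≤ r) :
    |y| * |z| * x ^ r ≤ C * C * (max L 1) ^ r := by
  have h3 : x ^ r = x ^ p * x ^ q * x ^ (r - (p + q)) := by
    rw [← pow_add, ← pow_add, Nat.add_sub_cancel' hpq]
  have h4 : x ^ (r - (p + q)) ≤ (max L 1) ^ r :=
    (pow_le_pow_left₀ hx.le (hxL.trans (le_max_left _ _)) _).trans
      (pow_le_pow_right₀ (le_max_right _ _) (Nat.sub_le _ _))
  rw [h3]
  calc |y| * |z| * (x ^ p * x ^ q * x ^ (r - (p + q)))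
      = (|y| * x ^ p) * (|z| * x ^ q) * x ^ (r - (p + q)) := by ring
    _ ≤ C * C * (max L 1) ^ r := by
        refine mul_le_mul (mul_le_mul h1 h2 (by positivity) hC) h4 (by positivity) (by positivity)

/-- **one level of `h` from classes of lower levels** -/
theorem h_level {e : ℕ → ℕ} {J : ℕ} (he : ExpOK e (J + 1))
    (hN : ∀ i, NL (Ioo 0 (1 / 2)) L η (b i) (h i))
    (hb : ∀ i, ∀ τ ∈ Ioo (0 : ℝ) (1 / 2), ∀ x ∈ Icc 0 L, |b i τ x| ≤ 1 / 20)
    (h1 : ∀ l < J + 1, UB L (e l) (fun i => dt^[l] (b i)))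
    (h2 : ∀ l < J + 1, UB L (e l) (fun i => dt^[l] (h i))) {a c : ℝ} (ha : 0 < a) (hac : a < c)
    (hc : c < 1 / 2) :
    ∃ C : ℝ, ∀ i, ∀ τ ∈ Icc a c, ∀ x ∈ Ioo 0 L,
      |(dt^[J + 1] (h i)) τ x| * x ^ e (J + 1) ≤
        1 / 8 * (|(dt^[J + 1] (b i)) τ x| * x ^ e (J + 1)) + C := by
  obtain ⟨K, hK0, hK⟩ := eta_bound (hN 0).smη (J + 1) a c
  obtain ⟨C1, hC10, hC1⟩ := UB.common h1 ha hac hc
  obtain ⟨C2, hC20, hC2⟩ := UB.common h2 ha hac hc
  set C := max C1 C2 with hCdef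
  have hC0 : 0 ≤ C := le_max_of_le_left hC10
  refine ⟨8 * (1 + K) * 4 ^ (J + 1) * (C * C * (max L 1) ^ e (J + 1)), fun i τ hτ x hx => ?_⟩
  have hx' : x ∈ Icc 0 L := Ioo_subset_Icc_self hx
  have hτ' := mem_half ha hc hτ
  have hxp : 0 < x ^ e (J + 1) := pow_pos hx.1 _
  have key := alg (hN i) isOpen_Ioo hτ' hx' J (K := K)
    (T := C * C * (max L 1) ^ e (J + 1) / x ^ e (J + 1)) hK0 (fun l hl => hK l hl τ hτ)
    (hb i τ hτ' x hx') ?_ ?_
  · calc |(dt^[J + 1] (h i)) τ x| * x ^ e (J + 1)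
        ≤ (1 / 8 * |(dt^[J + 1] (b i)) τ x| +
          8 * (1 + K) * 4 ^ (J + 1) * (C * C * (max L 1) ^ e (J + 1) / x ^ e (J + 1))) *
          x ^ e (J + 1) := mul_le_mul_of_nonneg_right key hxp.le
      _ = _ := by field_simp
  · intro p q hp hq hpq
    rw [le_div_iff₀ hxp]
    have hee : e p + e q ≤ e (J + 1) :=
      (he.add p q hpq).trans (he.mono _ _ hpq le_rfl)
    exact prod_le hC0 hx.1 hx.2.le
      ((hC1 p (by omega) i τ hτ x hx).trans (le_max_left _ _))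
      ((hC1 q (by omega) i τ hτ x hx).trans (le_max_left _ _)) hee
  · intro p q hp hq hpq
    rw [le_div_iff₀ hxp]
    have hee : e p + e q ≤ e (J + 1) :=
      (he.add p q hpq).trans (he.mono _ _ hpq le_rfl)
    exact prod_le hC0 hx.1 hx.2.le
      ((hC2 p (by omega) i τ hτ x hx).trans (le_max_right _ _))
      ((hC1 q (by omega) i τ hτ x hx).trans (le_max_left _ _)) hee

/-- classes of `h_l` from classes of `b_l` -/
theorem h_ub {e : ℕ → ℕ} {n : ℕ} (he : ExpOK e n)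
    (hN : ∀ i, NL (Ioo 0 (1 / 2)) L η (b i) (h i))
    (hb : ∀ i, ∀ τ ∈ Ioo (0 : ℝ) (1 / 2), ∀ x ∈ Icc 0 L, |b i τ x| ≤ 1 / 20)
    (h1 : ∀ l ≤ n, UB L (e l) (fun i => dt^[l] (b i))) :
    ∀ l ≤ n, UB L (e l) (fun i => dt^[l] (h i)) := by
  intro l
  induction l using Nat.strong_induction_on with
  | _ l ih =>
    intro hl
    rcases l with _ | J
    · intro a c ha hac hc
      obtain ⟨C, hC⟩ := h1 0 hl a c ha hac hc
      refine ⟨C, fun i τ hτ x hx => ?_⟩
      have h3 := abs_h_le (hN i) (mem_half ha hc hτ) (Ioo_subset_Icc_self hx)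
        (hb i τ (mem_half ha hc hτ) x (Ioo_subset_Icc_self hx))
      have h4 : |h i τ x| ≤ |b i τ x| := by have := abs_nonneg (b i τ x); linarith
      exact (mul_le_mul_of_nonneg_right h4 (pow_nonneg hx.1.le _)).trans (hC i τ hτ x hx)
    · intro a c ha hac hc
      obtain ⟨C, hC⟩ := h_level (he.le hl) hN hb (fun l hl' => h1 l (by omega))
        (fun l hl' => ih l hl' (by omega)) ha hac hc
      obtain ⟨C', hC'⟩ := h1 (J + 1) hl a c ha hac hc
      refine ⟨1 / 8 * C' + C, fun i τ hτ x hx => (hC i τ hτ x hx).trans ?_⟩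
      have := hC' i τ hτ x hx
      linarith

/-- `L²` version of `h_level`: the low levels (`2 p ≤ J + 1`) are bounded. -/
theorem h_level_l2 {J : ℕ} (hN : ∀ i, NL (Ioo 0 (1 / 2)) L η (b i) (h i))
    (hb : ∀ i, ∀ τ ∈ Ioo (0 : ℝ) (1 / 2), ∀ x ∈ Icc 0 L, |b i τ x| ≤ 1 / 20)
    (h1 : ∀ l, 2 * l ≤ J + 1 → UB L 0 (fun i => dt^[l] (b i)))
    (h2 : ∀ l, 2 * l ≤ J + 1 → UB L 0 (fun i => dt^[l] (h i))) {a c : ℝ} (ha : 0 < a)
    (hac : a < c) (hc : c < 1 / 2) :
    ∃ C : ℝ, 0 ≤ C ∧ ∀ i, ∀ τ ∈ Icc a c, ∀ x ∈ Ioo 0 L,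
      |(dt^[J + 1] (h i)) τ x| ≤ 1 / 8 * |(dt^[J + 1] (b i)) τ x| +
        C * ∑ q ∈ Finset.range (J + 1), (|(dt^[q] (b i)) τ x| + |(dt^[q] (h i)) τ x|) := by
  obtain ⟨K, hK0, hK⟩ := eta_bound (hN 0).smη (J + 1) a c
  have h1' : ∀ l < (J + 1) / 2 + 1, UB L ((fun _ => 0) l) (fun i => dt^[l] (b i)) :=
    fun l hl => h1 l (by omega)
  have h2' : ∀ l < (J + 1) / 2 + 1, UB L ((fun _ => 0) l) (fun i => dt^[l] (h i)) :=
    fun l hl => h2 l (by omega)
  obtain ⟨C1, hC10, hC1⟩ := UB.common h1' ha hac hc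
  obtain ⟨C2, hC20, hC2⟩ := UB.common h2' ha hac hc
  set C := max C1 C2 with hCdef
  have hC0 : 0 ≤ C := le_max_of_le_left hC10
  refine ⟨8 * (1 + K) * 4 ^ (J + 1) * C, by positivity, fun i τ hτ x hx => ?_⟩
  have hx' : x ∈ Icc 0 L := Ioo_subset_Icc_self hx
  have hτ' := mem_half ha hc hτ
  set S := ∑ q ∈ Finset.range (J + 1), (|(dt^[q] (b i)) τ x| + |(dt^[q] (h i)) τ x|) with hS
  have hSb : ∀ q ≤ J, |(dt^[q] (b i)) τ x| ≤ S := fun q hq => by
    have h3 : |(dt^[q] (b i)) τ x| + |(dt^[q] (h i)) τ x| ≤ S :=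
      Finset.single_le_sum (f := fun q => |(dt^[q] (b i)) τ x| + |(dt^[q] (h i)) τ x|)
        (fun k _ => by positivity) (Finset.mem_range.mpr (by omega))
    have := abs_nonneg ((dt^[q] (h i)) τ x)
    linarith
  have hSh : ∀ q ≤ J, |(dt^[q] (h i)) τ x| ≤ S := fun q hq => by
    have h3 : |(dt^[q] (b i)) τ x| + |(dt^[q] (h i)) τ x| ≤ S :=
      Finset.single_le_sum (f := fun q => |(dt^[q] (b i)) τ x| + |(dt^[q] (h i)) τ x|)
        (fun k _ => by positivity) (Finset.mem_range.mpr (by omega))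
    have := abs_nonneg ((dt^[q] (b i)) τ x)
    linarith
  have lb : ∀ p, 2 * p ≤ J + 1 → |(dt^[p] (b i)) τ x| ≤ C := fun p hp => by
    have := hC1 p (by omega) i τ hτ x hx
    simp only [pow_zero, mul_one] at this
    exact this.trans (le_max_left _ _)
  have lh : ∀ p, 2 * p ≤ J + 1 → |(dt^[p] (h i)) τ x| ≤ C := fun p hp => by
    have := hC2 p (by omega) i τ hτ x hx
    simp only [pow_zero, mul_one] at this
    exact this.trans (le_max_right _ _)
  have key := alg (hN i) isOpen_Ioo hτ' hx' J (K := K) (T := C * S) hK0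
    (fun l hl => hK l hl τ hτ) (hb i τ hτ' x hx') ?_ ?_
  · calc |(dt^[J + 1] (h i)) τ x| ≤ _ := key
      _ = _ := by ring
  · intro p q hp hq hpq
    rcases Nat.lt_or_ge (J + 1) (2 * p) with h3 | h3
    · have := mul_le_mul (hSb p hp) (lb q (by omega)) (abs_nonneg _)
        ((abs_nonneg _).trans (hSb p hp))
      linarith
    · exact mul_le_mul (lb p h3) (hSb q hq) (abs_nonneg _) hC0
  · intro p q hp hq hpq
    rcases Nat.lt_or_ge (J + 1) (2 * p) with h3 | h3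
    · have := mul_le_mul (hSh p hp) (lb q (by omega)) (abs_nonneg _)
        ((abs_nonneg _).trans (hSh p hp))
      linarith
    · exact mul_le_mul (lh p h3) (hSb q hq) (abs_nonneg _) hC0

/-- `h_l ∈ UL2` for `l < n` from `b_l ∈ UL2` for `l < n` and boundedness of the low levels. -/
theorem h_l2 (hL : 0 < L) {n : ℕ} (hN : ∀ i, NL (Ioo 0 (1 / 2)) L η (b i) (h i))
    (hb : ∀ i, ∀ τ ∈ Ioo (0 : ℝ) (1 / 2), ∀ x ∈ Icc 0 L, |b i τ x| ≤ 1 / 20)
    (h1 : ∀ l, 2 * l < n → UB L 0 (fun i => dt^[l] (b i)))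
    (h2 : ∀ l, 2 * l < n → UB L 0 (fun i => dt^[l] (h i)))
    (h3 : ∀ l < n, UL2 L (fun i => dt^[l] (b i))) :
    ∀ l < n, UL2 L (fun i => dt^[l] (h i)) := by
  have smb : ∀ l i, Sm (Ioo 0 (1 / 2)) L (dt^[l] (b i)) := fun l i =>
    (hN i).smb.dt_iter isOpen_Ioo hL l
  have smh : ∀ l i, Sm (Ioo 0 (1 / 2)) L (dt^[l] (h i)) := fun l i =>
    (hN i).smh.dt_iter isOpen_Ioo hL l
  intro l
  induction l using Nat.strong_induction_on with
  | _ l ih =>
    intro hl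
    rcases l with _ | J
    · refine UL2.of_le hL ({0} : Finset ℕ) (w := fun _ i => dt^[0] (b i)) (smh 0)
        (fun _ _ i => smb 0 i) (fun _ _ => h3 0 hl) fun a c ha hac hc => ⟨1, fun i τ hτ x hx => ?_⟩
      have h4 := abs_h_le (hN i) (mem_half ha hc hτ) (Ioo_subset_Icc_self hx)
        (hb i τ (mem_half ha hc hτ) x (Ioo_subset_Icc_self hx))
      have h5 := abs_nonneg (b i τ x)
      simp only [Finset.sum_singleton, one_mul, Function.iterate_zero, id]
      linarith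
    · -- index set: `Sum` of the levels of `b` (≤ J+1) and of `h` (≤ J)
      let w : ℕ ⊕ ℕ → ℕ → ℝ → ℝ → ℝ := fun k i =>
        match k with
        | Sum.inl q => dt^[q] (b i)
        | Sum.inr q => dt^[q] (h i)
      refine UL2.of_le hL ((Finset.range (J + 2)).disjSum (Finset.range (J + 1))) (w := w)
        (smh (J + 1)) ?_ ?_ ?_
      · rintro (q | q) _ i
        · exact smb q i
        · exact smh q i
      · rintro (q | q) hq
        · exact h3 q (by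
            have := Finset.mem_range.mp (Finset.inl_mem_disjSum.mp hq); omega)
        · exact ih q (by
            have := Finset.mem_range.mp (Finset.inr_mem_disjSum.mp hq); omega) (by
            have := Finset.mem_range.mp (Finset.inr_mem_disjSum.mp hq); omega)
      · intro a c ha hac hc
        obtain ⟨C, hC0, hC⟩ := h_level_l2 (J := J) hN hb (fun l hl' => h1 l (by omega))
          (fun l hl' => h2 l (by omega)) ha hac hc
        refine ⟨1 + C, fun i τ hτ x hx => (hC i τ hτ x hx).trans ?_⟩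
        rw [Finset.sum_disjSum]
        simp only [w]
        have e1 : ∑ q ∈ Finset.range (J + 1), (|(dt^[q] (b i)) τ x| + |(dt^[q] (h i)) τ x|) =
            ∑ q ∈ Finset.range (J + 1), |(dt^[q] (b i)) τ x| +
            ∑ q ∈ Finset.range (J + 1), |(dt^[q] (h i)) τ x| := Finset.sum_add_distrib
        have e2 : ∑ q ∈ Finset.range (J + 2), |(dt^[q] (b i)) τ x| =
            ∑ q ∈ Finset.range (J + 1), |(dt^[q] (b i)) τ x| + |(dt^[J + 1] (b i)) τ x| :=
          Finset.sum_range_succ _ _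
        rw [e1, e2]
        have p1 : 0 ≤ ∑ q ∈ Finset.range (J + 1), |(dt^[q] (b i)) τ x| :=
          Finset.sum_nonneg fun _ _ => abs_nonneg _
        have p2 : 0 ≤ ∑ q ∈ Finset.range (J + 1), |(dt^[q] (h i)) τ x| :=
          Finset.sum_nonneg fun _ _ => abs_nonneg _
        have p3 := abs_nonneg ((dt^[J + 1] (b i)) τ x)
        nlinarith [mul_nonneg hC0 p3]

end Crest.Agent.R213.C8
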