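import Crest.Agent.R213.C.C8Defs
import Crest.Agent.R213.C.AllJAlg

/-!
# Row 213, part C8: sub-interface (all `sorry`; NEVER import from a proof file)

Prove each statement under the same name in namespace `Crest.Agent.R213.C8` in the named file.
-/

set_option autoImplicit false

open Set MeasureTheory Filter Topology

noncomputable section

namespace Crest.Agent.R213.C8.IF

open Crest.Agent.R213 Crest.Agent.R213.C Crest.Agent.R213.C8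

variable {c0 C0 κ L : ℝ} {g : ℝ → ℝ} {φ m E : ℝ → ℝ → ℝ} {η : ℝ → ℝ} {d : ℕ → ℝ → ℝ → ℝ}

/-- [523, C/C8Base.lean] -/
theorem hNL_sm (hB : Bg c0 C0 g L φ m) (hη : EtaOK η) {δ : ℝ → ℝ → ℝ} (hδ : Sm (Ioo 0 1) L δ)
    (hb : ∀ τ ∈ Ioo (0 : ℝ) (1 / 2), ∀ x ∈ Icc 0 L, |bb L φ δ τ x| ≤ 1 / 20) :
    Sm (Ioo 0 1) L (hNL L φ η δ) := by
  sorry

/-- [523, C/C8Base.lean] -/
theorem nl (hB : Bg c0 C0 g L φ m) (hη : EtaOK η) {δ : ℝ → ℝ → ℝ} (hδ : Sm (Ioo 0 1) L δ)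
    (hb : ∀ τ ∈ Ioo (0 : ℝ) (1 / 2), ∀ x ∈ Icc 0 L, |bb L φ δ τ x| ≤ 1 / 20) :
    NL (Ioo 0 (1 / 2)) L η (bb L φ δ) (hh L φ η δ) := by
  sorry

/-- [523, C/C8Base.lean] `Hyp 9` from `Iter.pb`, `Iter.qb`. -/
theorem base (hB : Bg c0 C0 g L φ m) (hκ : κ ∈ Ioo (1 / 8 : ℝ) (1 / 4))
    (hI : Iter κ L φ E η d) : Hyp L φ d 9 := by
  sorry

/-- [523, C/C8Base.lean] from `Iter.db`. -/
theorem base_d (hB : Bg c0 C0 g L φ m) (hI : Iter κ L φ E η d) :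
    ∀ j ≤ 4, UB L 0 (dj d j) := by
  sorry

/-- [523, C/C8Base.lean] iteration in `i` for sup norms. -/
theorem it_ub (hL : 0 < L) {u : ℕ → ℝ → ℝ → ℝ} (hu : ∀ i, Sm (Ioo 0 (1 / 2)) L (u i)) {e : ℕ}
    (h : ∀ a b : ℝ, 0 < a → a < b → b < 1 / 2 → ∃ C : ℝ, ∀ i, ∀ τ ∈ Icc a b, ∀ x ∈ Ioo 0 L,
      |u (i + 1) τ x| * x ^ e ≤ 1 / 2 * (|u i τ x| * x ^ e) + C) :
    UB L e u := by
  sorry

/-- [337 + 236] one pass at level `j`: from a bound of the source `F_j = E_j + δ_{j+1}`.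
`e = 4`: source bounded in `L²(x⁹)`. -/
theorem pass4 (hB : Bg c0 C0 g L φ m) (hg : Prof c0 C0 g) (hE : Sm (Ioo 0 1) L E)
    {ht δ : ℕ → ℝ → ℝ → ℝ} (hsm : ∀ i, Sm (Ioo 0 1) L (ht i)) (hδ : ∀ i, Sm (Ioo 0 1) L (δ i))
    (heq : ∀ i, LinEq L φ E (ht i) (δ i)) (j : ℕ)
    (hlow : ∀ l < j, UB L 4 (fun i => dt^[l] (bb L φ (δ i))) ∧
      UB L 4 (fun i => dt^[l] (fun τ x => φ τ x * ht i τ x)))
    (hsrc : USup L (fun i => dt^[j + 1] (δ i))) :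
    UB L 4 (fun i => fun τ x => (dt^[j] (bb L φ (δ i))) τ x -
      (dt^[j] (fun τ x => φ τ x * ht i τ x)) τ x) := by
  sorry

/-- [337 + 236] `e = 2`: source `≤ C x⁻³`. -/
theorem pass2 (hB : Bg c0 C0 g L φ m) (hg : Prof c0 C0 g) (hE : Sm (Ioo 0 1) L E)
    {ht δ : ℕ → ℝ → ℝ → ℝ} (hsm : ∀ i, Sm (Ioo 0 1) L (ht i)) (hδ : ∀ i, Sm (Ioo 0 1) L (δ i))
    (heq : ∀ i, LinEq L φ E (ht i) (δ i)) (j : ℕ)
    (hlow : ∀ l < j, UB L 2 (fun i => dt^[l] (bb L φ (δ i))) ∧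
      UB L 2 (fun i => dt^[l] (fun τ x => φ τ x * ht i τ x)))
    (hsrc : UB L 3 (fun i => dt^[j + 1] (δ i))) :
    UB L 2 (fun i => fun τ x => (dt^[j] (bb L φ (δ i))) τ x -
      (dt^[j] (fun τ x => φ τ x * ht i τ x)) τ x) := by
  sorry

/-- [337 + 236] `e = 0`: source `≤ C x⁻¹`. -/
theorem pass0 (hB : Bg c0 C0 g L φ m) (hg : Prof c0 C0 g) (hE : Sm (Ioo 0 1) L E)
    {ht δ : ℕ → ℝ → ℝ → ℝ} (hsm : ∀ i, Sm (Ioo 0 1) L (ht i)) (hδ : ∀ i, Sm (Ioo 0 1) L (δ i))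
    (heq : ∀ i, LinEq L φ E (ht i) (δ i)) (j : ℕ)
    (hlow : ∀ l < j, UB L 0 (fun i => dt^[l] (bb L φ (δ i))) ∧
      UB L 0 (fun i => dt^[l] (fun τ x => φ τ x * ht i τ x)))
    (hsrc : UB L 1 (fun i => dt^[j + 1] (δ i))) :
    UB L 0 (fun i => fun τ x => (dt^[j] (bb L φ (δ i))) τ x -
      (dt^[j] (fun τ x => φ τ x * ht i τ x)) τ x) := by
  sorry

/-- [236] recovery of `δ_j` from `b_l`, `l ≤ j` (`b_l = O(x^{-e})` and `sup_τ |δ_j|` bounded):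
`e = 4 ↦ 3`, `e = 2 ↦ 1`, `e = 0 ↦ 0` (`e - 1` in `ℕ`). -/
theorem recover (hB : Bg c0 C0 g L φ m) (hg : Prof c0 C0 g) {δ : ℕ → ℝ → ℝ → ℝ}
    (hδ : ∀ i, Sm (Ioo 0 1) L (δ i)) {e : ℕ} (he : e = 4 ∨ e = 2 ∨ e = 0) (j : ℕ)
    (hb : ∀ l ≤ j, UB L e (fun i => dt^[l] (bb L φ (δ i))))
    (hs : USup L (fun i => dt^[j] (δ i))) :
    UB L (e - 1) (fun i => dt^[j] (δ i)) := by
  sorry

/-- [236, C/LocEn.lean] local energy at level `J`, uniform over all solutions. -/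
theorem loc_en (hB : Bg c0 C0 g L φ m) (hg : Prof c0 C0 g) (hE : Sm (Ioo 0 1) L E) (J : ℕ)
    (hJ : 1 ≤ J) {ζ : ℝ → ℝ} (hζ : ContDiff ℝ (⊤ : ℕ∞) ζ) {a b : ℝ} (ha : 0 < a) (hab : a < b) (hb : b < 1 / 2)
    (hζs : ∀ τ, τ ∉ Icc a b → ζ τ = 0) :
    ∃ C : ℝ, ∀ ht δ : ℝ → ℝ → ℝ, Sm (Ioo 0 1) L ht → Sm (Ioo 0 1) L δ → LinEq L φ E ht δ →
      ∫ τ in a..b, ζ τ ^ 2 * nsq L (dt^[J] (bb L φ δ)) τ ≤
        3 * (∫ τ in a..b, ζ τ ^ 2 * nsq L (dt^[J] (fun τ x => φ τ x * ht τ x)) τ) +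
        C * (1 + ∑ l ∈ Finset.range J, ∫ τ in a..b, (nsq L (dt^[l] (bb L φ δ)) τ +
          nsq L (dt^[l] (fun τ x => φ τ x * ht τ x)) τ)) := by
  sorry

/-- [236, C/LocEn.lean] `δ_J` from the levels `≤ J` of `b` and `h` (fixed time). -/
theorem loc_delta (hB : Bg c0 C0 g L φ m) (hg : Prof c0 C0 g) (hE : Sm (Ioo 0 1) L E) (J : ℕ)
    (hJ : 1 ≤ J) {a b : ℝ} (ha : 0 < a) (hab : a < b) (hb : b < 1 / 2) :
    ∃ C : ℝ, ∀ ht δ : ℝ → ℝ → ℝ, Sm (Ioo 0 1) L ht → Sm (Ioo 0 1) L δ → LinEq L φ E ht δ →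
      ∀ τ ∈ Icc a b, nsq L (dt^[J] δ) τ ≤
        C * (1 + ∑ l ∈ Finset.range (J + 1), (nsq L (dt^[l] (bb L φ δ)) τ +
          nsq L (dt^[l] (fun τ x => φ τ x * ht τ x)) τ)) := by
  sorry

end Crest.Agent.R213.C8.IF
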