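import Crest.Agent.R213.C.CDefs

/-!
# Row 213, part C: interface between the blocks (all `sorry`; NEVER import from a proof file)

Each block proves its theorem under the same statement in its own file, e.g. `c2` in `C/C2.lean`
as `Crest.Agent.R213.C.c2'`-free name `c2_energy` ... : use the names in brackets.
-/

set_option autoImplicit false

open Set MeasureTheory Filter Topology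

noncomputable section

namespace Crest.Agent.R213.C.IF

open Crest.Agent.R213.C

variable {c0 C0 κ : ℝ} {g : ℝ → ℝ}

/-- [C1+C2: `energy_levels`] -/
theorem energy_levels (hg : Prof c0 C0 g) (hκ : κ ∈ Ioo (1 / 8 : ℝ) (1 / 4)) :
    ∃ (C : ℝ) (q : ℕ), 1 ≤ C ∧ ∀ L ≥ (8 : ℝ), ∀ φ m : ℝ → ℝ → ℝ, Bg c0 C0 g L φ m →
      ∀ E ht δ : ℝ → ℝ → ℝ, Sm (Ioo 0 1) L E → Sm (Ioo 0 1) L ht → Sm (Ioo 0 1) L δ →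
      LinEq L φ E ht δ → ∀ j ≤ 8,
        N2T (5 / 8) L (WJ κ j) (be L φ j δ) + N2T (5 / 8) L (WA κ j) (dt^[j] δ) ≤
          ENNReal.ofReal (C * L ^ q) * (N2 L (Wt κ) (bb L φ δ) + N2 L (Wt' κ) δ +
            ∑ i ∈ Finset.range (j + 1),
              (N2T (3 / 4) L (WJ κ i) (dt^[i] (fun τ x => φ τ x * ht τ x)) +
                N2T (3 / 4) L (WA κ i) (dt^[i] E))) := by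
  sorry

/-- [C3: `sup_tau`] -/
theorem sup_tau (hκ : κ ∈ Ioo (1 / 8 : ℝ) (1 / 4)) :
    ∃ (C : ℝ) (q : ℕ), 1 ≤ C ∧ ∀ L ≥ (8 : ℝ), ∀ δ : ℝ → ℝ → ℝ, Sm (Ioo 0 1) L δ →
      ∀ j ≤ 7, ∀ τ ∈ Ioo (0 : ℝ) (1 / 2),
        MM L j τ δ ≤ ENNReal.ofReal (C * L ^ q) *
          (N2T (5 / 8) L (WA κ j) (dt^[j] δ) + N2T (5 / 8) L (WA κ (j + 1)) (dt^[j + 1] δ)) := by
  sorry

/-- [C4: `pointwise_chain`] -/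
theorem pointwise_chain (hg : Prof c0 C0 g) :
    ∃ (C : ℝ) (q : ℕ), 1 ≤ C ∧ ∀ L ≥ (8 : ℝ), ∀ φ m : ℝ → ℝ → ℝ, Bg c0 C0 g L φ m →
      ∀ E ht δ : ℝ → ℝ → ℝ, Sm (Ioo 0 1) L E → Sm (Ioo 0 1) L ht → Sm (Ioo 0 1) L δ →
      LinEq L φ E ht δ → ∀ M H : ℝ, 0 ≤ M → 0 ≤ H →
      (∀ j ≤ 7, ∀ τ ∈ Ioo (0 : ℝ) (1 / 2), MM L j τ δ ≤ ENNReal.ofReal (M ^ 2)) →
      (∀ j ≤ 7, ∀ τ ∈ Ioo (0 : ℝ) (1 / 2), ∀ x ∈ Icc 0 L, |(dt^[j] E) τ x| ≤ M) →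
      (∀ τ ∈ Ioo (0 : ℝ) 1, ∀ x ∈ Icc (0 : ℝ) 1, E τ x = 0) →
      PB L H (fun τ x => φ τ x * ht τ x) →
        PB L (C * L ^ q * (M + H)) (bb L φ δ) ∧ DB L (C * L ^ q * (M + H)) δ := by
  sorry

/-! C5 (algebra). `region` functions are `Sm (Ioo 0 1) L` (or `Sm (Ioo 0 (1/2)) L`). -/

/-- [C5: `alg_mul`] -/
theorem alg_mul (hκ : κ ∈ Ioo (1 / 8 : ℝ) (1 / 4)) :
    ∃ (C : ℝ) (q : ℕ), 1 ≤ C ∧ ∀ L ≥ (8 : ℝ), ∀ u v : ℝ → ℝ → ℝ,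
      Sm (Ioo 0 (1 / 2)) L u → Sm (Ioo 0 (1 / 2)) L v → ∀ N N' : ℝ, 0 ≤ N → 0 ≤ N' →
      PB L N u → QB κ L N u → PB L N' v → QB κ L N' v →
        PB L (C * L ^ q * N * N') (fun τ x => u τ x * v τ x) ∧
        QB κ L (C * L ^ q * N * N') (fun τ x => u τ x * v τ x) := by
  sorry

/-- [C5: `alg_div`] `D (1 + b) = F`. -/
theorem alg_div (hκ : κ ∈ Ioo (1 / 8 : ℝ) (1 / 4)) :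
    ∃ (C : ℝ) (q : ℕ), 1 ≤ C ∧ ∀ L ≥ (8 : ℝ), ∀ D b F : ℝ → ℝ → ℝ,
      Sm (Ioo 0 (1 / 2)) L D → Sm (Ioo 0 (1 / 2)) L b → Sm (Ioo 0 (1 / 2)) L F →
      (∀ τ ∈ Ioo (0 : ℝ) (1 / 2), ∀ x ∈ Icc 0 L, D τ x * (1 + b τ x) = F τ x) →
      (∀ τ ∈ Ioo (0 : ℝ) (1 / 2), ∀ x ∈ Icc 0 L, |b τ x| ≤ 1 / 2) →
      PB L 1 b → QB κ L 1 b → ∀ N : ℝ, 0 ≤ N → PB L N F → QB κ L N F →
        PB L (C * L ^ q * N) D ∧ QB κ L (C * L ^ q * N) D := by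
  sorry

/-- [C5: `alg_nl`] difference estimate of the nonlinearity: `h = η b²/(1+b)`. -/
theorem alg_nl (hκ : κ ∈ Ioo (1 / 8 : ℝ) (1 / 4)) {η : ℝ → ℝ} (hη : EtaOK η) :
    ∃ (C : ℝ) (q : ℕ), 1 ≤ C ∧ ∀ L ≥ (8 : ℝ), ∀ b b' : ℝ → ℝ → ℝ,
      Sm (Ioo 0 (1 / 2)) L b → Sm (Ioo 0 (1 / 2)) L b' →
      (∀ τ ∈ Ioo (0 : ℝ) (1 / 2), ∀ x ∈ Icc 0 L, |b τ x| ≤ 1 / 2) →
      (∀ τ ∈ Ioo (0 : ℝ) (1 / 2), ∀ x ∈ Icc 0 L, |b' τ x| ≤ 1 / 2) →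
      ∀ N A : ℝ, 0 ≤ N → N ≤ 1 → 0 ≤ A →
      PB L N b → QB κ L N b → PB L N b' → QB κ L N b' →
      PB L A (fun τ x => b τ x - b' τ x) → QB κ L A (fun τ x => b τ x - b' τ x) →
        PB L (C * L ^ q * N * A) (fun τ x => η τ * (b τ x ^ 2 / (1 + b τ x)) -
          η τ * (b' τ x ^ 2 / (1 + b' τ x))) ∧
        QB κ L (C * L ^ q * N * A) (fun τ x => η τ * (b τ x ^ 2 / (1 + b τ x)) -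
          η τ * (b' τ x ^ 2 / (1 + b' τ x))) := by
  sorry

/-- [C6: `lin_est`] -/
theorem lin_est (hg : Prof c0 C0 g) (hκ : κ ∈ Ioo (1 / 8 : ℝ) (1 / 4)) {L1 C1 : ℝ}
    (hlin : LinSolv c0 C0 g κ L1 C1) :
    ∃ (L2 C : ℝ) (q : ℕ), 8 ≤ L2 ∧ 1 ≤ C ∧ ∀ L ≥ L2, ∀ φ m : ℝ → ℝ → ℝ, Bg c0 C0 g L φ m →
      ∀ E ht : ℝ → ℝ → ℝ, Sm (Ioo 0 1) L E → Sm (Ioo 0 1) L ht →
      (∀ τ ∈ Ioo (0 : ℝ) 1, 3 / 8 ≤ τ → ∀ x ∈ Icc 0 L, ht τ x = 0) →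
      (∀ τ ∈ Ioo (0 : ℝ) 1, ∀ x ∈ Icc (0 : ℝ) 1, E τ x = 0) →
      ∀ N e : ℝ, 0 ≤ N → 0 ≤ e →
      PB L N (fun τ x => φ τ x * ht τ x) → QB κ L N (fun τ x => φ τ x * ht τ x) →
      (∀ j ≤ 9, ∀ τ ∈ Ioo (0 : ℝ) 1, ∀ x ∈ Icc 0 L, |(dt^[j] E) τ x| ≤ e) →
      ∃ δ : ℝ → ℝ → ℝ, Sm (Ioo 0 1) L δ ∧ LinEq L φ E ht δ ∧
        PB L (C * L ^ q * (N + e)) (bb L φ δ) ∧ QB κ L (C * L ^ q * (N + e)) (bb L φ δ) ∧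
        DB L (C * L ^ q * (N + e)) δ := by
  sorry

/-- [C7: `iteration`] -/
theorem iteration (hg : Prof c0 C0 g) (hκ : κ ∈ Ioo (1 / 8 : ℝ) (1 / 4)) {L1 C1 : ℝ}
    (hlin : LinSolv c0 C0 g κ L1 C1) {η : ℝ → ℝ} (hη : EtaOK η) :
    ∃ (L2 : ℝ) (P : ℕ), 8 ≤ L2 ∧ ∀ L ≥ L2, ∀ φ m : ℝ → ℝ → ℝ, Bg c0 C0 g L φ m →
      ∀ E : ℝ → ℝ → ℝ, Sm (Ioo 0 1) L E →
        (∀ τ ∈ Ioo (0 : ℝ) 1, ∀ x ∈ Icc (0 : ℝ) 1, E τ x = 0) →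
        (∀ j ≤ 9, ∀ τ ∈ Ioo (0 : ℝ) 1, ∀ x ∈ Icc 0 L, |(dt^[j] E) τ x| ≤ L ^ (-(P : ℝ))) →
        ∃ d : ℕ → ℝ → ℝ → ℝ, Iter κ L φ E η d := by
  sorry

/-- [C8: `all_levels`] -/
theorem all_levels {L : ℝ} {φ m : ℝ → ℝ → ℝ} (hB : Bg c0 C0 g L φ m) (hg : Prof c0 C0 g)
    (hκ : κ ∈ Ioo (1 / 8 : ℝ) (1 / 4)) {η : ℝ → ℝ} (hη : EtaOK η) {E : ℝ → ℝ → ℝ}
    (hE : Sm (Ioo 0 1) L E) (hE0 : ∀ τ ∈ Ioo (0 : ℝ) 1, ∀ x ∈ Icc (0 : ℝ) 1, E τ x = 0)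
    {d : ℕ → ℝ → ℝ → ℝ} (hI : Iter κ L φ E η d) :
    ∀ (J : ℕ) (τ1 : ℝ), 0 < τ1 → ∃ M : ℝ, ∀ i, ∀ τ ∈ Ioo τ1 (3 / 8), ∀ x ∈ Icc 0 L,
      |(dt^[J] (d i)) τ x| ≤ M := by
  sorry

/-- [C9+C10: `limit_solution`] -/
theorem limit_solution {L : ℝ} {φ m : ℝ → ℝ → ℝ} (hB : Bg c0 C0 g L φ m) (hg : Prof c0 C0 g)
    (hκ : κ ∈ Ioo (1 / 8 : ℝ) (1 / 4)) {η : ℝ → ℝ} (hη : EtaOK η) {E : ℝ → ℝ → ℝ}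
    (hE : Sm (Ioo 0 1) L E)
    {d : ℕ → ℝ → ℝ → ℝ} (hI : Iter κ L φ E η d)
    (hJ : ∀ (J : ℕ) (τ1 : ℝ), 0 < τ1 → ∃ M : ℝ, ∀ i, ∀ τ ∈ Ioo τ1 (3 / 8), ∀ x ∈ Icc 0 L,
      |(dt^[J] (d i)) τ x| ≤ M) :
    ∃ δ : ℝ → ℝ → ℝ, Sm (Ioo 0 (1 / 4)) L δ ∧
        (∀ τ ∈ Ioo (0 : ℝ) (1 / 4), ∀ x ∈ Icc 0 L, |φ τ x * dx L (dx L δ) τ x| ≤ 1 / 2) ∧
        (∀ τ ∈ Ioo (0 : ℝ) (1 / 4), ∀ x ∈ Icc 0 L,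
          x ^ 9 * φ τ x * (φ τ x * dx L (dx L δ) τ x / (1 + φ τ x * dx L (dx L δ) τ x)) =
            Kint (fun ξ => E τ ξ + dt δ τ ξ) x) ∧
        Tendsto (fun τ => √τ * dt δ τ 0) (𝓝[>] 0) (𝓝 0) := by
  sorry

end Crest.Agent.R213.C.IF
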