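import Crest.Agent.R213.Defs

/-!
# Row 213, part C4: one-dimensional interpolation lemmas

`|v x| ≤ (18/r) ∫_r^{2r} |v| + ∫_x^{2r} s |v''|` and its mirror image.
-/

set_option autoImplicit false

open Set MeasureTheory Filter Topology

noncomputable section

namespace Crest.Agent.R213.C

/-- Taylor formula with integral remainder. -/
theorem taylor_two {v v1 v2 : ℝ → ℝ} {x s : ℝ} (hxs : x ≤ s)
    (hv : ∀ t ∈ Icc x s, HasDerivAt v (v1 t) t) (hv1 : ∀ t ∈ Icc x s, HasDerivAt v1 (v2 t) t)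
    (hc : ContinuousOn v2 (Icc x s)) :
    v s = v x + (s - x) * v1 x + ∫ t in x..s, (s - t) * v2 t := by
  have h1 : ∀ t ∈ uIcc x s, HasDerivAt (fun t => v t + (s - t) * v1 t) ((s - t) * v2 t) t := by
    intro t ht
    rw [uIcc_of_le hxs] at ht
    have h2 : HasDerivAt (fun t : ℝ => s - t) (-1) t := by
      simpa using (hasDerivAt_id t).const_sub s
    exact ((hv t ht).add (h2.mul (hv1 t ht))).congr_deriv (by ring)
  have hint : IntervalIntegrable (fun t => (s - t) * v2 t) volume x s := by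
    apply ContinuousOn.intervalIntegrable
    rw [uIcc_of_le hxs]
    exact (continuousOn_const.sub continuousOn_id).mul hc
  have h4 := intervalIntegral.integral_eq_sub_of_hasDerivAt h1 hint
  rw [h4]
  simp

/-- two-point interpolation to the left of both points -/
theorem two_point {v v1 v2 : ℝ → ℝ} {x s1 s2 : ℝ} (h1 : x ≤ s1) (h2 : s1 < s2)
    (hv : ∀ t ∈ Icc x s2, HasDerivAt v (v1 t) t) (hv1 : ∀ t ∈ Icc x s2, HasDerivAt v1 (v2 t) t)
    (hc : ContinuousOn v2 (Icc x s2)) :
    (s2 - s1) * |v x| ≤ (s2 - x) * |v s1| + (s1 - x) * |v s2|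
      + (s2 - s1) * ∫ t in x..s2, (t - x) * |v2 t| := by
  have hx2 : x ≤ s2 := h1.trans h2.le
  have T1 := taylor_two h1 (fun t ht => hv t ⟨ht.1, ht.2.trans h2.le⟩)
    (fun t ht => hv1 t ⟨ht.1, ht.2.trans h2.le⟩) (hc.mono (Icc_subset_Icc_right h2.le))
  have T2 := taylor_two hx2 hv hv1 hc
  have hc1 : ContinuousOn v2 (Icc x s1) := hc.mono (Icc_subset_Icc_right h2.le)
  have hc2 : ContinuousOn v2 (Icc s1 s2) := hc.mono (Icc_subset_Icc_left h1)
  -- integrability facts
  have i1 : ∀ (f : ℝ → ℝ), Continuous f → IntervalIntegrable (fun t => f t * v2 t) volume x s1 :=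
    fun f hf => ContinuousOn.intervalIntegrable (by
      rw [uIcc_of_le h1]; exact hf.continuousOn.mul hc1)
  have i2 : ∀ (f : ℝ → ℝ), Continuous f → IntervalIntegrable (fun t => f t * v2 t) volume s1 s2 :=
    fun f hf => ContinuousOn.intervalIntegrable (by
      rw [uIcc_of_le h2.le]; exact hf.continuousOn.mul hc2)
  have j1 : IntervalIntegrable (fun t => (t - x) * |v2 t|) volume x s1 :=
    ContinuousOn.intervalIntegrable (by
      rw [uIcc_of_le h1]; exact (continuous_id.sub continuous_const).continuousOn.mul hc1.abs)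
  have j2 : IntervalIntegrable (fun t => (t - x) * |v2 t|) volume s1 s2 :=
    ContinuousOn.intervalIntegrable (by
      rw [uIcc_of_le h2.le]; exact (continuous_id.sub continuous_const).continuousOn.mul hc2.abs)
  have hsplit : ∫ t in x..s2, (s2 - t) * v2 t
      = (∫ t in x..s1, (s2 - t) * v2 t) + ∫ t in s1..s2, (s2 - t) * v2 t :=
    (intervalIntegral.integral_add_adjacent_intervals
      (i1 _ (continuous_const.sub continuous_id)) (i2 _ (continuous_const.sub continuous_id))).symm
  have hsplit' : ∫ t in x..s2, (t - x) * |v2 t|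
      = (∫ t in x..s1, (t - x) * |v2 t|) + ∫ t in s1..s2, (t - x) * |v2 t| :=
    (intervalIntegral.integral_add_adjacent_intervals j1 j2).symm
  -- main identity
  have key : (s2 - x) * (∫ t in x..s1, (s1 - t) * v2 t) - (s1 - x) * (∫ t in x..s1, (s2 - t) * v2 t)
      = - ((s2 - s1) * ∫ t in x..s1, (t - x) * v2 t) := by
    rw [← intervalIntegral.integral_const_mul, ← intervalIntegral.integral_const_mul,
      ← intervalIntegral.integral_const_mul, ← intervalIntegral.integral_sub, ← intervalIntegral.integral_neg]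
    · apply intervalIntegral.integral_congr
      intro t _
      simp only
      ring
    · exact ((i1 _ (continuous_const.sub continuous_id)).const_mul _)
    · exact ((i1 _ (continuous_const.sub continuous_id)).const_mul _)
  have e1 : (s2 - s1) * v x = (s2 - x) * v s1 - (s1 - x) * v s2
      + (s2 - s1) * (∫ t in x..s1, (t - x) * v2 t)
      + (s1 - x) * ∫ t in s1..s2, (s2 - t) * v2 t := by
    rw [T1, T2, hsplit]
    linear_combination (-1) * key
  have b1 : |∫ t in x..s1, (t - x) * v2 t| ≤ ∫ t in x..s1, (t - x) * |v2 t| := by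
    refine (intervalIntegral.abs_integral_le_integral_abs h1).trans (le_of_eq ?_)
    apply intervalIntegral.integral_congr
    intro t ht
    rw [uIcc_of_le h1] at ht
    simp only [abs_mul, abs_of_nonneg (sub_nonneg.2 ht.1)]
  have b2 : (s1 - x) * |∫ t in s1..s2, (s2 - t) * v2 t| ≤ (s2 - s1) * ∫ t in s1..s2, (t - x) * |v2 t| := by
    have b3 : |∫ t in s1..s2, (s2 - t) * v2 t| ≤ ∫ t in s1..s2, |(s2 - t) * v2 t| :=
      intervalIntegral.abs_integral_le_integral_abs h2.le
    have hnn : 0 ≤ s1 - x := sub_nonneg.2 h1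
    refine (mul_le_mul_of_nonneg_left b3 hnn).trans ?_
    rw [← intervalIntegral.integral_const_mul, ← intervalIntegral.integral_const_mul]
    apply intervalIntegral.integral_mono_on h2.le
    · exact ((i2 _ (continuous_const.sub continuous_id)).abs).const_mul _
    · exact j2.const_mul _
    · intro t ht
      rw [abs_mul, abs_of_nonneg (sub_nonneg.2 ht.2)]
      have h5 : (s1 - x) * (s2 - t) ≤ (s2 - s1) * (t - x) := by
        nlinarith [ht.1, ht.2]
      calc (s1 - x) * ((s2 - t) * |v2 t|) = ((s1 - x) * (s2 - t)) * |v2 t| := by ring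
        _ ≤ ((s2 - s1) * (t - x)) * |v2 t| := mul_le_mul_of_nonneg_right h5 (abs_nonneg _)
        _ = _ := by ring
  have hs : 0 < s2 - s1 := sub_pos.2 h2
  calc (s2 - s1) * |v x| = |(s2 - s1) * v x| := by rw [abs_mul, abs_of_pos hs]
    _ = |(s2 - x) * v s1 - (s1 - x) * v s2
      + (s2 - s1) * (∫ t in x..s1, (t - x) * v2 t)
      + (s1 - x) * ∫ t in s1..s2, (s2 - t) * v2 t| := by rw [e1]
    _ ≤ |(s2 - x) * v s1 - (s1 - x) * v s2
      + (s2 - s1) * (∫ t in x..s1, (t - x) * v2 t)|
      + |(s1 - x) * ∫ t in s1..s2, (s2 - t) * v2 t| := abs_add_le _ _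
    _ ≤ |(s2 - x) * v s1 - (s1 - x) * v s2| + |(s2 - s1) * (∫ t in x..s1, (t - x) * v2 t)|
      + |(s1 - x) * ∫ t in s1..s2, (s2 - t) * v2 t| := by
        gcongr; exact abs_add_le _ _
    _ ≤ (|(s2 - x) * v s1| + |(s1 - x) * v s2|) + |(s2 - s1) * (∫ t in x..s1, (t - x) * v2 t)|
      + |(s1 - x) * ∫ t in s1..s2, (s2 - t) * v2 t| := by
        gcongr; exact abs_sub _ _
    _ = (s2 - x) * |v s1| + (s1 - x) * |v s2| + (s2 - s1) * |∫ t in x..s1, (t - x) * v2 t|
      + (s1 - x) * |∫ t in s1..s2, (s2 - t) * v2 t| := by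
        rw [abs_mul, abs_mul, abs_mul, abs_mul, abs_of_pos hs, abs_of_nonneg (sub_nonneg.2 h1),
          abs_of_nonneg (sub_nonneg.2 hx2)]
    _ ≤ (s2 - x) * |v s1| + (s1 - x) * |v s2| + (s2 - s1) * (∫ t in x..s1, (t - x) * |v2 t|)
      + (s2 - s1) * ∫ t in s1..s2, (t - x) * |v2 t| := by
        gcongr
    _ = _ := by rw [hsplit']; ring

/-- a point where `|v|` is at most its average -/
theorem exists_le_avg {v : ℝ → ℝ} {a b : ℝ} (hab : a < b) (hv : ContinuousOn v (Icc a b)) :
    ∃ s ∈ Icc a b, (b - a) * |v s| ≤ ∫ t in a..b, |v t| := by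
  obtain ⟨s, hs, hmin⟩ := isCompact_Icc.exists_isMinOn (nonempty_Icc.2 hab.le) hv.abs
  refine ⟨s, hs, ?_⟩
  have h1 : ∫ _ in a..b, |v s| = (b - a) * |v s| := by simp
  rw [← h1]
  apply intervalIntegral.integral_mono_on hab.le
  · simp
  · exact ContinuousOn.intervalIntegrable (by rw [uIcc_of_le hab.le]; exact hv.abs)
  · intro t ht
    exact hmin ht

/-- `|v x| ≤ (18/r) ∫_r^{2r} |v| + ∫_x^{2r} t |v''|`. -/
theorem interp_right {v v1 v2 : ℝ → ℝ} {x r : ℝ} (hx : 0 ≤ x) (hxr : x ≤ r) (hr : 0 < r)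
    (hv : ∀ t ∈ Icc x (2 * r), HasDerivAt v (v1 t) t)
    (hv1 : ∀ t ∈ Icc x (2 * r), HasDerivAt v1 (v2 t) t)
    (hc : ContinuousOn v2 (Icc x (2 * r))) :
    |v x| ≤ 18 / r * (∫ t in r..(2 * r), |v t|) + ∫ t in x..(2 * r), t * |v2 t| := by
  have hvc : ContinuousOn v (Icc x (2 * r)) := fun t ht => (hv t ht).continuousAt.continuousWithinAt
  obtain ⟨s1, hs1, A1⟩ := exists_le_avg (v := v) (a := r) (b := 4 / 3 * r) (by linarith)
    (hvc.mono (Icc_subset_Icc hxr (by linarith)))
  obtain ⟨s2, hs2, A2⟩ := exists_le_avg (v := v) (a := 5 / 3 * r) (b := 2 * r) (by linarith)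
    (hvc.mono (Icc_subset_Icc (by linarith) le_rfl))
  have hx1 : x ≤ s1 := hxr.trans hs1.1
  have h12 : s1 < s2 := lt_of_le_of_lt hs1.2 (lt_of_lt_of_le (by linarith) hs2.1)
  have hsub : Icc x s2 ⊆ Icc x (2 * r) := Icc_subset_Icc_right hs2.2
  have T := two_point hx1 h12 (fun t ht => hv t (hsub ht)) (fun t ht => hv1 t (hsub ht)) (hc.mono hsub)
  have hd : r / 3 ≤ s2 - s1 := by linarith [hs1.2, hs2.1]
  have hdpos : 0 < s2 - s1 := sub_pos.2 h12
  have iAll : IntervalIntegrable (fun t => |v t|) volume r (2 * r) :=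
    ContinuousOn.intervalIntegrable (by
      rw [uIcc_of_le (by linarith)]; exact (hvc.mono (Icc_subset_Icc_left hxr)).abs)
  -- the two averages are at most the full integral
  have B1 : ∫ t in r..(4 / 3 * r), |v t| ≤ ∫ t in r..(4/3 * r), |v t| := le_rfl
  have i1 : IntervalIntegrable (fun t => |v t|) volume r (4 / 3 * r) :=
    iAll.mono_set (by rw [uIcc_of_le (by linarith), uIcc_of_le (by linarith)]; exact Icc_subset_Icc_right (by linarith))
  have i2 : IntervalIntegrable (fun t => |v t|) volume (4 / 3 * r) (5 / 3 * r) :=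
    iAll.mono_set (by rw [uIcc_of_le (by linarith), uIcc_of_le (by linarith)]; exact Icc_subset_Icc (by linarith) (by linarith))
  have i3 : IntervalIntegrable (fun t => |v t|) volume (5 / 3 * r) (2 * r) :=
    iAll.mono_set (by rw [uIcc_of_le (by linarith), uIcc_of_le (by linarith)]; exact Icc_subset_Icc (by linarith) (by linarith))
  have hsum : ∫ t in r..(2 * r), |v t| = (∫ t in r..(4 / 3 * r), |v t|)
      + (∫ t in (4 / 3 * r)..(5 / 3 * r), |v t|) + ∫ t in (5 / 3 * r)..(2 * r), |v t| := by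
    rw [intervalIntegral.integral_add_adjacent_intervals i1 i2,
      intervalIntegral.integral_add_adjacent_intervals (i1.trans i2) i3]
  have hmid : 0 ≤ ∫ t in (4 / 3 * r)..(5 / 3 * r), |v t| :=
    intervalIntegral.integral_nonneg (by linarith) (fun _ _ => abs_nonneg _)
  -- the remainder
  have hrem : ∫ t in x..s2, (t - x) * |v2 t| ≤ ∫ t in x..(2 * r), t * |v2 t| := by
    have hxs2 : x ≤ s2 := hx1.trans h12.le
    have h5 : ∫ t in x..s2, (t - x) * |v2 t| ≤ ∫ t in x..s2, t * |v2 t| := by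
      apply intervalIntegral.integral_mono_on hxs2
      · exact ContinuousOn.intervalIntegrable (by
          rw [uIcc_of_le hxs2]; exact (continuous_id.sub continuous_const).continuousOn.mul (hc.mono hsub).abs)
      · exact ContinuousOn.intervalIntegrable (by
          rw [uIcc_of_le hxs2]; exact continuousOn_id.mul (hc.mono hsub).abs)
      · intro t ht
        exact mul_le_mul_of_nonneg_right (by linarith) (abs_nonneg _)
    refine h5.trans ?_
    apply intervalIntegral.integral_mono_interval le_rfl hxs2 hs2.2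
    · refine (ae_restrict_iff' measurableSet_Ioc).2 (Eventually.of_forall fun t ht => ?_)
      exact mul_nonneg (hx.trans ht.1.le) (abs_nonneg _)
    · exact ContinuousOn.intervalIntegrable (by
          rw [uIcc_of_le (by linarith)]; exact continuousOn_id.mul hc.abs)
  set I := ∫ t in r..(2 * r), |v t| with hI
  set J := ∫ t in x..(2 * r), t * |v2 t| with hJ
  have hJ' : (s2 - s1) * (∫ t in x..s2, (t - x) * |v2 t|) ≤ (s2 - s1) * J :=
    mul_le_mul_of_nonneg_left hrem hdpos.le
  have c1 : (s2 - x) * |v s1| ≤ 2 * r * |v s1| :=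
    mul_le_mul_of_nonneg_right (by linarith [hs2.2]) (abs_nonneg _)
  have c2 : (s1 - x) * |v s2| ≤ 2 * r * |v s2| :=
    mul_le_mul_of_nonneg_right (by linarith [hs1.2]) (abs_nonneg _)
  have A1' : (r / 3) * |v s1| ≤ ∫ t in r..(4 / 3 * r), |v t| := by
    have : (4 / 3 * r - r) = r / 3 := by ring
    rwa [this] at A1
  have A2' : (r / 3) * |v s2| ≤ ∫ t in (5 / 3 * r)..(2 * r), |v t| := by
    have : (2 * r - 5 / 3 * r) = r / 3 := by ring
    rwa [this] at A2
  have c3 : (s2 - s1) * |v x| ≤ 6 * I + (s2 - s1) * J := by linarith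
  have c4 : (s2 - s1) * (18 / r * I) ≥ 6 * I := by
    have hI0 : 0 ≤ I := intervalIntegral.integral_nonneg (by linarith) (fun _ _ => abs_nonneg _)
    have : 6 ≤ (s2 - s1) * (18 / r) := by
      rw [mul_div_assoc', le_div_iff₀ hr]; linarith
    calc 6 * I ≤ ((s2 - s1) * (18 / r)) * I := mul_le_mul_of_nonneg_right this hI0
      _ = _ := by ring
  have c5 : (s2 - s1) * |v x| ≤ (s2 - s1) * (18 / r * I + J) := by
    rw [mul_add]; linarith
  exact le_of_mul_le_mul_left c5 hdpos

/-- mirror image: interpolation from `[a, 2a]` to a point `x ≥ 2a`: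
`|v x| ≤ (6 x / a^2) ∫_a^{2a} |v| + ∫_a^x (x - t) |v''|`. -/
theorem interp_left {v v1 v2 : ℝ → ℝ} {x a : ℝ} (ha : 0 < a) (hxa : 2 * a ≤ x)
    (hv : ∀ t ∈ Icc a x, HasDerivAt v (v1 t) t)
    (hv1 : ∀ t ∈ Icc a x, HasDerivAt v1 (v2 t) t)
    (hc : ContinuousOn v2 (Icc a x)) :
    |v x| ≤ 9 * x / a ^ 2 * (∫ t in a..(2 * a), |v t|) + ∫ t in a..x, (x - t) * |v2 t| := by
  have hax : a ≤ x := by linarith
  have hvc : ContinuousOn v (Icc a x) := fun t ht => (hv t ht).continuousAt.continuousWithinAt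
  obtain ⟨s2, hs2, A2⟩ := exists_le_avg (v := v) (a := a) (b := 4 / 3 * a) (by linarith)
    (hvc.mono (Icc_subset_Icc le_rfl (by linarith)))
  obtain ⟨s1, hs1, A1⟩ := exists_le_avg (v := v) (a := 5 / 3 * a) (b := 2 * a) (by linarith)
    (hvc.mono (Icc_subset_Icc (by linarith) hxa))
  have h21 : s2 < s1 := lt_of_le_of_lt hs2.2 (lt_of_lt_of_le (by linarith) hs1.1)
  have h1x : s1 ≤ x := hs1.2.trans hxa
  -- reflect
  have hneg : ∀ t : ℝ, HasDerivAt (fun y : ℝ => -y) (-1) t := fun t => (hasDerivAt_id t).neg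
  have hvn : ∀ t ∈ Icc (-x) (-s2), HasDerivAt (fun t => v (-t)) (-(v1 (-t))) t := by
    intro t ht
    have hm : -t ∈ Icc a x := ⟨by linarith [ht.2, hs2.1], by linarith [ht.1]⟩
    exact ((hv (-t) hm).comp t (hneg t)).congr_deriv (by ring)
  have hvn1 : ∀ t ∈ Icc (-x) (-s2), HasDerivAt (fun t => -(v1 (-t))) (v2 (-t)) t := by
    intro t ht
    have hm : -t ∈ Icc a x := ⟨by linarith [ht.2, hs2.1], by linarith [ht.1]⟩
    exact (((hv1 (-t) hm).comp t (hneg t)).neg).congr_deriv (by ring)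
  have hcn : ContinuousOn (fun t => v2 (-t)) (Icc (-x) (-s2)) :=
    hc.comp continuousOn_id.neg (fun t ht => ⟨by simp at ht ⊢; linarith [ht.2, hs2.1], by simp at ht ⊢; linarith [ht.1]⟩)
  have T := two_point (v := fun t => v (-t)) (v1 := fun t => -(v1 (-t))) (v2 := fun t => v2 (-t))
    (x := -x) (s1 := -s1) (s2 := -s2) (by linarith) (by linarith) hvn hvn1 hcn
  simp only [neg_neg] at T
  have hsubst : ∫ t in (-x)..(-s2), (t - -x) * |v2 (-t)| = ∫ t in s2..x, (x - t) * |v2 t| := by
    have := intervalIntegral.integral_comp_neg (a := -x) (b := -s2) (fun t => (x - t) * |v2 t|)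
    simp only [neg_neg] at this
    rw [← this]
    apply intervalIntegral.integral_congr
    intro t _
    simp only
    ring
  rw [hsubst] at T
  have hd : a / 3 ≤ s1 - s2 := by linarith [hs2.2, hs1.1]
  have hdpos : 0 < s1 - s2 := sub_pos.2 h21
  have iAll : IntervalIntegrable (fun t => |v t|) volume a (2 * a) :=
    ContinuousOn.intervalIntegrable (by
      rw [uIcc_of_le (by linarith)]; exact (hvc.mono (Icc_subset_Icc_right hxa)).abs)
  have i1 : IntervalIntegrable (fun t => |v t|) volume a (4 / 3 * a) :=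
    iAll.mono_set (by rw [uIcc_of_le (by linarith), uIcc_of_le (by linarith)]; exact Icc_subset_Icc_right (by linarith))
  have i2 : IntervalIntegrable (fun t => |v t|) volume (4 / 3 * a) (5 / 3 * a) :=
    iAll.mono_set (by rw [uIcc_of_le (by linarith), uIcc_of_le (by linarith)]; exact Icc_subset_Icc (by linarith) (by linarith))
  have i3 : IntervalIntegrable (fun t => |v t|) volume (5 / 3 * a) (2 * a) :=
    iAll.mono_set (by rw [uIcc_of_le (by linarith), uIcc_of_le (by linarith)]; exact Icc_subset_Icc (by linarith) (by linarith))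
  have hsum : ∫ t in a..(2 * a), |v t| = (∫ t in a..(4 / 3 * a), |v t|)
      + (∫ t in (4 / 3 * a)..(5 / 3 * a), |v t|) + ∫ t in (5 / 3 * a)..(2 * a), |v t| := by
    rw [intervalIntegral.integral_add_adjacent_intervals i1 i2,
      intervalIntegral.integral_add_adjacent_intervals (i1.trans i2) i3]
  have hmid : 0 ≤ ∫ t in (4 / 3 * a)..(5 / 3 * a), |v t| :=
    intervalIntegral.integral_nonneg (by linarith) (fun _ _ => abs_nonneg _)
  have hrem : ∫ t in s2..x, (x - t) * |v2 t| ≤ ∫ t in a..x, (x - t) * |v2 t| := by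
    apply intervalIntegral.integral_mono_interval hs2.1 (h21.le.trans h1x) le_rfl
    · refine (ae_restrict_iff' measurableSet_Ioc).2 (Eventually.of_forall fun t ht => ?_)
      exact mul_nonneg (sub_nonneg.2 ht.2) (abs_nonneg _)
    · exact ContinuousOn.intervalIntegrable (by
          rw [uIcc_of_le hax]; exact (continuous_const.sub continuous_id).continuousOn.mul hc.abs)
  set I := ∫ t in a..(2 * a), |v t| with hI
  set J := ∫ t in a..x, (x - t) * |v2 t| with hJ
  have hJ' : (s1 - s2) * (∫ t in s2..x, (x - t) * |v2 t|) ≤ (s1 - s2) * J :=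
    mul_le_mul_of_nonneg_left hrem hdpos.le
  have hx0 : 0 < x := by linarith
  have c1 : (x - s2) * |v s1| ≤ x * |v s1| :=
    mul_le_mul_of_nonneg_right (by linarith [hs2.1]) (abs_nonneg _)
  have c2 : (x - s1) * |v s2| ≤ x * |v s2| :=
    mul_le_mul_of_nonneg_right (by linarith [hs1.1]) (abs_nonneg _)
  have A1' : (a / 3) * |v s1| ≤ ∫ t in (5 / 3 * a)..(2 * a), |v t| := by
    have : (2 * a - 5 / 3 * a) = a / 3 := by ring
    rwa [this] at A1
  have A2' : (a / 3) * |v s2| ≤ ∫ t in a..(4 / 3 * a), |v t| := by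
    have : (4 / 3 * a - a) = a / 3 := by ring
    rwa [this] at A2
  have c6 : (a / 3) * (|v s1| + |v s2|) ≤ I := by rw [hsum]; linarith
  have c7 : |v s1| + |v s2| ≤ 3 / a * I := by
    rw [div_mul_eq_mul_div, le_div_iff₀ ha]; linarith
  have hT : (s1 - s2) * |v x| ≤ x * (3 / a * I) + (s1 - s2) * J := by
    have : -s2 - -s1 = s1 - s2 := by ring
    rw [this] at T
    have e1 : -s2 - -x = x - s2 := by ring
    have e2 : -s1 - -x = x - s1 := by ring
    rw [e1, e2] at T
    have c8 : x * (|v s1| + |v s2|) ≤ x * (3 / a * I) := mul_le_mul_of_nonneg_left c7 hx0.le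
    linarith
  have c4 : (s1 - s2) * (9 * x / a ^ 2 * I) ≥ x * (3 / a * I) := by
    have hI0 : 0 ≤ I := intervalIntegral.integral_nonneg (by linarith) (fun _ _ => abs_nonneg _)
    have : x * (3 / a) ≤ (s1 - s2) * (9 * x / a ^ 2) := by
      have h8 : x * (3 / a) = (a / 3) * (9 * x / a ^ 2) := by field_simp; ring
      rw [h8]
      exact mul_le_mul_of_nonneg_right hd (by positivity)
    calc x * (3 / a * I) = (x * (3 / a)) * I := by ring
      _ ≤ ((s1 - s2) * (9 * x / a ^ 2)) * I := mul_le_mul_of_nonneg_right this hI0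
      _ = _ := by ring
  have c5 : (s1 - s2) * |v x| ≤ (s1 - s2) * (9 * x / a ^ 2 * I + J) := by
    rw [mul_add]; linarith
  exact le_of_mul_le_mul_left c5 hdpos

end Crest.Agent.R213.C
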