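import Crest.Agent.R213.C.Chain
import Crest.Agent.R213.C.ChainApp

/-!
# Row 213, part C4: `pointwise_chain` (helper198 + helper478)

`App.pointwise_chain_of` reduces the statement to the static chain `ChainThm`, which is
`chainThm`.
-/

set_option autoImplicit false

open Set MeasureTheory Filter Topology

noncomputable section

namespace Crest.Agent.R213.C

theorem pointwise_chain {c0 C0 : ℝ} {g : ℝ → ℝ} (hg : Prof c0 C0 g) :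
    ∃ (C : ℝ) (q : ℕ), 1 ≤ C ∧ ∀ L ≥ (8 : ℝ), ∀ φ m : ℝ → ℝ → ℝ, Bg c0 C0 g L φ m →
      ∀ E ht δ : ℝ → ℝ → ℝ, Sm (Ioo 0 1) L E → Sm (Ioo 0 1) L ht → Sm (Ioo 0 1) L δ →
      LinEq L φ E ht δ → ∀ M H : ℝ, 0 ≤ M → 0 ≤ H →
      (∀ j ≤ 7, ∀ τ ∈ Ioo (0 : ℝ) (1 / 2), MM L j τ δ ≤ ENNReal.ofReal (M ^ 2)) →
      (∀ j ≤ 7, ∀ τ ∈ Ioo (0 : ℝ) (1 / 2), ∀ x ∈ Icc 0 L, |(dt^[j] E) τ x| ≤ M) →
      (∀ τ ∈ Ioo (0 : ℝ) 1, ∀ x ∈ Icc (0 : ℝ) 1, E τ x = 0) →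
      PB L H (fun τ x => φ τ x * ht τ x) →
        PB L (C * L ^ q * (M + H)) (bb L φ δ) ∧ DB L (C * L ^ q * (M + H)) δ :=
  App.pointwise_chain_of chainThm hg

end Crest.Agent.R213.C
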