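import Crest.Agent.R213.J0
import Crest.Agent.R213.C.CDefs

/-!
Row 213, part C (block C6b): norms of the error `E` and of the cut-off nonlinear term.
-/

set_option autoImplicit false

open Set MeasureTheory Filter Topology

noncomputable section

namespace Crest.Agent.R213.C

theorem N2_eq_N2T (L : ℝ) (V u : ℝ → ℝ → ℝ) : N2 L V u = N2T 1 L V u := rfl

theorem Wt_eq_WJ (κ : ℝ) : Wt κ = WJ κ 0 := rfl

/-- crude bound of `N2T` by a constant bound of the integrand -/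
theorem N2T_le_const {T L c : ℝ} {V u : ℝ → ℝ → ℝ} (hT : 0 ≤ T) (hT1 : T ≤ 1) (hL : 0 ≤ L)
    (hc : 0 ≤ c) (h : ∀ τ ∈ Ioo (0 : ℝ) T, ∀ x ∈ Ioo (0 : ℝ) L, V τ x * x ^ 9 * u τ x ^ 2 ≤ c) :
    N2T T L V u ≤ ENNReal.ofReal (c * L) := by
  unfold N2T
  calc ∫⁻ p in (Ioo (0 : ℝ) T ×ˢ Ioo (0 : ℝ) L),
        ENNReal.ofReal (V p.1 p.2 * p.2 ^ 9 * (u p.1 p.2) ^ 2)
      ≤ ∫⁻ _ in (Ioo (0 : ℝ) T ×ˢ Ioo (0 : ℝ) L), ENNReal.ofReal c := by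
        refine setLIntegral_mono' (measurableSet_Ioo.prod measurableSet_Ioo) fun p hp => ?_
        exact ENNReal.ofReal_le_ofReal (h p.1 hp.1 p.2 hp.2)
    _ = ENNReal.ofReal c * (ENNReal.ofReal T * ENNReal.ofReal L) := by
        rw [setLIntegral_const, Measure.volume_eq_prod, Measure.prod_prod, Real.volume_Ioo,
          Real.volume_Ioo, sub_zero, sub_zero]
    _ ≤ ENNReal.ofReal (c * L) := by
        rw [← ENNReal.ofReal_mul hT, ← ENNReal.ofReal_mul hc]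
        refine ENNReal.ofReal_le_ofReal (mul_le_mul_of_nonneg_left ?_ hc)
        nlinarith

/-- vanishing of all time derivatives where the function vanishes -/
theorem dt_iter_zero {s : Set ℝ} {u : ℝ → ℝ → ℝ} {x : ℝ} (hs : IsOpen s)
    (h : ∀ r ∈ s, u r x = 0) {t : ℝ} (ht : t ∈ s) (j : ℕ) : (dt^[j] u) t x = 0 := by
  induction j generalizing t with
  | zero => exact h t ht
  | succ j ih =>
    rw [Function.iterate_succ_apply']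
    change deriv (fun r => (dt^[j] u) r x) t = 0
    have e : (fun r => (dt^[j] u) r x) =ᶠ[𝓝 t] fun _ => 0 := by
      filter_upwards [hs.mem_nhds ht] with r hr using ih hr
    rw [e.deriv_eq, deriv_const]

/-- If `u = 0` for `τ ≥ 1/2`, the norm over `(0,T)` is at most the norm over `(0,1/2)`. -/
theorem N2T_le_half {T L : ℝ} {V u : ℝ → ℝ → ℝ} (hT1 : T ≤ 1)
    (h : ∀ τ ∈ Ioo (0 : ℝ) 1, 1 / 2 ≤ τ → ∀ x ∈ Icc 0 L, u τ x = 0) :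
    N2T T L V u ≤ N2T (1 / 2) L V u := by
  unfold N2T
  set f : ℝ × ℝ → ENNReal := fun p => ENNReal.ofReal (V p.1 p.2 * p.2 ^ 9 * (u p.1 p.2) ^ 2)
    with hf
  set S' : Set (ℝ × ℝ) := Ioo (0 : ℝ) (1 / 2) ×ˢ Ioo (0 : ℝ) L with hS'
  have hm : MeasurableSet S' := measurableSet_Ioo.prod measurableSet_Ioo
  calc ∫⁻ p in (Ioo (0 : ℝ) T ×ˢ Ioo (0 : ℝ) L), f p
      = ∫⁻ p in (Ioo (0 : ℝ) T ×ˢ Ioo (0 : ℝ) L), S'.indicator f p := by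
        refine setLIntegral_congr_fun (measurableSet_Ioo.prod measurableSet_Ioo) fun p hp => ?_
        by_cases hp' : p ∈ S'
        · rw [indicator_of_mem hp']
        · rw [indicator_of_notMem hp']
          have h1 : 1 / 2 ≤ p.1 := by
            by_contra hlt
            exact hp' ⟨⟨hp.1.1, not_le.1 hlt⟩, hp.2⟩
          change ENNReal.ofReal _ = 0
          rw [h p.1 ⟨hp.1.1, hp.1.2.trans_le hT1⟩ h1 p.2 (Ioo_subset_Icc_self hp.2)]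
          simp
    _ ≤ ∫⁻ p, S'.indicator f p := setLIntegral_le_lintegral _ _
    _ = ∫⁻ p in S', f p := lintegral_indicator hm f

/-- **C6b (a)** -/
theorem E_norms {κ : ℝ} (hκ : κ ∈ Ioo (1 / 8 : ℝ) (1 / 4)) :
    ∃ (C : ℝ) (q : ℕ), 1 ≤ C ∧ ∀ L ≥ (8 : ℝ), ∀ E : ℝ → ℝ → ℝ, Sm (Ioo 0 1) L E →
      (∀ τ ∈ Ioo (0 : ℝ) 1, ∀ x ∈ Icc (0 : ℝ) 1, E τ x = 0) → ∀ e : ℝ, 0 ≤ e →
      (∀ j ≤ 9, ∀ τ ∈ Ioo (0 : ℝ) 1, ∀ x ∈ Icc 0 L, |(dt^[j] E) τ x| ≤ e) →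
      N2 L (Wt'' κ) E ≤ ENNReal.ofReal (C * L ^ q * e ^ 2) ∧
      ∀ j ≤ 8, N2T (3 / 4) L (WA κ j) (dt^[j] E) ≤ ENNReal.ofReal (C * L ^ q * e ^ 2) := by
  refine ⟨2, 10, by norm_num, fun L hL E _ hE0 e he hE => ?_⟩
  have hL0 : (0 : ℝ) ≤ L := by linarith
  -- pointwise facts
  have key : ∀ (W : ℝ) (j : ℕ), j ≤ 8 → 0 ≤ W → ∀ τ ∈ Ioo (0 : ℝ) 1, ∀ x ∈ Ioo (0 : ℝ) L,
      (1 ≤ x → W ≤ 2) → W * x ^ 9 * (dt^[j] E) τ x ^ 2 ≤ 2 * L ^ 9 * e ^ 2 := by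
    intro W j hj hW τ hτ x hx hW2
    rcases le_or_gt x 1 with h1 | h1
    · rw [dt_iter_zero isOpen_Ioo (fun r hr => hE0 r hr x ⟨hx.1.le, h1⟩) hτ j]
      have : (0 : ℝ) ≤ 2 * L ^ 9 * e ^ 2 := by positivity
      simpa using this
    · have h2 : x ^ 9 ≤ L ^ 9 := pow_le_pow_left₀ hx.1.le hx.2.le 9
      have h3 : (dt^[j] E) τ x ^ 2 ≤ e ^ 2 := by
        rw [← sq_abs]
        exact pow_le_pow_left₀ (abs_nonneg _) (hE j (by omega) τ hτ x (Ioo_subset_Icc_self hx)) 2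
      exact mul_le_mul (mul_le_mul (hW2 h1.le) h2 (pow_nonneg hx.1.le 9) (by norm_num)) h3
        (sq_nonneg _) (by positivity)
  have hrp : ∀ τ ∈ Ioo (0 : ℝ) 1, τ ^ (2 * κ) ≤ 1 := fun τ hτ =>
    Real.rpow_le_one hτ.1.le hτ.2.le (by linarith [hκ.1])
  have hrp0 : ∀ τ ∈ Ioo (0 : ℝ) 1, 0 ≤ τ ^ (2 * κ) := fun τ hτ => Real.rpow_nonneg hτ.1.le _
  have hconst : 2 * L ^ 9 * e ^ 2 * L = 2 * L ^ 10 * e ^ 2 := by ring
  constructor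
  · rw [N2_eq_N2T, ← hconst]
    refine N2T_le_const zero_le_one le_rfl hL0 (by positivity) fun τ hτ x hx => ?_
    have hρ0 : 0 < x ^ 2 + τ := by have := hτ.1; positivity
    refine key (Wt'' κ τ x) 0 (by norm_num) ?_ τ hτ x hx fun h1 => ?_
    · unfold Wt'' Wt
      exact mul_nonneg hτ.1.le (div_nonneg (hrp0 τ hτ) (pow_nonneg hρ0.le _))
    · unfold Wt'' Wt
      have hρ : 1 ≤ x ^ 2 + τ := by nlinarith [hτ.1]
      have h3 : τ ^ (2 * κ) / (x ^ 2 + τ) ^ 60 ≤ 1 := by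
        rw [div_le_one (by positivity)]
        exact (hrp τ hτ).trans (one_le_pow₀ hρ)
      have h4 : 0 ≤ τ ^ (2 * κ) / (x ^ 2 + τ) ^ 60 := div_nonneg (hrp0 τ hτ) (by positivity)
      nlinarith [hτ.1, hτ.2]
  · intro j hj
    rw [← hconst]
    refine N2T_le_const (by norm_num) (by norm_num) hL0 (by positivity) fun τ hτ x hx => ?_
    have hτ1 : τ ∈ Ioo (0 : ℝ) 1 := ⟨hτ.1, hτ.2.trans (by norm_num)⟩
    have hρ0 : 0 < x ^ 2 + τ := by have := hτ.1; positivity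
    refine key (WA κ j τ x) j hj ?_ τ hτ1 x hx fun h1 => ?_
    · unfold WA WJ
      exact mul_nonneg (div_nonneg (hrp0 τ hτ1) (by positivity)) (by positivity)
    · unfold WA WJ
      have hρ : 1 ≤ x ^ 2 + τ := by nlinarith [hτ.1]
      have h3 : τ ^ (2 * κ) / (x ^ 2 + τ) ^ (60 - 2 * j) ≤ 1 := by
        rw [div_le_one (by positivity)]
        exact (hrp τ hτ1).trans (one_le_pow₀ hρ)
      have h4 : 0 ≤ τ ^ (2 * κ) / (x ^ 2 + τ) ^ (60 - 2 * j) :=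
        div_nonneg (hrp0 τ hτ1) (by positivity)
      have h5 : 1 / (x ^ 2 + τ) ≤ 1 := by
        rw [div_le_one hρ0]; exact hρ
      have h6 : 0 ≤ 1 / (x ^ 2 + τ) := by positivity
      nlinarith

/-- **C6b (b)** -/
theorem ht_norms {κ : ℝ} {L N : ℝ} (_hL : 8 ≤ L) {φ ht : ℝ → ℝ → ℝ} (_hφ : Sm (Ioo 0 1) L φ)
    (_hh : Sm (Ioo 0 1) L ht)
    (h0 : ∀ τ ∈ Ioo (0 : ℝ) 1, 3 / 8 ≤ τ → ∀ x ∈ Icc 0 L, ht τ x = 0)
    (hQ : QB κ L N (fun τ x => φ τ x * ht τ x)) :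
    N2 L (Wt κ) (fun τ x => φ τ x * ht τ x) ≤ ENNReal.ofReal (N ^ 2) ∧
      ∀ j ≤ 8, N2T (3 / 4) L (WJ κ j) (dt^[j] (fun τ x => φ τ x * ht τ x)) ≤
        ENNReal.ofReal (N ^ 2) := by
  have hz : ∀ j : ℕ, ∀ τ ∈ Ioo (0 : ℝ) 1, 1 / 2 ≤ τ → ∀ x ∈ Icc 0 L,
      (dt^[j] (fun τ x => φ τ x * ht τ x)) τ x = 0 := by
    intro j τ hτ hτ2 x hx
    refine dt_iter_zero (s := Ioo (3 / 8) 1) isOpen_Ioo (fun r hr => ?_)
      ⟨by linarith, hτ.2⟩ j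
    rw [h0 r ⟨by linarith [hr.1], hr.2⟩ hr.1.le x hx, mul_zero]
  refine ⟨?_, fun j hj => ?_⟩
  · rw [N2_eq_N2T, Wt_eq_WJ]
    exact (N2T_le_half le_rfl (hz 0)).trans (hQ 0 (by norm_num))
  · exact (N2T_le_half (by norm_num) (hz j)).trans (hQ j hj)

end Crest.Agent.R213.C
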