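import Crest.Agent.R213.C.EnergyT

/-!
# Row 213, part C, C2: conversion between iterated real integrals and `lintegral` (helper436)
-/

set_option autoImplicit false

open Set MeasureTheory Filter Topology

noncomputable section

namespace Crest.Agent.R213.C.EN

open Crest.Agent.R213

/-- general form: a nonnegative continuous function on `[a,T] × [0,L]` -/
theorem ofReal_iter {a T L : ℝ} (haT : a ≤ T) (hL : 0 ≤ L) {h : ℝ → ℝ → ℝ}
    (hc : ContinuousOn (fun q : ℝ × ℝ => h q.1 q.2) (Icc a T ×ˢ Icc 0 L))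
    (h0 : ∀ τ ∈ Icc a T, ∀ x ∈ Icc 0 L, 0 ≤ h τ x) :
    ENNReal.ofReal (∫ τ in a..T, ∫ x in (0 : ℝ)..L, h τ x) =
      ∫⁻ q in (Ioo a T ×ˢ Ioo (0 : ℝ) L), ENNReal.ofReal (h q.1 q.2) := by
  have hsub : Ioo a T ×ˢ Ioo (0 : ℝ) L ⊆ Icc a T ×ˢ Icc 0 L :=
    Set.prod_mono Ioo_subset_Icc_self Ioo_subset_Icc_self
  have hms : MeasurableSet (Ioo a T ×ˢ Ioo (0 : ℝ) L) := measurableSet_Ioo.prod measurableSet_Ioo
  have hI : IntegrableOn (fun q : ℝ × ℝ => h q.1 q.2) (Ioo a T ×ˢ Ioo (0 : ℝ) L) :=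
    (hc.integrableOn_compact (isCompact_Icc.prod isCompact_Icc)).mono_set hsub
  have hI' : Integrable (fun q : ℝ × ℝ => h q.1 q.2)
      ((volume.restrict (Ioo a T)).prod (volume.restrict (Ioo (0 : ℝ) L))) := by
    rw [Measure.prod_restrict]
    exact hI
  have e1 : ∫ τ in a..T, ∫ x in (0 : ℝ)..L, h τ x =
      ∫ q in (Ioo a T ×ˢ Ioo (0 : ℝ) L), h q.1 q.2 := by
    have e2 : ∫ q in (Ioo a T ×ˢ Ioo (0 : ℝ) L), h q.1 q.2 = ∫ q, h q.1 q.2
        ∂((volume.restrict (Ioo a T)).prod (volume.restrict (Ioo (0 : ℝ) L))) := by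
      rw [Measure.prod_restrict]
      rfl
    rw [e2, integral_prod _ hI', intervalIntegral.integral_of_le haT, integral_Ioc_eq_integral_Ioo]
    refine setIntegral_congr_fun measurableSet_Ioo fun τ _ => ?_
    simp only
    rw [intervalIntegral.integral_of_le hL, integral_Ioc_eq_integral_Ioo]
  rw [e1]
  exact ofReal_integral_eq_lintegral_ofReal hI ((ae_restrict_mem hms).mono fun q hq =>
    h0 q.1 (Ioo_subset_Icc_self hq.1) q.2 (Ioo_subset_Icc_self hq.2))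

variable {L a T κ p : ℝ} {F : ℝ → ℝ → ℝ}

/-- **conversion lemma** -/
theorem ofReal_XX (hF : Sm (Ioo 0 1) L F) (hL : 0 < L) (ha : 0 < a) (haT : a ≤ T) (hT : T < 1)
    (k : ℕ) :
    ENNReal.ofReal (∫ τ in a..T, (T - τ) ^ k * τ ^ (2 * κ) * XX L p F τ) =
      ∫⁻ q in (Ioo a T ×ˢ Ioo (0 : ℝ) L),
        ENNReal.ofReal ((T - q.1) ^ k * q.1 ^ (2 * κ) * (q.2 ^ 2 + q.1) ^ p * q.2 ^ 9 *
          F q.1 q.2 ^ 2) := by
  have hcF : ContinuousOn (fun q : ℝ × ℝ => F q.1 q.2) (Icc a T ×ˢ Icc 0 L) :=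
    hF.continuousOn.mono (Set.prod_mono (fun τ hτ => ⟨ha.trans_le hτ.1, hτ.2.trans_lt hT⟩)
      subset_rfl)
  have hc : ContinuousOn (fun q : ℝ × ℝ => (T - q.1) ^ k * q.1 ^ (2 * κ) *
      (q.2 ^ 2 + q.1) ^ p * q.2 ^ 9 * F q.1 q.2 ^ 2) (Icc a T ×ˢ Icc 0 L) := by
    have h1 : ContinuousOn (fun q : ℝ × ℝ => q.1 ^ (2 * κ)) (Icc a T ×ˢ Icc 0 L) :=
      ContinuousOn.rpow_const continuousOn_fst fun q hq => Or.inl (ha.trans_le hq.1.1).ne'
    have h2 : ContinuousOn (fun q : ℝ × ℝ => (q.2 ^ 2 + q.1) ^ p) (Icc a T ×ˢ Icc 0 L) :=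
      ContinuousOn.rpow_const (by fun_prop) fun q hq => Or.inl (by
        have := ha.trans_le hq.1.1
        positivity)
    exact (((((continuousOn_const.sub continuousOn_fst).pow k).mul h1).mul h2).mul
      (continuousOn_snd.pow 9)).mul (hcF.pow 2)
  have h0 : ∀ τ ∈ Icc a T, ∀ x ∈ Icc 0 L, 0 ≤ (T - τ) ^ k * τ ^ (2 * κ) *
      (x ^ 2 + τ) ^ p * x ^ 9 * F τ x ^ 2 := by
    intro τ hτ x hx
    have h1 : 0 ≤ T - τ := sub_nonneg.2 hτ.2
    have h2 : 0 < τ := ha.trans_le hτ.1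
    have h3 : 0 ≤ x := hx.1
    positivity
  rw [← ofReal_iter (h := fun τ x => (T - τ) ^ k * τ ^ (2 * κ) * (x ^ 2 + τ) ^ p * x ^ 9 *
    F τ x ^ 2) haT hL.le hc h0]
  congr 1
  refine intervalIntegral.integral_congr fun τ _ => ?_
  simp only [XX]
  rw [← intervalIntegral.integral_const_mul]
  refine intervalIntegral.integral_congr fun x _ => ?_
  ring

/-- the same without the factor `(T-τ)^k` -/
theorem ofReal_XX' (hF : Sm (Ioo 0 1) L F) (hL : 0 < L) (ha : 0 < a) (haT : a ≤ T) (hT : T < 1) :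
    ENNReal.ofReal (∫ τ in a..T, τ ^ (2 * κ) * XX L p F τ) =
      ∫⁻ q in (Ioo a T ×ˢ Ioo (0 : ℝ) L),
        ENNReal.ofReal (q.1 ^ (2 * κ) * (q.2 ^ 2 + q.1) ^ p * q.2 ^ 9 * F q.1 q.2 ^ 2) := by
  have h := ofReal_XX (κ := κ) (p := p) hF hL ha haT hT 0
  simpa only [pow_zero, one_mul] using h

end Crest.Agent.R213.C.EN
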