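import Crest.Agent.R213.J0
import Crest.Agent.R213.C.CDefs

/-!
# Row 213, Part C, C3: sup in `τ` from weighted `L²` norms of `u` and `∂_τ u`
-/

set_option autoImplicit false

open Set MeasureTheory Filter Topology

noncomputable section

namespace Crest.Agent.R213.C

/-- Cauchy–Schwarz for interval integrals of continuous functions. -/
theorem cs_interval {a b : ℝ} (hab : a ≤ b) {f g : ℝ → ℝ} (hf : ContinuousOn f (Icc a b))
    (hg : ContinuousOn g (Icc a b)) :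
    (∫ t in a..b, f t * g t) ^ 2 ≤ (∫ t in a..b, f t ^ 2) * (∫ t in a..b, g t ^ 2) := by
  have hu : uIcc a b = Icc a b := uIcc_of_le hab
  have i1 : IntervalIntegrable (fun t => f t ^ 2) volume a b :=
    (ContinuousOn.pow (by rwa [hu]) 2).intervalIntegrable
  have i2 : IntervalIntegrable (fun t => g t ^ 2) volume a b :=
    (ContinuousOn.pow (by rwa [hu]) 2).intervalIntegrable
  have i3 : IntervalIntegrable (fun t => f t * g t) volume a b :=
    (ContinuousOn.mul (by rwa [hu]) (by rwa [hu])).intervalIntegrable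
  have key : ∀ s : ℝ, 0 ≤ (∫ t in a..b, f t ^ 2) * (s * s) + (2 * ∫ t in a..b, f t * g t) * s
      + (∫ t in a..b, g t ^ 2) := by
    intro s
    have h0 : 0 ≤ ∫ t in a..b, (s * f t + g t) ^ 2 :=
      intervalIntegral.integral_nonneg hab (fun t _ => sq_nonneg _)
    have h1 : ∫ t in a..b, (s * f t + g t) ^ 2
        = ∫ t in a..b, ((s * s) * f t ^ 2 + (2 * s) * (f t * g t) + g t ^ 2) := by
      congr 1; ext t; ring
    rw [h1, intervalIntegral.integral_add ((i1.const_mul _).add (i3.const_mul _)) i2,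
      intervalIntegral.integral_add (i1.const_mul _) (i3.const_mul _),
      intervalIntegral.integral_const_mul, intervalIntegral.integral_const_mul] at h0
    linarith
  have := discrim_le_zero key
  unfold discrim at this
  nlinarith [this]

/-- one-dimensional trace inequality with weight `τ^{2κ}`. -/
theorem trace_1d {κ t0 l : ℝ} (hκ0 : 0 < κ) (hκ1 : κ ≤ 1 / 4) (ht0 : 0 < t0) (hl : 0 < l)
    {f f' : ℝ → ℝ} (hf : ∀ t ∈ Icc t0 (t0 + l), HasDerivAt f (f' t) t)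
    (hf' : ContinuousOn f' (Icc t0 (t0 + l))) :
    f t0 ^ 2 ≤ (4 / l) * (l / 2) ^ (-(2 * κ)) * (∫ t in t0..(t0 + l), t ^ (2 * κ) * f t ^ 2)
      + 4 * l ^ (1 - 2 * κ) * (∫ t in t0..(t0 + l), t ^ (2 * κ) * f' t ^ 2) := by
  have hle : t0 ≤ t0 + l := by linarith
  have hfc : ContinuousOn f (Icc t0 (t0 + l)) := fun t ht => (hf t ht).continuousAt.continuousWithinAt
  have hu : uIcc t0 (t0 + l) = Icc t0 (t0 + l) := uIcc_of_le hle
  have hpos : ∀ t ∈ Icc t0 (t0 + l), 0 < t := fun t ht => lt_of_lt_of_le ht0 ht.1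
  have hrp : ∀ r : ℝ, ContinuousOn (fun t : ℝ => t ^ r) (Icc t0 (t0 + l)) := by
    intro r t ht
    exact (Real.continuousAt_rpow_const t r (Or.inl (hpos t ht).ne')).continuousWithinAt
  -- A := ∫ |f'|
  set A := ∫ t in t0..(t0 + l), |f' t| with hA
  have hAint : IntervalIntegrable (fun t => |f' t|) volume t0 (t0 + l) :=
    (ContinuousOn.abs (by rwa [hu])).intervalIntegrable
  have hf'int : IntervalIntegrable f' volume t0 (t0 + l) :=
    (show ContinuousOn f' (uIcc t0 (t0 + l)) by rwa [hu]).intervalIntegrable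
  have h1 : ∀ t ∈ Icc t0 (t0 + l), f t0 ^ 2 ≤ 2 * f t ^ 2 + 2 * A ^ 2 := by
    intro t ht
    have hsub : Icc t0 t ⊆ Icc t0 (t0 + l) := Icc_subset_Icc le_rfl ht.2
    have hftc : ∫ s in t0..t, f' s = f t - f t0 := by
      apply intervalIntegral.integral_eq_sub_of_hasDerivAt
      · intro s hs
        rw [uIcc_of_le ht.1] at hs
        exact hf s (hsub hs)
      · exact (show ContinuousOn f' (uIcc t0 t) by
          rw [uIcc_of_le ht.1]; exact hf'.mono hsub).intervalIntegrable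
    have hab : |f t - f t0| ≤ A := by
      rw [← hftc]
      calc |∫ s in t0..t, f' s| ≤ ∫ s in t0..t, |f' s| :=
            intervalIntegral.abs_integral_le_integral_abs ht.1
        _ ≤ A := by
            rw [hA]
            apply intervalIntegral.integral_mono_interval le_rfl ht.1 ht.2
            · exact Filter.Eventually.of_forall (fun s => abs_nonneg _)
            · exact hAint
    have hA0 : 0 ≤ A := le_trans (abs_nonneg _) hab
    have h2 : (f t - f t0) ^ 2 ≤ A ^ 2 := by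
      rw [← sq_abs]; exact pow_le_pow_left₀ (abs_nonneg _) hab 2
    nlinarith [sq_nonneg (f t + (f t - f t0)), sq_nonneg (f t0 - 2 * f t)]
  -- average over the second half
  have hm : t0 ≤ t0 + l / 2 := by linarith
  have hm2 : t0 + l / 2 ≤ t0 + l := by linarith
  have hsub2 : Icc (t0 + l / 2) (t0 + l) ⊆ Icc t0 (t0 + l) := Icc_subset_Icc hm le_rfl
  have hu2 : uIcc (t0 + l / 2) (t0 + l) = Icc (t0 + l / 2) (t0 + l) := uIcc_of_le hm2
  have h3 : f t0 ^ 2 * (l / 2) ≤ 2 * (∫ t in (t0 + l / 2)..(t0 + l), f t ^ 2) + l * A ^ 2 := by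
    have e1 : ∫ _ in (t0 + l / 2)..(t0 + l), f t0 ^ 2 = f t0 ^ 2 * (l / 2) := by
      rw [intervalIntegral.integral_const, smul_eq_mul]; ring
    have e2 : ∫ t in (t0 + l / 2)..(t0 + l), (2 * f t ^ 2 + 2 * A ^ 2)
        = 2 * (∫ t in (t0 + l / 2)..(t0 + l), f t ^ 2) + l * A ^ 2 := by
      rw [intervalIntegral.integral_add, intervalIntegral.integral_const_mul,
        intervalIntegral.integral_const, smul_eq_mul]
      · ring
      · exact (ContinuousOn.mul continuousOn_const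
          (ContinuousOn.pow (by rw [hu2]; exact hfc.mono hsub2) 2)).intervalIntegrable
      · exact intervalIntegrable_const
    rw [← e1, ← e2]
    apply intervalIntegral.integral_mono_on hm2
    · exact intervalIntegrable_const
    · exact (ContinuousOn.add (ContinuousOn.mul continuousOn_const
          (ContinuousOn.pow (by rw [hu2]; exact hfc.mono hsub2) 2)) continuousOn_const).intervalIntegrable
    · intro t ht; exact h1 t (hsub2 ht)
  -- the L² part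
  have hl2 : 0 < l / 2 := by linarith
  have h4 : ∫ t in (t0 + l / 2)..(t0 + l), f t ^ 2 ≤
      (l / 2) ^ (-(2 * κ)) * ∫ t in t0..(t0 + l), t ^ (2 * κ) * f t ^ 2 := by
    have e1 : ∫ t in (t0 + l / 2)..(t0 + l), f t ^ 2 ≤
        ∫ t in (t0 + l / 2)..(t0 + l), (l / 2) ^ (-(2 * κ)) * (t ^ (2 * κ) * f t ^ 2) := by
      apply intervalIntegral.integral_mono_on hm2
      · exact (ContinuousOn.pow (by rw [hu2]; exact hfc.mono hsub2) 2).intervalIntegrable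
      · exact (ContinuousOn.mul continuousOn_const (ContinuousOn.mul (by
          rw [hu2]; exact (hrp _).mono hsub2)
          (ContinuousOn.pow (by rw [hu2]; exact hfc.mono hsub2) 2))).intervalIntegrable
      · intro t ht
        have ht' : l / 2 ≤ t := by linarith [ht.1]
        have : 1 ≤ (l / 2) ^ (-(2 * κ)) * t ^ (2 * κ) := by
          rw [Real.rpow_neg hl2.le, ← div_eq_inv_mul, one_le_div (Real.rpow_pos_of_pos hl2 _)]
          exact Real.rpow_le_rpow hl2.le ht' (by linarith)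
        nlinarith [sq_nonneg (f t), this]
    refine e1.trans ?_
    rw [intervalIntegral.integral_const_mul]
    apply mul_le_mul_of_nonneg_left _ (Real.rpow_nonneg hl2.le _)
    apply intervalIntegral.integral_mono_interval hm hm2 le_rfl
    · refine (ae_restrict_iff' measurableSet_Ioc).2 (Filter.Eventually.of_forall ?_)
      intro t ht
      exact mul_nonneg (Real.rpow_nonneg (le_trans ht0.le ht.1.le) _) (sq_nonneg _)
    · exact (ContinuousOn.mul (by rw [hu]; exact hrp _)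
        (ContinuousOn.pow (by rwa [hu]) 2)).intervalIntegrable
  -- Cauchy–Schwarz part
  have h5 : A ^ 2 ≤ (2 * l ^ (1 - 2 * κ)) * ∫ t in t0..(t0 + l), t ^ (2 * κ) * f' t ^ 2 := by
    have cs := cs_interval hle (f := fun t => t ^ (-κ)) (g := fun t => t ^ κ * |f' t|)
      (hrp _) ((hrp _).mul hf'.abs)
    have e1 : (∫ t in t0..(t0 + l), t ^ (-κ) * (t ^ κ * |f' t|)) = A := by
      rw [hA]
      apply intervalIntegral.integral_congr
      intro t ht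
      rw [hu] at ht
      have := hpos t ht
      show t ^ (-κ) * (t ^ κ * |f' t|) = |f' t|
      rw [← mul_assoc, ← Real.rpow_add this]; simp
    have e2 : (∫ t in t0..(t0 + l), (t ^ κ * |f' t|) ^ 2)
        = ∫ t in t0..(t0 + l), t ^ (2 * κ) * f' t ^ 2 := by
      apply intervalIntegral.integral_congr
      intro t ht
      rw [hu] at ht
      have := hpos t ht
      show (t ^ κ * |f' t|) ^ 2 = t ^ (2 * κ) * f' t ^ 2
      rw [mul_pow, sq_abs, ← Real.rpow_natCast (t ^ κ) 2, ← Real.rpow_mul this.le]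
      norm_num [mul_comm]
    have e3 : (∫ t in t0..(t0 + l), (t ^ (-κ)) ^ 2) ≤ 2 * l ^ (1 - 2 * κ) := by
      have e4 : (∫ t in t0..(t0 + l), (t ^ (-κ)) ^ 2) = ∫ t in t0..(t0 + l), t ^ (-(2 * κ)) := by
        apply intervalIntegral.integral_congr
        intro t ht
        rw [hu] at ht
        have := hpos t ht
        show (t ^ (-κ)) ^ 2 = t ^ (-(2 * κ))
        rw [← Real.rpow_natCast (t ^ (-κ)) 2, ← Real.rpow_mul this.le]
        congr 1; push_cast; ring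
      rw [e4, integral_rpow (Or.inl (by linarith))]
      have hd : 0 < -(2 * κ) + 1 := by linarith
      rw [div_le_iff₀ hd]
      have hsa : (t0 + l) ^ (-(2 * κ) + 1) ≤ t0 ^ (-(2 * κ) + 1) + l ^ (-(2 * κ) + 1) :=
        Real.rpow_add_le_add_rpow ht0.le hl.le hd.le (by linarith)
      have hl1 : 0 ≤ l ^ (-(2 * κ) + 1) := Real.rpow_nonneg hl.le _
      have : (1 : ℝ) - 2 * κ = -(2 * κ) + 1 := by ring
      rw [this]
      nlinarith
    rw [e1, e2] at cs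
    refine cs.trans (mul_le_mul_of_nonneg_right e3 ?_)
    apply intervalIntegral.integral_nonneg hle
    intro t ht
    exact mul_nonneg (Real.rpow_nonneg (hpos t ht).le _) (sq_nonneg _)
  set I1 := ∫ t in t0..(t0 + l), t ^ (2 * κ) * f t ^ 2
  set I2 := ∫ t in t0..(t0 + l), t ^ (2 * κ) * f' t ^ 2
  have h6 : f t0 ^ 2 * (l / 2) ≤ 2 * ((l / 2) ^ (-(2 * κ)) * I1) + l * ((2 * l ^ (1 - 2 * κ)) * I2) := by
    nlinarith
  have h7 : f t0 ^ 2 ≤ (2 / l) * (2 * ((l / 2) ^ (-(2 * κ)) * I1) + l * ((2 * l ^ (1 - 2 * κ)) * I2)) := by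
    have : f t0 ^ 2 = (2 / l) * (f t0 ^ 2 * (l / 2)) := by field_simp
    rw [this]
    exact mul_le_mul_of_nonneg_left h6 (by positivity)
  refine h7.trans (le_of_eq ?_)
  field_simp
  ring

/-- pointwise (fixed `x`) weighted trace inequality. `R = x²`, `ρ = R + τ`. -/
theorem trace_wt {κ t0 R M : ℝ} (hκ0 : 0 < κ) (hκ1 : κ ≤ 1 / 4) (ht0 : 0 < t0)
    (hR : 0 ≤ R) (hRM : R + t0 ≤ M) (hM : 1 ≤ M) (m : ℕ)
    {f f' : ℝ → ℝ} (hf : ∀ t ∈ Icc t0 (t0 + min (R + t0) 1 / 8), HasDerivAt f (f' t) t)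
    (hf' : ContinuousOn f' (Icc t0 (t0 + min (R + t0) 1 / 8))) :
    f t0 ^ 2 / (R + t0) ^ m ≤ (9 / 8) ^ (m + 2) * 512 * M ^ 2 *
      ((∫ t in t0..(t0 + min (R + t0) 1 / 8), t ^ (2 * κ) / (R + t) ^ (m + 2) * f t ^ 2)
        + ∫ t in t0..(t0 + min (R + t0) 1 / 8), t ^ (2 * κ) / (R + t) ^ m * f' t ^ 2) := by
  have hρ : 0 < R + t0 := by linarith
  set l := min (R + t0) 1 / 8 with hl_def
  have hmin : 0 < min (R + t0) 1 := lt_min hρ one_pos
  have hl : 0 < l := by rw [hl_def]; positivity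
  have hl1 : l ≤ 1 / 8 := by rw [hl_def]; linarith [min_le_right (R + t0) 1]
  have hl2 : l ≤ (R + t0) / 8 := by rw [hl_def]; linarith [min_le_left (R + t0) 1]
  have hρl : (R + t0) / l ≤ 8 * M := by
    rw [div_le_iff₀ hl, hl_def]
    rcases le_total (R + t0) 1 with h | h
    · rw [min_eq_left h]; nlinarith
    · rw [min_eq_right h]; nlinarith
  have hle : t0 ≤ t0 + l := by linarith
  have hu : uIcc t0 (t0 + l) = Icc t0 (t0 + l) := uIcc_of_le hle
  have hpos : ∀ t ∈ Icc t0 (t0 + l), 0 < t := fun t ht => lt_of_lt_of_le ht0 ht.1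
  have hρt : ∀ t ∈ Icc t0 (t0 + l), R + t0 ≤ R + t ∧ R + t ≤ 9 / 8 * (R + t0) := by
    intro t ht; exact ⟨by linarith [ht.1], by linarith [ht.2]⟩
  have hfc : ContinuousOn f (Icc t0 (t0 + l)) := fun t ht => (hf t ht).continuousAt.continuousWithinAt
  have hrp : ContinuousOn (fun t : ℝ => t ^ (2 * κ)) (Icc t0 (t0 + l)) := by
    intro t ht
    exact (Real.continuousAt_rpow_const t _ (Or.inl (hpos t ht).ne')).continuousWithinAt
  have hrk : ∀ k : ℕ, ContinuousOn (fun t : ℝ => t ^ (2 * κ) / (R + t) ^ k) (Icc t0 (t0 + l)) := by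
    intro k
    apply hrp.div (by fun_prop)
    intro t ht
    have : 0 < R + t := by linarith [hpos t ht]
    positivity
  have h0 := trace_1d hκ0 hκ1 ht0 hl hf hf'
  have hc1 : (4 / l) * (l / 2) ^ (-(2 * κ)) ≤ 8 / l ^ 2 := by
    have : (l / 2) ^ (-(2 * κ)) ≤ (l / 2) ^ (-1 : ℝ) :=
      Real.rpow_le_rpow_of_exponent_ge (by positivity) (by linarith) (by linarith)
    rw [Real.rpow_neg_one] at this
    calc (4 / l) * (l / 2) ^ (-(2 * κ)) ≤ (4 / l) * (l / 2)⁻¹ := by gcongr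
      _ = 8 / l ^ 2 := by field_simp; norm_num
  have hc2 : 4 * l ^ (1 - 2 * κ) ≤ 4 := by
    have : l ^ (1 - 2 * κ) ≤ 1 := Real.rpow_le_one hl.le (by linarith) (by linarith)
    linarith
  set J1 := ∫ t in t0..(t0 + l), t ^ (2 * κ) * f t ^ 2 with hJ1
  set J2 := ∫ t in t0..(t0 + l), t ^ (2 * κ) * f' t ^ 2 with hJ2
  set I1 := ∫ t in t0..(t0 + l), t ^ (2 * κ) / (R + t) ^ (m + 2) * f t ^ 2 with hI1
  set I2 := ∫ t in t0..(t0 + l), t ^ (2 * κ) / (R + t) ^ m * f' t ^ 2 with hI2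
  have hcmp : ∀ (k : ℕ) (g : ℝ → ℝ), ContinuousOn g (Icc t0 (t0 + l)) →
      (∫ t in t0..(t0 + l), t ^ (2 * κ) * g t ^ 2) ≤
        (9 / 8 * (R + t0)) ^ k * ∫ t in t0..(t0 + l), t ^ (2 * κ) / (R + t) ^ k * g t ^ 2 := by
    intro k g hg
    rw [← intervalIntegral.integral_const_mul]
    apply intervalIntegral.integral_mono_on hle
    · exact (ContinuousOn.mul (by rwa [hu]) (ContinuousOn.pow (by rwa [hu]) 2)).intervalIntegrable
    · exact (ContinuousOn.mul continuousOn_const (ContinuousOn.mul (by rw [hu]; exact hrk k)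
        (ContinuousOn.pow (by rwa [hu]) 2))).intervalIntegrable
    · intro t ht
      have h1 := hρt t ht
      have h2 : 0 < R + t := by linarith [h1.1]
      have h3 : (R + t) ^ k ≤ (9 / 8 * (R + t0)) ^ k := pow_le_pow_left₀ h2.le h1.2 k
      have h4 : 0 ≤ t ^ (2 * κ) * g t ^ 2 :=
        mul_nonneg (Real.rpow_nonneg (hpos t ht).le _) (sq_nonneg _)
      have h5 : (9 / 8 * (R + t0)) ^ k * (t ^ (2 * κ) / (R + t) ^ k * g t ^ 2)
          = (t ^ (2 * κ) * g t ^ 2) * ((9 / 8 * (R + t0)) ^ k / (R + t) ^ k) := by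
        field_simp
      rw [h5]
      have h6 : 1 ≤ (9 / 8 * (R + t0)) ^ k / (R + t) ^ k := by
        rw [one_le_div (by positivity)]; exact h3
      nlinarith
  have hK1 := hcmp (m + 2) f hfc
  have hK2 := hcmp m f' hf'
  rw [← hJ1, ← hI1] at hK1
  rw [← hJ2, ← hI2] at hK2
  have hI1n : 0 ≤ I1 := by
    rw [hI1]; apply intervalIntegral.integral_nonneg hle
    intro t ht
    have : 0 < R + t := by linarith [hpos t ht]
    have := Real.rpow_nonneg (hpos t ht).le (2 * κ)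
    positivity
  have hI2n : 0 ≤ I2 := by
    rw [hI2]; apply intervalIntegral.integral_nonneg hle
    intro t ht
    have : 0 < R + t := by linarith [hpos t ht]
    have := Real.rpow_nonneg (hpos t ht).le (2 * κ)
    positivity
  have hJ1n : 0 ≤ J1 := by
    rw [hJ1]; apply intervalIntegral.integral_nonneg hle
    intro t ht
    exact mul_nonneg (Real.rpow_nonneg (hpos t ht).le _) (sq_nonneg _)
  have hJ2n : 0 ≤ J2 := by
    rw [hJ2]; apply intervalIntegral.integral_nonneg hle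
    intro t ht
    exact mul_nonneg (Real.rpow_nonneg (hpos t ht).le _) (sq_nonneg _)
  have h1 : f t0 ^ 2 ≤ (8 / l ^ 2) * ((9 / 8 * (R + t0)) ^ (m + 2) * I1)
      + 4 * ((9 / 8 * (R + t0)) ^ m * I2) := by
    calc f t0 ^ 2 ≤ (4 / l) * (l / 2) ^ (-(2 * κ)) * J1 + 4 * l ^ (1 - 2 * κ) * J2 := h0
      _ ≤ (8 / l ^ 2) * J1 + 4 * J2 := by gcongr
      _ ≤ _ := by gcongr
  have hρm : 0 < (R + t0) ^ m := by positivity
  rw [div_le_iff₀ hρm]
  refine h1.trans ?_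
  have e1 : (8 / l ^ 2) * ((9 / 8 * (R + t0)) ^ (m + 2) * I1)
      = (9 / 8) ^ (m + 2) * 8 * ((R + t0) / l) ^ 2 * I1 * (R + t0) ^ m := by
    rw [mul_pow, pow_add (R + t0) m 2]; field_simp
  have e2 : 4 * ((9 / 8 * (R + t0)) ^ m * I2) = (9 / 8) ^ m * 4 * I2 * (R + t0) ^ m := by
    rw [mul_pow]; ring
  rw [e1, e2]
  have h2 : ((R + t0) / l) ^ 2 ≤ (8 * M) ^ 2 := pow_le_pow_left₀ (by positivity) hρl 2
  have h3 : (9 / 8 : ℝ) ^ (m + 2) * 8 * ((R + t0) / l) ^ 2 * I1 * (R + t0) ^ m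
      ≤ (9 / 8 : ℝ) ^ (m + 2) * 8 * (8 * M) ^ 2 * I1 * (R + t0) ^ m := by gcongr
  have h4 : (9 / 8 : ℝ) ^ m * 4 * I2 * (R + t0) ^ m ≤
      (9 / 8 : ℝ) ^ (m + 2) * 512 * M ^ 2 * I2 * (R + t0) ^ m := by
    have : (9 / 8 : ℝ) ^ m * 4 ≤ (9 / 8 : ℝ) ^ (m + 2) * 512 * M ^ 2 := by
      have a1 : (9 / 8 : ℝ) ^ m ≤ (9 / 8 : ℝ) ^ (m + 2) := pow_le_pow_right₀ (by norm_num) (by omega)
      have a2 : (4 : ℝ) ≤ 512 * M ^ 2 := by nlinarith
      calc (9 / 8 : ℝ) ^ m * 4 ≤ (9 / 8 : ℝ) ^ (m + 2) * (512 * M ^ 2) := by gcongr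
        _ = _ := by ring
    gcongr
  calc _ ≤ (9 / 8 : ℝ) ^ (m + 2) * 8 * (8 * M) ^ 2 * I1 * (R + t0) ^ m
        + (9 / 8 : ℝ) ^ (m + 2) * 512 * M ^ 2 * I2 * (R + t0) ^ m := add_le_add h3 h4
    _ = _ := by ring

/-- measurability of weighted squares of `Sm` functions. -/
theorem aemeas_wt {κ L T : ℝ} (hT : T ≤ 1) (m : ℕ) {u : ℝ → ℝ → ℝ}
    (hu : ContinuousOn (fun p : ℝ × ℝ => u p.1 p.2) (Ioo 0 1 ×ˢ Icc 0 L)) :
    AEMeasurable (fun q : ℝ × ℝ =>
      ENNReal.ofReal (q.1 ^ (2 * κ) / (q.2 ^ 2 + q.1) ^ m * q.2 ^ 9 * (u q.1 q.2) ^ 2))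
      (volume.restrict (Ioo (0 : ℝ) T ×ˢ Ioo (0 : ℝ) L)) := by
  apply AEMeasurable.ennreal_ofReal
  apply ContinuousOn.aemeasurable _ (measurableSet_Ioo.prod measurableSet_Ioo)
  have hsub : Ioo (0 : ℝ) T ×ˢ Ioo (0 : ℝ) L ⊆ Ioo 0 1 ×ˢ Icc 0 L :=
    prod_mono (Ioo_subset_Ioo le_rfl hT) Ioo_subset_Icc_self
  have h1 : ContinuousOn (fun q : ℝ × ℝ => q.1 ^ (2 * κ)) (Ioo (0 : ℝ) T ×ˢ Ioo (0 : ℝ) L) := by
    intro q hq
    exact (ContinuousAt.rpow_const continuousAt_fst (Or.inl hq.1.1.ne')).continuousWithinAt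
  have h2 : ContinuousOn (fun q : ℝ × ℝ => (q.2 ^ 2 + q.1) ^ m) (Ioo (0 : ℝ) T ×ˢ Ioo (0 : ℝ) L) := by
    fun_prop
  refine ((h1.div h2 ?_).mul (by fun_prop)).mul ((hu.mono hsub).pow 2)
  intro q hq
  have h3 : 0 < q.1 := hq.1.1
  positivity

/-- C3, measure version: sup in `τ` of weighted `L²(dx)` norms. -/
theorem sup_tau_core {κ L : ℝ} (hκ0 : 0 < κ) (hκ1 : κ ≤ 1 / 4) (hL : 1 ≤ L) (m : ℕ)
    {u : ℝ → ℝ → ℝ} (hu : Sm (Ioo 0 1) L u) {t0 : ℝ} (ht0 : 0 < t0) (ht1 : t0 ≤ 1 / 2) :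
    ∫⁻ x in Ioo (0 : ℝ) L, ENNReal.ofReal (x ^ 9 * (u t0 x) ^ 2 / (x ^ 2 + t0) ^ m) ≤
      ENNReal.ofReal ((9 / 8) ^ (m + 2) * 512 * (L ^ 2 + 1) ^ 2) *
      ((∫⁻ q in Ioo (0 : ℝ) (5 / 8) ×ˢ Ioo (0 : ℝ) L,
          ENNReal.ofReal (q.1 ^ (2 * κ) / (q.2 ^ 2 + q.1) ^ (m + 2) * q.2 ^ 9 * (u q.1 q.2) ^ 2))
        + ∫⁻ q in Ioo (0 : ℝ) (5 / 8) ×ˢ Ioo (0 : ℝ) L,
          ENNReal.ofReal (q.1 ^ (2 * κ) / (q.2 ^ 2 + q.1) ^ m * q.2 ^ 9 * (dt u q.1 q.2) ^ 2)) := by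
  have hL0 : 0 < L := by linarith
  set K : ℝ := (9 / 8) ^ (m + 2) * 512 * (L ^ 2 + 1) ^ 2 with hK
  have hK0 : 0 ≤ K := by positivity
  have hudt : Sm (Ioo 0 1) L (dt u) := hu.dt isOpen_Ioo hL0
  -- Tonelli
  have hT1 : ∫⁻ q in Ioo (0 : ℝ) (5 / 8) ×ˢ Ioo (0 : ℝ) L,
        ENNReal.ofReal (q.1 ^ (2 * κ) / (q.2 ^ 2 + q.1) ^ (m + 2) * q.2 ^ 9 * (u q.1 q.2) ^ 2)
      = ∫⁻ x in Ioo (0 : ℝ) L, ∫⁻ t in Ioo (0 : ℝ) (5 / 8),
        ENNReal.ofReal (t ^ (2 * κ) / (x ^ 2 + t) ^ (m + 2) * x ^ 9 * (u t x) ^ 2) := by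
    have hm := aemeas_wt (κ := κ) (T := 5 / 8) (by norm_num) (m + 2) hu.continuousOn
    rw [Measure.volume_eq_prod, ← Measure.prod_restrict] at hm ⊢
    exact lintegral_prod_symm _ hm
  have hT2 : ∫⁻ q in Ioo (0 : ℝ) (5 / 8) ×ˢ Ioo (0 : ℝ) L,
        ENNReal.ofReal (q.1 ^ (2 * κ) / (q.2 ^ 2 + q.1) ^ m * q.2 ^ 9 * (dt u q.1 q.2) ^ 2)
      = ∫⁻ x in Ioo (0 : ℝ) L, ∫⁻ t in Ioo (0 : ℝ) (5 / 8),
        ENNReal.ofReal (t ^ (2 * κ) / (x ^ 2 + t) ^ m * x ^ 9 * (dt u t x) ^ 2) := by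
    have hm := aemeas_wt (κ := κ) (T := 5 / 8) (by norm_num) m hudt.continuousOn
    rw [Measure.volume_eq_prod, ← Measure.prod_restrict] at hm ⊢
    exact lintegral_prod_symm _ hm
  have hm1 : AEMeasurable (fun x : ℝ => ∫⁻ t in Ioo (0 : ℝ) (5 / 8),
        ENNReal.ofReal (t ^ (2 * κ) / (x ^ 2 + t) ^ (m + 2) * x ^ 9 * (u t x) ^ 2))
        (volume.restrict (Ioo (0 : ℝ) L)) := by
    have hm := aemeas_wt (κ := κ) (T := 5 / 8) (by norm_num) (m + 2) hu.continuousOn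
    rw [Measure.volume_eq_prod, ← Measure.prod_restrict] at hm
    exact hm.lintegral_prod_left'
  rw [hT1, hT2, ← lintegral_add_left' hm1, ← lintegral_const_mul' _ _ ENNReal.ofReal_ne_top]
  apply setLIntegral_mono' measurableSet_Ioo
  intro x hx
  have hx0 : 0 < x := hx.1
  have hxI : x ∈ Icc 0 L := ⟨hx.1.le, hx.2.le⟩
  have hR : 0 ≤ x ^ 2 := sq_nonneg x
  have hM : x ^ 2 + t0 ≤ L ^ 2 + 1 := by
    have : x ^ 2 ≤ L ^ 2 := pow_le_pow_left₀ hx0.le hx.2.le 2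
    linarith
  set l := min (x ^ 2 + t0) 1 / 8 with hl_def
  have hmin : 0 < min (x ^ 2 + t0) 1 := lt_min (by linarith) one_pos
  have hl : 0 < l := by rw [hl_def]; positivity
  have hl1 : l ≤ 1 / 8 := by rw [hl_def]; linarith [min_le_right (x ^ 2 + t0) 1]
  have hle : t0 ≤ t0 + l := by linarith
  have huIcc : uIcc t0 (t0 + l) = Icc t0 (t0 + l) := uIcc_of_le hle
  have hIsub : Icc t0 (t0 + l) ⊆ Ioo (0 : ℝ) 1 := by
    intro t ht; exact ⟨by linarith [ht.1], by linarith [ht.2]⟩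
  have hf : ∀ t ∈ Icc t0 (t0 + l), HasDerivAt (fun r => u r x) (dt u t x) t := by
    intro t ht; exact hu.hasDt isOpen_Ioo (hIsub ht) hxI
  have hf' : ContinuousOn (fun t => dt u t x) (Icc t0 (t0 + l)) :=
    (hudt.continuousOn_left hxI).mono hIsub
  have hfc : ContinuousOn (fun t => u t x) (Icc t0 (t0 + l)) :=
    (hu.continuousOn_left hxI).mono hIsub
  have key := trace_wt (κ := κ) (R := x ^ 2) (M := L ^ 2 + 1) hκ0 hκ1 ht0 hR hM
    (by nlinarith) m hf hf'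
  rw [← hl_def, ← hK] at key
  have hpos : ∀ t ∈ Icc t0 (t0 + l), 0 < t := fun t ht => lt_of_lt_of_le ht0 ht.1
  have hconv : ∀ (k : ℕ) (g : ℝ → ℝ), ContinuousOn g (Icc t0 (t0 + l)) →
      ENNReal.ofReal (x ^ 9 * ∫ t in t0..(t0 + l), t ^ (2 * κ) / (x ^ 2 + t) ^ k * g t ^ 2) ≤
        ∫⁻ t in Ioo (0 : ℝ) (5 / 8),
          ENNReal.ofReal (t ^ (2 * κ) / (x ^ 2 + t) ^ k * x ^ 9 * g t ^ 2) := by
    intro k g hg
    rw [← intervalIntegral.integral_const_mul]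
    have e1 : (∫ t in t0..(t0 + l), x ^ 9 * (t ^ (2 * κ) / (x ^ 2 + t) ^ k * g t ^ 2))
        = ∫ t in Ioo t0 (t0 + l), t ^ (2 * κ) / (x ^ 2 + t) ^ k * x ^ 9 * g t ^ 2 := by
      rw [intervalIntegral.integral_of_le hle, integral_Ioc_eq_integral_Ioo]
      congr 1; ext t; ring
    have hc : ContinuousOn (fun t => t ^ (2 * κ) / (x ^ 2 + t) ^ k * x ^ 9 * g t ^ 2)
        (Icc t0 (t0 + l)) := by
      have hrp : ContinuousOn (fun t : ℝ => t ^ (2 * κ)) (Icc t0 (t0 + l)) := by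
        intro t ht
        exact (Real.continuousAt_rpow_const t _ (Or.inl (hpos t ht).ne')).continuousWithinAt
      refine ((hrp.div (by fun_prop) ?_).mul continuousOn_const).mul (hg.pow 2)
      intro t ht
      have : 0 < x ^ 2 + t := by linarith [hpos t ht]
      positivity
    have hint : IntegrableOn (fun t => t ^ (2 * κ) / (x ^ 2 + t) ^ k * x ^ 9 * g t ^ 2)
        (Ioo t0 (t0 + l)) := (hc.integrableOn_Icc).mono_set Ioo_subset_Icc_self
    rw [e1, ofReal_integral_eq_lintegral_ofReal hint]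
    · apply lintegral_mono_set
      intro t ht
      exact ⟨by linarith [ht.1], by linarith [ht.2]⟩
    · refine (ae_restrict_iff' measurableSet_Ioo).2 (Filter.Eventually.of_forall ?_)
      intro t ht
      have h1 : 0 < t := by linarith [ht.1]
      have h2 : 0 < x ^ 2 + t := by linarith
      have h3 := Real.rpow_nonneg h1.le (2 * κ)
      show (0 : ℝ) ≤ t ^ (2 * κ) / (x ^ 2 + t) ^ k * x ^ 9 * g t ^ 2
      positivity
  have hnn : ∀ (k : ℕ) (g : ℝ → ℝ), 0 ≤ ∫ t in t0..(t0 + l), t ^ (2 * κ) / (x ^ 2 + t) ^ k * g t ^ 2 := by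
    intro k g
    apply intervalIntegral.integral_nonneg hle
    intro t ht
    have h1 := hpos t ht
    have h2 : 0 < x ^ 2 + t := by linarith
    have h3 := Real.rpow_nonneg h1.le (2 * κ)
    positivity
  calc ENNReal.ofReal (x ^ 9 * (u t0 x) ^ 2 / (x ^ 2 + t0) ^ m)
      ≤ ENNReal.ofReal (K * (x ^ 9 * (∫ t in t0..(t0 + l), t ^ (2 * κ) / (x ^ 2 + t) ^ (m + 2) * (u t x) ^ 2)
        + x ^ 9 * ∫ t in t0..(t0 + l), t ^ (2 * κ) / (x ^ 2 + t) ^ m * (dt u t x) ^ 2)) := by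
        apply ENNReal.ofReal_le_ofReal
        calc x ^ 9 * (u t0 x) ^ 2 / (x ^ 2 + t0) ^ m = x ^ 9 * ((u t0 x) ^ 2 / (x ^ 2 + t0) ^ m) := by ring
          _ ≤ x ^ 9 * (K * ((∫ t in t0..(t0 + l), t ^ (2 * κ) / (x ^ 2 + t) ^ (m + 2) * (u t x) ^ 2)
              + ∫ t in t0..(t0 + l), t ^ (2 * κ) / (x ^ 2 + t) ^ m * (dt u t x) ^ 2)) := by
              gcongr
          _ = _ := by ring
    _ = ENNReal.ofReal K * (ENNReal.ofReal (x ^ 9 * (∫ t in t0..(t0 + l),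
            t ^ (2 * κ) / (x ^ 2 + t) ^ (m + 2) * (u t x) ^ 2))
        + ENNReal.ofReal (x ^ 9 * ∫ t in t0..(t0 + l),
            t ^ (2 * κ) / (x ^ 2 + t) ^ m * (dt u t x) ^ 2)) := by
        rw [ENNReal.ofReal_mul hK0, ENNReal.ofReal_add]
        · have := hnn (m + 2) (fun t => u t x); positivity
        · have := hnn m (fun t => dt u t x); positivity
    _ ≤ _ := by
        gcongr
        · exact hconv (m + 2) (fun t => u t x) hfc
        · exact hconv m (fun t => dt u t x) hf'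

/-- [C3: `sup_tau`] -/
theorem sup_tau {κ : ℝ} (hκ : κ ∈ Ioo (1 / 8 : ℝ) (1 / 4)) :
    ∃ (C : ℝ) (q : ℕ), 1 ≤ C ∧ ∀ L ≥ (8 : ℝ), ∀ δ : ℝ → ℝ → ℝ, Sm (Ioo 0 1) L δ →
      ∀ j ≤ 7, ∀ τ ∈ Ioo (0 : ℝ) (1 / 2),
        MM L j τ δ ≤ ENNReal.ofReal (C * L ^ q) *
          (N2T (5 / 8) L (WA κ j) (dt^[j] δ) + N2T (5 / 8) L (WA κ (j + 1)) (dt^[j + 1] δ)) := by
  refine ⟨(9 / 8) ^ 60 * 2048, 4, ?_, ?_⟩
  · have : (1 : ℝ) ≤ (9 / 8) ^ 60 := one_le_pow₀ (by norm_num)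
    linarith
  intro L hL δ hδ j hj τ hτ
  have hL0 : 0 < L := by linarith
  have hsm : Sm (Ioo 0 1) L (dt^[j] δ) := hδ.dt_iter isOpen_Ioo hL0 j
  have h := sup_tau_core (κ := κ) (by linarith [hκ.1]) hκ.2.le (by linarith : (1 : ℝ) ≤ L)
    (58 - 2 * j) hsm hτ.1 hτ.2.le
  have hm2 : 58 - 2 * j + 2 = 60 - 2 * j := by omega
  rw [hm2] at h
  have hle1 : ∀ (i : ℕ) (v : ℝ → ℝ → ℝ), (∫⁻ q in Ioo (0 : ℝ) (5 / 8) ×ˢ Ioo (0 : ℝ) L,
      ENNReal.ofReal (q.1 ^ (2 * κ) / (q.2 ^ 2 + q.1) ^ (60 - 2 * i) * q.2 ^ 9 * (v q.1 q.2) ^ 2))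
      ≤ N2T (5 / 8) L (WA κ i) v := by
    intro i v
    unfold N2T
    apply setLIntegral_mono' (measurableSet_Ioo.prod measurableSet_Ioo)
    intro q hq
    apply ENNReal.ofReal_le_ofReal
    have h1 : 0 < q.1 := hq.1.1
    have h2 : 0 < q.2 := hq.2.1
    have h3 := Real.rpow_nonneg h1.le (2 * κ)
    unfold WA WJ
    have h4 : 0 ≤ q.1 ^ (2 * κ) / (q.2 ^ 2 + q.1) ^ (60 - 2 * i) := by positivity
    have h5 : (1 : ℝ) ≤ 1 + 1 / (q.2 ^ 2 + q.1) := by
      have : 0 < 1 / (q.2 ^ 2 + q.1) := by positivity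
      linarith
    have h6 : 0 ≤ q.2 ^ 9 * (v q.1 q.2) ^ 2 := by positivity
    rw [mul_assoc, mul_assoc]
    exact mul_le_mul_of_nonneg_right (le_mul_of_one_le_right h4 h5) h6
  have e2 : 58 - 2 * j = 60 - 2 * (j + 1) := by omega
  have hd : dt (dt^[j] δ) = dt^[j + 1] δ := (Function.iterate_succ_apply' dt j δ).symm
  calc MM L j τ δ = ∫⁻ x in Ioo (0 : ℝ) L,
        ENNReal.ofReal (x ^ 9 * ((dt^[j] δ) τ x) ^ 2 / (x ^ 2 + τ) ^ (58 - 2 * j)) := rfl
    _ ≤ _ := h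
    _ ≤ ENNReal.ofReal ((9 / 8) ^ 60 * 2048 * L ^ 4) *
        (N2T (5 / 8) L (WA κ j) (dt^[j] δ) + N2T (5 / 8) L (WA κ (j + 1)) (dt^[j + 1] δ)) := by
        have hc : (9 / 8 : ℝ) ^ (60 - 2 * j) * 512 * (L ^ 2 + 1) ^ 2 ≤ (9 / 8) ^ 60 * 2048 * L ^ 4 := by
          have a1 : (9 / 8 : ℝ) ^ (60 - 2 * j) ≤ (9 / 8) ^ 60 :=
            pow_le_pow_right₀ (by norm_num) (by omega)
          have a2 : (L ^ 2 + 1) ^ 2 ≤ (2 * L ^ 2) ^ 2 :=
            pow_le_pow_left₀ (by positivity) (by nlinarith) 2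
          calc (9 / 8 : ℝ) ^ (60 - 2 * j) * 512 * (L ^ 2 + 1) ^ 2
              ≤ (9 / 8 : ℝ) ^ 60 * 512 * (2 * L ^ 2) ^ 2 := by gcongr
            _ = _ := by ring
        refine mul_le_mul' (ENNReal.ofReal_le_ofReal hc) (add_le_add (hle1 j _) ?_)
        have h7 := hle1 (j + 1) (dt^[j + 1] δ)
        rw [hd, e2]
        exact h7

end Crest.Agent.R213.C
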