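import Crest.Agent.R213.C.Algebra
import Crest.Agent.R213.C.ENorm
import Crest.Agent.R213.C.SupTau
import Crest.Agent.R213.C.ChainApp

/-!
# Row 213, part C6: the linear estimate in `NB` (assembly of C1-C4)
-/

set_option autoImplicit false

open Set MeasureTheory Filter Topology

noncomputable section

namespace Crest.Agent.R213.C

/-- statement of C1+C2 -/
def EnergyLevels (c0 C0 κ : ℝ) (g : ℝ → ℝ) : Prop :=
    ∃ (C : ℝ) (q : ℕ), 1 ≤ C ∧ ∀ L ≥ (8 : ℝ), ∀ φ m : ℝ → ℝ → ℝ, Bg c0 C0 g L φ m →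
      ∀ E ht δ : ℝ → ℝ → ℝ, Sm (Ioo 0 1) L E → Sm (Ioo 0 1) L ht → Sm (Ioo 0 1) L δ →
      LinEq L φ E ht δ → ∀ j ≤ 8,
        N2T (5 / 8) L (WJ κ j) (be L φ j δ) + N2T (5 / 8) L (WA κ j) (dt^[j] δ) ≤
          ENNReal.ofReal (C * L ^ q) * (N2 L (Wt κ) (bb L φ δ) + N2 L (Wt' κ) δ +
            ∑ i ∈ Finset.range (j + 1),
              (N2T (3 / 4) L (WJ κ i) (dt^[i] (fun τ x => φ τ x * ht τ x)) +
                N2T (3 / 4) L (WA κ i) (dt^[i] E)))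

/-- statement of C4 -/
def PointwiseChain (c0 C0 : ℝ) (g : ℝ → ℝ) : Prop :=
    ∃ (C : ℝ) (q : ℕ), 1 ≤ C ∧ ∀ L ≥ (8 : ℝ), ∀ φ m : ℝ → ℝ → ℝ, Bg c0 C0 g L φ m →
      ∀ E ht δ : ℝ → ℝ → ℝ, Sm (Ioo 0 1) L E → Sm (Ioo 0 1) L ht → Sm (Ioo 0 1) L δ →
      LinEq L φ E ht δ → ∀ M H : ℝ, 0 ≤ M → 0 ≤ H →
      (∀ j ≤ 7, ∀ τ ∈ Ioo (0 : ℝ) (1 / 2), MM L j τ δ ≤ ENNReal.ofReal (M ^ 2)) →
      (∀ j ≤ 7, ∀ τ ∈ Ioo (0 : ℝ) (1 / 2), ∀ x ∈ Icc 0 L, |(dt^[j] E) τ x| ≤ M) →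
      (∀ τ ∈ Ioo (0 : ℝ) 1, ∀ x ∈ Icc (0 : ℝ) 1, E τ x = 0) →
      PB L H (fun τ x => φ τ x * ht τ x) →
        PB L (C * L ^ q * (M + H)) (bb L φ δ) ∧ DB L (C * L ^ q * (M + H)) δ

section

variable {c0 C0 κ : ℝ} {g : ℝ → ℝ} {L : ℝ} {φ m δ : ℝ → ℝ → ℝ}

theorem halfSub : Ioo (0 : ℝ) (1 / 2) ⊆ Ioo (0 : ℝ) 1 := Ioo_subset_Ioo_right (by norm_num)

theorem bg_sm_phi (hB : Bg c0 C0 g L φ m) : Sm (Ioo (0 : ℝ) 1) L φ := by
  have hL : 0 < L := by linarith [hB.L_ge]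
  have h1 : Sm (Ioo (0 : ℝ) 1) L (fun τ x => x * (1 - x / L) * m τ x) :=
    (Sm.snd.mul ((Sm.const 1).sub (Sm.snd.div (Sm.const L) (fun _ _ _ _ => hL.ne')))).mul hB.sm
  exact h1.congr hB.phi_eq

/-- Leibniz for `b = φ δ_xx`, levels up to 8, in terms of `be` -/
theorem b_rel8 (hc0 : 0 < c0) (hC0 : 0 ≤ C0) (hB : Bg c0 C0 g L φ m)
    (hδ : Sm (Ioo (0 : ℝ) 1) L δ) (i : ℕ) (hi : i ≤ 8) {τ x : ℝ} (hτ : τ ∈ Ioo (0 : ℝ) 1)
    (hx : x ∈ Icc 0 L) :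
    |(dt^[i] (bb L φ δ)) τ x| ≤ (2 ^ 8 * C0 / c0) *
      ∑ l ∈ Finset.range (i + 1), |be L φ l δ τ x| / (x ^ 2 + τ) ^ (i - l) := by
  have hL : 0 < L := by linarith [hB.L_ge]
  have hρ : 0 < x ^ 2 + τ := rho_pos hx.1 hτ.1
  have hxx := (hδ.dx isOpen_Ioo hL).dx isOpen_Ioo hL
  have e1 : (dt^[i] (bb L φ δ)) τ x =
      App.qf L x * (dt^[i] (fun t x => m t x * dx L (dx L δ) t x)) τ x := by
    rw [← App.dtIter_left_mul (fun x => App.qf L x)]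
    refine App.dtIter_congr_at isOpen_Ioo (fun r hr => ?_) hτ i
    simp only [bb, App.Bg.phi_eq' hB hr hx]; ring
  have h1 := App.mul_bd hρ isOpen_Ioo hB.sm hxx hτ hx i (A := C0)
    (fun k hk => hB.dtm k (by omega) τ hτ x hx)
  have h2 : App.qf L x ≤ φ τ x / c0 := by
    rw [le_div_iff₀ hc0, App.Bg.phi_eq' hB hτ hx]
    exact mul_le_mul_of_nonneg_left (hB.lower τ hτ x hx) (App.qf_nonneg hL hx)
  have hφ0 : 0 ≤ φ τ x := by
    have h3 := (App.qf_nonneg hL hx).trans h2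
    exact (div_nonneg_iff.1 h3).elim (fun h => h.1) (fun h => absurd h.2 (not_le.2 hc0))
  have h3 : ∑ l ∈ Finset.range (i + 1), |(dt^[l] (dx L (dx L δ))) τ x| / (x ^ 2 + τ) ^ (i - l) =
      ∑ l ∈ Finset.range (i + 1), |dx L (dx L (dt^[l] δ)) τ x| / (x ^ 2 + τ) ^ (i - l) :=
    Finset.sum_congr rfl (fun l _ => by rw [App.dtIter_dxdx isOpen_Ioo hL hδ l τ hτ x hx])
  rw [h3] at h1
  have h4 : ∑ l ∈ Finset.range (i + 1), |be L φ l δ τ x| / (x ^ 2 + τ) ^ (i - l) =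
      φ τ x * ∑ l ∈ Finset.range (i + 1), |dx L (dx L (dt^[l] δ)) τ x| / (x ^ 2 + τ) ^ (i - l) := by
    rw [Finset.mul_sum]
    refine Finset.sum_congr rfl (fun l _ => ?_)
    unfold be
    rw [abs_mul, abs_of_nonneg hφ0, mul_div_assoc]
  rw [h4]
  set S := ∑ l ∈ Finset.range (i + 1), |dx L (dx L (dt^[l] δ)) τ x| / (x ^ 2 + τ) ^ (i - l) with hS
  have hS0 : 0 ≤ S := Finset.sum_nonneg (fun l _ => by positivity)
  rw [e1, abs_mul, abs_of_nonneg (App.qf_nonneg hL hx)]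
  calc App.qf L x * |(dt^[i] (fun t x => m t x * dx L (dx L δ) t x)) τ x|
      ≤ (φ τ x / c0) * (2 ^ 8 * C0 * S) := by
        apply mul_le_mul h2 _ (abs_nonneg _) (by positivity)
        refine h1.trans ?_
        gcongr
        norm_num
    _ = (2 ^ 8 * C0 / c0) * (φ τ x * S) := by field_simp

theorem be_sm (hB : Bg c0 C0 g L φ m) (hδ : Sm (Ioo (0 : ℝ) 1) L δ) (j : ℕ) :
    Sm (Ioo (0 : ℝ) 1) L (be L φ j δ) := by
  have hL : 0 < L := by linarith [hB.L_ge]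
  exact (bg_sm_phi hB).mul (((hδ.dt_iter isOpen_Ioo hL j).dx isOpen_Ioo hL).dx isOpen_Ioo hL)

theorem QB_of_EE (hc0 : 0 < c0) (hC0 : 0 ≤ C0) (hB : Bg c0 C0 g L φ m)
    (hδ : Sm (Ioo (0 : ℝ) 1) L δ) {S : ℝ} (hS0 : 0 ≤ S)
    (hS : ∀ j ≤ 8, N2T (5 / 8) L (WJ κ j) (be L φ j δ) ≤ ENNReal.ofReal (S ^ 2)) :
    QB κ L (9 * (2 ^ 8 * C0 / c0) * S) (bb L φ δ) := by
  have hL : 0 < L := by linarith [hB.L_ge]
  set A : ℝ := 2 ^ 8 * C0 / c0 with hA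
  have hA0 : 0 ≤ A := by positivity
  intro j hj
  -- measurability
  have hmeas : ∀ l : ℕ, AEMeasurable (fun p : ℝ × ℝ => ENNReal.ofReal
      (WJ κ l p.1 p.2 * p.2 ^ 9 * (be L φ l δ p.1 p.2) ^ 2)) (volume.restrict (Rg L)) := by
    intro l
    have h1 : AEMeasurable (fun p : ℝ × ℝ => be L φ l δ p.1 p.2) (volume.restrict (Rg L)) := by
      have := ((be_sm hB hδ l).mono halfSub).continuousOn
      exact (this.mono (Set.prod_mono subset_rfl Ioo_subset_Icc_self)).aemeasurable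
        (measurableSet_Rg L)
    refine AEMeasurable.ennreal_ofReal ?_
    refine AEMeasurable.mul (Measurable.aemeasurable ?_) (h1.pow_const 2)
    unfold WJ
    fun_prop
  have hpt : ∀ p ∈ Rg L, WJ κ j p.1 p.2 * p.2 ^ 9 * ((dt^[j] (bb L φ δ)) p.1 p.2) ^ 2 ≤
      ∑ l ∈ Finset.range (j + 1), (9 * A ^ 2) *
        (WJ κ l p.1 p.2 * p.2 ^ 9 * (be L φ l δ p.1 p.2) ^ 2) := by
    intro p hp
    have hτ1 : p.1 ∈ Ioo (0 : ℝ) 1 := halfSub hp.1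
    have hx : p.2 ∈ Icc 0 L := Ioo_subset_Icc_self hp.2
    have hρ : 0 < p.2 ^ 2 + p.1 := rho_pos hx.1 hτ1.1
    have h1 := b_rel8 hc0 hC0 hB hδ j hj hτ1 hx
    have h2 : ((dt^[j] (bb L φ δ)) p.1 p.2) ^ 2 ≤ A ^ 2 * (9 * ∑ l ∈ Finset.range (j + 1),
        (|be L φ l δ p.1 p.2| / (p.2 ^ 2 + p.1) ^ (j - l)) ^ 2) := by
      rw [← sq_abs]
      calc |(dt^[j] (bb L φ δ)) p.1 p.2| ^ 2
          ≤ (A * ∑ l ∈ Finset.range (j + 1),
              |be L φ l δ p.1 p.2| / (p.2 ^ 2 + p.1) ^ (j - l)) ^ 2 :=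
            pow_le_pow_left₀ (abs_nonneg _) h1 2
        _ = A ^ 2 * (∑ l ∈ Finset.range (j + 1),
              |be L φ l δ p.1 p.2| / (p.2 ^ 2 + p.1) ^ (j - l)) ^ 2 := by ring
        _ ≤ A ^ 2 * (9 * ∑ l ∈ Finset.range (j + 1),
              (|be L φ l δ p.1 p.2| / (p.2 ^ 2 + p.1) ^ (j - l)) ^ 2) := by
            have h3 := sq_sum_le_card_mul_sum_sq (s := Finset.range (j + 1))
              (f := fun l => |be L φ l δ p.1 p.2| / (p.2 ^ 2 + p.1) ^ (j - l))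
            have h4 : ((Finset.range (j + 1)).card : ℝ) ≤ 9 := by
              rw [Finset.card_range]
              have : ((j + 1 : ℕ) : ℝ) ≤ ((9 : ℕ) : ℝ) := by exact_mod_cast (by omega)
              simpa using this
            refine mul_le_mul_of_nonneg_left (h3.trans ?_) (by positivity)
            exact mul_le_mul_of_nonneg_right h4 (Finset.sum_nonneg fun l _ => by positivity)
    have hW : 0 ≤ WJ κ j p.1 p.2 * p.2 ^ 9 :=
      mul_nonneg (WJ_nonneg hτ1.1 hx.1) (pow_nonneg hx.1 9)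
    refine (mul_le_mul_of_nonneg_left h2 hW).trans (le_of_eq ?_)
    rw [Finset.mul_sum, Finset.mul_sum, Finset.mul_sum]
    refine Finset.sum_congr rfl fun l hl => ?_
    have hl' : l ≤ j := Nat.lt_succ_iff.1 (Finset.mem_range.1 hl)
    have e := WJ_add (κ := κ) (τ := p.1) (x := p.2) (i := l) (k := j - l) (by omega) hτ1.1 hx.1
    rw [Nat.add_sub_cancel' hl'] at e
    have e2 : (|be L φ l δ p.1 p.2| / (p.2 ^ 2 + p.1) ^ (j - l)) ^ 2 =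
        (be L φ l δ p.1 p.2) ^ 2 / (p.2 ^ 2 + p.1) ^ (2 * (j - l)) := by
      rw [div_pow, sq_abs, ← pow_mul, mul_comm (j - l) 2]
    have hne : ((p.2 ^ 2 + p.1) ^ (2 * (j - l))) ≠ 0 := (pow_pos hρ _).ne'
    rw [e, e2]
    clear_value A
    field_simp
  calc N2T (1 / 2) L (WJ κ j) (dt^[j] (bb L φ δ))
      ≤ ∫⁻ p in Rg L, ∑ l ∈ Finset.range (j + 1), ENNReal.ofReal (9 * A ^ 2) *
          ENNReal.ofReal (WJ κ l p.1 p.2 * p.2 ^ 9 * (be L φ l δ p.1 p.2) ^ 2) := by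
        refine setLIntegral_mono' (measurableSet_Rg L) fun p hp => ?_
        refine (ENNReal.ofReal_le_ofReal (hpt p hp)).trans ?_
        have hn : ∀ l ∈ Finset.range (j + 1), 0 ≤ (9 * A ^ 2) *
            (WJ κ l p.1 p.2 * p.2 ^ 9 * (be L φ l δ p.1 p.2) ^ 2) := by
          intro l _
          have := WJ_nonneg (κ := κ) (j := l) hp.1.1 hp.2.1.le
          have h3 : 0 ≤ p.2 := hp.2.1.le
          positivity
        rw [ENNReal.ofReal_sum_of_nonneg hn]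
        refine le_of_eq (Finset.sum_congr rfl fun l _ => ?_)
        rw [ENNReal.ofReal_mul (by positivity)]
    _ = ∑ l ∈ Finset.range (j + 1), ENNReal.ofReal (9 * A ^ 2) * ∫⁻ p in Rg L,
          ENNReal.ofReal (WJ κ l p.1 p.2 * p.2 ^ 9 * (be L φ l δ p.1 p.2) ^ 2) := by
        rw [lintegral_finsetSum' _ (fun l _ => (hmeas l).const_mul _)]
        exact Finset.sum_congr rfl fun l _ => lintegral_const_mul'' _ (hmeas l)
    _ ≤ ∑ l ∈ Finset.range (j + 1), ENNReal.ofReal (9 * A ^ 2) * ENNReal.ofReal (S ^ 2) := by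
        refine Finset.sum_le_sum fun l hl => ?_
        have hl' : l ≤ 8 := (Nat.lt_succ_iff.1 (Finset.mem_range.1 hl)).trans hj
        gcongr
        refine le_trans (lintegral_mono_set ?_) (hS l hl')
        exact Set.prod_mono (Ioo_subset_Ioo_right (by norm_num)) subset_rfl
    _ = (j + 1 : ℕ) * ENNReal.ofReal (9 * A ^ 2 * S ^ 2) := by
        rw [Finset.sum_const, Finset.card_range, nsmul_eq_mul, ← ENNReal.ofReal_mul (by positivity)]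
    _ ≤ ENNReal.ofReal ((9 * A * S) ^ 2) := by
        rw [← ENNReal.ofReal_natCast, ← ENNReal.ofReal_mul (by positivity)]
        refine ENNReal.ofReal_le_ofReal ?_
        have h9 : ((j + 1 : ℕ) : ℝ) ≤ 9 := by
          have : ((j + 1 : ℕ) : ℝ) ≤ ((9 : ℕ) : ℝ) := by exact_mod_cast (by omega)
          simpa using this
        have h0 : 0 ≤ 9 * A ^ 2 * S ^ 2 := by positivity
        calc ((j + 1 : ℕ) : ℝ) * (9 * A ^ 2 * S ^ 2) ≤ 9 * (9 * A ^ 2 * S ^ 2) :=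
              mul_le_mul_of_nonneg_right h9 h0
          _ = (9 * A * S) ^ 2 := by ring

end

end Crest.Agent.R213.C
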