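import Crest.Agent.R213.C.EnReal
import Crest.Agent.R213.C.LinEst

/-!
# Row 213, part C, C1+C2: `energy_levels`
-/

set_option autoImplicit false

open Set MeasureTheory Filter Topology

noncomputable section

namespace Crest.Agent.R213.C

/-- [C1+C2: `energy_levels`] -/
theorem energyLevels_alt {c0 C0 κ : ℝ} {g : ℝ → ℝ} (hg : Prof c0 C0 g)
    (hκ : κ ∈ Ioo (1 / 8 : ℝ) (1 / 4)) : EnergyLevels c0 C0 κ g := by
  obtain ⟨C, q, hC, h⟩ := EN.one_level_real (c0 := c0) (C0 := C0) (κ := κ) (g := g)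
    hg.c0_pos (by linarith [hκ.1])
  exact EN.energyLevels_of_real hC h

end Crest.Agent.R213.C
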