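import Crest.Agent.R213.J0
import Crest.Agent.R213.C.CDefs

/-!
# Row 213, Part C, C2: induction over levels (from the one-level inequality to `energy_levels`)
-/

set_option autoImplicit false

open Set MeasureTheory Filter Topology

noncomputable section

namespace Crest.Agent.R213.C

/-- weighted squared norm over `(a,T) × (0,L)`. -/
def N2I (a T L : ℝ) (V u : ℝ → ℝ → ℝ) : ENNReal :=
  ∫⁻ p in (Ioo a T ×ˢ Ioo (0 : ℝ) L), ENNReal.ofReal (V p.1 p.2 * p.2 ^ 9 * (u p.1 p.2) ^ 2)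

/-- the one-level inequality, constants independent of `a`. -/
def OneLevel (c0 C0 κ : ℝ) (g : ℝ → ℝ) (C : ℝ) (q : ℕ) : Prop :=
  ∀ L ≥ (8 : ℝ), ∀ φ m : ℝ → ℝ → ℝ, Bg c0 C0 g L φ m →
    ∀ E ht δ : ℝ → ℝ → ℝ, Sm (Ioo 0 1) L E → Sm (Ioo 0 1) L ht → Sm (Ioo 0 1) L δ →
      LinEq L φ E ht δ → ∀ j, 1 ≤ j → j ≤ 8 → ∀ a : ℝ, 0 < a → a < 3 / 4 →
        N2I a (3 / 4) L (fun τ x => (3 / 4 - τ) ^ (2 * j) * WJ κ j τ x) (be L φ j δ) +
          N2I a (3 / 4) L (fun τ x => (3 / 4 - τ) ^ (2 * j - 1) * WA κ j τ x) (dt^[j] δ) ≤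
        ENNReal.ofReal (C * L ^ q) *
          (∑ i ∈ Finset.range j, N2I a (3 / 4) L
              (fun τ x => (3 / 4 - τ) ^ (2 * i) * WJ κ i τ x) (be L φ i δ) +
            ∑ i ∈ Finset.range (j + 1),
              (N2I a (3 / 4) L (WJ κ i) (dt^[i] (fun τ x => φ τ x * ht τ x)) +
                N2I a (3 / 4) L (WA κ i) (dt^[i] E)))

theorem N2I_le_of_weight {a T L c : ℝ} (hc : 0 ≤ c) {V V' u : ℝ → ℝ → ℝ}
    (h : ∀ τ ∈ Ioo a T, ∀ x ∈ Ioo (0 : ℝ) L, V τ x ≤ c * V' τ x) :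
    N2I a T L V u ≤ ENNReal.ofReal c * N2I a T L V' u := by
  unfold N2I
  rw [← lintegral_const_mul' _ _ ENNReal.ofReal_ne_top]
  apply setLIntegral_mono' (measurableSet_Ioo.prod measurableSet_Ioo)
  intro p hp
  rw [← ENNReal.ofReal_mul hc]
  apply ENNReal.ofReal_le_ofReal
  have h1 := h p.1 hp.1 p.2 hp.2
  have h2 : 0 ≤ p.2 ^ 9 * (u p.1 p.2) ^ 2 := by
    have := hp.2.1.le
    positivity
  calc V p.1 p.2 * p.2 ^ 9 * (u p.1 p.2) ^ 2 = V p.1 p.2 * (p.2 ^ 9 * (u p.1 p.2) ^ 2) := by ring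
    _ ≤ c * V' p.1 p.2 * (p.2 ^ 9 * (u p.1 p.2) ^ 2) := mul_le_mul_of_nonneg_right h1 h2
    _ = _ := by ring

theorem N2I_mono_weight {a T L : ℝ} {V V' u : ℝ → ℝ → ℝ}
    (h : ∀ τ ∈ Ioo a T, ∀ x ∈ Ioo (0 : ℝ) L, V τ x ≤ V' τ x) :
    N2I a T L V u ≤ N2I a T L V' u := by
  have := N2I_le_of_weight (u := u) zero_le_one (fun τ hτ x hx => (h τ hτ x hx).trans_eq (one_mul _).symm)
  simpa using this

theorem N2I_mono_set {a a' T T' L : ℝ} (ha : a' ≤ a) (hT : T ≤ T') {V u : ℝ → ℝ → ℝ} :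
    N2I a T L V u ≤ N2I a' T' L V u :=
  lintegral_mono_set (Set.prod_mono (Ioo_subset_Ioo ha hT) le_rfl)

theorem N2I_le_N2T {a T L : ℝ} (ha : 0 ≤ a) {V u : ℝ → ℝ → ℝ} :
    N2I a T L V u ≤ N2T T L V u :=
  lintegral_mono_set (Set.prod_mono (Ioo_subset_Ioo ha le_rfl) le_rfl)

/-- monotone convergence `a → 0`. -/
theorem N2T_le_of_forall {T L : ℝ} {V u : ℝ → ℝ → ℝ} {K : ENNReal} {T' : ℝ} (hT' : 0 < T')
    (h : ∀ a, 0 < a → a < T' → N2I a T L V u ≤ K) : N2T T L V u ≤ K := by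
  have hU : (Ioo (0 : ℝ) T ×ˢ Ioo (0 : ℝ) L) =
      ⋃ n : ℕ, (Ioo (T' / (n + 2)) T ×ˢ Ioo (0 : ℝ) L) := by
    ext p
    simp only [mem_prod, mem_iUnion, mem_Ioo]
    constructor
    · rintro ⟨⟨h1, h2⟩, h3⟩
      obtain ⟨n, hn⟩ := exists_nat_gt (T' / p.1)
      refine ⟨n, ⟨?_, h2⟩, h3⟩
      rw [div_lt_iff₀ (by positivity)]
      rw [div_lt_iff₀ h1] at hn
      nlinarith
    · rintro ⟨n, ⟨h1, h2⟩, h3⟩
      exact ⟨⟨lt_trans (by positivity) h1, h2⟩, h3⟩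
  have hd : Directed (· ⊆ ·) (fun n : ℕ => (Ioo (T' / ((n : ℝ) + 2)) T ×ˢ Ioo (0 : ℝ) L)) := by
    apply Monotone.directed_le
    intro n k hnk
    apply Set.prod_mono _ le_rfl
    apply Ioo_subset_Ioo _ le_rfl
    have : (n : ℝ) ≤ k := by exact_mod_cast hnk
    gcongr
  have := setLIntegral_iUnion_of_directed (μ := volume)
    (fun p : ℝ × ℝ => ENNReal.ofReal (V p.1 p.2 * p.2 ^ 9 * (u p.1 p.2) ^ 2)) hd
  unfold N2T
  rw [hU, this]
  apply iSup_le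
  intro n
  apply h
  · positivity
  · rw [div_lt_iff₀ (by positivity)]
    have : (0 : ℝ) ≤ n := Nat.cast_nonneg n
    nlinarith

/-- the right-hand side of `energy_levels` at level `j`. -/
def SS (κ L : ℝ) (φ E ht δ : ℝ → ℝ → ℝ) (j : ℕ) : ENNReal :=
  N2 L (Wt κ) (bb L φ δ) + N2 L (Wt' κ) δ +
    ∑ i ∈ Finset.range (j + 1),
      (N2T (3 / 4) L (WJ κ i) (dt^[i] (fun τ x => φ τ x * ht τ x)) +
        N2T (3 / 4) L (WA κ i) (dt^[i] E))

theorem SS_mono {κ L : ℝ} {φ E ht δ : ℝ → ℝ → ℝ} {i j : ℕ} (h : i ≤ j) :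
    SS κ L φ E ht δ i ≤ SS κ L φ E ht δ j := by
  unfold SS
  gcongr

theorem WJ_nonnegE {κ τ x : ℝ} (hτ : 0 < τ) (j : ℕ) : 0 ≤ WJ κ j τ x := by
  unfold WJ
  have := Real.rpow_nonneg hτ.le (2 * κ)
  positivity

theorem WA_nonnegE {κ τ x : ℝ} (hτ : 0 < τ) (j : ℕ) : 0 ≤ WA κ j τ x := by
  unfold WA
  have := WJ_nonnegE (κ := κ) (x := x) hτ j
  positivity

/-- level `0` -/
theorem level_zero {κ L : ℝ} {φ E ht δ : ℝ → ℝ → ℝ} {a : ℝ} (ha : 0 < a) :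
    N2I a (3 / 4) L (WJ κ 0) (be L φ 0 δ) + N2I a (3 / 4) L (WA κ 0) (dt^[0] δ) ≤
      ENNReal.ofReal 2 * SS κ L φ E ht δ 0 := by
  have h1 : N2I a (3 / 4) L (WJ κ 0) (be L φ 0 δ) ≤ N2 L (Wt κ) (bb L φ δ) := by
    refine (N2I_le_N2T ha.le).trans ?_
    unfold N2T N2
    have e : be L φ 0 δ = bb L φ δ := rfl
    rw [e]
    exact lintegral_mono_set (Set.prod_mono (Ioo_subset_Ioo le_rfl (by norm_num)) le_rfl)
  have h2 : N2I a (3 / 4) L (WA κ 0) (dt^[0] δ) ≤ ENNReal.ofReal 2 * N2 L (Wt' κ) δ := by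
    refine (N2I_le_of_weight (c := 2) (V' := Wt' κ) (by norm_num) ?_).trans ?_
    · intro τ hτ x hx
      have ht0 : 0 < τ := lt_trans ha hτ.1
      have hW := WJ_nonnegE (κ := κ) (x := x) ht0 0
      have e1 : WJ κ 0 τ x = Wt κ τ x := rfl
      unfold WA Wt'
      rw [e1] at hW ⊢
      have h3 : 1 + 1 / (x ^ 2 + τ) ≤ 2 / τ := by
        have h4 : 1 / (x ^ 2 + τ) ≤ 1 / τ := by
          apply one_div_le_one_div_of_le ht0; nlinarith [sq_nonneg x]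
        have h5 : (1 : ℝ) ≤ 1 / τ := by
          rw [le_div_iff₀ ht0]; linarith [hτ.2]
        have h6 : 2 / τ = 1 / τ + 1 / τ := by ring
        rw [h6]; linarith
      calc Wt κ τ x * (1 + 1 / (x ^ 2 + τ)) ≤ Wt κ τ x * (2 / τ) :=
            mul_le_mul_of_nonneg_left h3 hW
        _ = 2 * (Wt κ τ x / τ) := by ring
    · gcongr
      refine (N2I_le_N2T ha.le).trans ?_
      unfold N2T N2
      exact lintegral_mono_set (Set.prod_mono (Ioo_subset_Ioo le_rfl (by norm_num)) le_rfl)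
  calc _ ≤ N2 L (Wt κ) (bb L φ δ) + ENNReal.ofReal 2 * N2 L (Wt' κ) δ := add_le_add h1 h2
    _ ≤ ENNReal.ofReal 2 * N2 L (Wt κ) (bb L φ δ) + ENNReal.ofReal 2 * N2 L (Wt' κ) δ := by
        gcongr
        have : (1 : ENNReal) ≤ ENNReal.ofReal 2 := by
          rw [← ENNReal.ofReal_one]; exact ENNReal.ofReal_le_ofReal (by norm_num)
        exact le_mul_of_one_le_left' this
    _ = ENNReal.ofReal 2 * (N2 L (Wt κ) (bb L φ δ) + N2 L (Wt' κ) δ) := (mul_add _ _ _).symm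
    _ ≤ _ := by
        gcongr
        unfold SS
        exact le_self_add

/-- induction over levels -/
theorem levels_ind {c0 C0 κ : ℝ} {g : ℝ → ℝ} {C1 : ℝ} {q1 : ℕ} (hC1 : 1 ≤ C1)
    (hOL : OneLevel c0 C0 κ g C1 q1) (n : ℕ) (hn : n ≤ 8) :
    ∃ (C : ℝ) (q : ℕ), 1 ≤ C ∧ ∀ L ≥ (8 : ℝ), ∀ φ m : ℝ → ℝ → ℝ, Bg c0 C0 g L φ m →
      ∀ E ht δ : ℝ → ℝ → ℝ, Sm (Ioo 0 1) L E → Sm (Ioo 0 1) L ht → Sm (Ioo 0 1) L δ →
      LinEq L φ E ht δ → ∀ j ≤ n, ∀ a : ℝ, 0 < a → a < 3 / 4 →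
        N2I a (3 / 4) L (fun τ x => (3 / 4 - τ) ^ (2 * j) * WJ κ j τ x) (be L φ j δ) +
          N2I a (3 / 4) L (fun τ x => (3 / 4 - τ) ^ (2 * j - 1) * WA κ j τ x) (dt^[j] δ) ≤
        ENNReal.ofReal (C * L ^ q) * SS κ L φ E ht δ j := by
  induction n with
  | zero =>
    refine ⟨2, 0, by norm_num, ?_⟩
    intro L hL φ m hB E ht δ hE hh hd heq j hj a ha ha'
    obtain rfl : j = 0 := by omega
    have := level_zero (κ := κ) (L := L) (φ := φ) (E := E) (ht := ht) (δ := δ) ha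
    simpa using this
  | succ n ih =>
    obtain ⟨C, q, hC, hI⟩ := ih (by omega)
    refine ⟨C1 * ((n + 2 : ℕ) : ℝ) * C, q1 + q, ?_, ?_⟩
    · have : (1 : ℝ) ≤ ((n + 2 : ℕ) : ℝ) := by exact_mod_cast Nat.succ_le_succ (Nat.zero_le _)
      have h1 : 1 ≤ C1 * ((n + 2 : ℕ) : ℝ) := one_le_mul_of_one_le_of_one_le hC1 this
      exact one_le_mul_of_one_le_of_one_le h1 hC
    intro L hL φ m hB E ht δ hE hh hd heq j hj a ha ha'
    have hL1 : (1 : ℝ) ≤ L := by linarith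
    have hL0 : (0 : ℝ) < L := by linarith
    rcases Nat.lt_or_ge n j with hjn | hjn
    · obtain rfl : j = n + 1 := by omega
      refine (hOL L hL φ m hB E ht δ hE hh hd heq (n + 1) (by omega) (by omega) a ha ha').trans ?_
      set S := SS κ L φ E ht δ (n + 1) with hS
      have hsum1 : ∑ i ∈ Finset.range (n + 1), N2I a (3 / 4) L
          (fun τ x => (3 / 4 - τ) ^ (2 * i) * WJ κ i τ x) (be L φ i δ) ≤
          ((n + 1 : ℕ) : ENNReal) * (ENNReal.ofReal (C * L ^ q) * S) := by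
        rw [← nsmul_eq_mul]
        refine (Finset.sum_le_card_nsmul _ _ (ENNReal.ofReal (C * L ^ q) * S) ?_).trans_eq
          (by rw [Finset.card_range])
        intro i hi
        have hi' : i ≤ n := by simpa [Nat.lt_succ_iff] using hi
        refine ((le_self_add).trans ((hI L hL φ m hB E ht δ hE hh hd heq i hi' a ha ha').trans ?_))
        gcongr
        exact SS_mono (by omega)
      have hsum2 : ∑ i ∈ Finset.range (n + 1 + 1),
              (N2I a (3 / 4) L (WJ κ i) (dt^[i] (fun τ x => φ τ x * ht τ x)) +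
                N2I a (3 / 4) L (WA κ i) (dt^[i] E)) ≤ S := by
        rw [hS]; unfold SS
        refine (Finset.sum_le_sum fun i _ => add_le_add (N2I_le_N2T ha.le) (N2I_le_N2T ha.le)).trans ?_
        exact le_add_self
      have h1 : (1 : ENNReal) ≤ ENNReal.ofReal (C * L ^ q) := by
        rw [← ENNReal.ofReal_one]
        apply ENNReal.ofReal_le_ofReal
        exact one_le_mul_of_one_le_of_one_le hC (one_le_pow₀ hL1)
      calc _ ≤ ENNReal.ofReal (C1 * L ^ q1) *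
            (((n + 1 : ℕ) : ENNReal) * (ENNReal.ofReal (C * L ^ q) * S) + ENNReal.ofReal (C * L ^ q) * S) := by
            gcongr
            exact hsum2.trans (le_mul_of_one_le_left' h1)
        _ = ENNReal.ofReal (C1 * ((n + 2 : ℕ) : ℝ) * C * L ^ (q1 + q)) * S := by
            have e1 : C1 * ((n + 2 : ℕ) : ℝ) * C * L ^ (q1 + q)
                = (C1 * L ^ q1) * (((n + 2 : ℕ) : ℝ) * (C * L ^ q)) := by ring
            have e3 : ENNReal.ofReal ((C1 * L ^ q1) * (((n + 2 : ℕ) : ℝ) * (C * L ^ q)))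
                = ENNReal.ofReal (C1 * L ^ q1) * (((n + 2 : ℕ) : ENNReal) * ENNReal.ofReal (C * L ^ q)) := by
              rw [ENNReal.ofReal_mul (by positivity : (0:ℝ) ≤ C1 * L ^ q1),
                ENNReal.ofReal_mul (by positivity : (0:ℝ) ≤ ((n + 2 : ℕ) : ℝ)), ENNReal.ofReal_natCast]
            rw [e1, e3]
            push_cast
            ring
    · refine (hI L hL φ m hB E ht δ hE hh hd heq j hjn a ha ha').trans ?_
      gcongr ?_ * _
      apply ENNReal.ofReal_le_ofReal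
      have h3 : (1 : ℝ) ≤ C1 * ((n + 2 : ℕ) : ℝ) := by
        have : (1 : ℝ) ≤ ((n + 2 : ℕ) : ℝ) := by exact_mod_cast Nat.succ_le_succ (Nat.zero_le _)
        exact one_le_mul_of_one_le_of_one_le hC1 this
      have h4 : L ^ q ≤ L ^ (q1 + q) := pow_le_pow_right₀ hL1 (by omega)
      calc C * L ^ q ≤ C * L ^ (q1 + q) := by gcongr
        _ = 1 * (C * L ^ (q1 + q)) := by ring
        _ ≤ (C1 * ((n + 2 : ℕ) : ℝ)) * (C * L ^ (q1 + q)) := by gcongr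
        _ = _ := by ring

/-- [C1+C2: `energy_levels`] from the one-level inequality -/
theorem energy_levels_of {c0 C0 κ : ℝ} {g : ℝ → ℝ} {C1 : ℝ} {q1 : ℕ} (hC1 : 1 ≤ C1)
    (hOL : OneLevel c0 C0 κ g C1 q1) :
    ∃ (C : ℝ) (q : ℕ), 1 ≤ C ∧ ∀ L ≥ (8 : ℝ), ∀ φ m : ℝ → ℝ → ℝ, Bg c0 C0 g L φ m →
      ∀ E ht δ : ℝ → ℝ → ℝ, Sm (Ioo 0 1) L E → Sm (Ioo 0 1) L ht → Sm (Ioo 0 1) L δ →
      LinEq L φ E ht δ → ∀ j ≤ 8,
        N2T (5 / 8) L (WJ κ j) (be L φ j δ) + N2T (5 / 8) L (WA κ j) (dt^[j] δ) ≤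
          ENNReal.ofReal (C * L ^ q) * (N2 L (Wt κ) (bb L φ δ) + N2 L (Wt' κ) δ +
            ∑ i ∈ Finset.range (j + 1),
              (N2T (3 / 4) L (WJ κ i) (dt^[i] (fun τ x => φ τ x * ht τ x)) +
                N2T (3 / 4) L (WA κ i) (dt^[i] E))) := by
  obtain ⟨C, q, hC, hI⟩ := levels_ind hC1 hOL 8 le_rfl
  refine ⟨2 * 8 ^ 16 * C, q, by nlinarith, ?_⟩
  intro L hL φ m hB E ht δ hE hh hd heq j hj
  have hL1 : (1 : ℝ) ≤ L := by linarith
  change _ ≤ _ * SS κ L φ E ht δ j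
  have key : ∀ a : ℝ, 0 < a → a < 3 / 4 →
      N2I a (5 / 8) L (WJ κ j) (be L φ j δ) ≤
        ENNReal.ofReal (8 ^ 16 * C * L ^ q) * SS κ L φ E ht δ j ∧
      N2I a (5 / 8) L (WA κ j) (dt^[j] δ) ≤
        ENNReal.ofReal (8 ^ 16 * C * L ^ q) * SS κ L φ E ht δ j := by
    intro a ha ha'
    have h0 := hI L hL φ m hB E ht δ hE hh hd heq j hj a ha ha'
    have hw : ∀ (k : ℕ), k ≤ 16 → ∀ (V u : ℝ → ℝ → ℝ), (∀ τ x, 0 < τ → 0 ≤ V τ x) →
        N2I a (5 / 8) L V u ≤ ENNReal.ofReal (8 ^ 16) *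
          N2I a (3 / 4) L (fun τ x => (3 / 4 - τ) ^ k * V τ x) u := by
      intro k hk V u hV
      have h1 : N2I a (5 / 8) L V u ≤ ENNReal.ofReal (8 ^ 16) *
          N2I a (5 / 8) L (fun τ x => (3 / 4 - τ) ^ k * V τ x) u := by
        apply N2I_le_of_weight (by positivity)
        intro τ hτ x hx
        have ht0 : 0 < τ := lt_trans ha hτ.1
        have h2 : (1 : ℝ) ≤ 8 ^ 16 * (3 / 4 - τ) ^ k := by
          have h3 : (1 / 8 : ℝ) ^ k ≤ (3 / 4 - τ) ^ k :=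
            pow_le_pow_left₀ (by norm_num) (by linarith [hτ.2]) k
          have h4 : (1 / 8 : ℝ) ^ 16 ≤ (1 / 8 : ℝ) ^ k :=
            pow_le_pow_of_le_one (by norm_num) (by norm_num) hk
          have h5 : (8 : ℝ) ^ 16 * (1 / 8) ^ 16 = 1 := by norm_num
          calc (1 : ℝ) = 8 ^ 16 * (1 / 8) ^ 16 := h5.symm
            _ ≤ 8 ^ 16 * (3 / 4 - τ) ^ k := by gcongr; exact h4.trans h3
        calc V τ x = 1 * V τ x := (one_mul _).symm
          _ ≤ (8 ^ 16 * (3 / 4 - τ) ^ k) * V τ x := mul_le_mul_of_nonneg_right h2 (hV τ x ht0)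
          _ = _ := by ring
      refine h1.trans ?_
      gcongr
      exact N2I_mono_set le_rfl (by norm_num)
    have e1 : ENNReal.ofReal (8 ^ 16 * C * L ^ q) = ENNReal.ofReal (8 ^ 16) * ENNReal.ofReal (C * L ^ q) := by
      rw [← ENNReal.ofReal_mul (by positivity)]; congr 1; ring
    constructor
    · refine (hw (2 * j) (by omega) (WJ κ j) (be L φ j δ) (fun τ x h => WJ_nonnegE h j)).trans ?_
      rw [e1, mul_assoc]
      gcongr
      exact le_self_add.trans h0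
    · refine (hw (2 * j - 1) (by omega) (WA κ j) (dt^[j] δ) (fun τ x h => WA_nonnegE h j)).trans ?_
      rw [e1, mul_assoc]
      gcongr
      exact le_add_self.trans h0
  have h1 := N2T_le_of_forall (T := 5 / 8) (T' := 3 / 4) (by norm_num) (fun a ha ha' => (key a ha ha').1)
  have h2 := N2T_le_of_forall (T := 5 / 8) (T' := 3 / 4) (by norm_num) (fun a ha ha' => (key a ha ha').2)
  calc _ ≤ ENNReal.ofReal (8 ^ 16 * C * L ^ q) * SS κ L φ E ht δ j +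
        ENNReal.ofReal (8 ^ 16 * C * L ^ q) * SS κ L φ E ht δ j := add_le_add h1 h2
    _ = ENNReal.ofReal (2 * 8 ^ 16 * C * L ^ q) * SS κ L φ E ht δ j := by
        rw [← two_mul, ← mul_assoc]
        congr 1
        have e2 : (2 : ENNReal) = ENNReal.ofReal 2 := by norm_num
        rw [e2, ← ENNReal.ofReal_mul (by norm_num)]
        congr 1; ring

end Crest.Agent.R213.C
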