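import Crest.Agent.R213.C.EnergyT
import Crest.Agent.R213.C.Level
import Crest.Agent.R213.C.CDefs

/-!
# Row 213, part C, C1+C2: the absorbed one-level inequality (real form)
-/

set_option autoImplicit false

open Set MeasureTheory Filter Topology

noncomputable section

namespace Crest.Agent.R213.C.EN

open Crest.Agent.R213 Crest.Agent.R213.J310

variable {L t C0 : ℝ}

/-- the exponent of the weight of level `j` -/
def pj (j : ℕ) : ℝ := 2 * (j : ℝ) - 60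

theorem pj_pow {r : ℝ} (hr : 0 < r) {i j : ℕ} (hij : i ≤ j) :
    r ^ pj j = r ^ pj i * (r ^ (j - i)) ^ 2 := by
  have h : pj j = pj i + (((j - i) * 2 : ℕ) : ℝ) := by
    unfold pj
    push_cast [Nat.cast_sub hij]
    ring
  rw [h, Real.rpow_add hr, Real.rpow_natCast, pow_mul]

theorem R_point {j : ℕ} {r C h R : ℝ} {b hh : ℕ → ℝ} (hr : 0 < r)
    (hR : |R| ≤ |h| + C * ∑ i ∈ Finset.range j, (|b i| + |hh i|) / r ^ (j - i)) :
    r ^ pj j * R ^ 2 ≤ 4 / 3 * (r ^ pj j * h ^ 2) +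
      8 * j * C ^ 2 * ∑ i ∈ Finset.range j, (r ^ pj i * b i ^ 2 + r ^ pj i * hh i ^ 2) := by
  set S := ∑ i ∈ Finset.range j, (|b i| + |hh i|) / r ^ (j - i) with hS
  have h1 : R ^ 2 ≤ 4 / 3 * h ^ 2 + 4 * C ^ 2 * S ^ 2 := by
    have h2 : R ^ 2 ≤ (|h| + C * S) ^ 2 := by
      rw [← sq_abs R]; exact pow_le_pow_left₀ (abs_nonneg _) hR 2
    have h3 : (|h| + C * S) ^ 2 ≤ 4 / 3 * |h| ^ 2 + 4 * (C * S) ^ 2 := by
      nlinarith [sq_nonneg (|h| - 3 * (C * S))]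
    rw [sq_abs] at h3
    calc R ^ 2 ≤ _ := h2
      _ ≤ _ := h3
      _ = _ := by ring
  have h4 : S ^ 2 ≤ j * ∑ i ∈ Finset.range j, ((|b i| + |hh i|) / r ^ (j - i)) ^ 2 := by
    have := sq_sum_le_card_mul_sum_sq (s := Finset.range j)
      (f := fun i => (|b i| + |hh i|) / r ^ (j - i))
    simpa using this
  have hw : 0 < r ^ pj j := Real.rpow_pos_of_pos hr _
  have h5 : r ^ pj j * ∑ i ∈ Finset.range j, ((|b i| + |hh i|) / r ^ (j - i)) ^ 2 ≤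
      2 * ∑ i ∈ Finset.range j, (r ^ pj i * b i ^ 2 + r ^ pj i * hh i ^ 2) := by
    rw [Finset.mul_sum, Finset.mul_sum]
    refine Finset.sum_le_sum fun i hi => ?_
    have hij : i ≤ j := (Finset.mem_range.1 hi).le
    have hri : 0 < r ^ pj i := Real.rpow_pos_of_pos hr _
    rw [pj_pow hr hij, div_pow]
    have hrp : 0 < r ^ (j - i) := pow_pos hr _
    have e : r ^ pj i * (r ^ (j - i)) ^ 2 * ((|b i| + |hh i|) ^ 2 / (r ^ (j - i)) ^ 2) =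
        r ^ pj i * (|b i| + |hh i|) ^ 2 := by
      field_simp
    rw [e]
    have h6 : (|b i| + |hh i|) ^ 2 ≤ 2 * (b i ^ 2 + hh i ^ 2) := by
      rw [← sq_abs (b i), ← sq_abs (hh i)]
      nlinarith [sq_nonneg (|b i| - |hh i|)]
    calc r ^ pj i * (|b i| + |hh i|) ^ 2 ≤ r ^ pj i * (2 * (b i ^ 2 + hh i ^ 2)) := by gcongr
      _ = _ := by ring
  have h7 : r ^ pj j * S ^ 2 ≤ r ^ pj j * (j * ∑ i ∈ Finset.range j,
      ((|b i| + |hh i|) / r ^ (j - i)) ^ 2) := by gcongr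
  have h8 := mul_le_mul_of_nonneg_left h1 hw.le
  have h9 : (j : ℝ) * (r ^ pj j * ∑ i ∈ Finset.range j, ((|b i| + |hh i|) / r ^ (j - i)) ^ 2) ≤
      j * (2 * ∑ i ∈ Finset.range j, (r ^ pj i * b i ^ 2 + r ^ pj i * hh i ^ 2)) := by gcongr
  have h10 : 4 * C ^ 2 * (r ^ pj j * S ^ 2) ≤ 4 * C ^ 2 * (j *
      (2 * ∑ i ∈ Finset.range j, (r ^ pj i * b i ^ 2 + r ^ pj i * hh i ^ 2))) := by
    have : r ^ pj j * S ^ 2 ≤ j *
      (2 * ∑ i ∈ Finset.range j, (r ^ pj i * b i ^ 2 + r ^ pj i * hh i ^ 2)) := by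
      refine (h7.trans (le_of_eq ?_)).trans h9
      ring
    gcongr
  calc r ^ pj j * R ^ 2 ≤ r ^ pj j * (4 / 3 * h ^ 2 + 4 * C ^ 2 * S ^ 2) := h8
    _ = 4 / 3 * (r ^ pj j * h ^ 2) + 4 * C ^ 2 * (r ^ pj j * S ^ 2) := by ring
    _ ≤ 4 / 3 * (r ^ pj j * h ^ 2) + 4 * C ^ 2 * (j *
      (2 * ∑ i ∈ Finset.range j, (r ^ pj i * b i ^ 2 + r ^ pj i * hh i ^ 2))) := by linarith
    _ = _ := by ring

/-! ### comparison lemmas for `XX` -/

theorem XX_integrand_cont {τ p : ℝ} (hτ : 0 < τ) {F : ℝ → ℝ → ℝ}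
    (hF : ContinuousOn (F τ) (Icc 0 L)) :
    ContinuousOn (fun x => (x ^ 2 + τ) ^ p * F τ x ^ 2 * x ^ 9) (Icc 0 L) := by
  have c1 := (rho_cont (t := τ) hτ p).continuousOn (s := Icc 0 L)
  fun_prop

theorem XX_succ_le (hL : 0 < L) {τ : ℝ} (hτ : τ ∈ Ioo (0 : ℝ) 1) (p : ℝ) {F : ℝ → ℝ → ℝ}
    (hF : ContinuousOn (F τ) (Icc 0 L)) : XX L (p + 1) F τ ≤ (L ^ 2 + 1) * XX L p F τ := by
  unfold XX
  rw [← intervalIntegral.integral_const_mul]
  refine int_mono hL (XX_integrand_cont hτ.1 hF)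
    (continuousOn_const.mul (XX_integrand_cont hτ.1 hF)) fun x hx => ?_
  have hr := rho_pos hτ.1 x
  rw [Real.rpow_add_one hr.ne']
  have h1 : x ^ 2 + τ ≤ L ^ 2 + 1 := by nlinarith [hx.1, hx.2, hτ.2]
  have h2 : 0 ≤ (x ^ 2 + τ) ^ p * F τ x ^ 2 * x ^ 9 := by have := hx.1; positivity
  calc (x ^ 2 + τ) ^ p * (x ^ 2 + τ) * F τ x ^ 2 * x ^ 9
      = (x ^ 2 + τ) * ((x ^ 2 + τ) ^ p * F τ x ^ 2 * x ^ 9) := by ring
    _ ≤ (L ^ 2 + 1) * ((x ^ 2 + τ) ^ p * F τ x ^ 2 * x ^ 9) := by gcongr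

/-- `XX` of the remainder of level `j`. -/
theorem XX_R_le (hL : 0 < L) {τ : ℝ} (hτ : 0 < τ) {j : ℕ} {C : ℝ} {R h : ℝ → ℝ → ℝ}
    {b hh : ℕ → ℝ → ℝ → ℝ} (cR : ContinuousOn (R τ) (Icc 0 L)) (ch : ContinuousOn (h τ) (Icc 0 L))
    (cb : ∀ i < j, ContinuousOn (b i τ) (Icc 0 L)) (chh : ∀ i < j, ContinuousOn (hh i τ) (Icc 0 L))
    (hR : ∀ x ∈ Icc 0 L, |R τ x| ≤ |h τ x| +
      C * ∑ i ∈ Finset.range j, (|b i τ x| + |hh i τ x|) / (x ^ 2 + τ) ^ (j - i)) :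
    XX L (pj j) R τ ≤ 4 / 3 * XX L (pj j) h τ +
      8 * j * C ^ 2 * ∑ i ∈ Finset.range j, (XX L (pj i) (b i) τ + XX L (pj i) (hh i) τ) := by
  have key : XX L (pj j) R τ ≤ ∫ x in (0 : ℝ)..L,
      (4 / 3 * ((x ^ 2 + τ) ^ (pj j) * h τ x ^ 2 * x ^ 9) +
      8 * j * C ^ 2 * ∑ i ∈ Finset.range j, ((x ^ 2 + τ) ^ (pj i) * b i τ x ^ 2 * x ^ 9 +
        (x ^ 2 + τ) ^ (pj i) * hh i τ x ^ 2 * x ^ 9)) := by
    refine int_mono hL (XX_integrand_cont hτ cR) ?_ fun x hx => ?_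
    · refine (continuousOn_const.mul (XX_integrand_cont hτ ch)).add (continuousOn_const.mul ?_)
      refine continuousOn_finsetSum _ fun i hi => ?_
      have hi' := Finset.mem_range.1 hi
      exact (XX_integrand_cont hτ (cb i hi')).add (XX_integrand_cont hτ (chh i hi'))
    · have h1 := R_point (j := j) (r := x ^ 2 + τ) (C := C) (h := h τ x) (R := R τ x)
        (b := fun i => b i τ x) (hh := fun i => hh i τ x) (rho_pos hτ x) (hR x hx)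
      have h2 : (0 : ℝ) ≤ x ^ 9 := pow_nonneg hx.1 9
      have h3 := mul_le_mul_of_nonneg_right h1 h2
      refine h3.trans (le_of_eq ?_)
      rw [add_mul, mul_assoc (8 * (j : ℝ) * C ^ 2), Finset.sum_mul]
      congr 1
      · ring
      · congr 1
        refine Finset.sum_congr rfl fun i _ => ?_
        ring
  refine key.trans (le_of_eq ?_)
  rw [intervalIntegral.integral_add, intervalIntegral.integral_const_mul,
    intervalIntegral.integral_const_mul, intervalIntegral.integral_finsetSum]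
  · congr 2
    refine Finset.sum_congr rfl fun i hi => ?_
    have hi' := Finset.mem_range.1 hi
    rw [intervalIntegral.integral_add (cii hL (XX_integrand_cont hτ (cb i hi')))
      (cii hL (XX_integrand_cont hτ (chh i hi')))]
    rfl
  · intro i hi
    have hi' := Finset.mem_range.1 hi
    exact cii hL ((XX_integrand_cont hτ (cb i hi')).add (XX_integrand_cont hτ (chh i hi')))
  · exact cii hL (continuousOn_const.mul (XX_integrand_cont hτ ch))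
  · refine cii hL (continuousOn_const.mul ?_)
    refine continuousOn_finsetSum _ fun i hi => ?_
    have hi' := Finset.mem_range.1 hi
    exact (XX_integrand_cont hτ (cb i hi')).add (XX_integrand_cont hτ (chh i hi'))

variable {φ u E R : ℝ → ℝ → ℝ}

/-- (J) in terms of `XX`. -/
theorem LevD.J (h : LevD L C0 φ u E R) (p : ℝ) {τ : ℝ} (hτ : τ ∈ Ioo (0 : ℝ) 1) {s : ℝ}
    (hs : 0 < s) (hs1 : s ≤ 1) :
    XX L (p - 1) (dt u) τ ≤ s * XX L p (fun τ x => φ τ x * dx L (dx L (dt u)) τ x) τ +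
      2 * KJ C0 p / s * (XX L (p - 2) (fun τ x => φ τ x * dx L (dx L u) τ x) τ +
        XX L (p - 2) R τ) + 4 * XX L (p - 1) E τ := by
  have hL := h.hL
  have cbe := h.smbe.continuousOn_right hτ
  have cR := h.smR.continuousOn_right hτ
  have hJ := J_ineq (C0 := C0) (h.cf hτ) hτ.1 p (u := dt u τ) (E := E τ)
    (G := fun x => |φ τ x * dx L (dx L u) τ x| + |R τ x|)
    (Z := fun x => φ τ x * (φ τ x * dx L (dx L u) τ x + R τ x))
    (Sm.C2f hL (Sm.dt isOpen_Ioo hL h.smu) hτ) (h.smE.continuousOn_right hτ)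
    (cbe.abs.add cR.abs) (fun x _ => by positivity) (h.K0 hτ) (h.K1 hτ)
    (fun x hx => (h.eq τ hτ x hx).symm)
    (fun x _ => by
      rw [abs_mul]
      gcongr
      exact abs_add_le _ _) hs hs1
  have h2 : ∫ x in (0 : ℝ)..L, (x ^ 2 + τ) ^ (p - 2) *
      (|φ τ x * dx L (dx L u) τ x| + |R τ x|) ^ 2 * x ^ 9 ≤
      2 * (XX L (p - 2) (fun τ x => φ τ x * dx L (dx L u) τ x) τ + XX L (p - 2) R τ) := by
    have cbe1 := XX_integrand_cont (p := p - 2) (F := fun τ x => φ τ x * dx L (dx L u) τ x)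
      hτ.1 cbe
    have cR1 := XX_integrand_cont (p := p - 2) (F := R) hτ.1 cR
    unfold XX
    rw [← intervalIntegral.integral_add (cii hL cbe1) (cii hL cR1),
      ← intervalIntegral.integral_const_mul]
    have c1 := (rho_cont (t := τ) hτ.1 (p - 2)).continuousOn (s := Icc 0 L)
    refine int_mono hL ?_ ?_ fun x hx => ?_
    · exact (c1.mul ((cbe.abs.add cR.abs).pow 2)).mul (by fun_prop)
    · exact continuousOn_const.mul (cbe1.add cR1)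
    · have hw : 0 ≤ (x ^ 2 + τ) ^ (p - 2) * x ^ 9 := by
        have := rho_pos hτ.1 x; have := hx.1; positivity
      have h3 : (|φ τ x * dx L (dx L u) τ x| + |R τ x|) ^ 2 ≤
          2 * ((φ τ x * dx L (dx L u) τ x) ^ 2 + R τ x ^ 2) := by
        rw [← sq_abs (φ τ x * dx L (dx L u) τ x), ← sq_abs (R τ x)]
        nlinarith [sq_nonneg (|φ τ x * dx L (dx L u) τ x| - |R τ x|)]
      have h4 := mul_le_mul_of_nonneg_left h3 hw
      calc _ = (x ^ 2 + τ) ^ (p - 2) * x ^ 9 *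
            (|φ τ x * dx L (dx L u) τ x| + |R τ x|) ^ 2 := by ring
        _ ≤ _ := h4
        _ = _ := by ring
  have hKJ := KJ_nonneg C0 p
  have h3 : KJ C0 p / s * ∫ x in (0 : ℝ)..L, (x ^ 2 + τ) ^ (p - 2) *
      (|φ τ x * dx L (dx L u) τ x| + |R τ x|) ^ 2 * x ^ 9 ≤
      KJ C0 p / s * (2 * (XX L (p - 2) (fun τ x => φ τ x * dx L (dx L u) τ x) τ +
        XX L (p - 2) R τ)) := by gcongr
  unfold XX at h3 ⊢
  refine hJ.trans ?_
  have e : ∀ Y : ℝ, KJ C0 p / s * (2 * Y) = 2 * KJ C0 p / s * Y := fun Y => by ring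
  rw [e] at h3
  linarith

/-! ### Time integrals -/

/-- weighted time integral -/
def IR (κ a T L : ℝ) (k : ℕ) (p : ℝ) (F : ℝ → ℝ → ℝ) : ℝ :=
  ∫ τ in a..T, (T - τ) ^ k * τ ^ (2 * κ) * XX L p F τ

variable {κ a T p : ℝ} {F : ℝ → ℝ → ℝ}

theorem IR_integrand_cont (hL : 0 < L) (ha : 0 < a) (hT : T < 1) (κ : ℝ) (k : ℕ) (p : ℝ)
    (hF : Sm (Ioo 0 1) L F) :
    ContinuousOn (fun τ => (T - τ) ^ k * τ ^ (2 * κ) * XX L p F τ) (Icc a T) := by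
  have h1 : ContinuousOn (fun τ : ℝ => τ ^ (2 * κ)) (Icc a T) :=
    continuousOn_id.rpow_const fun τ hτ => Or.inl (ha.trans_le hτ.1).ne'
  have h2 : ContinuousOn (XX L p F) (Icc a T) := (XX_cont hL hF p).mono fun τ hτ =>
    ⟨ha.trans_le hτ.1, hτ.2.trans_lt hT⟩
  fun_prop

theorem IR_mono (haT : a ≤ T) {f g : ℝ → ℝ} (hf : ContinuousOn f (Icc a T))
    (hg : ContinuousOn g (Icc a T)) (h : ∀ τ ∈ Icc a T, f τ ≤ g τ) :
    ∫ τ in a..T, f τ ≤ ∫ τ in a..T, g τ :=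
  intervalIntegral.integral_mono_on haT (tii haT hf) (tii haT hg) h

theorem IR_nonneg (hL : 0 < L) (ha : 0 < a) (haT : a ≤ T) (κ : ℝ) (k : ℕ) (p : ℝ)
    (F : ℝ → ℝ → ℝ) : 0 ≤ IR κ a T L k p F := by
  refine intervalIntegral.integral_nonneg haT fun τ hτ => ?_
  have h0 : 0 < τ := ha.trans_le hτ.1
  have h1 := XX_nonneg hL h0 p F
  have h2 : 0 ≤ T - τ := sub_nonneg.2 hτ.2
  positivity

theorem IR_anti (hL : 0 < L) (ha : 0 < a) (haT : a ≤ T) (hT : T < 1) (κ : ℝ) {k k' : ℕ}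
    (hk : k ≤ k') (p : ℝ) (hF : Sm (Ioo 0 1) L F) :
    IR κ a T L k' p F ≤ IR κ a T L k p F := by
  refine IR_mono haT (IR_integrand_cont hL ha hT κ k' p hF) (IR_integrand_cont hL ha hT κ k p hF)
    fun τ hτ => ?_
  have h0 : 0 < τ := ha.trans_le hτ.1
  have h1 := XX_nonneg hL h0 p F
  have h2 : 0 ≤ T - τ := sub_nonneg.2 hτ.2
  have h3 : (T - τ) ^ k' ≤ (T - τ) ^ k := pow_le_pow_of_le_one h2 (by linarith) hk
  gcongr

theorem IR_succ (hL : 0 < L) (ha : 0 < a) (haT : a ≤ T) (hT : T < 1) (κ : ℝ) (k : ℕ)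
    (p : ℝ) (hF : Sm (Ioo 0 1) L F) :
    IR κ a T L k (p + 1) F ≤ (L ^ 2 + 1) * IR κ a T L k p F := by
  unfold IR
  rw [← intervalIntegral.integral_const_mul]
  refine IR_mono haT (IR_integrand_cont hL ha hT κ k (p + 1) hF)
    (continuousOn_const.mul (IR_integrand_cont hL ha hT κ k p hF)) fun τ hτ => ?_
  have h0 : 0 < τ := ha.trans_le hτ.1
  have hτ1 : τ ∈ Ioo (0 : ℝ) 1 := ⟨h0, hτ.2.trans_lt hT⟩
  have h1 := XX_succ_le hL hτ1 p (hF.continuousOn_right hτ1)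
  have h2 : 0 ≤ T - τ := sub_nonneg.2 hτ.2
  calc (T - τ) ^ k * τ ^ (2 * κ) * XX L (p + 1) F τ
      ≤ (T - τ) ^ k * τ ^ (2 * κ) * ((L ^ 2 + 1) * XX L p F τ) := by gcongr
    _ = _ := by ring

theorem int_lin3 (haT : a ≤ T) {f g h e : ℝ → ℝ} (cf : ContinuousOn f (Icc a T))
    (cg : ContinuousOn g (Icc a T)) (ch : ContinuousOn h (Icc a T))
    (ce : ContinuousOn e (Icc a T)) (A B C : ℝ) :
    ∫ τ in a..T, (A * f τ + B * (g τ + h τ) + C * e τ) =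
      A * (∫ τ in a..T, f τ) + B * ((∫ τ in a..T, g τ) + ∫ τ in a..T, h τ) +
      C * ∫ τ in a..T, e τ := by
  rw [intervalIntegral.integral_add, intervalIntegral.integral_add,
    intervalIntegral.integral_const_mul, intervalIntegral.integral_const_mul,
    intervalIntegral.integral_const_mul, intervalIntegral.integral_add (tii haT cg) (tii haT ch)]
  all_goals exact tii haT (by fun_prop)

theorem int_lin2 (haT : a ≤ T) {f g : ℝ → ℝ} (cf : ContinuousOn f (Icc a T))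
    (cg : ContinuousOn g (Icc a T)) (A B : ℝ) :
    ∫ τ in a..T, (A * f τ + B * g τ) = A * (∫ τ in a..T, f τ) + B * ∫ τ in a..T, g τ := by
  rw [intervalIntegral.integral_add, intervalIntegral.integral_const_mul,
    intervalIntegral.integral_const_mul]
  all_goals exact tii haT (by fun_prop)

/-- time weight of level `j`. -/
theorem TW_std (hκ : 0 ≤ κ) (ha : 0 < a) (haT : a ≤ T) (hT : T < 1) (k : ℕ) :
    TW a T (fun τ => (T - τ) ^ (2 * (k + 1)) * τ ^ (2 * κ))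
      (fun τ => -(((2 * (k + 1) : ℕ) : ℝ) * (T - τ) ^ (2 * k + 1)) * τ ^ (2 * κ) +
        (T - τ) ^ (2 * (k + 1)) * (2 * κ * τ ^ (2 * κ - 1)))
      (fun τ => ((2 * (k + 1) : ℕ) : ℝ) * ((T - τ) ^ (2 * k + 1) * τ ^ (2 * κ))) where
  ha := ha
  haT := haT
  hT := hT
  cont := by
    have h1 : ContinuousOn (fun τ : ℝ => τ ^ (2 * κ)) (Icc a T) :=
      continuousOn_id.rpow_const fun τ hτ => Or.inl (ha.trans_le hτ.1).ne'
    fun_prop
  cont' := by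
    have h1 : ContinuousOn (fun τ : ℝ => τ ^ (2 * κ)) (Icc a T) :=
      continuousOn_id.rpow_const fun τ hτ => Or.inl (ha.trans_le hτ.1).ne'
    have h2 : ContinuousOn (fun τ : ℝ => τ ^ (2 * κ - 1)) (Icc a T) :=
      continuousOn_id.rpow_const fun τ hτ => Or.inl (ha.trans_le hτ.1).ne'
    fun_prop
  contσ := by
    have h1 : ContinuousOn (fun τ : ℝ => τ ^ (2 * κ)) (Icc a T) :=
      continuousOn_id.rpow_const fun τ hτ => Or.inl (ha.trans_le hτ.1).ne'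
    fun_prop
  der := fun τ hτ => by
    have h0 : 0 < τ := ha.trans hτ.1
    have h1 : HasDerivAt (fun τ : ℝ => T - τ) (-1) τ := by
      simpa using (hasDerivAt_id τ).const_sub T
    have h2 := h1.pow (2 * (k + 1))
    have h3 : HasDerivAt (fun τ : ℝ => τ ^ (2 * κ)) (2 * κ * τ ^ (2 * κ - 1)) τ :=
      Real.hasDerivAt_rpow_const (Or.inl h0.ne')
    refine (h2.mul h3).congr_deriv ?_
    have e : 2 * (k + 1) - 1 = 2 * k + 1 := by omega
    simp only [Pi.pow_apply, e]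
    ring
  nonneg := fun τ hτ => by
    have h0 : 0 < τ := ha.trans_le hτ.1
    have h2 : 0 ≤ T - τ := sub_nonneg.2 hτ.2
    positivity
  end0 := by simp
  le := fun τ hτ => by
    have h0 : 0 < τ := ha.trans_le hτ.1
    have h2 : 0 ≤ T - τ := sub_nonneg.2 hτ.2
    have h3 : 0 ≤ (T - τ) ^ (2 * (k + 1)) * (2 * κ * τ ^ (2 * κ - 1)) := by positivity
    nlinarith

theorem IR_J (h : LevD L C0 φ u E R) (ha : 0 < a) (haT : a ≤ T) (hT : T < 1) (k : ℕ) (p : ℝ)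
    {ε : ℝ} (hε : 0 < ε) (hε1 : ε ≤ 1) :
    IR κ a T L (2 * k + 1) (p - 1) (dt u) ≤
      ε * IR κ a T L (2 * (k + 1)) p (fun τ x => φ τ x * dx L (dx L (dt u)) τ x) +
      2 * KJ C0 p / ε * (IR κ a T L (2 * k) (p - 2) (fun τ x => φ τ x * dx L (dx L u) τ x) +
        IR κ a T L (2 * k) (p - 2) R) + 4 * IR κ a T L (2 * k + 1) (p - 1) E := by
  have hL := h.hL
  have sdt := Sm.dt isOpen_Ioo hL h.smu
  have sbe1 : Sm (Ioo 0 1) L (fun τ x => φ τ x * dx L (dx L (dt u)) τ x) :=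
    h.smφ.mul (Sm.dx isOpen_Ioo hL (Sm.dx isOpen_Ioo hL sdt))
  have c1 := IR_integrand_cont hL ha hT κ (2 * k + 1) (p - 1) sdt
  have c2 := IR_integrand_cont hL ha hT κ (2 * (k + 1)) p sbe1
  have c3 := IR_integrand_cont hL ha hT κ (2 * k) (p - 2) h.smbe
  have c4 := IR_integrand_cont hL ha hT κ (2 * k) (p - 2) h.smR
  have c5 := IR_integrand_cont hL ha hT κ (2 * k + 1) (p - 1) h.smE
  have hKJ := KJ_nonneg C0 p
  have key : IR κ a T L (2 * k + 1) (p - 1) (dt u) ≤ ∫ τ in a..T,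
      (ε * ((T - τ) ^ (2 * (k + 1)) * τ ^ (2 * κ) *
          XX L p (fun τ x => φ τ x * dx L (dx L (dt u)) τ x) τ) +
        2 * KJ C0 p / ε * ((T - τ) ^ (2 * k) * τ ^ (2 * κ) *
          XX L (p - 2) (fun τ x => φ τ x * dx L (dx L u) τ x) τ +
          (T - τ) ^ (2 * k) * τ ^ (2 * κ) * XX L (p - 2) R τ) +
        4 * ((T - τ) ^ (2 * k + 1) * τ ^ (2 * κ) * XX L (p - 1) E τ)) := by
    refine IR_mono haT c1 (((continuousOn_const.mul c2).add (continuousOn_const.mul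
      (c3.add c4))).add (continuousOn_const.mul c5)) fun τ hτ => ?_
    have h0 : 0 < τ := ha.trans_le hτ.1
    have hτ1 : τ ∈ Ioo (0 : ℝ) 1 := ⟨h0, hτ.2.trans_lt hT⟩
    have x1 := XX_nonneg hL h0 p (fun τ x => φ τ x * dx L (dx L (dt u)) τ x)
    have x2 := XX_nonneg hL h0 (p - 2) (fun τ x => φ τ x * dx L (dx L u) τ x)
    have x3 := XX_nonneg hL h0 (p - 2) R
    have x4 := XX_nonneg hL h0 (p - 1) E
    rcases eq_or_lt_of_le hτ.2 with hT' | hT'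
    · have e : (T - τ) ^ (2 * k + 1) = 0 := by rw [hT']; simp
      rw [e]
      have h2 : 0 ≤ T - τ := sub_nonneg.2 hτ.2
      have : 0 ≤ (ε * ((T - τ) ^ (2 * (k + 1)) * τ ^ (2 * κ) *
          XX L p (fun τ x => φ τ x * dx L (dx L (dt u)) τ x) τ) +
        2 * KJ C0 p / ε * ((T - τ) ^ (2 * k) * τ ^ (2 * κ) *
          XX L (p - 2) (fun τ x => φ τ x * dx L (dx L u) τ x) τ +
          (T - τ) ^ (2 * k) * τ ^ (2 * κ) * XX L (p - 2) R τ)) := by positivity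
      simpa using this
    · have h2 : 0 < T - τ := sub_pos.2 hT'
      have h3 : ε * (T - τ) ≤ 1 := by nlinarith
      have h4 := h.J p hτ1 (mul_pos hε h2) h3
      have hw : 0 ≤ (T - τ) ^ (2 * k + 1) * τ ^ (2 * κ) := by positivity
      have h5 := mul_le_mul_of_nonneg_left h4 hw
      refine h5.trans (le_of_eq ?_)
      field_simp
      ring
  exact key.trans (le_of_eq (int_lin3 haT c2 c3 c4 c5 _ _ _))

theorem IR_R_le (hL : 0 < L) (ha : 0 < a) (haT : a ≤ T) (hT : T < 1) (k : ℕ) {j : ℕ} {C : ℝ}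
    {h : ℝ → ℝ → ℝ} {b hh : ℕ → ℝ → ℝ → ℝ} (sR : Sm (Ioo 0 1) L R) (sh : Sm (Ioo 0 1) L h)
    (sb : ∀ i < j, Sm (Ioo 0 1) L (b i)) (shh : ∀ i < j, Sm (Ioo 0 1) L (hh i))
    (hR : ∀ τ ∈ Icc a T, ∀ x ∈ Icc 0 L, |R τ x| ≤ |h τ x| +
      C * ∑ i ∈ Finset.range j, (|b i τ x| + |hh i τ x|) / (x ^ 2 + τ) ^ (j - i)) :
    IR κ a T L k (pj j) R ≤ 4 / 3 * IR κ a T L k (pj j) h +
      8 * j * C ^ 2 * ∑ i ∈ Finset.range j,
        (IR κ a T L k (pj i) (b i) + IR κ a T L k (pj i) (hh i)) := by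
  have c1 := IR_integrand_cont hL ha hT κ k (pj j) sR
  have c2 := IR_integrand_cont hL ha hT κ k (pj j) sh
  have c3 : ∀ i ∈ Finset.range j, ContinuousOn
      (fun τ => (T - τ) ^ k * τ ^ (2 * κ) * XX L (pj i) (b i) τ +
        (T - τ) ^ k * τ ^ (2 * κ) * XX L (pj i) (hh i) τ) (Icc a T) := fun i hi =>
    (IR_integrand_cont hL ha hT κ k (pj i) (sb i (Finset.mem_range.1 hi))).add
      (IR_integrand_cont hL ha hT κ k (pj i) (shh i (Finset.mem_range.1 hi)))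
  have key : IR κ a T L k (pj j) R ≤ ∫ τ in a..T,
      (4 / 3 * ((T - τ) ^ k * τ ^ (2 * κ) * XX L (pj j) h τ) +
      8 * j * C ^ 2 * ∑ i ∈ Finset.range j, ((T - τ) ^ k * τ ^ (2 * κ) * XX L (pj i) (b i) τ +
        (T - τ) ^ k * τ ^ (2 * κ) * XX L (pj i) (hh i) τ)) := by
    refine IR_mono haT c1 ((continuousOn_const.mul c2).add (continuousOn_const.mul
      (continuousOn_finsetSum _ c3))) fun τ hτ => ?_
    have h0 : 0 < τ := ha.trans_le hτ.1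
    have hτ1 : τ ∈ Ioo (0 : ℝ) 1 := ⟨h0, hτ.2.trans_lt hT⟩
    have h2 : 0 ≤ T - τ := sub_nonneg.2 hτ.2
    have h4 := XX_R_le (b := b) (hh := hh) hL h0 (sR.continuousOn_right hτ1)
      (sh.continuousOn_right hτ1) (fun i hi => (sb i hi).continuousOn_right hτ1)
      (fun i hi => (shh i hi).continuousOn_right hτ1) (hR τ hτ)
    have hw : 0 ≤ (T - τ) ^ k * τ ^ (2 * κ) := by positivity
    have h5 := mul_le_mul_of_nonneg_left h4 hw
    refine h5.trans (le_of_eq ?_)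
    rw [mul_add, mul_left_comm _ (8 * (j : ℝ) * C ^ 2), Finset.mul_sum]
    congr 1
    · ring
    · congr 1
      refine Finset.sum_congr rfl fun i _ => ?_
      ring
  refine (key.trans (le_of_eq (int_lin2 haT c2 (continuousOn_finsetSum _ c3) _ _))).trans
    (le_of_eq ?_)
  rw [intervalIntegral.integral_finsetSum (fun i hi => tii haT (c3 i hi))]
  unfold IR
  congr 2
  refine Finset.sum_congr rfl fun i hi => ?_
  have hi' := Finset.mem_range.1 hi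
  rw [intervalIntegral.integral_add (tii haT (IR_integrand_cont hL ha hT κ k (pj i) (sb i hi')))
    (tii haT (IR_integrand_cont hL ha hT κ k (pj i) (shh i hi')))]

theorem IR_EN (h : LevD L C0 φ u E R) (hκ : 0 ≤ κ) (ha : 0 < a) (haT : a ≤ T) (hT : T < 1)
    (k : ℕ) (p : ℝ) :
    3 / 8 * IR κ a T L (2 * (k + 1)) p (fun τ x => φ τ x * dx L (dx L u) τ x) ≤
      (k + 1) * IR κ a T L (2 * k + 1) p u + 9 / 16 * IR κ a T L (2 * (k + 1)) p R +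
      (KE C0 p + |p| / 2) * IR κ a T L (2 * (k + 1)) (p - 1) u +
      1 / 2 * IR κ a T L (2 * (k + 1)) (p + 1) E := by
  have h1 := h.EN_time (TW_std hκ ha haT hT k) p
  unfold IR
  refine h1.trans (le_of_eq ?_)
  congr 3
  have e : ∀ τ, ((2 * (k + 1) : ℕ) : ℝ) * ((T - τ) ^ (2 * k + 1) * τ ^ (2 * κ)) * XX L p u τ =
      (2 * (k + 1)) * ((T - τ) ^ (2 * k + 1) * τ ^ (2 * κ) * XX L p u τ) := fun τ => by
    push_cast; ring
  simp only [e]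
  rw [intervalIntegral.integral_const_mul]
  ring

/-! ### The absorbed one-level inequality -/

/-- from the background to the coefficient facts -/
theorem LevD.of_level {c0 C0 : ℝ} {g : ℝ → ℝ} {L : ℝ} {φ m : ℝ → ℝ → ℝ} (hc0 : 0 < c0)
    (hB : Bg c0 C0 g L φ m) {u E R : ℝ → ℝ → ℝ} (su : Sm (Ioo 0 1) L u) (sE : Sm (Ioo 0 1) L E)
    (sR : Sm (Ioo 0 1) L R) (RL : ∀ τ ∈ Ioo (0 : ℝ) 1, R τ L = 0)
    (eq : ∀ τ ∈ Ioo (0 : ℝ) 1, ∀ x ∈ Icc 0 L,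
      x ^ 9 * (φ τ x * (φ τ x * dx L (dx L u) τ x + R τ x)) =
        Kint (fun ξ => E τ ξ + dt u τ ξ) x) : LevD L C0 φ u E R where
  hL := by linarith [hB.L_ge]
  hC := by
    have h1 : (1 / 2 : ℝ) ∈ Ioo (0 : ℝ) 1 := by constructor <;> norm_num
    have h2 : (0 : ℝ) ∈ Icc 0 L := ⟨le_rfl, by linarith [hB.L_ge]⟩
    linarith [hB.lower _ h1 _ h2, hB.upper _ h1 _ h2]
  smφ := by
    have hL : 0 < L := by linarith [hB.L_ge]
    have h1 : Sm (Ioo 0 1) L (fun τ x => x * (1 - x / L) * m τ x) := by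
      refine Sm.mul (Sm.mul Sm.snd ((Sm.const 1).sub ?_)) hB.sm
      exact (Sm.snd.const_mul (1 / L)).congr fun t _ x _ => by ring
    exact h1.congr fun t ht x hx => hB.phi_eq t ht x hx
  endL := fun τ hτ => by
    have hL : 0 < L := by linarith [hB.L_ge]
    rw [hB.phi_eq τ hτ L ⟨hL.le, le_rfl⟩, div_self hL.ne']; ring
  bd := fun τ hτ x hx => by
    have hL : 0 < L := by linarith [hB.L_ge]
    rw [hB.phi_eq τ hτ x hx]
    have h1 := hB.lower τ hτ x hx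
    have h2 := hB.upper τ hτ x hx
    have h3 : 0 ≤ 1 - x / L := by rw [sub_nonneg, div_le_one hL]; exact hx.2
    have h4 : 1 - x / L ≤ 1 := by
      have : 0 ≤ x / L := div_nonneg hx.1 hL.le
      linarith
    have h0 : 0 ≤ m τ x := by linarith
    rw [abs_of_nonneg (by have := hx.1; positivity)]
    calc x * (1 - x / L) * m τ x ≤ x * 1 * C0 := by
          have := hx.1
          gcongr
      _ = C0 * x := by ring
  bd' := hB.dphi
  smu := su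
  smE := sE
  smR := sR
  RL := RL
  eq := eq

/-- constants -/
def KR (c0 M : ℝ) (j : ℕ) : ℝ := 8 * j * CLev c0 M j ^ 2

theorem KR_nonneg (c0 M : ℝ) (j : ℕ) : 0 ≤ KR c0 M j := by unfold KR; positivity

def K2s (c0 C0 M : ℝ) (k : ℕ) : ℝ := 2 * KJ C0 (pj (k + 1)) * (7 / 3 + KR c0 M k)

theorem K2s_nonneg (c0 C0 M : ℝ) (k : ℕ) : 0 ≤ K2s c0 C0 M k := by
  have := KR_nonneg c0 M k
  have := KJ_nonneg C0 (pj (k + 1))
  unfold K2s; positivity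

def K3s (c0 C0 M : ℝ) (k : ℕ) : ℝ :=
  8 / 3 * ((k + 1) + (KE C0 (pj (k + 1)) + |pj (k + 1)| / 2)) + 3 / 2 * KR c0 M (k + 1) + 4 / 3

theorem K3s_ge (c0 C0 M : ℝ) (k : ℕ) : 4 / 3 ≤ K3s c0 C0 M k := by
  have := KR_nonneg c0 M (k + 1)
  have := KE_nonneg C0 (pj (k + 1))
  have : 0 ≤ 8 / 3 * (((k : ℝ) + 1) + (KE C0 (pj (k + 1)) + |pj (k + 1)| / 2)) := by positivity
  unfold K3s; linarith

/-- the constant of the absorbed one-level inequality -/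
def KS (c0 C0 M : ℝ) (k : ℕ) : ℝ :=
  2 * (2 * K3s c0 C0 M k ^ 2 * K2s c0 C0 M k + 5 * K3s c0 C0 M k) +
    2 * K2s c0 C0 M k * K3s c0 C0 M k + 4

theorem KS_nonneg (c0 C0 M : ℝ) (k : ℕ) : 0 ≤ KS c0 C0 M k := by
  have := K2s_nonneg c0 C0 M k
  have := K3s_ge c0 C0 M k
  have : 0 ≤ K3s c0 C0 M k := by linarith
  unfold KS; positivity

/-- pure algebra of the absorption -/
theorem absorb {X Y H Sg Sk Sj Q K2 K3 : ℝ} (hQ : 1 ≤ Q) (hK2 : 0 ≤ K2) (hK3 : 4 / 3 ≤ K3)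
    (hX : 0 ≤ X) (hSg : 0 ≤ Sg) (hSk : 0 ≤ Sk) (hSj : 0 ≤ Sj)
    (hJ : ∀ ε, 0 < ε → ε ≤ 1 → Y ≤ ε * X + K2 / ε * Sg + 4 * Q * Sk)
    (hE : X ≤ 2 * H + K3 * Q * (Y + Sg + Sj)) :
    X ≤ 4 * H + (2 * (2 * K3 ^ 2 * K2 + 5 * K3) + 2 * K2 * K3 + 4) * Q ^ 2 * (Sg + Sk + Sj) ∧
    Y ≤ 4 * H + (2 * (2 * K3 ^ 2 * K2 + 5 * K3) + 2 * K2 * K3 + 4) * Q ^ 2 * (Sg + Sk + Sj) := by
  have hK3' : 0 < K3 := by linarith
  have hQ' : 0 < Q := by linarith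
  have hε : 0 < 1 / (2 * K3 * Q) := by positivity
  have hε1 : 1 / (2 * K3 * Q) ≤ 1 := by
    rw [div_le_one (by positivity)]; nlinarith
  have h1 := hJ _ hε hε1
  have e1 : K2 / (1 / (2 * K3 * Q)) = 2 * K2 * K3 * Q := by field_simp
  rw [e1] at h1
  have h2 : K3 * Q * Y ≤ 1 / 2 * X + 2 * K3 ^ 2 * K2 * Q ^ 2 * Sg + 4 * K3 * Q ^ 2 * Sk := by
    have h3 := mul_le_mul_of_nonneg_left h1 (by positivity : 0 ≤ K3 * Q)
    refine h3.trans (le_of_eq ?_)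
    field_simp
  have hQQ : Q ≤ Q ^ 2 := by nlinarith
  have h3 : X ≤ 4 * H + 2 * (2 * K3 ^ 2 * K2 + 5 * K3) * Q ^ 2 * (Sg + Sk + Sj) := by
    have h4 : K3 * Q * (Sg + Sj) ≤ K3 * Q ^ 2 * (Sg + Sk + Sj) := by
      have : Sg + Sj ≤ Sg + Sk + Sj := by linarith
      gcongr
    have h5 : 2 * K3 ^ 2 * K2 * Q ^ 2 * Sg ≤ 2 * K3 ^ 2 * K2 * Q ^ 2 * (Sg + Sk + Sj) := by
      have : Sg ≤ Sg + Sk + Sj := by linarith
      gcongr
    have h6 : 4 * K3 * Q ^ 2 * Sk ≤ 4 * K3 * Q ^ 2 * (Sg + Sk + Sj) := by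
      have : Sk ≤ Sg + Sk + Sj := by linarith
      gcongr
    have h7 : X ≤ 2 * H + (K3 * Q * Y + K3 * Q * (Sg + Sj)) := by
      refine hE.trans (le_of_eq ?_); ring
    have e : 2 * (2 * K3 ^ 2 * K2 + 5 * K3) * Q ^ 2 * (Sg + Sk + Sj) =
      2 * (2 * K3 ^ 2 * K2 * Q ^ 2 * (Sg + Sk + Sj) + 4 * K3 * Q ^ 2 * (Sg + Sk + Sj) +
        K3 * Q ^ 2 * (Sg + Sk + Sj)) := by ring
    rw [e]
    linarith
  have hS : 0 ≤ Q ^ 2 * (Sg + Sk + Sj) := by positivity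
  have h8 : (2 * K2 * K3 + 4) * (Q ^ 2 * (Sg + Sk + Sj)) =
      2 * K2 * K3 * (Q ^ 2 * (Sg + Sk + Sj)) + 4 * (Q ^ 2 * (Sg + Sk + Sj)) := by ring
  have e9 : (2 * (2 * K3 ^ 2 * K2 + 5 * K3) + 2 * K2 * K3 + 4) * Q ^ 2 * (Sg + Sk + Sj) =
      2 * (2 * K3 ^ 2 * K2 + 5 * K3) * Q ^ 2 * (Sg + Sk + Sj) +
      (2 * K2 * K3 + 4) * (Q ^ 2 * (Sg + Sk + Sj)) := by ring
  have h10 : 0 ≤ (2 * K2 * K3 + 4) * (Q ^ 2 * (Sg + Sk + Sj)) := by positivity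
  refine ⟨by rw [e9]; linarith, ?_⟩
  have h11 : 1 / (2 * K3 * Q) * X ≤ X := by nlinarith
  have h12 : 2 * K2 * K3 * Q * Sg ≤ 2 * K2 * K3 * (Q ^ 2 * (Sg + Sk + Sj)) := by
    have : Q * Sg ≤ Q ^ 2 * (Sg + Sk + Sj) := by
      have : Sg ≤ Sg + Sk + Sj := by linarith
      gcongr
    calc 2 * K2 * K3 * Q * Sg = 2 * K2 * K3 * (Q * Sg) := by ring
      _ ≤ _ := by gcongr
  have h13 : 4 * Q * Sk ≤ 4 * (Q ^ 2 * (Sg + Sk + Sj)) := by
    have : Q * Sk ≤ Q ^ 2 * (Sg + Sk + Sj) := by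
      have : Sk ≤ Sg + Sk + Sj := by linarith
      gcongr
    linarith
  rw [e9, h8]
  linarith

set_option maxHeartbeats 1000000 in
/-- **the absorbed one-level inequality** on `[a,T]` (`j = k+1`), top constant `4`. -/
theorem level_step {c0 C0 : ℝ} {g : ℝ → ℝ} {L κ a T M : ℝ} {φ m : ℝ → ℝ → ℝ} (hc0 : 0 < c0)
    (hB : Bg c0 C0 g L φ m) (hκ : 0 ≤ κ) (ha : 0 < a) (haT : a ≤ T) (hT : T < 1) (hM : 1 ≤ M)
    {E ht δ : ℝ → ℝ → ℝ} (hE : Sm (Ioo 0 1) L E) (hh : Sm (Ioo 0 1) L ht)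
    (hd : Sm (Ioo 0 1) L δ) (heq : LinEq L φ E ht δ) (k : ℕ)
    (hm : ∀ i ≤ k + 1, ∀ τ ∈ Icc a T, ∀ x ∈ Icc 0 L, (x ^ 2 + τ) ^ i * |(dt^[i] m) τ x| ≤ M) :
    IR κ a T L (2 * (k + 1)) (pj (k + 1)) (be L φ (k + 1) δ) ≤
      4 * IR κ a T L (2 * (k + 1)) (pj (k + 1)) (dt^[k + 1] (fun τ x => φ τ x * ht τ x)) +
      KS c0 C0 M k * (L ^ 2 + 1) ^ 2 *
        ((∑ i ∈ Finset.range (k + 1), (IR κ a T L (2 * i) (pj i) (be L φ i δ) +
            IR κ a T L (2 * i) (pj i) (dt^[i] (fun τ x => φ τ x * ht τ x)))) +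
          IR κ a T L (2 * k) (pj k) (dt^[k] E) +
          IR κ a T L (2 * (k + 1)) (pj (k + 1)) (dt^[k + 1] E)) ∧
    IR κ a T L (2 * k + 1) (pj (k + 1) - 1) (dt^[k + 1] δ) ≤
      4 * IR κ a T L (2 * (k + 1)) (pj (k + 1)) (dt^[k + 1] (fun τ x => φ τ x * ht τ x)) +
      KS c0 C0 M k * (L ^ 2 + 1) ^ 2 *
        ((∑ i ∈ Finset.range (k + 1), (IR κ a T L (2 * i) (pj i) (be L φ i δ) +
            IR κ a T L (2 * i) (pj i) (dt^[i] (fun τ x => φ τ x * ht τ x)))) +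
          IR κ a T L (2 * k) (pj k) (dt^[k] E) +
          IR κ a T L (2 * (k + 1)) (pj (k + 1)) (dt^[k + 1] E)) := by
  have hL : 0 < L := by linarith [hB.L_ge]
  have hI : IsOpen (Ioo (0 : ℝ) 1) := isOpen_Ioo
  obtain ⟨R0, sR0, R0L, eq0, bd0⟩ := level hc0 hB hE hh hd heq k
  obtain ⟨R1, sR1, R1L, eq1, bd1⟩ := level hc0 hB hE hh hd heq (k + 1)
  have sdj : ∀ j, Sm (Ioo 0 1) L (dt^[j] δ) := fun j => hd.dt_iter hI hL j
  have sEj : ∀ j, Sm (Ioo 0 1) L (dt^[j] E) := fun j => hE.dt_iter hI hL j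
  -- level data
  have D0 : LevD L C0 φ (dt^[k] δ) (dt^[k] E) R0 :=
    LevD.of_level hc0 hB (sdj k) (sEj k) sR0 R0L (by
      intro τ hτ x hx
      have := eq0 τ hτ x hx
      rwa [Function.iterate_succ_apply'] at this)
  have D1 : LevD L C0 φ (dt^[k + 1] δ) (dt^[k + 1] E) R1 :=
    LevD.of_level hc0 hB (sdj (k + 1)) (sEj (k + 1)) sR1 R1L (by
      intro τ hτ x hx
      have := eq1 τ hτ x hx
      rwa [Function.iterate_succ_apply' dt (k + 1)] at this)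
  have sφ := D0.smφ
  have sh : Sm (Ioo 0 1) L (fun τ x => φ τ x * ht τ x) := sφ.mul hh
  have shj : ∀ j, Sm (Ioo 0 1) L (dt^[j] (fun τ x => φ τ x * ht τ x)) := fun j =>
    sh.dt_iter hI hL j
  have sbe : ∀ j, Sm (Ioo 0 1) L (be L φ j δ) := fun j =>
    sφ.mul (Sm.dx hI hL (Sm.dx hI hL (sdj j)))
  have hsub : Icc a T ⊆ Ioo (0 : ℝ) 1 := fun τ hτ => ⟨ha.trans_le hτ.1, hτ.2.trans_lt hT⟩
  set h := fun τ x => φ τ x * ht τ x with hhdef
  set Sg := ∑ i ∈ Finset.range (k + 1), (IR κ a T L (2 * i) (pj i) (be L φ i δ) +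
            IR κ a T L (2 * i) (pj i) (dt^[i] h)) with hSg
  have nn : ∀ (n : ℕ) (p : ℝ) (F : ℝ → ℝ → ℝ), 0 ≤ IR κ a T L n p F := fun n p F =>
    IR_nonneg hL ha haT κ n p F
  have hSg0 : 0 ≤ Sg := Finset.sum_nonneg fun i _ => add_nonneg (nn _ _ _) (nn _ _ _)
  -- remainder bounds
  have hR1 : IR κ a T L (2 * (k + 1)) (pj (k + 1)) R1 ≤
      4 / 3 * IR κ a T L (2 * (k + 1)) (pj (k + 1)) (dt^[k + 1] h) + KR c0 M (k + 1) * Sg := by
    have h1 := IR_R_le (κ := κ) hL ha haT hT (2 * (k + 1)) (j := k + 1) (C := CLev c0 M (k + 1))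
      (R := R1) (h := dt^[k + 1] h) (b := fun i => be L φ i δ) (hh := fun i => dt^[i] h) sR1
      (shj (k + 1)) (fun i _ => sbe i) (fun i _ => shj i)
      (fun τ hτ x hx => bd1 M hM τ (hsub hτ) x hx (fun i hi => hm i hi τ hτ x hx))
    refine h1.trans ?_
    have h2 : ∑ i ∈ Finset.range (k + 1), (IR κ a T L (2 * (k + 1)) (pj i) (be L φ i δ) +
        IR κ a T L (2 * (k + 1)) (pj i) (dt^[i] h)) ≤ Sg := by
      refine Finset.sum_le_sum fun i hi => ?_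
      have hi' := Finset.mem_range.1 hi
      exact add_le_add (IR_anti hL ha haT hT κ (by omega) _ (sbe i))
        (IR_anti hL ha haT hT κ (by omega) _ (shj i))
    have h3 : 0 ≤ KR c0 M (k + 1) := KR_nonneg _ _ _
    have h4 := mul_le_mul_of_nonneg_left h2 h3
    unfold KR at h4 ⊢
    linarith
  have hR0 : IR κ a T L (2 * k) (pj k) R0 ≤ (4 / 3 + KR c0 M k) * Sg := by
    have h1 := IR_R_le (κ := κ) hL ha haT hT (2 * k) (j := k) (C := CLev c0 M k)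
      (R := R0) (h := dt^[k] h) (b := fun i => be L φ i δ) (hh := fun i => dt^[i] h) sR0
      (shj k) (fun i _ => sbe i) (fun i _ => shj i)
      (fun τ hτ x hx => bd0 M hM τ (hsub hτ) x hx (fun i hi => hm i (by omega) τ hτ x hx))
    have h2 : ∑ i ∈ Finset.range k, (IR κ a T L (2 * k) (pj i) (be L φ i δ) +
        IR κ a T L (2 * k) (pj i) (dt^[i] h)) ≤ Sg := by
      rw [hSg, Finset.sum_range_succ]
      have h3 : ∑ i ∈ Finset.range k, (IR κ a T L (2 * k) (pj i) (be L φ i δ) +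
          IR κ a T L (2 * k) (pj i) (dt^[i] h)) ≤
          ∑ i ∈ Finset.range k, (IR κ a T L (2 * i) (pj i) (be L φ i δ) +
          IR κ a T L (2 * i) (pj i) (dt^[i] h)) := by
        refine Finset.sum_le_sum fun i hi => ?_
        have hi' := Finset.mem_range.1 hi
        exact add_le_add (IR_anti hL ha haT hT κ (by omega) _ (sbe i))
          (IR_anti hL ha haT hT κ (by omega) _ (shj i))
      linarith [nn (2 * k) (pj k) (be L φ k δ), nn (2 * k) (pj k) (dt^[k] h)]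
    have h3 : IR κ a T L (2 * k) (pj k) (dt^[k] h) ≤ Sg := by
      rw [hSg, Finset.sum_range_succ]
      have : 0 ≤ ∑ i ∈ Finset.range k, (IR κ a T L (2 * i) (pj i) (be L φ i δ) +
          IR κ a T L (2 * i) (pj i) (dt^[i] h)) :=
        Finset.sum_nonneg fun i _ => add_nonneg (nn _ _ _) (nn _ _ _)
      linarith [nn (2 * k) (pj k) (be L φ k δ)]
    have h4 : 0 ≤ KR c0 M k := KR_nonneg _ _ _
    have h5 := mul_le_mul_of_nonneg_left h2 h4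
    unfold KR at h5 ⊢
    linarith
  have hbk : IR κ a T L (2 * k) (pj k) (be L φ k δ) ≤ Sg := by
    rw [hSg, Finset.sum_range_succ]
    have : 0 ≤ ∑ i ∈ Finset.range k, (IR κ a T L (2 * i) (pj i) (be L φ i δ) +
        IR κ a T L (2 * i) (pj i) (dt^[i] h)) :=
      Finset.sum_nonneg fun i _ => add_nonneg (nn _ _ _) (nn _ _ _)
    linarith [nn (2 * k) (pj k) (dt^[k] h)]
  -- (J)
  have e2 : pj (k + 1) - 2 = pj k := by unfold pj; push_cast; ring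
  have e1 : pj (k + 1) - 1 = pj k + 1 := by unfold pj; push_cast; ring
  have hKJ := KJ_nonneg C0 (pj (k + 1))
  have hEk : IR κ a T L (2 * k + 1) (pj (k + 1) - 1) (dt^[k] E) ≤
      (L ^ 2 + 1) * IR κ a T L (2 * k) (pj k) (dt^[k] E) := by
    rw [e1]
    refine (IR_succ hL ha haT hT κ (2 * k + 1) (pj k) (sEj k)).trans ?_
    have := IR_anti hL ha haT hT κ (by omega : 2 * k ≤ 2 * k + 1) (pj k) (sEj k)
    gcongr
  have hJ : ∀ ε, 0 < ε → ε ≤ 1 →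
      IR κ a T L (2 * k + 1) (pj (k + 1) - 1) (dt^[k + 1] δ) ≤
      ε * IR κ a T L (2 * (k + 1)) (pj (k + 1)) (be L φ (k + 1) δ) +
      K2s c0 C0 M k / ε * Sg + 4 * (L ^ 2 + 1) * IR κ a T L (2 * k) (pj k) (dt^[k] E) := by
    intro ε hε hε1
    have h1 := IR_J (κ := κ) D0 ha haT hT k (pj (k + 1)) hε hε1
    rw [e2] at h1
    have h2 : dt (dt^[k] δ) = dt^[k + 1] δ := (Function.iterate_succ_apply' dt k δ).symm
    rw [h2] at h1
    have h3 : IR κ a T L (2 * k) (pj k) (fun τ x => φ τ x * dx L (dx L (dt^[k] δ)) τ x) +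
        IR κ a T L (2 * k) (pj k) R0 ≤ (7 / 3 + KR c0 M k) * Sg := by
      have : IR κ a T L (2 * k) (pj k) (fun τ x => φ τ x * dx L (dx L (dt^[k] δ)) τ x) ≤ Sg := hbk
      linarith
    have h4 : 2 * KJ C0 (pj (k + 1)) / ε *
        (IR κ a T L (2 * k) (pj k) (fun τ x => φ τ x * dx L (dx L (dt^[k] δ)) τ x) +
        IR κ a T L (2 * k) (pj k) R0) ≤ K2s c0 C0 M k / ε * Sg := by
      calc _ ≤ 2 * KJ C0 (pj (k + 1)) / ε * ((7 / 3 + KR c0 M k) * Sg) := by gcongr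
        _ = _ := by unfold K2s; ring
    have h5 : IR κ a T L (2 * (k + 1)) (pj (k + 1))
        (fun τ x => φ τ x * dx L (dx L (dt^[k + 1] δ)) τ x) =
        IR κ a T L (2 * (k + 1)) (pj (k + 1)) (be L φ (k + 1) δ) := rfl
    rw [h5] at h1
    linarith
  -- (EN)
  have hEN : IR κ a T L (2 * (k + 1)) (pj (k + 1)) (be L φ (k + 1) δ) ≤
      2 * IR κ a T L (2 * (k + 1)) (pj (k + 1)) (dt^[k + 1] h) +
      K3s c0 C0 M k * (L ^ 2 + 1) *
        (IR κ a T L (2 * k + 1) (pj (k + 1) - 1) (dt^[k + 1] δ) + Sg +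
          IR κ a T L (2 * (k + 1)) (pj (k + 1)) (dt^[k + 1] E)) := by
    have h1 := IR_EN (κ := κ) D1 hκ ha haT hT k (pj (k + 1))
    have h2 : IR κ a T L (2 * (k + 1)) (pj (k + 1))
        (fun τ x => φ τ x * dx L (dx L (dt^[k + 1] δ)) τ x) =
        IR κ a T L (2 * (k + 1)) (pj (k + 1)) (be L φ (k + 1) δ) := rfl
    rw [h2] at h1
    set Y := IR κ a T L (2 * k + 1) (pj (k + 1) - 1) (dt^[k + 1] δ) with hY
    have hY0 : 0 ≤ Y := nn _ _ _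
    have h3 : IR κ a T L (2 * k + 1) (pj (k + 1)) (dt^[k + 1] δ) ≤ (L ^ 2 + 1) * Y := by
      have := IR_succ hL ha haT hT κ (2 * k + 1) (pj (k + 1) - 1) (sdj (k + 1))
      rwa [sub_add_cancel] at this
    have h4 : IR κ a T L (2 * (k + 1)) (pj (k + 1) - 1) (dt^[k + 1] δ) ≤ Y :=
      IR_anti hL ha haT hT κ (by omega) _ (sdj (k + 1))
    have h5 := IR_succ hL ha haT hT κ (2 * (k + 1)) (pj (k + 1)) (sEj (k + 1))
    set Sj := IR κ a T L (2 * (k + 1)) (pj (k + 1)) (dt^[k + 1] E) with hSj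
    have hSj0 : 0 ≤ Sj := nn _ _ _
    set H := IR κ a T L (2 * (k + 1)) (pj (k + 1)) (dt^[k + 1] h) with hH
    have hQ : (1 : ℝ) ≤ L ^ 2 + 1 := by nlinarith [sq_nonneg L]
    have hKE := KE_nonneg C0 (pj (k + 1))
    have hKR := KR_nonneg c0 M (k + 1)
    have t1 : ((k : ℝ) + 1) * IR κ a T L (2 * k + 1) (pj (k + 1)) (dt^[k + 1] δ) ≤
        ((k : ℝ) + 1) * ((L ^ 2 + 1) * Y) := by gcongr
    have t2 : (KE C0 (pj (k + 1)) + |pj (k + 1)| / 2) *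
        IR κ a T L (2 * (k + 1)) (pj (k + 1) - 1) (dt^[k + 1] δ) ≤
        (KE C0 (pj (k + 1)) + |pj (k + 1)| / 2) * ((L ^ 2 + 1) * Y) := by
      have : IR κ a T L (2 * (k + 1)) (pj (k + 1) - 1) (dt^[k + 1] δ) ≤ (L ^ 2 + 1) * Y :=
        h4.trans (by nlinarith)
      gcongr
    have t3 : KR c0 M (k + 1) * Sg ≤ KR c0 M (k + 1) * ((L ^ 2 + 1) * Sg) := by
      have : Sg ≤ (L ^ 2 + 1) * Sg := by nlinarith
      gcongr
    have t4 : 0 ≤ 8 / 3 * (((k : ℝ) + 1) + (KE C0 (pj (k + 1)) + |pj (k + 1)| / 2)) *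
        ((L ^ 2 + 1) * (Sg + Sj)) := by positivity
    have t5 : 0 ≤ 3 / 2 * KR c0 M (k + 1) * ((L ^ 2 + 1) * (Y + Sj)) := by positivity
    have t6 : 0 ≤ 4 / 3 * ((L ^ 2 + 1) * (Y + Sg)) := by positivity
    have e : K3s c0 C0 M k * (L ^ 2 + 1) * (Y + Sg + Sj) =
        8 / 3 * (((k : ℝ) + 1) * ((L ^ 2 + 1) * Y) +
          (KE C0 (pj (k + 1)) + |pj (k + 1)| / 2) * ((L ^ 2 + 1) * Y)) +
        8 / 3 * (((k : ℝ) + 1) + (KE C0 (pj (k + 1)) + |pj (k + 1)| / 2)) *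
          ((L ^ 2 + 1) * (Sg + Sj)) +
        3 / 2 * (KR c0 M (k + 1) * ((L ^ 2 + 1) * Sg)) +
        3 / 2 * KR c0 M (k + 1) * ((L ^ 2 + 1) * (Y + Sj)) +
        4 / 3 * ((L ^ 2 + 1) * (Y + Sg)) + 4 / 3 * ((L ^ 2 + 1) * Sj) := by
      unfold K3s; ring
    rw [e]
    linarith
  exact absorb (by nlinarith [sq_nonneg L]) (K2s_nonneg _ _ _ _) (K3s_ge _ _ _ _) (nn _ _ _)
    hSg0 (nn _ _ _) (nn _ _ _) hJ hEN

theorem final_alg {L K Kt X Y Sg H S0 S1 : ℝ} (hL : 1 ≤ L) (hK : 0 ≤ K) (hKt : K ≤ Kt)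
    (hSg : 0 ≤ Sg) (hH : 0 ≤ H) (h0 : 0 ≤ S0) (h1 : 0 ≤ S1)
    (hX : X ≤ 4 * H + K * (L ^ 2 + 1) ^ 2 * (Sg + S0 + S1))
    (hY : Y ≤ 4 * H + K * (L ^ 2 + 1) ^ 2 * (Sg + S0 + S1)) :
    X + Y ≤ (8 + 8 * Kt) * L ^ 4 * (Sg + H + S0 + S1) := by
  have hQ : (L ^ 2 + 1) ^ 2 ≤ 4 * L ^ 4 := by
    have h1 : (1 : ℝ) ≤ L ^ 2 := one_le_pow₀ hL
    calc (L ^ 2 + 1) ^ 2 ≤ (2 * L ^ 2) ^ 2 :=
          pow_le_pow_left₀ (by positivity) (by linarith) 2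
      _ = 4 * L ^ 4 := by ring
  have hKt0 : 0 ≤ Kt := hK.trans hKt
  have h3 : K * (L ^ 2 + 1) ^ 2 * (Sg + S0 + S1) ≤ Kt * (4 * L ^ 4) * (Sg + S0 + S1) := by
    gcongr
  have hL4 : 1 ≤ L ^ 4 := one_le_pow₀ hL
  have h4 : H ≤ L ^ 4 * H := le_mul_of_one_le_left hH hL4
  have h5 : 0 ≤ 8 * Kt * (L ^ 4 * H) := by positivity
  have h6 : 0 ≤ 8 * (L ^ 4 * (Sg + S0 + S1)) := by positivity
  have e : (8 + 8 * Kt) * L ^ 4 * (Sg + H + S0 + S1) =
      2 * (Kt * (4 * L ^ 4) * (Sg + S0 + S1)) + 8 * (L ^ 4 * H) + 8 * Kt * (L ^ 4 * H) +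
      8 * (L ^ 4 * (Sg + S0 + S1)) := by ring
  rw [e]
  linarith

/-- the form used for the induction over `j ≤ 8`. -/
theorem one_level_real {c0 C0 κ : ℝ} {g : ℝ → ℝ} (hc0 : 0 < c0) (hκ : 0 ≤ κ) :
    ∃ (C : ℝ) (q : ℕ), 1 ≤ C ∧ ∀ L ≥ (8 : ℝ), ∀ φ m : ℝ → ℝ → ℝ, Bg c0 C0 g L φ m →
      ∀ E ht δ : ℝ → ℝ → ℝ, Sm (Ioo 0 1) L E → Sm (Ioo 0 1) L ht → Sm (Ioo 0 1) L δ →
      LinEq L φ E ht δ → ∀ j, 1 ≤ j → j ≤ 8 → ∀ a, 0 < a → a < 3 / 4 →
        IR κ a (3 / 4) L (2 * j) (pj j) (be L φ j δ) +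
          IR κ a (3 / 4) L (2 * j - 1) (pj j - 1) (dt^[j] δ) ≤
        C * L ^ q * ((∑ i ∈ Finset.range j, (IR κ a (3 / 4) L (2 * i) (pj i) (be L φ i δ) +
            IR κ a (3 / 4) L (2 * i) (pj i) (dt^[i] (fun τ x => φ τ x * ht τ x)))) +
          IR κ a (3 / 4) L (2 * j) (pj j) (dt^[j] (fun τ x => φ τ x * ht τ x)) +
          IR κ a (3 / 4) L (2 * (j - 1)) (pj (j - 1)) (dt^[j - 1] E) +
          IR κ a (3 / 4) L (2 * j) (pj j) (dt^[j] E)) := by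
  set M : ℝ := max 1 C0 with hM
  have hM1 : 1 ≤ M := le_max_left _ _
  refine ⟨8 + 8 * ∑ k ∈ Finset.range 8, KS c0 C0 M k, 4, ?_, ?_⟩
  · have : 0 ≤ ∑ k ∈ Finset.range 8, KS c0 C0 M k := Finset.sum_nonneg fun k _ => KS_nonneg _ _ _ _
    linarith
  intro L hL φ m hB E ht δ hE hh hd heq j hj1 hj8 a ha haT
  obtain ⟨k, rfl⟩ : ∃ k, j = k + 1 := ⟨j - 1, by omega⟩
  have hm : ∀ i ≤ k + 1, ∀ τ ∈ Icc a (3 / 4 : ℝ), ∀ x ∈ Icc 0 L,
      (x ^ 2 + τ) ^ i * |(dt^[i] m) τ x| ≤ M := fun i hi τ hτ x hx =>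
    (hB.dtm i (by omega) τ ⟨ha.trans_le hτ.1, by linarith [hτ.2]⟩ x hx).trans (le_max_right _ _)
  have hst := level_step (κ := κ) (T := 3 / 4) hc0 hB hκ ha haT.le (by norm_num) hM1 hE hh hd heq k hm
  have e1 : 2 * (k + 1) - 1 = 2 * k + 1 := by omega
  have e2 : k + 1 - 1 = k := rfl
  rw [e1, e2]
  have hL0 : 0 < L := by linarith
  have nn : ∀ (n : ℕ) (p : ℝ) (F : ℝ → ℝ → ℝ), 0 ≤ IR κ a (3 / 4) L n p F := fun n p F =>
    IR_nonneg hL0 ha haT.le κ n p F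
  obtain ⟨h1, h2⟩ := hst
  set h := fun τ x => φ τ x * ht τ x with hhdef
  set Sg := ∑ i ∈ Finset.range (k + 1), (IR κ a (3 / 4) L (2 * i) (pj i) (be L φ i δ) +
            IR κ a (3 / 4) L (2 * i) (pj i) (dt^[i] h)) with hSg
  have hSg0 : 0 ≤ Sg := Finset.sum_nonneg fun i _ => add_nonneg (nn _ _ _) (nn _ _ _)
  have hKS : KS c0 C0 M k ≤ ∑ k ∈ Finset.range 8, KS c0 C0 M k :=
    Finset.single_le_sum (f := fun k => KS c0 C0 M k) (fun k _ => KS_nonneg _ _ _ _)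
      (Finset.mem_range.2 (by omega))
  exact final_alg (by linarith) (KS_nonneg c0 C0 M k) hKS hSg0 (nn _ _ _) (nn _ _ _) (nn _ _ _)
    h1 h2

end Crest.Agent.R213.C.EN
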