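import Crest.Agent.R213.C.EnLevels
import Crest.Agent.R213.C.EnConv
import Crest.Agent.R213.C.LevelStep

/-!
# Row 213, part C, C2: from the real one-level inequality to `OneLevel`
-/

set_option autoImplicit false

open Set MeasureTheory Filter Topology

noncomputable section

namespace Crest.Agent.R213.C.EN

open Crest.Agent.R213 Crest.Agent.R213.C

variable {κ L a : ℝ} {F : ℝ → ℝ → ℝ}

/-- the real one-level inequality (statement of `one_level_real`). -/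
def OneLevelReal (c0 C0 κ : ℝ) (g : ℝ → ℝ) (C : ℝ) (q : ℕ) : Prop :=
  ∀ L ≥ (8 : ℝ), ∀ φ m : ℝ → ℝ → ℝ, Bg c0 C0 g L φ m →
    ∀ E ht δ : ℝ → ℝ → ℝ, Sm (Ioo 0 1) L E → Sm (Ioo 0 1) L ht → Sm (Ioo 0 1) L δ →
      LinEq L φ E ht δ → ∀ j, 1 ≤ j → j ≤ 8 → ∀ a : ℝ, 0 < a → a < 3 / 4 →
        IR κ a (3 / 4) L (2 * j) (pj j) (be L φ j δ) +
          IR κ a (3 / 4) L (2 * j - 1) (pj j - 1) (dt^[j] δ) ≤
        C * L ^ q *
          (∑ i ∈ Finset.range j, (IR κ a (3 / 4) L (2 * i) (pj i) (be L φ i δ) +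
              IR κ a (3 / 4) L (2 * i) (pj i) (dt^[i] (fun τ x => φ τ x * ht τ x))) +
            IR κ a (3 / 4) L (2 * j) (pj j) (dt^[j] (fun τ x => φ τ x * ht τ x)) +
            IR κ a (3 / 4) L (2 * (j - 1)) (pj (j - 1)) (dt^[j - 1] E) +
            IR κ a (3 / 4) L (2 * j) (pj j) (dt^[j] E))

theorem ofReal_IR (hL : 0 < L) (ha : 0 < a) (haT : a ≤ 3 / 4) (k : ℕ) (p : ℝ)
    (hF : Sm (Ioo 0 1) L F) :
    ENNReal.ofReal (IR κ a (3 / 4) L k p F) =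
      N2I a (3 / 4) L (fun τ x => (3 / 4 - τ) ^ k * τ ^ (2 * κ) * (x ^ 2 + τ) ^ p) F :=
  ofReal_XX hF hL ha haT (by norm_num) k

theorem rpow_pj {r : ℝ} (hr : 0 < r) {j : ℕ} (hj : j ≤ 8) :
    r ^ pj j = 1 / r ^ (60 - 2 * j) := by
  have h : pj j = -(((60 - 2 * j : ℕ)) : ℝ) := by
    unfold pj
    rw [Nat.cast_sub (by omega)]
    push_cast
    ring
  rw [h, Real.rpow_neg hr.le, Real.rpow_natCast, one_div]

theorem weight_pj {τ x : ℝ} (hτ : 0 < τ) {j : ℕ} (hj : j ≤ 8) :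
    τ ^ (2 * κ) * (x ^ 2 + τ) ^ pj j = WJ κ j τ x := by
  have hr : 0 < x ^ 2 + τ := by positivity
  rw [rpow_pj hr hj]
  unfold WJ
  ring

theorem N2I_congr_weight {a T L : ℝ} {V V' u : ℝ → ℝ → ℝ}
    (h : ∀ τ ∈ Ioo a T, ∀ x ∈ Ioo (0 : ℝ) L, V τ x = V' τ x) :
    N2I a T L V u = N2I a T L V' u :=
  le_antisymm (N2I_mono_weight fun τ hτ x hx => (h τ hτ x hx).le)
    (N2I_mono_weight fun τ hτ x hx => (h τ hτ x hx).ge)

/-- the conversion at level `j` -/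
theorem ofReal_IR_pj (hL : 0 < L) (ha : 0 < a) (haT : a ≤ 3 / 4) (k : ℕ) {j : ℕ} (hj : j ≤ 8)
    (hF : Sm (Ioo 0 1) L F) :
    ENNReal.ofReal (IR κ a (3 / 4) L k (pj j) F) =
      N2I a (3 / 4) L (fun τ x => (3 / 4 - τ) ^ k * WJ κ j τ x) F := by
  rw [ofReal_IR hL ha haT k _ hF]
  apply N2I_congr_weight
  intro τ hτ x hx
  rw [mul_assoc, weight_pj (ha.trans hτ.1) hj]

/-- the `δ` term -/
theorem N2I_WA_le (hL : 0 < L) (ha : 0 < a) (haT : a ≤ 3 / 4) (k : ℕ) {j : ℕ} (hj : j ≤ 8)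
    (hF : Sm (Ioo 0 1) L F) :
    N2I a (3 / 4) L (fun τ x => (3 / 4 - τ) ^ k * WA κ j τ x) F ≤
      ENNReal.ofReal (L ^ 2 + 2) * ENNReal.ofReal (IR κ a (3 / 4) L k (pj j - 1) F) := by
  rw [ofReal_IR hL ha haT k _ hF]
  apply N2I_le_of_weight (by positivity)
  intro τ hτ x hx
  have hτ0 : 0 < τ := ha.trans hτ.1
  have hr : 0 < x ^ 2 + τ := by positivity
  have h1 : 0 ≤ 3 / 4 - τ := sub_nonneg.2 hτ.2.le
  have hW := WJ_nonnegE (κ := κ) (x := x) hτ0 j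
  have h2 : (x ^ 2 + τ) ^ (pj j - 1) = (x ^ 2 + τ) ^ pj j / (x ^ 2 + τ) :=
    Real.rpow_sub_one hr.ne' _
  rw [h2]
  have h3 : (3 / 4 - τ) ^ k * τ ^ (2 * κ) * ((x ^ 2 + τ) ^ pj j / (x ^ 2 + τ)) =
      (3 / 4 - τ) ^ k * (τ ^ (2 * κ) * (x ^ 2 + τ) ^ pj j) / (x ^ 2 + τ) := by ring
  rw [h3, weight_pj hτ0 hj]
  unfold WA
  have h4 : 1 + 1 / (x ^ 2 + τ) ≤ (L ^ 2 + 2) / (x ^ 2 + τ) := by
    rw [le_div_iff₀ hr, add_mul, one_div, inv_mul_cancel₀ hr.ne']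
    have h5 : x ^ 2 ≤ L ^ 2 := pow_le_pow_left₀ hx.1.le hx.2.le 2
    linarith [hτ.2]
  calc (3 / 4 - τ) ^ k * (WJ κ j τ x * (1 + 1 / (x ^ 2 + τ)))
      ≤ (3 / 4 - τ) ^ k * (WJ κ j τ x * ((L ^ 2 + 2) / (x ^ 2 + τ))) := by gcongr
    _ = (L ^ 2 + 2) * ((3 / 4 - τ) ^ k * WJ κ j τ x / (x ^ 2 + τ)) := by ring

theorem N2I_WJ_le (ha : 0 < a) (k j : ℕ) :
    N2I a (3 / 4) L (fun τ x => (3 / 4 - τ) ^ k * WJ κ j τ x) F ≤ N2I a (3 / 4) L (WJ κ j) F := by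
  apply N2I_mono_weight
  intro τ hτ x hx
  have hτ0 : 0 < τ := ha.trans hτ.1
  have h1 : 0 ≤ 3 / 4 - τ := sub_nonneg.2 hτ.2.le
  have h2 : (3 / 4 - τ) ^ k ≤ 1 := pow_le_one₀ h1 (by linarith)
  calc (3 / 4 - τ) ^ k * WJ κ j τ x ≤ 1 * WJ κ j τ x :=
        mul_le_mul_of_nonneg_right h2 (WJ_nonnegE hτ0 j)
    _ = _ := one_mul _

theorem N2I_WJ_le_WA (ha : 0 < a) (k j : ℕ) :
    N2I a (3 / 4) L (fun τ x => (3 / 4 - τ) ^ k * WJ κ j τ x) F ≤ N2I a (3 / 4) L (WA κ j) F := by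
  refine (N2I_WJ_le ha k j).trans (N2I_mono_weight ?_)
  intro τ hτ x hx
  have hτ0 : 0 < τ := ha.trans hτ.1
  have hr : 0 < x ^ 2 + τ := by positivity
  unfold WA
  have hW := WJ_nonnegE (κ := κ) (x := x) hτ0 j
  have h1 : (1 : ℝ) ≤ 1 + 1 / (x ^ 2 + τ) := by
    have : 0 ≤ 1 / (x ^ 2 + τ) := by positivity
    linarith
  exact le_mul_of_one_le_right hW h1

theorem oneLevel_of_real {c0 C0 : ℝ} {g : ℝ → ℝ} {C : ℝ} {q : ℕ} (hC : 1 ≤ C)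
    (h : OneLevelReal c0 C0 κ g C q) : OneLevel c0 C0 κ g (2 * C) (q + 2) := by
  intro L hL φ m hB E ht δ hE hh hd heq j hj1 hj8 a ha ha'
  have hL0 : 0 < L := by linarith
  have hL1 : (1 : ℝ) ≤ L := by linarith
  have sφ : Sm (Ioo (0 : ℝ) 1) L φ := by
    have h1 : Sm (Ioo (0 : ℝ) 1) L (fun τ x => x * (1 - x / L) * m τ x) :=
      (Sm.snd.mul ((Sm.const 1).sub (Sm.snd.div (Sm.const L) (fun _ _ _ _ => hL0.ne')))).mul hB.sm
    exact h1.congr hB.phi_eq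
  have sbe : ∀ i, Sm (Ioo (0 : ℝ) 1) L (be L φ i δ) := fun i =>
    sφ.mul (((hd.dt_iter isOpen_Ioo hL0 i).dx isOpen_Ioo hL0).dx isOpen_Ioo hL0)
  have sht : ∀ i, Sm (Ioo (0 : ℝ) 1) L (dt^[i] (fun τ x => φ τ x * ht τ x)) := fun i =>
    (sφ.mul hh).dt_iter isOpen_Ioo hL0 i
  have sE : ∀ i, Sm (Ioo (0 : ℝ) 1) L (dt^[i] E) := fun i => hE.dt_iter isOpen_Ioo hL0 i
  have sδ : ∀ i, Sm (Ioo (0 : ℝ) 1) L (dt^[i] δ) := fun i => hd.dt_iter isOpen_Ioo hL0 i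
  have key := h L hL φ m hB E ht δ hE hh hd heq j hj1 hj8 a ha ha'
  have hn : ∀ (k : ℕ) (p : ℝ) (G : ℝ → ℝ → ℝ), 0 ≤ IR κ a (3 / 4) L k p G :=
    fun k p G => IR_nonneg hL0 ha ha'.le κ k p G
  have key2 := ENNReal.ofReal_le_ofReal key
  rw [ENNReal.ofReal_add (hn _ _ _) (hn _ _ _),
    ENNReal.ofReal_mul (by positivity : (0 : ℝ) ≤ C * L ^ q),
    ENNReal.ofReal_add (add_nonneg (add_nonneg (Finset.sum_nonneg fun i _ =>
      add_nonneg (hn _ _ _) (hn _ _ _)) (hn _ _ _)) (hn _ _ _)) (hn _ _ _),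
    ENNReal.ofReal_add (add_nonneg (Finset.sum_nonneg fun i _ =>
      add_nonneg (hn _ _ _) (hn _ _ _)) (hn _ _ _)) (hn _ _ _),
    ENNReal.ofReal_add (Finset.sum_nonneg fun i _ =>
      add_nonneg (hn _ _ _) (hn _ _ _)) (hn _ _ _),
    ENNReal.ofReal_sum_of_nonneg (fun i _ => add_nonneg (hn _ _ _) (hn _ _ _))] at key2
  set Q : ENNReal := ∑ i ∈ Finset.range j, N2I a (3 / 4) L
      (fun τ x => (3 / 4 - τ) ^ (2 * i) * WJ κ i τ x) (be L φ i δ) +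
    ∑ i ∈ Finset.range (j + 1),
      (N2I a (3 / 4) L (WJ κ i) (dt^[i] (fun τ x => φ τ x * ht τ x)) +
        N2I a (3 / 4) L (WA κ i) (dt^[i] E)) with hQ
  have hR : ∑ i ∈ Finset.range j, ENNReal.ofReal
        (IR κ a (3 / 4) L (2 * i) (pj i) (be L φ i δ) +
          IR κ a (3 / 4) L (2 * i) (pj i) (dt^[i] (fun τ x => φ τ x * ht τ x))) +
      ENNReal.ofReal (IR κ a (3 / 4) L (2 * j) (pj j) (dt^[j] (fun τ x => φ τ x * ht τ x))) +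
      ENNReal.ofReal (IR κ a (3 / 4) L (2 * (j - 1)) (pj (j - 1)) (dt^[j - 1] E)) +
      ENNReal.ofReal (IR κ a (3 / 4) L (2 * j) (pj j) (dt^[j] E)) ≤ Q := by
    have e1 : ∀ i ∈ Finset.range j, ENNReal.ofReal
        (IR κ a (3 / 4) L (2 * i) (pj i) (be L φ i δ) +
          IR κ a (3 / 4) L (2 * i) (pj i) (dt^[i] (fun τ x => φ τ x * ht τ x))) ≤
        N2I a (3 / 4) L (fun τ x => (3 / 4 - τ) ^ (2 * i) * WJ κ i τ x) (be L φ i δ) +
          N2I a (3 / 4) L (WJ κ i) (dt^[i] (fun τ x => φ τ x * ht τ x)) := by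
      intro i hi
      have hi' : i < j := Finset.mem_range.1 hi
      rw [ENNReal.ofReal_add (hn _ _ _) (hn _ _ _),
        ofReal_IR_pj hL0 ha ha'.le _ (by omega) (sbe i),
        ofReal_IR_pj hL0 ha ha'.le _ (by omega) (sht i)]
      exact add_le_add le_rfl (N2I_WJ_le ha _ _)
    have e2 : ENNReal.ofReal
        (IR κ a (3 / 4) L (2 * j) (pj j) (dt^[j] (fun τ x => φ τ x * ht τ x))) ≤
        N2I a (3 / 4) L (WJ κ j) (dt^[j] (fun τ x => φ τ x * ht τ x)) := by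
      rw [ofReal_IR_pj hL0 ha ha'.le _ hj8 (sht j)]
      exact N2I_WJ_le ha _ _
    have e3 : ∀ i ≤ 8, ENNReal.ofReal (IR κ a (3 / 4) L (2 * i) (pj i) (dt^[i] E)) ≤
        N2I a (3 / 4) L (WA κ i) (dt^[i] E) := by
      intro i hi
      rw [ofReal_IR_pj hL0 ha ha'.le _ hi (sE i)]
      exact N2I_WJ_le_WA ha _ _
    have e4 : N2I a (3 / 4) L (WA κ (j - 1)) (dt^[j - 1] E) +
        N2I a (3 / 4) L (WA κ j) (dt^[j] E) ≤
        ∑ i ∈ Finset.range (j + 1), N2I a (3 / 4) L (WA κ i) (dt^[i] E) := by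
      obtain ⟨n, rfl⟩ : ∃ n, j = n + 1 := ⟨j - 1, by omega⟩
      rw [Finset.sum_range_succ, Finset.sum_range_succ]
      simp only [Nat.add_sub_cancel]
      gcongr
      exact le_add_self
    rw [hQ]
    calc _ ≤ ∑ i ∈ Finset.range j,
          (N2I a (3 / 4) L (fun τ x => (3 / 4 - τ) ^ (2 * i) * WJ κ i τ x) (be L φ i δ) +
            N2I a (3 / 4) L (WJ κ i) (dt^[i] (fun τ x => φ τ x * ht τ x))) +
          N2I a (3 / 4) L (WJ κ j) (dt^[j] (fun τ x => φ τ x * ht τ x)) +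
          N2I a (3 / 4) L (WA κ (j - 1)) (dt^[j - 1] E) +
          N2I a (3 / 4) L (WA κ j) (dt^[j] E) := by
          gcongr ?_ + ?_ + ?_ + ?_
          · exact Finset.sum_le_sum e1
          · exact e3 (j - 1) (by omega)
          · exact e3 j hj8
      _ ≤ _ := by
          rw [Finset.sum_add_distrib, Finset.sum_add_distrib, Finset.sum_range_succ
            (fun i => N2I a (3 / 4) L (WJ κ i) (dt^[i] (fun τ x => φ τ x * ht τ x)))]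
          calc _ = ∑ i ∈ Finset.range j, N2I a (3 / 4) L
                (fun τ x => (3 / 4 - τ) ^ (2 * i) * WJ κ i τ x) (be L φ i δ) +
                (∑ i ∈ Finset.range j,
                  N2I a (3 / 4) L (WJ κ i) (dt^[i] (fun τ x => φ τ x * ht τ x)) +
                  N2I a (3 / 4) L (WJ κ j) (dt^[j] (fun τ x => φ τ x * ht τ x)) +
                  (N2I a (3 / 4) L (WA κ (j - 1)) (dt^[j - 1] E) +
                  N2I a (3 / 4) L (WA κ j) (dt^[j] E))) := by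
                  simp only [add_assoc]
            _ ≤ _ := by gcongr
  have hLq : ENNReal.ofReal (L ^ 2 + 2) * ENNReal.ofReal (C * L ^ q) ≤
      ENNReal.ofReal (2 * C * L ^ (q + 2)) := by
    rw [← ENNReal.ofReal_mul (by positivity)]
    apply ENNReal.ofReal_le_ofReal
    have h1 : L ^ 2 + 2 ≤ 2 * L ^ 2 := by nlinarith
    calc (L ^ 2 + 2) * (C * L ^ q) ≤ (2 * L ^ 2) * (C * L ^ q) := by gcongr
      _ = _ := by ring
  have hone : (1 : ENNReal) ≤ ENNReal.ofReal (L ^ 2 + 2) := by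
    rw [← ENNReal.ofReal_one]
    exact ENNReal.ofReal_le_ofReal (by nlinarith)
  calc _ ≤ ENNReal.ofReal (L ^ 2 + 2) *
        ENNReal.ofReal (IR κ a (3 / 4) L (2 * j) (pj j) (be L φ j δ)) +
        ENNReal.ofReal (L ^ 2 + 2) *
        ENNReal.ofReal (IR κ a (3 / 4) L (2 * j - 1) (pj j - 1) (dt^[j] δ)) := by
        refine add_le_add ?_ (N2I_WA_le hL0 ha ha'.le _ hj8 (sδ j))
        rw [ofReal_IR_pj hL0 ha ha'.le _ hj8 (sbe j)]
        exact le_mul_of_one_le_left' hone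
    _ = ENNReal.ofReal (L ^ 2 + 2) *
        (ENNReal.ofReal (IR κ a (3 / 4) L (2 * j) (pj j) (be L φ j δ)) +
        ENNReal.ofReal (IR κ a (3 / 4) L (2 * j - 1) (pj j - 1) (dt^[j] δ))) :=
        (mul_add _ _ _).symm
    _ ≤ ENNReal.ofReal (L ^ 2 + 2) * (ENNReal.ofReal (C * L ^ q) * Q) := by
        gcongr
        refine key2.trans ?_
        gcongr
    _ = ENNReal.ofReal (L ^ 2 + 2) * ENNReal.ofReal (C * L ^ q) * Q := (mul_assoc _ _ _).symm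
    _ ≤ _ := by gcongr

/-- [C1+C2: `energy_levels`] from the real one-level inequality -/
theorem energyLevels_of_real {c0 C0 : ℝ} {g : ℝ → ℝ} {C : ℝ} {q : ℕ} (hC : 1 ≤ C)
    (h : OneLevelReal c0 C0 κ g C q) :
    ∃ (C : ℝ) (q : ℕ), 1 ≤ C ∧ ∀ L ≥ (8 : ℝ), ∀ φ m : ℝ → ℝ → ℝ, Bg c0 C0 g L φ m →
      ∀ E ht δ : ℝ → ℝ → ℝ, Sm (Ioo 0 1) L E → Sm (Ioo 0 1) L ht → Sm (Ioo 0 1) L δ →
      LinEq L φ E ht δ → ∀ j ≤ 8,
        N2T (5 / 8) L (WJ κ j) (be L φ j δ) + N2T (5 / 8) L (WA κ j) (dt^[j] δ) ≤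
          ENNReal.ofReal (C * L ^ q) * (N2 L (Wt κ) (bb L φ δ) + N2 L (Wt' κ) δ +
            ∑ i ∈ Finset.range (j + 1),
              (N2T (3 / 4) L (WJ κ i) (dt^[i] (fun τ x => φ τ x * ht τ x)) +
                N2T (3 / 4) L (WA κ i) (dt^[i] E))) :=
  energy_levels_of (by linarith) (oneLevel_of_real hC h)

end Crest.Agent.R213.C.EN
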