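import Crest.Agent.R213.C.EnReal
import Crest.Agent.R213.C.LevelStep

/-!
# Row 213, part C: `energy_levels` (C1+C2)
-/

set_option autoImplicit false

open Set MeasureTheory Filter Topology

noncomputable section

namespace Crest.Agent.R213.C

open Crest.Agent.R213

theorem energy_levels {c0 C0 κ : ℝ} {g : ℝ → ℝ} (hg : Prof c0 C0 g)
    (hκ : κ ∈ Ioo (1 / 8 : ℝ) (1 / 4)) :
    ∃ (C : ℝ) (q : ℕ), 1 ≤ C ∧ ∀ L ≥ (8 : ℝ), ∀ φ m : ℝ → ℝ → ℝ, Bg c0 C0 g L φ m →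
      ∀ E ht δ : ℝ → ℝ → ℝ, Sm (Ioo 0 1) L E → Sm (Ioo 0 1) L ht → Sm (Ioo 0 1) L δ →
      LinEq L φ E ht δ → ∀ j ≤ 8,
        N2T (5 / 8) L (WJ κ j) (be L φ j δ) + N2T (5 / 8) L (WA κ j) (dt^[j] δ) ≤
          ENNReal.ofReal (C * L ^ q) * (N2 L (Wt κ) (bb L φ δ) + N2 L (Wt' κ) δ +
            ∑ i ∈ Finset.range (j + 1),
              (N2T (3 / 4) L (WJ κ i) (dt^[i] (fun τ x => φ τ x * ht τ x)) +
                N2T (3 / 4) L (WA κ i) (dt^[i] E))) := by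
  obtain ⟨C, q, hC, h⟩ := EN.one_level_real (C0 := C0) (κ := κ) (g := g) hg.c0_pos
    (by linarith [hκ.1])
  exact EN.energyLevels_of_real hC h

end Crest.Agent.R213.C
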