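import Crest.Agent.R213.C.EnergyX

/-!
# Row 213, part C, C2: one-level energy inequality, integrated in time
-/

set_option autoImplicit false

open Set MeasureTheory Filter Topology

noncomputable section

namespace Crest.Agent.R213.C.EN

open Crest.Agent.R213 Crest.Agent.R213.J310

variable {L t C0 : ℝ}

/-- weighted `x`-integral at time `τ`. -/
def XX (L p : ℝ) (F : ℝ → ℝ → ℝ) (τ : ℝ) : ℝ :=
  ∫ x in (0 : ℝ)..L, (x ^ 2 + τ) ^ p * F τ x ^ 2 * x ^ 9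

/-- data of one level: `x⁹ φ (φ u_xx + R) = Kint (E + u_τ)`. -/
structure LevD (L C0 : ℝ) (φ u E R : ℝ → ℝ → ℝ) : Prop where
  hL : 0 < L
  hC : 0 ≤ C0
  smφ : Sm (Ioo 0 1) L φ
  endL : ∀ τ ∈ Ioo (0 : ℝ) 1, φ τ L = 0
  bd : ∀ τ ∈ Ioo (0 : ℝ) 1, ∀ x ∈ Icc 0 L, |φ τ x| ≤ C0 * x
  bd' : ∀ τ ∈ Ioo (0 : ℝ) 1, ∀ x ∈ Icc 0 L, |dx L φ τ x| ≤ C0
  smu : Sm (Ioo 0 1) L u
  smE : Sm (Ioo 0 1) L E
  smR : Sm (Ioo 0 1) L R
  RL : ∀ τ ∈ Ioo (0 : ℝ) 1, R τ L = 0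
  eq : ∀ τ ∈ Ioo (0 : ℝ) 1, ∀ x ∈ Icc 0 L,
    x ^ 9 * (φ τ x * (φ τ x * dx L (dx L u) τ x + R τ x)) =
      Kint (fun ξ => E τ ξ + dt u τ ξ) x

theorem Sm.C2f {u : ℝ → ℝ → ℝ} (hL : 0 < L) (hu : Sm (Ioo 0 1) L u) {τ : ℝ}
    (hτ : τ ∈ Ioo (0 : ℝ) 1) : C2f L (u τ) (dx L u τ) (dx L (dx L u) τ) where
  der := fun _ hx => hu.hasDx hL hτ hx
  der' := fun _ hx => (Sm.dx isOpen_Ioo hL hu).hasDx hL hτ hx
  cont'' := (Sm.dx isOpen_Ioo hL (Sm.dx isOpen_Ioo hL hu)).continuousOn_right hτ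

variable {φ u E R F : ℝ → ℝ → ℝ}

theorem LevD.cf (h : LevD L C0 φ u E R) {τ : ℝ} (hτ : τ ∈ Ioo (0 : ℝ) 1) :
    Cf L C0 (φ τ) (dx L φ τ) where
  hL := h.hL
  hC := h.hC
  der := fun _ hx => h.smφ.hasDx h.hL hτ hx
  cont' := (Sm.dx isOpen_Ioo h.hL h.smφ).continuousOn_right hτ
  endL := h.endL τ hτ
  bd := h.bd τ hτ
  bd' := h.bd' τ hτ

theorem LevD.smbe (h : LevD L C0 φ u E R) : Sm (Ioo 0 1) L (fun τ x => φ τ x * dx L (dx L u) τ x) :=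
  h.smφ.mul (Sm.dx isOpen_Ioo h.hL (Sm.dx isOpen_Ioo h.hL h.smu))

theorem LevD.contF (h : LevD L C0 φ u E R) {τ : ℝ} (hτ : τ ∈ Ioo (0 : ℝ) 1) :
    ContinuousOn (fun ξ => E τ ξ + dt u τ ξ) (Icc 0 L) :=
  (h.smE.continuousOn_right hτ).add ((Sm.dt isOpen_Ioo h.hL h.smu).continuousOn_right hτ)

theorem LevD.K0 (h : LevD L C0 φ u E R) {τ : ℝ} (hτ : τ ∈ Ioo (0 : ℝ) 1) :
    Kint (fun ξ => E τ ξ + dt u τ ξ) L = 0 := by
  rw [← h.eq τ hτ L ⟨h.hL.le, le_rfl⟩, h.endL τ hτ]; ring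

theorem LevD.K1 (h : LevD L C0 φ u E R) {τ : ℝ} (hτ : τ ∈ Ioo (0 : ℝ) 1) :
    Kint1 (fun ξ => E τ ξ + dt u τ ξ) L = 0 := by
  have hLL : L ∈ Icc 0 L := ⟨h.hL.le, le_rfl⟩
  have h1 := hasDeriv_Kint (h.contF hτ) hLL
  have hk : Sm (Ioo 0 1) L
      (fun τ x => x ^ 9 * (φ τ x * dx L (dx L u) τ x + R τ x)) :=
    (Sm.snd.pow 9).mul (h.smbe.add h.smR)
  have h2 := (h.smφ.hasDx h.hL hτ hLL).mul (hk.hasDx h.hL hτ hLL)
  have h3 : HasDerivWithinAt (Kint (fun ξ => E τ ξ + dt u τ ξ)) 0 (Icc 0 L) L := by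
    have h4 : ∀ y ∈ Icc 0 L, Kint (fun ξ => E τ ξ + dt u τ ξ) y =
        ((fun y => φ τ y) * fun y => y ^ 9 * (φ τ y * dx L (dx L u) τ y + R τ y)) y := by
      intro y hy
      rw [← h.eq τ hτ y hy]
      simp only [Pi.mul_apply]
      ring
    refine (HasDerivWithinAt.congr h2 h4 (h4 L hLL)).congr_deriv ?_
    simp [h.endL τ hτ, h.RL τ hτ]
  exact UniqueDiffWithinAt.eq_deriv _ (uniqueDiffOn_Icc h.hL L hLL) h1 h3

/-! ### The functions `XX` -/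

theorem smX (hF : Sm (Ioo 0 1) L F) (p : ℝ) :
    Sm (Ioo 0 1) L (fun t x => (x ^ 2 + t) ^ p * F t x ^ 2 * x ^ 9) := by
  have h1 : Sm (Ioo 0 1) L (fun t x => (x ^ 2 + t) ^ p) :=
    Sm.rpow ((Sm.snd.pow 2).add Sm.fst) p (fun t ht x _ => (rho_pos ht.1 x).ne')
  exact (h1.mul (hF.pow 2)).mul (Sm.snd.pow 9)

theorem XX_eq_Px (p : ℝ) (τ : ℝ) :
    XX L p F τ = Px (fun t x => (x ^ 2 + t) ^ p * F t x ^ 2 * x ^ 9) τ L := rfl

theorem XX_cont (hL : 0 < L) (hF : Sm (Ioo 0 1) L F) (p : ℝ) :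
    ContinuousOn (XX L p F) (Ioo 0 1) :=
  (sm_Px (convex_Ioo 0 1) isOpen_Ioo.uniqueDiffOn hL (smX hF p)).continuousOn_left
    (x := L) ⟨hL.le, le_rfl⟩

theorem XX_nonneg (hL : 0 < L) {τ : ℝ} (hτ : 0 < τ) (p : ℝ) (F : ℝ → ℝ → ℝ) :
    0 ≤ XX L p F τ := int_nonneg hL fun x hx => by
  have := rho_pos hτ x; have := hx.1; positivity

theorem XX_deriv (hL : 0 < L) (hF : Sm (Ioo 0 1) L F) (p : ℝ) {τ : ℝ} (hτ : τ ∈ Ioo (0 : ℝ) 1) :
    HasDerivAt (XX L p F) (p * XX L (p - 1) F τ +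
      2 * ∫ x in (0 : ℝ)..L, (x ^ 2 + τ) ^ p * (dt F τ x * F τ x) * x ^ 9) τ := by
  have hLL : L ∈ Icc 0 L := ⟨hL.le, le_rfl⟩
  have hsm := smX hF p
  have h1 := (sm_Px (convex_Ioo 0 1) isOpen_Ioo.uniqueDiffOn hL hsm).hasDt isOpen_Ioo hτ hLL
  rw [dt_Px (convex_Ioo 0 1) isOpen_Ioo hL hsm hτ hLL] at h1
  refine h1.congr_deriv ?_
  have hdt := Sm.dt isOpen_Ioo hL hF
  have c1 := (rho_cont (t := τ) hτ.1 p).continuousOn (s := Icc 0 L)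
  have c2 := (rho_cont (t := τ) hτ.1 (p - 1)).continuousOn (s := Icc 0 L)
  have c3 := hF.continuousOn_right hτ
  have c4 := hdt.continuousOn_right hτ
  rw [Px, XX, ← intervalIntegral.integral_const_mul, ← intervalIntegral.integral_const_mul,
    ← intervalIntegral.integral_add (cii hL (by fun_prop)) (cii hL (by fun_prop))]
  refine intervalIntegral.integral_congr fun x hx => ?_
  rw [uIcc_of_le hL.le] at hx
  refine dt_eq_of_hasDerivAt ?_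
  have hr : HasDerivAt (fun r : ℝ => (x ^ 2 + r) ^ p) (p * (x ^ 2 + τ) ^ (p - 1)) τ := by
    have h0 : HasDerivAt (fun r : ℝ => x ^ 2 + r) 1 τ := (hasDerivAt_id τ).const_add _
    convert h0.rpow_const (p := p) (Or.inl (rho_pos hτ.1 x).ne') using 1
    ring
  have h2 := (hr.mul ((hF.hasDt isOpen_Ioo hτ hx).pow 2)).mul_const (x ^ 9)
  refine h2.congr_deriv ?_
  simp only [Pi.pow_apply]
  push_cast
  ring

theorem LevD.EN_fix (h : LevD L C0 φ u E R) (p : ℝ) {τ : ℝ} (hτ : τ ∈ Ioo (0 : ℝ) 1) :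
    3 / 8 * XX L p (fun τ x => φ τ x * dx L (dx L u) τ x) τ ≤
      (∫ x in (0 : ℝ)..L, (x ^ 2 + τ) ^ p * (dt u τ x * u τ x) * x ^ 9) +
      9 / 16 * XX L p R τ + KE C0 p * XX L (p - 1) u τ + 1 / 2 * XX L (p + 1) E τ :=
  EN.EN_fix (h.cf hτ) hτ.1 p (Sm.C2f h.hL h.smu hτ) (h.smE.continuousOn_right hτ)
    ((Sm.dt isOpen_Ioo h.hL h.smu).continuousOn_right hτ) (h.smR.continuousOn_right hτ)
    (h.K0 hτ) (h.K1 hτ) (fun x hx => (h.eq τ hτ x hx).symm)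

/-! ### Time integration -/

/-- a time weight on `[a,T]`: `θ ≥ 0`, `θ T = 0`, `-θ' ≤ σ`. -/
structure TW (a T : ℝ) (θ θ' σ : ℝ → ℝ) : Prop where
  ha : 0 < a
  haT : a ≤ T
  hT : T < 1
  cont : ContinuousOn θ (Icc a T)
  cont' : ContinuousOn θ' (Icc a T)
  contσ : ContinuousOn σ (Icc a T)
  der : ∀ τ ∈ Ioo a T, HasDerivAt θ (θ' τ) τ
  nonneg : ∀ τ ∈ Icc a T, 0 ≤ θ τ
  end0 : θ T = 0
  le : ∀ τ ∈ Icc a T, -θ' τ ≤ σ τ

variable {a T : ℝ} {θ θ' σ : ℝ → ℝ}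

theorem TW.sub (h : TW a T θ θ' σ) : Icc a T ⊆ Ioo (0 : ℝ) 1 := fun _ hx =>
  ⟨h.ha.trans_le hx.1, hx.2.trans_lt h.hT⟩

theorem tii (haT : a ≤ T) {F : ℝ → ℝ} (hF : ContinuousOn F (Icc a T)) :
    IntervalIntegrable F volume a T :=
  ContinuousOn.intervalIntegrable_of_Icc haT hF

set_option maxHeartbeats 1000000 in
/-- **one-level energy inequality on `[a,T]`** -/
theorem LevD.EN_time (h : LevD L C0 φ u E R) (hw : TW a T θ θ' σ) (p : ℝ) :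
    3 / 8 * (∫ τ in a..T, θ τ * XX L p (fun τ x => φ τ x * dx L (dx L u) τ x) τ) ≤
      1 / 2 * (∫ τ in a..T, σ τ * XX L p u τ) +
      9 / 16 * (∫ τ in a..T, θ τ * XX L p R τ) +
      (KE C0 p + |p| / 2) * (∫ τ in a..T, θ τ * XX L (p - 1) u τ) +
      1 / 2 * ∫ τ in a..T, θ τ * XX L (p + 1) E τ := by
  have hsub := hw.sub
  have hL := h.hL
  have c0 := (XX_cont hL h.smbe p).mono hsub
  have c1 := (XX_cont hL h.smu p).mono hsub
  have c2 := (XX_cont hL h.smR p).mono hsub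
  have c3 := (XX_cont hL h.smu (p - 1)).mono hsub
  have c4 := (XX_cont hL h.smE (p + 1)).mono hsub
  have cθ := hw.cont
  have cθ' := hw.cont'
  have cσ := hw.contσ
  -- the time derivative
  set G := XX L p u with hG
  set G' : ℝ → ℝ := fun τ => p * XX L (p - 1) u τ +
      2 * ∫ x in (0 : ℝ)..L, (x ^ 2 + τ) ^ p * (dt u τ x * u τ x) * x ^ 9 with hG'
  have cI : ContinuousOn (fun τ => ∫ x in (0 : ℝ)..L, (x ^ 2 + τ) ^ p * (dt u τ x * u τ x) * x ^ 9)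
      (Ioo 0 1) := by
    have hsm : Sm (Ioo 0 1) L (fun t x => (x ^ 2 + t) ^ p * (dt u t x * u t x) * x ^ 9) := by
      have h1 : Sm (Ioo 0 1) L (fun t x => (x ^ 2 + t) ^ p) :=
        Sm.rpow ((Sm.snd.pow 2).add Sm.fst) p (fun t ht x _ => (rho_pos ht.1 x).ne')
      exact (h1.mul ((Sm.dt isOpen_Ioo hL h.smu).mul h.smu)).mul (Sm.snd.pow 9)
    exact (sm_Px (convex_Ioo 0 1) isOpen_Ioo.uniqueDiffOn hL hsm).continuousOn_left
      (x := L) ⟨hL.le, le_rfl⟩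
  have cI' := cI.mono hsub
  have cG' : ContinuousOn G' (Icc a T) := by
    simp only [hG']; fun_prop
  have key1 : ∫ τ in a..T, (θ' τ * G τ + θ τ * G' τ) = θ T * G T - θ a * G a := by
    refine intervalIntegral.integral_eq_sub_of_hasDerivAt_of_le hw.haT (cθ.mul c1)
      (fun τ hτ => ?_) (tii hw.haT (by fun_prop))
    exact (hw.der τ hτ).mul (XX_deriv hL h.smu p (hsub (Ioo_subset_Icc_self hτ)))
  have ha : a ∈ Icc a T := ⟨le_rfl, hw.haT⟩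
  have key2 : ∫ τ in a..T, (θ' τ * G τ + θ τ * G' τ) ≤ 0 := by
    rw [key1, hw.end0]
    have := mul_nonneg (hw.nonneg a ha) (XX_nonneg hL hw.ha p u)
    linarith
  -- pointwise in time
  have key3 : ∫ τ in a..T, 3 / 8 * (θ τ * XX L p (fun τ x => φ τ x * dx L (dx L u) τ x) τ) ≤
      ∫ τ in a..T, (1 / 2 * (θ' τ * G τ + θ τ * G' τ) + 1 / 2 * (σ τ * G τ) +
        9 / 16 * (θ τ * XX L p R τ) + (KE C0 p + |p| / 2) * (θ τ * XX L (p - 1) u τ) +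
        1 / 2 * (θ τ * XX L (p + 1) E τ)) := by
    refine intervalIntegral.integral_mono_on hw.haT (tii hw.haT (by fun_prop))
      (tii hw.haT (by fun_prop)) fun τ hτ => ?_
    have hτ1 := hsub hτ
    have h1 := mul_le_mul_of_nonneg_left (h.EN_fix p hτ1) (hw.nonneg τ hτ)
    have h2 := mul_le_mul_of_nonneg_right (hw.le τ hτ) (XX_nonneg hL hτ1.1 p u)
    have h3 : -p * XX L (p - 1) u τ ≤ |p| * XX L (p - 1) u τ :=
      mul_le_mul_of_nonneg_right (neg_le_abs p) (XX_nonneg hL hτ1.1 _ u)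
    have h4 := mul_le_mul_of_nonneg_left h3 (hw.nonneg τ hτ)
    simp only [hG', hG]
    nlinarith
  rw [intervalIntegral.integral_const_mul, intervalIntegral.integral_add,
    intervalIntegral.integral_add, intervalIntegral.integral_add,
    intervalIntegral.integral_add, intervalIntegral.integral_const_mul,
    intervalIntegral.integral_const_mul, intervalIntegral.integral_const_mul,
    intervalIntegral.integral_const_mul, intervalIntegral.integral_const_mul] at key3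
  rotate_left
  all_goals first
    | exact tii hw.haT (by fun_prop)
    | skip
  linarith

end Crest.Agent.R213.C.EN
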