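import Crest.Agent.R213.C.Interp

/-!
# Row 213, part C, C2: energy form inequality at a fixed time
-/

set_option autoImplicit false

open Set MeasureTheory Filter Topology

noncomputable section

namespace Crest.Agent.R213.C.EN

open Crest.Agent.R213 Crest.Agent.R213.J310

variable {L t C0 : ℝ}

/-- the small parameter used in `EN_fix` -/
def eps0 (p : ℝ) : ℝ := 1 / (4096 * (1 + p ^ 2))

theorem eps0_pos (p : ℝ) : 0 < eps0 p := by unfold eps0; positivity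

/-- the constant of `EN_fix` -/
def KE (C0 p : ℝ) : ℝ := 256 * p ^ 2 * KA C0 p (eps0 p) + 16 * c2 p ^ 2 * C0 ^ 2 + 1 / 2

theorem KE_nonneg (C0 p : ℝ) : 0 ≤ KE C0 p := by
  have := KA_nonneg (C0 := C0) (p := p) (eps0_pos p)
  unfold KE; positivity

theorem EN_point {f u u' b R E x r p : ℝ} (hr : 0 < r) (hxr : x ^ 2 ≤ r)
    (hf : |f| ≤ C0 * x) :
    -(R * b) - f * (b + R) * ((2 * p / r + 4 * p * (p - 1) * x ^ 2 / r ^ 2) * u +
      2 * (2 * p * x / r) * u') + E * u ≤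
    9 / 16 * b ^ 2 + 9 / 16 * R ^ 2 + 256 * p ^ 2 * (f ^ 2 * u' ^ 2 / r) +
      (16 * c2 p ^ 2 * C0 ^ 2 + 1 / 2) * (u ^ 2 / r) + 1 / 2 * (r * E ^ 2) := by
  set S := b + R with hS
  have h1 : -(R * b) ≤ 1 / 2 * b ^ 2 + 1 / 2 * R ^ 2 := by nlinarith [sq_nonneg (b + R)]
  -- cross term with u'
  have h2 : -(f * S * (2 * (2 * p * x / r) * u')) ≤ 1 / 64 * S ^ 2 +
      256 * p ^ 2 * (f ^ 2 * u' ^ 2 / r) := by
    have e : 1 / 64 * S ^ 2 + 256 * p ^ 2 * (x ^ 2 / r ^ 2 * (f ^ 2 * u' ^ 2)) +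
        f * S * (2 * (2 * p * x / r) * u') = (1 / 8 * S + 16 * p * (x / r) * (f * u')) ^ 2 := by
      field_simp; ring
    have h3 := sq_nonneg (1 / 8 * S + 16 * p * (x / r) * (f * u'))
    have h4 : x ^ 2 / r ^ 2 * (f ^ 2 * u' ^ 2) ≤ f ^ 2 * u' ^ 2 / r := by
      rw [div_mul_eq_mul_div, div_le_div_iff₀ (by positivity) hr]
      have := mul_le_mul_of_nonneg_right hxr (by positivity : 0 ≤ f ^ 2 * u' ^ 2 * r)
      nlinarith
    have h5 : 256 * p ^ 2 * (x ^ 2 / r ^ 2 * (f ^ 2 * u' ^ 2)) ≤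
        256 * p ^ 2 * (f ^ 2 * u' ^ 2 / r) := by gcongr
    linarith
  -- cross term with u
  have h6 : -(f * S * ((2 * p / r + 4 * p * (p - 1) * x ^ 2 / r ^ 2) * u)) ≤ 1 / 64 * S ^ 2 +
      16 * c2 p ^ 2 * C0 ^ 2 * (u ^ 2 / r) := by
    set k := 2 * p / r + 4 * p * (p - 1) * x ^ 2 / r ^ 2 with hk
    have hkb : |k| ≤ c2 p / r := c2_bound hr hxr
    have e : 1 / 64 * S ^ 2 + 16 * (f * k * u) ^ 2 + f * S * (k * u) =
        (1 / 8 * S + 4 * (f * k * u)) ^ 2 := by ring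
    have h7 := sq_nonneg (1 / 8 * S + 4 * (f * k * u))
    have h8 : (f * k * u) ^ 2 ≤ c2 p ^ 2 * C0 ^ 2 * (u ^ 2 / r) := by
      have h9 : |f * k| ≤ C0 * x * (c2 p / r) := by
        rw [abs_mul]
        have : 0 ≤ C0 * x := (abs_nonneg _).trans hf
        gcongr
      have h10 : (f * k) ^ 2 ≤ (C0 * x * (c2 p / r)) ^ 2 := by
        rw [← sq_abs (f * k)]; exact pow_le_pow_left₀ (abs_nonneg _) h9 2
      have h11 : (C0 * x * (c2 p / r)) ^ 2 ≤ c2 p ^ 2 * C0 ^ 2 / r := by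
        have : (C0 * x * (c2 p / r)) ^ 2 = c2 p ^ 2 * C0 ^ 2 * (x ^ 2 / r ^ 2) := by field_simp
        rw [this]
        have h12 : x ^ 2 / r ^ 2 ≤ 1 / r := by
          rw [div_le_div_iff₀ (by positivity) hr]; nlinarith
        calc c2 p ^ 2 * C0 ^ 2 * (x ^ 2 / r ^ 2) ≤ c2 p ^ 2 * C0 ^ 2 * (1 / r) := by gcongr
          _ = _ := by ring
      calc (f * k * u) ^ 2 = (f * k) ^ 2 * u ^ 2 := by ring
        _ ≤ c2 p ^ 2 * C0 ^ 2 / r * u ^ 2 := by
            have := h10.trans h11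
            gcongr
        _ = _ := by ring
    nlinarith
  have h7 : E * u ≤ 1 / 2 * (u ^ 2 / r) + 1 / 2 * (r * E ^ 2) := by
    have e : 1 / 2 * (u ^ 2 / r) + 1 / 2 * (r * E ^ 2) - E * u = (r * E - u) ^ 2 / (2 * r) := by
      field_simp; ring
    have : 0 ≤ (r * E - u) ^ 2 / (2 * r) := by positivity
    linarith
  have h8 : S ^ 2 ≤ 2 * b ^ 2 + 2 * R ^ 2 := by rw [hS]; nlinarith [sq_nonneg (b - R)]
  have e9 : f * S * ((2 * p / r + 4 * p * (p - 1) * x ^ 2 / r ^ 2) * u +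
      2 * (2 * p * x / r) * u') = f * S * ((2 * p / r + 4 * p * (p - 1) * x ^ 2 / r ^ 2) * u) +
      f * S * (2 * (2 * p * x / r) * u') := by ring
  rw [e9]
  have e10 : (16 * c2 p ^ 2 * C0 ^ 2 + 1 / 2) * (u ^ 2 / r) =
    16 * c2 p ^ 2 * C0 ^ 2 * (u ^ 2 / r) + 1 / 2 * (u ^ 2 / r) := by ring
  rw [e10]
  linarith

set_option maxHeartbeats 1000000 in
/-- **energy form at a fixed time**: `x⁹ f (f u'' + R) = Kint (E + w)` (`w = u_τ`). -/
theorem EN_fix {f f' : ℝ → ℝ} (hf : Cf L C0 f f') (ht : 0 < t) (p : ℝ)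
    {u u' u'' E w R : ℝ → ℝ}
    (hu : C2f L u u' u'') (hE : ContinuousOn E (Icc 0 L)) (hw : ContinuousOn w (Icc 0 L))
    (hR : ContinuousOn R (Icc 0 L))
    (hK0 : Kint (fun x => E x + w x) L = 0) (hK1 : Kint1 (fun x => E x + w x) L = 0)
    (hKZ : ∀ x ∈ Icc 0 L, Kint (fun x => E x + w x) x = x ^ 9 * (f x * (f x * u'' x + R x))) :
    3 / 8 * ∫ x in (0 : ℝ)..L, (x ^ 2 + t) ^ p * (f x * u'' x) ^ 2 * x ^ 9 ≤
      (∫ x in (0 : ℝ)..L, (x ^ 2 + t) ^ p * (w x * u x) * x ^ 9) +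
      9 / 16 * (∫ x in (0 : ℝ)..L, (x ^ 2 + t) ^ p * R x ^ 2 * x ^ 9) +
      KE C0 p * (∫ x in (0 : ℝ)..L, (x ^ 2 + t) ^ (p - 1) * u x ^ 2 * x ^ 9) +
      1 / 2 * ∫ x in (0 : ℝ)..L, (x ^ 2 + t) ^ (p + 1) * E x ^ 2 * x ^ 9 := by
  have hL := hf.hL
  have hA := A1 hf ht p (eps0_pos p) hu
  have hKA := KA_nonneg (C0 := C0) (p := p) (eps0_pos p)
  set K := KA C0 p (eps0 p) with hKdef
  have cF : ContinuousOn (fun x => E x + w x) (Icc 0 L) := hE.add hw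
  have hT := test_id hL cF hK0 hK1 (C2f_psi ht p hu)
  have cf := hf.cont
  have cu := hu.cont
  have cu' := hu.cont'
  have cu'' := hu.cont''
  have ap := (rho_cont (t := t) ht p).continuousOn (s := Icc 0 L)
  have a1 := (rho_cont (t := t) ht (p - 1)).continuousOn (s := Icc 0 L)
  have a2 := (rho_cont (t := t) ht (p + 1)).continuousOn (s := Icc 0 L)
  have cψ'' := (C2f_psi ht p hu).cont''
  have cK : ContinuousOn (Kint fun x => E x + w x) (Icc 0 L) := fun x hx =>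
    (hasDeriv_Kint cF hx).continuousWithinAt
  have key : ∫ x in (0 : ℝ)..L, ((x ^ 2 + t) ^ p * (f x * u'' x) ^ 2 * x ^ 9 +
      ((x ^ 2 + t) ^ p * E x * u x * x ^ 9 -
        Kint (fun x => E x + w x) x * psi2 t p u u' u'' x)) ≤
      ∫ x in (0 : ℝ)..L, (9 / 16 * ((x ^ 2 + t) ^ p * (f x * u'' x) ^ 2 * x ^ 9) +
        9 / 16 * ((x ^ 2 + t) ^ p * R x ^ 2 * x ^ 9) +
        256 * p ^ 2 * (f x ^ 2 * (x ^ 2 + t) ^ (p - 1) * u' x ^ 2 * x ^ 9) +
        (16 * c2 p ^ 2 * C0 ^ 2 + 1 / 2) * ((x ^ 2 + t) ^ (p - 1) * u x ^ 2 * x ^ 9) +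
        1 / 2 * ((x ^ 2 + t) ^ (p + 1) * E x ^ 2 * x ^ 9)) := by
    refine int_mono hL (by fun_prop) (by fun_prop) fun x hx => ?_
    have hr := rho_pos ht x
    have hxr : x ^ 2 ≤ x ^ 2 + t := by linarith
    have e1 : (x ^ 2 + t) ^ (p + 1) = (x ^ 2 + t) ^ p * (x ^ 2 + t) :=
      Real.rpow_add_one hr.ne' _
    have e2 : (x ^ 2 + t) ^ (p - 1) = (x ^ 2 + t) ^ p / (x ^ 2 + t) :=
      Real.rpow_sub_one hr.ne' _
    have h1 := EN_point (C0 := C0) (f := f x) (u := u x) (u' := u' x)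
      (b := f x * u'' x) (R := R x) (E := E x) (x := x) (r := x ^ 2 + t) (p := p) hr hxr
      (hf.bd x hx)
    rw [hKZ x hx, psi2_eq ht, e1, e2]
    have hw : 0 ≤ (x ^ 2 + t) ^ p * x ^ 9 := by have := hx.1; positivity
    have h5 := mul_le_mul_of_nonneg_left h1 hw
    refine le_trans (le_of_eq ?_) (h5.trans (le_of_eq ?_))
    · ring
    · ring
  have e0 : ∫ x in (0 : ℝ)..L, ((x ^ 2 + t) ^ p * (f x * u'' x) ^ 2 * x ^ 9 +
      ((x ^ 2 + t) ^ p * E x * u x * x ^ 9 -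
        Kint (fun x => E x + w x) x * psi2 t p u u' u'' x)) =
      (∫ x in (0 : ℝ)..L, (x ^ 2 + t) ^ p * (f x * u'' x) ^ 2 * x ^ 9) -
      ∫ x in (0 : ℝ)..L, (x ^ 2 + t) ^ p * (w x * u x) * x ^ 9 := by
    rw [intervalIntegral.integral_add (cii hL (by fun_prop)) (cii hL (by fun_prop)),
      intervalIntegral.integral_sub (cii hL (by fun_prop)) (cii hL (by fun_prop)), ← hT,
      ← intervalIntegral.integral_sub (cii hL (by fun_prop)) (cii hL (by fun_prop)), sub_eq_add_neg,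
      ← intervalIntegral.integral_neg]
    congr 1
    refine intervalIntegral.integral_congr fun x _ => ?_
    ring
  rw [e0] at key
  rw [intervalIntegral.integral_add, intervalIntegral.integral_add, intervalIntegral.integral_add,
    intervalIntegral.integral_add, intervalIntegral.integral_const_mul,
    intervalIntegral.integral_const_mul, intervalIntegral.integral_const_mul,
    intervalIntegral.integral_const_mul, intervalIntegral.integral_const_mul] at key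
  rotate_left
  all_goals first
    | exact cii hL (by fun_prop)
    | skip
  set B := ∫ x in (0 : ℝ)..L, (x ^ 2 + t) ^ p * (f x * u'' x) ^ 2 * x ^ 9 with hBdef
  set A := ∫ x in (0 : ℝ)..L, (x ^ 2 + t) ^ (p - 1) * u x ^ 2 * x ^ 9 with hAdef
  have hB' : ∫ x in (0 : ℝ)..L, f x ^ 2 * (x ^ 2 + t) ^ p * u'' x ^ 2 * x ^ 9 = B := by
    refine intervalIntegral.integral_congr fun x _ => ?_
    ring
  rw [hB'] at hA
  have hB0 : 0 ≤ B := int_nonneg hL fun x hx => by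
    have := rho_pos ht x; have := hx.1; positivity
  have m1 := mul_le_mul_of_nonneg_left hA (by positivity : 0 ≤ 256 * p ^ 2)
  have m2 : 256 * p ^ 2 * eps0 p ≤ 1 / 16 := by
    rw [eps0, mul_one_div, div_le_div_iff₀ (by positivity) (by norm_num)]
    nlinarith [sq_nonneg p]
  have m3 : 256 * p ^ 2 * (eps0 p * B) ≤ 1 / 16 * B := by
    rw [← mul_assoc]; gcongr
  have m4 : KE C0 p * A = 256 * p ^ 2 * (K * A) + (16 * c2 p ^ 2 * C0 ^ 2 + 1 / 2) * A := by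
    rw [KE, ← hKdef]; ring
  rw [m4]
  rw [mul_add] at m1
  linarith

end Crest.Agent.R213.C.EN
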