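import Crest.Agent.R213.J0
import Crest.Agent.R213.J310

/-!
# Row 213, part C, C1: fixed-time interpolation and testing identities

Everything here is at a fixed time `t > 0`; the weights are `(x^2+t)^p` with real `p`.
-/

set_option autoImplicit false

open Set MeasureTheory Filter Topology

noncomputable section

namespace Crest.Agent.R213.C.EN

open Crest.Agent.R213 Crest.Agent.R213.J310

variable {L t C0 : ℝ}

/-- coefficient data at a fixed time: `f = φ(t,·)`, `f' = φ_x(t,·)`. -/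
structure Cf (L C0 : ℝ) (f f' : ℝ → ℝ) : Prop where
  hL : 0 < L
  hC : 0 ≤ C0
  der : ∀ x ∈ Icc 0 L, HasDerivWithinAt f (f' x) (Icc 0 L) x
  cont' : ContinuousOn f' (Icc 0 L)
  endL : f L = 0
  bd : ∀ x ∈ Icc 0 L, |f x| ≤ C0 * x
  bd' : ∀ x ∈ Icc 0 L, |f' x| ≤ C0

theorem Cf.cont {f f' : ℝ → ℝ} (hf : Cf L C0 f f') : ContinuousOn f (Icc 0 L) :=
  fun x hx => (hf.der x hx).continuousWithinAt

theorem Cf.zero {f f' : ℝ → ℝ} (hf : Cf L C0 f f') : f 0 = 0 := by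
  have := hf.bd 0 ⟨le_rfl, hf.hL.le⟩
  simpa using this

/-- a `C²` function on `[0,L]` with its derivatives -/
structure C2f (L : ℝ) (v v' v'' : ℝ → ℝ) : Prop where
  der : ∀ x ∈ Icc 0 L, HasDerivWithinAt v (v' x) (Icc 0 L) x
  der' : ∀ x ∈ Icc 0 L, HasDerivWithinAt v' (v'' x) (Icc 0 L) x
  cont'' : ContinuousOn v'' (Icc 0 L)

theorem C2f.cont {v v' v'' : ℝ → ℝ} (hv : C2f L v v' v'') : ContinuousOn v (Icc 0 L) :=
  fun x hx => (hv.der x hx).continuousWithinAt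

theorem C2f.cont' {v v' v'' : ℝ → ℝ} (hv : C2f L v v' v'') : ContinuousOn v' (Icc 0 L) :=
  fun x hx => (hv.der' x hx).continuousWithinAt

theorem rho_pos (ht : 0 < t) (x : ℝ) : 0 < x ^ 2 + t := by positivity

theorem rho_cont (ht : 0 < t) (p : ℝ) : Continuous fun x : ℝ => (x ^ 2 + t) ^ p :=
  Continuous.rpow_const (by fun_prop) fun x => Or.inl (rho_pos ht x).ne'

theorem rho_der (ht : 0 < t) (p x : ℝ) :
    HasDerivAt (fun x : ℝ => (x ^ 2 + t) ^ p) (2 * p * x * (x ^ 2 + t) ^ (p - 1)) x := by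
  have h : HasDerivAt (fun x : ℝ => x ^ 2 + t) (2 * x) x := by
    simpa using (hasDerivAt_pow 2 x).add_const t
  convert h.rpow_const (p := p) (Or.inl (rho_pos ht x).ne') using 1
  ring

theorem cii (hL : 0 < L) {F : ℝ → ℝ} (hF : ContinuousOn F (Icc 0 L)) :
    IntervalIntegrable F volume 0 L :=
  ContinuousOn.intervalIntegrable_of_Icc hL.le hF

/-- integral of a derivative -/
theorem int_der (hL : 0 < L) {P P' : ℝ → ℝ}
    (h : ∀ x ∈ Icc 0 L, HasDerivWithinAt P (P' x) (Icc 0 L) x) (hc : ContinuousOn P' (Icc 0 L)) :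
    ∫ x in (0 : ℝ)..L, P' x = P L - P 0 := by
  refine intervalIntegral.integral_eq_sub_of_hasDerivAt_of_le hL.le
    (fun x hx => (h x hx).continuousWithinAt) (fun x hx => ?_) (cii hL hc)
  exact (h x (Ioo_subset_Icc_self hx)).hasDerivAt (Icc_mem_nhds hx.1 hx.2)

theorem int_mono (hL : 0 < L) {F G : ℝ → ℝ} (hF : ContinuousOn F (Icc 0 L))
    (hG : ContinuousOn G (Icc 0 L)) (h : ∀ x ∈ Icc 0 L, F x ≤ G x) :
    ∫ x in (0 : ℝ)..L, F x ≤ ∫ x in (0 : ℝ)..L, G x :=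
  intervalIntegral.integral_mono_on hL.le (cii hL hF) (cii hL hG) h

theorem int_nonneg (hL : 0 < L) {F : ℝ → ℝ} (h : ∀ x ∈ Icc 0 L, 0 ≤ F x) :
    0 ≤ ∫ x in (0 : ℝ)..L, F x :=
  intervalIntegral.integral_nonneg hL.le h

/-- the constant of `A1` -/
def KA (C0 p ε : ℝ) : ℝ := C0 ^ 2 / ε + (C0 * (2 * |p - 1| + 11)) ^ 2

theorem KA_nonneg {p ε : ℝ} (hε : 0 < ε) : 0 ≤ KA C0 p ε := by
  unfold KA; positivity

/-- pointwise algebra of A1 -/
theorem A1_point {f f' v v' v'' x r ε q : ℝ} (hC : 0 ≤ C0) (hx : 0 < x) (hr : x ^ 2 ≤ r)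
    (hε : 0 < ε) (hf : |f| ≤ C0 * x) (hf' : |f'| ≤ C0) :
    f ^ 2 * v' ^ 2 ≤ 2 * ((2 * f * f' + 2 * q * x * f ^ 2 / r + 9 * f ^ 2 / x) * v * v' +
      f ^ 2 * (v' ^ 2 + v * v'')) + ε * (f ^ 2 * r * v'' ^ 2) +
      (C0 ^ 2 / ε + (C0 * (2 * |q| + 11)) ^ 2) * v ^ 2 := by
  have hr0 : 0 < r := lt_of_lt_of_le (by positivity) hr
  set c : ℝ := 2 * f' + 2 * q * x * f / r + 9 * f / x with hc
  have hcb : |c| ≤ C0 * (2 * |q| + 11) := by
    have h1 : |2 * f'| ≤ 2 * C0 := by rw [abs_mul, abs_two]; linarith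
    have h2 : |2 * q * x * f / r| ≤ 2 * |q| * C0 := by
      rw [abs_div, abs_mul, abs_mul, abs_mul, abs_two, abs_of_pos hx, abs_of_pos hr0,
        div_le_iff₀ hr0]
      calc 2 * |q| * x * |f| ≤ 2 * |q| * x * (C0 * x) := by gcongr
        _ = 2 * |q| * C0 * x ^ 2 := by ring
        _ ≤ 2 * |q| * C0 * r := by gcongr
    have h3 : |9 * f / x| ≤ 9 * C0 := by
      rw [abs_div, abs_mul, abs_of_pos hx, div_le_iff₀ hx, abs_of_pos (by norm_num : (0:ℝ) < 9)]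
      nlinarith
    calc |c| ≤ |2 * f'| + |2 * q * x * f / r| + |9 * f / x| := by
          rw [hc]; exact abs_add_three _ _ _
      _ ≤ C0 * (2 * |q| + 11) := by linarith
  have e1 : (2 * f * f' + 2 * q * x * f ^ 2 / r + 9 * f ^ 2 / x) = f * c := by
    rw [hc]; field_simp
  rw [e1]
  have hc2 : c ^ 2 ≤ (C0 * (2 * |q| + 11)) ^ 2 := by
    rw [← sq_abs c]; exact pow_le_pow_left₀ (abs_nonneg _) hcb 2
  have h4 : f ^ 2 ≤ C0 ^ 2 * r := by
    calc f ^ 2 = |f| ^ 2 := (sq_abs f).symm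
      _ ≤ (C0 * x) ^ 2 := pow_le_pow_left₀ (abs_nonneg _) hf 2
      _ = C0 ^ 2 * x ^ 2 := by ring
      _ ≤ C0 ^ 2 * r := by gcongr
  have h5 : 0 ≤ ε * (f ^ 2 * r * v'' ^ 2) + 2 * f ^ 2 * v * v'' + C0 ^ 2 / ε * v ^ 2 := by
    have h6 : f ^ 2 / (ε * r) ≤ C0 ^ 2 / ε := by
      rw [div_le_div_iff₀ (by positivity) hε]
      calc f ^ 2 * ε ≤ C0 ^ 2 * r * ε := by gcongr
        _ = C0 ^ 2 * (ε * r) := by ring
    have h7 : ε * (f ^ 2 * r * v'' ^ 2) + 2 * f ^ 2 * v * v'' + f ^ 2 / (ε * r) * v ^ 2 =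
        f ^ 2 / (ε * r) * (ε * r * v'' + v) ^ 2 := by
      field_simp; ring
    have h8 : 0 ≤ f ^ 2 / (ε * r) * (ε * r * v'' + v) ^ 2 := by positivity
    have h9 : f ^ 2 / (ε * r) * v ^ 2 ≤ C0 ^ 2 / ε * v ^ 2 := by gcongr
    linarith
  have h10 : 0 ≤ (f * v' + c * v) ^ 2 := sq_nonneg _
  have h11 : c ^ 2 * v ^ 2 ≤ (C0 * (2 * |q| + 11)) ^ 2 * v ^ 2 := by gcongr
  nlinarith

/-- **A1** interpolation inequality. -/
theorem A1 {f f' v v' v'' : ℝ → ℝ} (hf : Cf L C0 f f') (ht : 0 < t) (p : ℝ) {ε : ℝ} (hε : 0 < ε)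
    (hv : C2f L v v' v'') :
    ∫ x in (0 : ℝ)..L, f x ^ 2 * (x ^ 2 + t) ^ (p - 1) * v' x ^ 2 * x ^ 9 ≤
      ε * (∫ x in (0 : ℝ)..L, f x ^ 2 * (x ^ 2 + t) ^ p * v'' x ^ 2 * x ^ 9) +
        KA C0 p ε * ∫ x in (0 : ℝ)..L, (x ^ 2 + t) ^ (p - 1) * v x ^ 2 * x ^ 9 := by
  have hL := hf.hL
  have cr := rho_cont (t := t) ht
  have cf := hf.cont
  have cf' := hf.cont'
  have cv := hv.cont
  have cv' := hv.cont'
  have cv'' := hv.cont''
  -- P = f² ρ^{p-1} x⁹ v v'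
  set P' : ℝ → ℝ := fun x =>
    (2 * f x * f' x * (x ^ 2 + t) ^ (p - 1) * x ^ 9 +
      f x ^ 2 * (2 * (p - 1) * x * (x ^ 2 + t) ^ (p - 1 - 1)) * x ^ 9 +
      f x ^ 2 * (x ^ 2 + t) ^ (p - 1) * (9 * x ^ 8)) * (v x * v' x) +
    f x ^ 2 * (x ^ 2 + t) ^ (p - 1) * x ^ 9 * (v' x * v' x + v x * v'' x) with hP'
  have hder : ∀ x ∈ Icc 0 L, HasDerivWithinAt
      (fun x => f x ^ 2 * (x ^ 2 + t) ^ (p - 1) * x ^ 9 * (v x * v' x)) (P' x) (Icc 0 L) x := by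
    intro x hx
    have h1 := (hf.der x hx).pow 2
    have h2 := (rho_der ht (p - 1) x).hasDerivWithinAt (s := Icc 0 L)
    have h3 := (hasDerivAt_pow 9 x).hasDerivWithinAt (s := Icc 0 L)
    have h4 := (hv.der x hx).mul (hv.der' x hx)
    refine (((h1.mul h2).mul h3).mul h4).congr_deriv ?_
    simp only [hP', Pi.pow_apply, Pi.mul_apply]
    push_cast
    ring
  have hPc : ContinuousOn P' (Icc 0 L) := by
    have a1 := (cr (p - 1)).continuousOn (s := Icc 0 L)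
    have a2 := (cr (p - 1 - 1)).continuousOn (s := Icc 0 L)
    rw [hP']
    fun_prop
  have hPint : ∫ x in (0 : ℝ)..L, P' x = 0 := by
    rw [int_der hL hder hPc]
    simp [hf.endL, hf.zero]
  have cr1 := (cr (p - 1)).continuousOn (s := Icc 0 L)
  have cr0 := (cr p).continuousOn (s := Icc 0 L)
  have key : ∫ x in (0 : ℝ)..L, f x ^ 2 * (x ^ 2 + t) ^ (p - 1) * v' x ^ 2 * x ^ 9 ≤
      ∫ x in (0 : ℝ)..L, (2 * P' x + (ε * (f x ^ 2 * (x ^ 2 + t) ^ p * v'' x ^ 2 * x ^ 9) +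
        KA C0 p ε * ((x ^ 2 + t) ^ (p - 1) * v x ^ 2 * x ^ 9))) := by
    refine int_mono hL (by fun_prop) (by fun_prop) fun x hx => ?_
    rcases eq_or_lt_of_le hx.1 with h0 | hx0
    · simp [← h0, hP', hf.zero]
    have hr := rho_pos ht x
    have e1 : (x ^ 2 + t) ^ p = (x ^ 2 + t) ^ (p - 1) * (x ^ 2 + t) := by
      rw [Real.rpow_sub_one hr.ne']; field_simp
    have e2 : (x ^ 2 + t) ^ (p - 1 - 1) = (x ^ 2 + t) ^ (p - 1) / (x ^ 2 + t) :=
      Real.rpow_sub_one hr.ne' _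
    have hpt := A1_point (C0 := C0) (f := f x) (f' := f' x) (v := v x) (v' := v' x)
      (v'' := v'' x) (x := x) (r := x ^ 2 + t) (ε := ε) (q := p - 1) hf.hC hx0 (by linarith) hε
      (hf.bd x hx) (hf.bd' x hx)
    have hw : 0 ≤ (x ^ 2 + t) ^ (p - 1) * x ^ 9 := by positivity
    have := mul_le_mul_of_nonneg_left hpt hw
    have e3 : (x ^ 2 + t) ^ (p - 1) * x ^ 9 * (f x ^ 2 * v' x ^ 2) =
      f x ^ 2 * (x ^ 2 + t) ^ (p - 1) * v' x ^ 2 * x ^ 9 := by ring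
    rw [e3] at this
    refine this.trans (le_of_eq ?_)
    simp only [hP', KA]
    rw [e1, e2]
    field_simp
    ring
  rw [intervalIntegral.integral_add, intervalIntegral.integral_add,
    intervalIntegral.integral_const_mul, intervalIntegral.integral_const_mul,
    intervalIntegral.integral_const_mul, hPint] at key
  · linarith
  · exact cii hL (by fun_prop)
  · exact cii hL (by fun_prop)
  · exact cii hL (by fun_prop)
  · exact cii hL (by fun_prop)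

/-! ### Testing identity -/

/-- if `Kint F` has a double zero at `L` then `∫ x⁹ F ψ = ∫ Kint F ψ''`. -/
theorem test_id (hL : 0 < L) {F : ℝ → ℝ} (hF : ContinuousOn F (Icc 0 L)) (h0 : Kint F L = 0)
    (h1 : Kint1 F L = 0) {ψ ψ' ψ'' : ℝ → ℝ} (hψ : C2f L ψ ψ' ψ'') :
    ∫ x in (0 : ℝ)..L, x ^ 9 * F x * ψ x = ∫ x in (0 : ℝ)..L, Kint F x * ψ'' x := by
  have cK : ContinuousOn (Kint F) (Icc 0 L) := fun x hx =>
    (hasDeriv_Kint hF hx).continuousWithinAt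
  have cK1 : ContinuousOn (Kint1 F) (Icc 0 L) := fun x hx =>
    (hasDeriv_Kint1 hF hx).continuousWithinAt
  have cψ := hψ.cont
  have cψ'' := hψ.cont''
  have h := int_der (L := L) hL
    (P := fun x => Kint1 F x * ψ x - Kint F x * ψ' x)
    (P' := fun x => x ^ 9 * F x * ψ x - Kint F x * ψ'' x) (fun x hx => by
      refine (((hasDeriv_Kint1 hF hx).mul (hψ.der x hx)).sub
        ((hasDeriv_Kint hF hx).mul (hψ.der' x hx))).congr_deriv ?_
      ring) (by fun_prop)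
  rw [intervalIntegral.integral_sub (cii hL (by fun_prop)) (cii hL (by fun_prop))] at h
  have e : Kint1 F L * ψ L - Kint F L * ψ' L - (Kint1 F 0 * ψ 0 - Kint F 0 * ψ' 0) = 0 := by
    have h2 : Kint1 F 0 = 0 := by simp [Kint1]
    rw [h0, h1, h2, Kint_zero]; ring
  linarith

/-! ### Inequality (J) -/

theorem J1_point {f u'' G Z s r : ℝ} (hr : 0 < r) (hs : 0 < s)
    (hZ : |Z| ≤ |f| * G) : Z * u'' ≤ s / 4 * (r * (f * u'') ^ 2) + 1 / s * (G ^ 2 / r) := by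
  have h1 : Z * u'' ≤ |f * u''| * G := by
    calc Z * u'' ≤ |Z * u''| := le_abs_self _
      _ = |Z| * |u''| := abs_mul _ _
      _ ≤ |f| * G * |u''| := by gcongr
      _ = |f * u''| * G := by rw [abs_mul]; ring
  have h2 : s / 4 * (r * (f * u'') ^ 2) + 1 / s * (G ^ 2 / r) - |f * u''| * G =
      (s * r * |f * u''| - 2 * G) ^ 2 / (4 * s * r) := by
    rw [← sq_abs (f * u'')]
    field_simp
    ring
  have h3 : 0 ≤ (s * r * |f * u''| - 2 * G) ^ 2 / (4 * s * r) := by positivity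
  linarith

theorem J2_point {f u' G Z x μ r q : ℝ} (hx : 0 ≤ x) (hr : 0 < r) (hxr : x ^ 2 ≤ r) (hμ : 0 < μ)
    (hZ : |Z| ≤ |f| * G) :
    Z * (2 * (2 * q * x / r) * u') ≤ μ * (f ^ 2 * u' ^ 2) + 4 * q ^ 2 / μ * (G ^ 2 / r) := by
  have h1 : Z * (2 * (2 * q * x / r) * u') ≤ 4 * |q| * (x / r) * |f * u'| * G := by
    calc Z * (2 * (2 * q * x / r) * u') ≤ |Z * (2 * (2 * q * x / r) * u')| := le_abs_self _
      _ = |Z| * (4 * |q| * (x / r) * |u'|) := by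
          rw [abs_mul, abs_mul, abs_mul, abs_div, abs_mul, abs_mul, abs_two, abs_of_nonneg hx,
            abs_of_pos hr]
          ring
      _ ≤ |f| * G * (4 * |q| * (x / r) * |u'|) := by gcongr
      _ = 4 * |q| * (x / r) * |f * u'| * G := by rw [abs_mul]; ring
  have h2 : μ * (f ^ 2 * u' ^ 2) + 4 * q ^ 2 / μ * (x ^ 2 / r ^ 2 * G ^ 2) -
      4 * |q| * (x / r) * |f * u'| * G = (μ * |f * u'| - 2 * |q| * (x / r) * G) ^ 2 / μ := by
    have e : f ^ 2 * u' ^ 2 = |f * u'| ^ 2 := by rw [sq_abs]; ring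
    have e2 : q ^ 2 = |q| ^ 2 := (sq_abs q).symm
    rw [e, e2]
    field_simp
    ring
  have h3 : 0 ≤ (μ * |f * u'| - 2 * |q| * (x / r) * G) ^ 2 / μ := by positivity
  have h4 : x ^ 2 / r ^ 2 * G ^ 2 ≤ G ^ 2 / r := by
    rw [div_mul_eq_mul_div, div_le_div_iff₀ (by positivity) hr]
    have := mul_le_mul_of_nonneg_right hxr (by positivity : 0 ≤ G ^ 2 * r)
    nlinarith
  have h5 : 4 * q ^ 2 / μ * (x ^ 2 / r ^ 2 * G ^ 2) ≤ 4 * q ^ 2 / μ * (G ^ 2 / r) := by gcongr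
  linarith

/-- `|ω''| ≤ c2/ρ ω` -/
def c2 (q : ℝ) : ℝ := 2 * |q| + 4 * |q| * |q - 1|

theorem c2_nonneg (q : ℝ) : 0 ≤ c2 q := by unfold c2; positivity

theorem c2_bound {x r q : ℝ} (hr : 0 < r) (hxr : x ^ 2 ≤ r) :
    |2 * q / r + 4 * q * (q - 1) * x ^ 2 / r ^ 2| ≤ c2 q / r := by
  calc |2 * q / r + 4 * q * (q - 1) * x ^ 2 / r ^ 2|
      ≤ |2 * q / r| + |4 * q * (q - 1) * x ^ 2 / r ^ 2| := abs_add_le _ _
    _ = 2 * |q| / r + 4 * |q| * |q - 1| * x ^ 2 / r ^ 2 := by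
        rw [abs_div, abs_div, abs_mul, abs_mul, abs_mul, abs_mul, abs_two, abs_of_pos hr,
          abs_of_pos (by norm_num : (0:ℝ) < 4), abs_of_nonneg (sq_nonneg x),
          abs_of_pos (by positivity : 0 < r ^ 2)]
    _ ≤ 2 * |q| / r + 4 * |q| * |q - 1| / r := by
        have : 4 * |q| * |q - 1| * x ^ 2 / r ^ 2 ≤ 4 * |q| * |q - 1| / r := by
          rw [div_le_div_iff₀ (by positivity) hr]
          calc 4 * |q| * |q - 1| * x ^ 2 * r ≤ 4 * |q| * |q - 1| * r * r := by gcongr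
            _ = 4 * |q| * |q - 1| * r ^ 2 := by ring
        linarith
    _ = c2 q / r := by unfold c2; ring

theorem J3_point {f u G Z x r q : ℝ} (hr : 0 < r) (hxr : x ^ 2 ≤ r)
    (hf : |f| ≤ C0 * x) (hZ : |Z| ≤ |f| * G) (hG : 0 ≤ G) {ν : ℝ} (hν : 0 < ν) :
    Z * ((2 * q / r + 4 * q * (q - 1) * x ^ 2 / r ^ 2) * u) ≤
      ν * u ^ 2 + c2 q ^ 2 * C0 ^ 2 / (4 * ν) * (G ^ 2 / r) := by
  have hcx : 0 ≤ C0 * x := (abs_nonneg _).trans hf
  have h1 : Z * ((2 * q / r + 4 * q * (q - 1) * x ^ 2 / r ^ 2) * u) ≤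
      (c2 q / r * (C0 * x) * G) * |u| := by
    calc _ ≤ |Z * ((2 * q / r + 4 * q * (q - 1) * x ^ 2 / r ^ 2) * u)| := le_abs_self _
      _ = |Z| * (|2 * q / r + 4 * q * (q - 1) * x ^ 2 / r ^ 2| * |u|) := by
          rw [abs_mul, abs_mul]
      _ ≤ (C0 * x * G) * (c2 q / r * |u|) := by
          have := c2_bound (q := q) hr hxr
          have hZ' : |Z| ≤ C0 * x * G := hZ.trans (by gcongr)
          gcongr
      _ = (c2 q / r * (C0 * x) * G) * |u| := by ring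
  set a := c2 q / r * (C0 * x) * G with ha
  have h2 : a * |u| ≤ ν * u ^ 2 + a ^ 2 / (4 * ν) := by
    have : ν * u ^ 2 + a ^ 2 / (4 * ν) - a * |u| = (2 * ν * |u| - a) ^ 2 / (4 * ν) := by
      rw [← sq_abs u]; field_simp; ring
    have h3 : 0 ≤ (2 * ν * |u| - a) ^ 2 / (4 * ν) := by positivity
    linarith
  have h3 : a ^ 2 ≤ c2 q ^ 2 * C0 ^ 2 * (G ^ 2 / r) := by
    have : a ^ 2 = c2 q ^ 2 * C0 ^ 2 * G ^ 2 * (x ^ 2 / r ^ 2) := by rw [ha]; field_simp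
    rw [this]
    have h4 : x ^ 2 / r ^ 2 ≤ 1 / r := by
      rw [div_le_div_iff₀ (by positivity) hr]; nlinarith
    calc c2 q ^ 2 * C0 ^ 2 * G ^ 2 * (x ^ 2 / r ^ 2) ≤ c2 q ^ 2 * C0 ^ 2 * G ^ 2 * (1 / r) := by
          gcongr
      _ = c2 q ^ 2 * C0 ^ 2 * (G ^ 2 / r) := by ring
  have h5 : a ^ 2 / (4 * ν) ≤ c2 q ^ 2 * C0 ^ 2 * (G ^ 2 / r) / (4 * ν) := by gcongr
  calc _ ≤ a * |u| := h1
    _ ≤ _ := h2
    _ ≤ ν * u ^ 2 + c2 q ^ 2 * C0 ^ 2 * (G ^ 2 / r) / (4 * ν) := by linarith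
    _ = _ := by ring

/-- the second derivative of `ρ^q u` -/
def psi2 (t q : ℝ) (u u' u'' : ℝ → ℝ) (x : ℝ) : ℝ :=
  (2 * q * (x ^ 2 + t) ^ (q - 1) + 2 * q * x * (2 * (q - 1) * x * (x ^ 2 + t) ^ (q - 1 - 1))) * u x +
    2 * (2 * q * x * (x ^ 2 + t) ^ (q - 1)) * u' x + (x ^ 2 + t) ^ q * u'' x

theorem psi2_eq (ht : 0 < t) (q : ℝ) (u u' u'' : ℝ → ℝ) (x : ℝ) :
    psi2 t q u u' u'' x = (x ^ 2 + t) ^ q *
      ((2 * q / (x ^ 2 + t) + 4 * q * (q - 1) * x ^ 2 / (x ^ 2 + t) ^ 2) * u x +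
        2 * (2 * q * x / (x ^ 2 + t)) * u' x + u'' x) := by
  have hr := rho_pos ht x
  have e1 : (x ^ 2 + t) ^ (q - 1) = (x ^ 2 + t) ^ q / (x ^ 2 + t) := Real.rpow_sub_one hr.ne' _
  have e2 : (x ^ 2 + t) ^ (q - 1 - 1) = (x ^ 2 + t) ^ (q - 1) / (x ^ 2 + t) :=
    Real.rpow_sub_one hr.ne' _
  rw [psi2, e2, e1]
  field_simp
  ring

theorem C2f_psi (ht : 0 < t) (q : ℝ) {u u' u'' : ℝ → ℝ} (hu : C2f L u u' u'') :
    C2f L (fun x => (x ^ 2 + t) ^ q * u x)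
      (fun x => 2 * q * x * (x ^ 2 + t) ^ (q - 1) * u x + (x ^ 2 + t) ^ q * u' x)
      (psi2 t q u u' u'') := by
  refine ⟨fun x hx => ?_, fun x hx => ?_, ?_⟩
  · exact ((rho_der ht q x).hasDerivWithinAt.mul (hu.der x hx))
  · have h1 : HasDerivAt (fun x : ℝ => 2 * q * x * (x ^ 2 + t) ^ (q - 1))
        (2 * q * (x ^ 2 + t) ^ (q - 1) +
          2 * q * x * (2 * (q - 1) * x * (x ^ 2 + t) ^ (q - 1 - 1))) x := by
      refine (((hasDerivAt_id x).const_mul (2 * q)).mul (rho_der ht (q - 1) x)).congr_deriv ?_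
      simp
    refine ((h1.hasDerivWithinAt.mul (hu.der x hx)).add
      ((rho_der ht q x).hasDerivWithinAt.mul (hu.der' x hx))).congr_deriv ?_
    simp only [psi2]
    ring
  · have cu := hu.cont
    have cu' := hu.cont'
    have cu'' := hu.cont''
    have a0 := (rho_cont (t := t) ht q).continuousOn (s := Icc 0 L)
    have a1 := (rho_cont (t := t) ht (q - 1)).continuousOn (s := Icc 0 L)
    have a2 := (rho_cont (t := t) ht (q - 1 - 1)).continuousOn (s := Icc 0 L)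
    unfold psi2
    fun_prop

/-- the constant of `J_ineq` -/
def KJ (C0 p : ℝ) : ℝ :=
  2 * (1 + 16 * (p - 1) ^ 2 * (1 + KA C0 p 1) + 2 * c2 (p - 1) ^ 2 * C0 ^ 2)

theorem KJ_nonneg (C0 p : ℝ) : 0 ≤ KJ C0 p := by
  have := KA_nonneg (C0 := C0) (p := p) one_pos
  unfold KJ; positivity

set_option maxHeartbeats 1000000 in
/-- **(J)** at a fixed time (`u = δ_j`, `E = E_{j-1}`, `x⁹ Z = Kint (E + u)`). -/
theorem J_ineq {f f' : ℝ → ℝ} (hf : Cf L C0 f f') (ht : 0 < t) (p : ℝ) {u u' u'' E G Z : ℝ → ℝ}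
    (hu : C2f L u u' u'') (hE : ContinuousOn E (Icc 0 L)) (hG : ContinuousOn G (Icc 0 L))
    (hG0 : ∀ x ∈ Icc 0 L, 0 ≤ G x)
    (hK0 : Kint (fun x => E x + u x) L = 0) (hK1 : Kint1 (fun x => E x + u x) L = 0)
    (hKZ : ∀ x ∈ Icc 0 L, Kint (fun x => E x + u x) x = x ^ 9 * Z x)
    (hZ : ∀ x ∈ Icc 0 L, |Z x| ≤ |f x| * G x) {s : ℝ} (hs : 0 < s) (hs1 : s ≤ 1) :
    ∫ x in (0 : ℝ)..L, (x ^ 2 + t) ^ (p - 1) * u x ^ 2 * x ^ 9 ≤
      s * (∫ x in (0 : ℝ)..L, (x ^ 2 + t) ^ p * (f x * u'' x) ^ 2 * x ^ 9) +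
      KJ C0 p / s * (∫ x in (0 : ℝ)..L, (x ^ 2 + t) ^ (p - 2) * G x ^ 2 * x ^ 9) +
      4 * ∫ x in (0 : ℝ)..L, (x ^ 2 + t) ^ (p - 1) * E x ^ 2 * x ^ 9 := by
  have hL := hf.hL
  have hA := A1 hf ht p one_pos hu
  have hKA := KA_nonneg (C0 := C0) (p := p) one_pos
  set K := KA C0 p 1 with hKdef
  set q : ℝ := p - 1 with hq
  have cF : ContinuousOn (fun x => E x + u x) (Icc 0 L) := hE.add hu.cont
  have hT := test_id hL cF hK0 hK1 (C2f_psi ht q hu)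
  set μ : ℝ := s / (4 * (1 + K)) with hμ
  have hμ0 : 0 < μ := by positivity
  have cf := hf.cont
  have cu := hu.cont
  have cu' := hu.cont'
  have cu'' := hu.cont''
  have a0 := (rho_cont (t := t) ht q).continuousOn (s := Icc 0 L)
  have ap := (rho_cont (t := t) ht p).continuousOn (s := Icc 0 L)
  have a2 := (rho_cont (t := t) ht (p - 2)).continuousOn (s := Icc 0 L)
  have cψ'' := (C2f_psi ht q hu).cont''
  have cK : ContinuousOn (Kint fun x => E x + u x) (Icc 0 L) := fun x hx =>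
    (hasDeriv_Kint cF hx).continuousWithinAt
  -- pointwise inequality
  have key : ∫ x in (0 : ℝ)..L, (Kint (fun x => E x + u x) x * psi2 t q u u' u'' x -
      (x ^ 2 + t) ^ q * E x * u x * x ^ 9) ≤
      ∫ x in (0 : ℝ)..L, (s / 4 * ((x ^ 2 + t) ^ p * (f x * u'' x) ^ 2 * x ^ 9) +
        μ * (f x ^ 2 * (x ^ 2 + t) ^ q * u' x ^ 2 * x ^ 9) +
        1 / 4 * ((x ^ 2 + t) ^ q * u x ^ 2 * x ^ 9) +
        (1 / s + 4 * q ^ 2 / μ + 2 * c2 q ^ 2 * C0 ^ 2) *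
          ((x ^ 2 + t) ^ (p - 2) * G x ^ 2 * x ^ 9) +
        2 * ((x ^ 2 + t) ^ q * E x ^ 2 * x ^ 9)) := by
    refine int_mono hL (by fun_prop) (by fun_prop) fun x hx => ?_
    have hr := rho_pos ht x
    have hxr : x ^ 2 ≤ x ^ 2 + t := by linarith
    have e1 : (x ^ 2 + t) ^ p = (x ^ 2 + t) ^ q * (x ^ 2 + t) := by
      rw [hq, Real.rpow_sub_one hr.ne']; field_simp
    have e2 : (x ^ 2 + t) ^ (p - 2) = (x ^ 2 + t) ^ q / (x ^ 2 + t) := by
      rw [hq, ← Real.rpow_sub_one hr.ne']; congr 1; ring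
    have h1 := J1_point (f := f x) (u'' := u'' x) (G := G x) (Z := Z x) (s := s) hr hs (hZ x hx)
    have h2 := J2_point (f := f x) (u' := u' x) (G := G x) (Z := Z x) (q := q) hx.1 hr hxr hμ0
      (hZ x hx)
    have h3 := J3_point (f := f x) (u := u x) (G := G x) (Z := Z x) (x := x) (q := q) hr hxr
      (hf.bd x hx) (hZ x hx) (hG0 x hx) (by norm_num : (0 : ℝ) < 1 / 8)
    have h4 : -(E x * u x) ≤ 1 / 8 * u x ^ 2 + 2 * E x ^ 2 := by nlinarith [sq_nonneg (u x + 4 * E x)]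
    rw [hKZ x hx, psi2_eq ht, e1, e2]
    have hw : 0 ≤ (x ^ 2 + t) ^ q * x ^ 9 := by have := hx.1; positivity
    have h5 := mul_le_mul_of_nonneg_left (add_le_add (add_le_add (add_le_add h1 h2) h3) h4) hw
    refine le_trans (le_of_eq ?_) (h5.trans (le_of_eq ?_))
    · ring
    · ring
  have e0 : ∫ x in (0 : ℝ)..L, (Kint (fun x => E x + u x) x * psi2 t q u u' u'' x -
      (x ^ 2 + t) ^ q * E x * u x * x ^ 9) = ∫ x in (0 : ℝ)..L, (x ^ 2 + t) ^ q * u x ^ 2 * x ^ 9 := by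
    rw [intervalIntegral.integral_sub (cii hL (by fun_prop)) (cii hL (by fun_prop)), ← hT,
      ← intervalIntegral.integral_sub (cii hL (by fun_prop)) (cii hL (by fun_prop))]
    refine intervalIntegral.integral_congr fun x _ => ?_
    ring
  rw [e0] at key
  rw [intervalIntegral.integral_add, intervalIntegral.integral_add, intervalIntegral.integral_add,
    intervalIntegral.integral_add, intervalIntegral.integral_const_mul,
    intervalIntegral.integral_const_mul, intervalIntegral.integral_const_mul,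
    intervalIntegral.integral_const_mul, intervalIntegral.integral_const_mul] at key
  rotate_left
  all_goals first
    | exact cii hL (by fun_prop)
    | skip
  set A := ∫ x in (0 : ℝ)..L, (x ^ 2 + t) ^ q * u x ^ 2 * x ^ 9 with hAdef
  set B := ∫ x in (0 : ℝ)..L, (x ^ 2 + t) ^ p * (f x * u'' x) ^ 2 * x ^ 9 with hBdef
  set D := ∫ x in (0 : ℝ)..L, (x ^ 2 + t) ^ (p - 2) * G x ^ 2 * x ^ 9 with hDdef
  set EE := ∫ x in (0 : ℝ)..L, (x ^ 2 + t) ^ q * E x ^ 2 * x ^ 9 with hEdef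
  have hB' : ∫ x in (0 : ℝ)..L, f x ^ 2 * (x ^ 2 + t) ^ p * u'' x ^ 2 * x ^ 9 = B := by
    refine intervalIntegral.integral_congr fun x _ => ?_
    ring
  rw [hB'] at hA
  have hA0 : 0 ≤ A := int_nonneg hL fun x hx => by
    have := rho_pos ht x; have := hx.1; positivity
  have hB0 : 0 ≤ B := int_nonneg hL fun x hx => by
    have := rho_pos ht x; have := hx.1; positivity
  have hD0 : 0 ≤ D := int_nonneg hL fun x hx => by
    have := rho_pos ht x; have := hx.1; positivity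
  have m1 : μ * (∫ x in (0 : ℝ)..L, f x ^ 2 * (x ^ 2 + t) ^ q * u' x ^ 2 * x ^ 9) ≤
      s / 4 * B + 1 / 4 * A := by
    have h1 := mul_le_mul_of_nonneg_left hA hμ0.le
    have h2 : μ ≤ s / 4 := by
      rw [hμ]; gcongr; nlinarith
    have h3 : μ * K ≤ 1 / 4 := by
      rw [hμ, div_mul_eq_mul_div, div_le_div_iff₀ (by positivity) (by norm_num)]
      nlinarith
    calc _ ≤ μ * (1 * B + K * A) := h1
      _ = μ * B + (μ * K) * A := by ring
      _ ≤ s / 4 * B + 1 / 4 * A := by gcongr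
  have m2 : (1 / s + 4 * q ^ 2 / μ + 2 * c2 q ^ 2 * C0 ^ 2) * D ≤ KJ C0 p / s / 2 * D := by
    gcongr
    have e3 : 4 * q ^ 2 / μ = 16 * q ^ 2 * (1 + K) / s := by
      rw [hμ]; field_simp; ring
    rw [e3, KJ, ← hq, ← hKdef]
    have h6 : 2 * c2 q ^ 2 * C0 ^ 2 ≤ 2 * c2 q ^ 2 * C0 ^ 2 / s := by
      rw [le_div_iff₀ hs]
      have : 0 ≤ 2 * c2 q ^ 2 * C0 ^ 2 := by positivity
      nlinarith
    calc 1 / s + 16 * q ^ 2 * (1 + K) / s + 2 * c2 q ^ 2 * C0 ^ 2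
        ≤ 1 / s + 16 * q ^ 2 * (1 + K) / s + 2 * c2 q ^ 2 * C0 ^ 2 / s := by linarith
      _ = _ := by ring
  have m3 : KJ C0 p / s / 2 * D = (KJ C0 p / s * D) / 2 := by ring
  rw [m3] at m2
  linarith

end Crest.Agent.R213.C.EN
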