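import Crest.Agent.R213.C.AlgAdd
import Crest.Agent.R213.J0bK

/-!
# Row 213, part C7: the nonlinear iteration

From a linear solver with bounds (`hlin`) and the estimates of the nonlinearity `hnl b = η b²/(1+b)`
we construct the sequence `δ i`.
-/

set_option autoImplicit false

open Set MeasureTheory Filter Topology

noncomputable section

namespace Crest.Agent.R213.C

/-- the nonlinearity `η b² / (1+b)` -/
def hnl (b : ℝ → ℝ → ℝ) : ℝ → ℝ → ℝ := fun t x => eta t * ((b t x) ^ 2 / (1 + b t x))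

theorem phi_hNL (L : ℝ) (φ δ : ℝ → ℝ → ℝ) (τ x : ℝ) :
    φ τ x * hNL L φ eta δ τ x = hnl (bb L φ δ) τ x := by
  unfold hNL hnl bb
  ring

theorem Sm.union {L : ℝ} {s₁ s₂ s : Set ℝ} {u : ℝ → ℝ → ℝ} (h₁ : IsOpen s₁) (h₂ : IsOpen s₂)
    (hs : s ⊆ s₁ ∪ s₂) (hu₁ : Sm s₁ L u) (hu₂ : Sm s₂ L u) : Sm s L u := by
  intro p hp
  rcases hs hp.1 with h | h
  · refine (hu₁ p ⟨h, hp.2⟩).mono_of_mem_nhdsWithin ?_
    exact mem_nhdsWithin.2 ⟨s₁ ×ˢ univ, h₁.prod isOpen_univ, ⟨h, mem_univ _⟩,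
      fun q hq => ⟨hq.1.1, hq.2.2⟩⟩
  · refine (hu₂ p ⟨h, hp.2⟩).mono_of_mem_nhdsWithin ?_
    exact mem_nhdsWithin.2 ⟨s₂ ×ˢ univ, h₂.prod isOpen_univ, ⟨h, mem_univ _⟩,
      fun q hq => ⟨hq.1.1, hq.2.2⟩⟩

theorem Bg.sm_phi {c0 C0 : ℝ} {g : ℝ → ℝ} {L : ℝ} {φ m : ℝ → ℝ → ℝ} (hB : Bg c0 C0 g L φ m) :
    Sm (Ioo (0 : ℝ) 1) L φ := by
  have h1 : Sm (Ioo (0 : ℝ) 1) L (fun τ x => x * (1 - x / L) * m τ x) := by
    refine Sm.mul (Sm.mul Sm.snd ?_) hB.sm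
    exact Sm.of_right (f := fun x => 1 - x / L) (by fun_prop)
  exact h1.congr hB.phi_eq

section

variable {c0 C0 : ℝ} {g : ℝ → ℝ} {L : ℝ} {φ m δ d : ℝ → ℝ → ℝ}

theorem bb_sm (hB : Bg c0 C0 g L φ m) (hδ : Sm (Ioo (0 : ℝ) 1) L δ) :
    Sm (Ioo (0 : ℝ) 1) L (bb L φ δ) := by
  have hL : 0 < L := by linarith [hB.L_ge]
  exact (Bg.sm_phi hB).mul ((hδ.dx isOpen_Ioo hL).dx isOpen_Ioo hL)

theorem half_sub : Ioo (0 : ℝ) (1 / 2) ⊆ Ioo (0 : ℝ) 1 := Ioo_subset_Ioo_right (by norm_num)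

theorem hNL_sm (hB : Bg c0 C0 g L φ m) (hδ : Sm (Ioo (0 : ℝ) 1) L δ)
    (hb : ∀ τ ∈ Ioo (0 : ℝ) (1 / 2), ∀ x ∈ Icc 0 L, |bb L φ δ τ x| ≤ 1 / 2) :
    Sm (Ioo (0 : ℝ) 1) L (hNL L φ eta δ) := by
  have hL : 0 < L := by linarith [hB.L_ge]
  have hdd : Sm (Ioo (0 : ℝ) 1) L (dx L (dx L δ)) := (hδ.dx isOpen_Ioo hL).dx isOpen_Ioo hL
  refine Sm.union (s₁ := Ioo (0 : ℝ) (1 / 2)) (s₂ := Ioo (3 / 8 : ℝ) 1) isOpen_Ioo isOpen_Ioo ?_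
    ?_ ?_
  · intro τ hτ
    rcases lt_or_ge τ (1 / 2) with h | h
    · exact Or.inl ⟨hτ.1, h⟩
    · exact Or.inr ⟨by linarith, hτ.2⟩
  · have h1 : Sm (Ioo (0 : ℝ) (1 / 2)) L (fun τ x => φ τ x * (dx L (dx L δ) τ x) ^ 2) :=
      ((Bg.sm_phi hB).mul (hdd.pow 2)).mono half_sub
    refine (Sm.of_left eta_contDiff.contDiffOn).mul
      (h1.div ((Sm.const 1).add ((bb_sm hB hδ).mono half_sub)) ?_)
    intro τ hτ x hx
    have := (abs_le.1 (hb τ hτ x hx)).1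
    unfold bb at this
    intro h0
    linarith
  · refine Sm.congr (Sm.const 0) ?_
    intro τ hτ x hx
    unfold hNL
    rw [eta_zero hτ.1.le]
    simp

theorem dxdx_add (hL : 0 < L) (h1 : Sm (Ioo (0 : ℝ) 1) L δ) (h2 : Sm (Ioo (0 : ℝ) 1) L d)
    {τ x : ℝ} (hτ : τ ∈ Ioo (0 : ℝ) 1) (hx : x ∈ Icc 0 L) :
    dx L (dx L (fun t x => δ t x + d t x)) τ x = dx L (dx L δ) τ x + dx L (dx L d) τ x := by
  have e1 : dx L (dx L (fun t x => δ t x + d t x)) τ x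
      = dx L (fun t x => dx L δ t x + dx L d t x) τ x :=
    dx_congr (fun y hy => h1.dx_add h2 hL hτ hy) hx
  rw [e1]
  exact (h1.dx isOpen_Ioo hL).dx_add (h2.dx isOpen_Ioo hL) hL hτ hx

theorem bb_add (hL : 0 < L) (h1 : Sm (Ioo (0 : ℝ) 1) L δ) (h2 : Sm (Ioo (0 : ℝ) 1) L d)
    {τ x : ℝ} (hτ : τ ∈ Ioo (0 : ℝ) 1) (hx : x ∈ Icc 0 L) :
    bb L φ (fun t x => δ t x + d t x) τ x = bb L φ δ τ x + bb L φ d τ x := by
  unfold bb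
  rw [dxdx_add hL h1 h2 hτ hx]
  ring

theorem LinEq.add (hL : 0 < L) {E E' ht ht' : ℝ → ℝ → ℝ} (h1 : Sm (Ioo (0 : ℝ) 1) L δ)
    (h2 : Sm (Ioo (0 : ℝ) 1) L d) (hE : Sm (Ioo (0 : ℝ) 1) L E) (hE' : Sm (Ioo (0 : ℝ) 1) L E')
    (e1 : LinEq L φ E ht δ) (e2 : LinEq L φ E' ht' d) :
    LinEq L φ (fun t x => E t x + E' t x) (fun t x => ht t x + ht' t x)
      (fun t x => δ t x + d t x) := by
  intro τ hτ x hx
  have a1 := e1 τ hτ x hx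
  have a2 := e2 τ hτ x hx
  rw [dxdx_add hL h1 h2 hτ hx]
  have hK : Kint (fun ξ => (E τ ξ + E' τ ξ) + dt (fun t x => δ t x + d t x) τ ξ) x
      = Kint (fun ξ => E τ ξ + dt δ τ ξ) x + Kint (fun ξ => E' τ ξ + dt d τ ξ) x := by
    have c1 : ContinuousOn (fun ξ => E τ ξ + dt δ τ ξ) (Icc 0 L) :=
      (hE.continuousOn_right hτ).add ((h1.dt isOpen_Ioo hL).continuousOn_right hτ)
    have c2 : ContinuousOn (fun ξ => E' τ ξ + dt d τ ξ) (Icc 0 L) :=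
      (hE'.continuousOn_right hτ).add ((h2.dt isOpen_Ioo hL).continuousOn_right hτ)
    rw [← Kint_add c1 c2 hx]
    refine Kint_congr hx ?_
    intro ξ hξ
    rw [h1.dt_add h2 isOpen_Ioo hτ hξ]
    ring
  rw [hK, ← a1, ← a2]
  ring

/-- zero function -/
theorem dtz_iter (j : ℕ) (τ x : ℝ) : (dt^[j] (fun _ _ => (0 : ℝ))) τ x = 0 := by
  rw [dt_iter_eq]
  simp

theorem NB_zero {κ L : ℝ} {u : ℝ → ℝ → ℝ} (h : ∀ t x, u t x = 0) : NB κ L 0 u := by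
  have hu : u = fun _ _ => 0 := by
    funext t x
    exact h t x
  subst hu
  refine ⟨Sm.const 0, ?_, ?_⟩
  · intro j hj τ hτ x hx
    rw [dtz_iter]
    simp
  · intro j hj
    unfold N2T
    refine le_trans (le_of_eq ?_) bot_le
    have : ∀ p : ℝ × ℝ, ENNReal.ofReal (WJ κ j p.1 p.2 * p.2 ^ 9
        * ((dt^[j] (fun _ _ => (0 : ℝ))) p.1 p.2) ^ 2) = 0 := by
      intro p
      rw [dtz_iter]
      simp
    simp only [this, lintegral_zero]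
    rfl

/-- linear solver with bounds, for a fixed background -/
def LinFix (κ L K : ℝ) (φ : ℝ → ℝ → ℝ) : Prop :=
  ∀ E ht : ℝ → ℝ → ℝ, Sm (Ioo (0 : ℝ) 1) L E → Sm (Ioo (0 : ℝ) 1) L ht →
    ∀ N e : ℝ, 0 ≤ N → 0 ≤ e →
    (∀ τ, 3 / 8 ≤ τ → ∀ x ∈ Icc 0 L, ht τ x = 0) →
    NB κ L N (fun τ x => φ τ x * ht τ x) →
    (∀ τ ∈ Ioo (0 : ℝ) 1, ∀ x ∈ Icc (0 : ℝ) 1, E τ x = 0) →
    (∀ j ≤ 9, ∀ τ ∈ Ioo (0 : ℝ) 1, ∀ x ∈ Icc 0 L, |(dt^[j] E) τ x| ≤ e) →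
    ∃ δ : ℝ → ℝ → ℝ, Sm (Ioo (0 : ℝ) 1) L δ ∧ NB κ L (K * (N + e)) (bb L φ δ) ∧
      DB L (K * (N + e)) δ ∧
      LinEq L φ E ht δ

/-- estimates for the nonlinearity, for fixed `L` -/
structure HHFix (κ L K : ℝ) : Prop where
  bd : ∀ N : ℝ, 0 < N → N ≤ 1 → ∀ b : ℝ → ℝ → ℝ, NB κ L N b →
    (∀ τ ∈ Ioo (0 : ℝ) (1 / 2), ∀ x ∈ Icc 0 L, |b τ x| ≤ 1 / 2) →
    NB κ L (K * N ^ 2) (hnl b)
  diff : ∀ N M : ℝ, 0 < N → N ≤ 1 → 0 < M → ∀ b b' : ℝ → ℝ → ℝ, NB κ L N b → NB κ L N b' →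
    (∀ τ ∈ Ioo (0 : ℝ) (1 / 2), ∀ x ∈ Icc 0 L, |b τ x| ≤ 1 / 2) →
    (∀ τ ∈ Ioo (0 : ℝ) (1 / 2), ∀ x ∈ Icc 0 L, |b' τ x| ≤ 1 / 2) →
    NB κ L M (fun t x => b t x - b' t x) →
    NB κ L (K * N * M) (fun t x => hnl b t x - hnl b' t x)

/-- invariant of the iteration (`a = K e`) -/
structure Inv (κ L a : ℝ) (φ E : ℝ → ℝ → ℝ) (i : ℕ) (δ δ' : ℝ → ℝ → ℝ) : Prop where
  sm : Sm (Ioo (0 : ℝ) 1) L δ
  sm' : Sm (Ioo (0 : ℝ) 1) L δ'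
  nb : NB κ L (2 * a - a / 2 ^ i) (bb L φ δ)
  nbd : NB κ L (a / 2 ^ (i + 1)) (fun τ x => bb L φ δ' τ x - bb L φ δ τ x)
  low : DB L (2 * a - a / 2 ^ i) δ
  lowd : DB L (a / 2 ^ (i + 1)) (fun t x => δ' t x - δ t x)
  eq : LinEq L φ E (hNL L φ eta δ) δ'

theorem A_succ (a : ℝ) (i : ℕ) :
    (2 * a - a / 2 ^ i) + a / 2 ^ (i + 1) = 2 * a - a / 2 ^ (i + 1) := by
  rw [pow_succ]
  field_simp
  ring

theorem Inv.nb' {κ a : ℝ} {E δ' : ℝ → ℝ → ℝ} {i : ℕ} (hL : 0 < L) (ha : 0 < a)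
    (h : Inv κ L a φ E i δ δ') : NB κ L (2 * a - a / 2 ^ (i + 1)) (bb L φ δ') := by
  have hA : 0 < 2 * a - a / 2 ^ i := by
    have : a / 2 ^ i ≤ a := div_le_self ha.le (one_le_pow₀ (by norm_num))
    linarith
  have := NB.add hL hA (by positivity) h.nb h.nbd
  rw [A_succ] at this
  refine this.congr ?_
  intro τ _ x _
  ring

theorem DB.mono {N N' : ℝ} {u : ℝ → ℝ → ℝ} (h : DB L N u) (hN : N ≤ N') : DB L N' u := by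
  intro j hj τ hτ x hx
  exact (h j hj τ hτ x hx).trans
    (mul_le_mul_of_nonneg_right hN (pow_nonneg (rho_pos hx.1 hτ.1).le _))

theorem Inv.low' {κ a : ℝ} {E δ' : ℝ → ℝ → ℝ} {i : ℕ}
    (h : Inv κ L a φ E i δ δ') : DB L (2 * a - a / 2 ^ (i + 1)) δ' := by
  intro j hj τ hτ x hx
  have h1 := h.low j hj τ hτ x hx
  have h2 := h.lowd j hj τ hτ x hx
  rw [dt_iter_sub isOpen_Ioo h.sm' h.sm (half_sub hτ) hx j] at h2
  have h3 : |(dt^[j] δ') τ x| ≤ |(dt^[j] δ) τ x| + |(dt^[j] δ') τ x - (dt^[j] δ) τ x| := by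
    have := abs_add_le ((dt^[j] δ) τ x) ((dt^[j] δ') τ x - (dt^[j] δ) τ x)
    simpa using this
  have h4 : 0 ≤ (x ^ 2 + τ) ^ j := pow_nonneg (rho_pos hx.1 hτ.1).le _
  have h5 := mul_le_mul_of_nonneg_right h3 h4
  rw [← A_succ, add_mul]
  linarith

theorem hNL_zero_of_ge {τ x : ℝ} (h : 3 / 8 ≤ τ) : hNL L φ eta δ τ x = 0 := by
  unfold hNL
  rw [eta_zero h]
  simp

theorem small_of_NB {κ a K N : ℝ} {b : ℝ → ℝ → ℝ} (hKL : (L ^ 2 + 1) ^ 25 ≤ K)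
    (hN0 : 0 ≤ N) (hN : N ≤ 2 * a) (haK : 2 * a * K ≤ 1 / 20) (hb : NB κ L N b) :
    ∀ τ ∈ Ioo (0 : ℝ) (1 / 2), ∀ x ∈ Icc 0 L, |b τ x| ≤ 1 / 20 := by
  intro τ hτ x hx
  have h1 := hb.pb.abs_le hN0 hτ hx
  have hK : 0 ≤ K := le_trans (by positivity) hKL
  calc |b τ x| ≤ N * (L ^ 2 + 1) ^ 25 := h1
    _ ≤ N * K := by gcongr
    _ ≤ 2 * a * K := by gcongr
    _ ≤ 1 / 20 := haK

theorem Inv.step {κ K e : ℝ} {E δ' : ℝ → ℝ → ℝ} {i : ℕ} (hB : Bg c0 C0 g L φ m)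
    (hK : 1 ≤ K) (he : 0 < e) (hKe : 40 * K ^ 3 * e ≤ 1) (hKL : (L ^ 2 + 1) ^ 25 ≤ K)
    (hlin : LinFix κ L K φ) (hhh : HHFix κ L K) (hE : Sm (Ioo (0 : ℝ) 1) L E)
    (h : Inv κ L (K * e) φ E i δ δ') :
    ∃ δ'' : ℝ → ℝ → ℝ, Inv κ L (K * e) φ E (i + 1) δ' δ'' := by
  have hL : 0 < L := by linarith [hB.L_ge]
  set a : ℝ := K * e with ha_def
  have ha : 0 < a := by positivity
  have hpow : ∀ k : ℕ, (1 : ℝ) ≤ 2 ^ k := fun k => one_le_pow₀ (by norm_num)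
  have hdiv : ∀ k : ℕ, a / 2 ^ k ≤ a := fun k => div_le_self ha.le (hpow k)
  have hdiv0 : ∀ k : ℕ, 0 < a / 2 ^ k := fun k => by positivity
  have hA0 : ∀ k : ℕ, 0 < 2 * a - a / 2 ^ k := fun k => by linarith [hdiv k]
  have hA2 : ∀ k : ℕ, 2 * a - a / 2 ^ k ≤ 2 * a := fun k => by linarith [hdiv0 k]
  have hKK : K ≤ K ^ 3 := by
    calc K = K ^ 1 := (pow_one K).symm
      _ ≤ K ^ 3 := pow_le_pow_right₀ hK (by norm_num)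
  have hKK2 : K ^ 2 ≤ K ^ 3 := pow_le_pow_right₀ hK (by norm_num)
  have haK : 2 * a * K ≤ 1 / 20 := by
    have : K ^ 2 * e ≤ K ^ 3 * e := by gcongr
    have e1 : 2 * a * K = 2 * (K ^ 2 * e) := by rw [ha_def]; ring
    rw [e1]
    nlinarith
  have ha1 : 2 * a ≤ 1 := by
    have : 2 * a * 1 ≤ 2 * a * K := by gcongr
    linarith
  have nb' := h.nb' hL ha
  have sδ := small_of_NB hKL (hA0 i).le (hA2 i) haK h.nb
  have sδ' := small_of_NB hKL (hA0 (i + 1)).le (hA2 (i + 1)) haK nb'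
  have sδh : ∀ τ ∈ Ioo (0 : ℝ) (1 / 2), ∀ x ∈ Icc 0 L, |bb L φ δ τ x| ≤ 1 / 2 :=
    fun τ hτ x hx => (sδ τ hτ x hx).trans (by norm_num)
  have sδh' : ∀ τ ∈ Ioo (0 : ℝ) (1 / 2), ∀ x ∈ Icc 0 L, |bb L φ δ' τ x| ≤ 1 / 2 :=
    fun τ hτ x hx => (sδ' τ hτ x hx).trans (by norm_num)
  have smH := hNL_sm hB h.sm sδh
  have smH' := hNL_sm hB h.sm' sδh'
  have nbh : NB κ L (K * (2 * a) * (a / 2 ^ (i + 1)))
      (fun t x => hnl (bb L φ δ') t x - hnl (bb L φ δ) t x) :=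
    hhh.diff (2 * a) (a / 2 ^ (i + 1)) (by positivity) ha1 (hdiv0 _) _ _
      (nb'.mono (hA0 _).le (hA2 _)) (h.nb.mono (hA0 _).le (hA2 _)) sδh' sδh h.nbd
  obtain ⟨d, dsm, dnb, dlow, deq⟩ := hlin (fun _ _ => 0)
    (fun t x => hNL L φ eta δ' t x - hNL L φ eta δ t x) (Sm.const 0) (smH'.sub smH)
    (K * (2 * a) * (a / 2 ^ (i + 1))) 0 (by positivity) le_rfl
    (fun τ hτ x hx => by
      rw [hNL_zero_of_ge hτ, hNL_zero_of_ge hτ, sub_zero])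
    (nbh.congr (fun τ _ x _ => by rw [mul_sub, phi_hNL, phi_hNL]))
    (fun _ _ _ _ => rfl)
    (fun j _ τ _ x _ => by rw [dtz_iter]; simp)
  have hN : K * (K * (2 * a) * (a / 2 ^ (i + 1)) + 0) ≤ a / 2 ^ (i + 1 + 1) := by
    have e1 : K * (K * (2 * a) * (a / 2 ^ (i + 1)) + 0)
        = (2 * (K ^ 3 * e)) * (a / 2 ^ (i + 1)) := by rw [ha_def]; ring
    have e2 : a / 2 ^ (i + 1 + 1) = (1 / 2) * (a / 2 ^ (i + 1)) := by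
      rw [pow_succ 2 (i + 1)]
      field_simp
    rw [e1, e2]
    refine mul_le_mul_of_nonneg_right ?_ (hdiv0 _).le
    linarith
  have hN0 : 0 ≤ K * (K * (2 * a) * (a / 2 ^ (i + 1)) + 0) := by positivity
  refine ⟨fun t x => δ' t x + d t x, ?_⟩
  refine ⟨h.sm', h.sm'.add dsm, nb', ?_, h.low', ?_, ?_⟩
  · refine (dnb.mono hN0 hN).congr ?_
    intro τ hτ x hx
    rw [bb_add hL h.sm' dsm (half_sub hτ) hx]
    ring
  · have e1 : (fun t x => δ' t x + d t x - δ' t x) = d := by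
      funext t x
      ring
    rw [e1]
    exact dlow.mono hN
  · have := LinEq.add hL h.sm' dsm hE (Sm.const 0) h.eq deq
    intro τ hτ x hx
    have h2 := this τ hτ x hx
    simp only [add_zero] at h2
    rw [← h2]
    ring

theorem Inv.base {κ K e : ℝ} {E : ℝ → ℝ → ℝ} (hB : Bg c0 C0 g L φ m)
    (hK : 1 ≤ K) (he : 0 < e) (hKe : 40 * K ^ 3 * e ≤ 1) (hKL : (L ^ 2 + 1) ^ 25 ≤ K)
    (hlin : LinFix κ L K φ) (hhh : HHFix κ L K) (hE : Sm (Ioo (0 : ℝ) 1) L E)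
    (hE1 : ∀ τ ∈ Ioo (0 : ℝ) 1, ∀ x ∈ Icc (0 : ℝ) 1, E τ x = 0)
    (hE9 : ∀ j ≤ 9, ∀ τ ∈ Ioo (0 : ℝ) 1, ∀ x ∈ Icc 0 L, |(dt^[j] E) τ x| ≤ e) :
    ∃ δ δ' : ℝ → ℝ → ℝ, Inv κ L (K * e) φ E 0 δ δ' ∧ LinEq L φ E (fun _ _ => 0) δ := by
  have hL : 0 < L := by linarith [hB.L_ge]
  set a : ℝ := K * e with ha_def
  have ha : 0 < a := by positivity
  have hKK2 : K ^ 2 ≤ K ^ 3 := pow_le_pow_right₀ hK (by norm_num)
  have haK : 2 * a * K ≤ 1 / 20 := by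
    have : K ^ 2 * e ≤ K ^ 3 * e := by gcongr
    have e1 : 2 * a * K = 2 * (K ^ 2 * e) := by rw [ha_def]; ring
    rw [e1]
    nlinarith
  have ha1 : a ≤ 1 := by
    have : 2 * a * 1 ≤ 2 * a * K := by gcongr
    linarith
  obtain ⟨δ, sm, nb, low, eq0⟩ := hlin E (fun _ _ => 0) hE (Sm.const 0) 0 e le_rfl he.le
    (fun _ _ _ _ => rfl) (NB_zero (fun t x => by simp)) hE1 hE9
  rw [zero_add] at nb low
  have sδ := small_of_NB hKL ha.le (by linarith) haK nb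
  have sδh : ∀ τ ∈ Ioo (0 : ℝ) (1 / 2), ∀ x ∈ Icc 0 L, |bb L φ δ τ x| ≤ 1 / 2 :=
    fun τ hτ x hx => (sδ τ hτ x hx).trans (by norm_num)
  have smH := hNL_sm hB sm sδh
  have nbh := hhh.bd a ha ha1 _ nb sδh
  obtain ⟨d, dsm, dnb, dlow, deq⟩ := hlin (fun _ _ => 0) (hNL L φ eta δ) (Sm.const 0) smH
    (K * a ^ 2) 0 (by positivity) le_rfl
    (fun τ hτ x hx => hNL_zero_of_ge hτ)
    (nbh.congr (fun τ _ x _ => phi_hNL L φ δ τ x))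
    (fun _ _ _ _ => rfl)
    (fun j _ τ _ x _ => by rw [dtz_iter]; simp)
  have hN : K * (K * a ^ 2 + 0) ≤ a / 2 ^ (0 + 1) := by
    have e1 : K * (K * a ^ 2 + 0) = (K ^ 3 * e) * a := by rw [ha_def]; ring
    have e2 : a / 2 ^ (0 + 1) = (1 / 2) * a := by
      norm_num
      ring
    rw [e1, e2]
    refine mul_le_mul_of_nonneg_right ?_ ha.le
    linarith
  have hN0 : 0 ≤ K * (K * a ^ 2 + 0) := by positivity
  have eA : 2 * a - a / 2 ^ 0 = a := by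
    norm_num
    ring
  refine ⟨δ, fun t x => δ t x + d t x, ⟨sm, sm.add dsm, ?_, ?_, ?_, ?_, ?_⟩, eq0⟩
  · rw [eA]
    exact nb
  · refine (dnb.mono hN0 hN).congr ?_
    intro τ hτ x hx
    rw [bb_add hL sm dsm (half_sub hτ) hx]
    ring
  · rw [eA]
    exact low
  · have e1 : (fun t x => δ t x + d t x - δ t x) = d := by
      funext t x
      ring
    rw [e1]
    exact dlow.mono hN
  · have := LinEq.add hL sm dsm hE (Sm.const 0) eq0 deq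
    intro τ hτ x hx
    have h2 := this τ hτ x hx
    simp only [add_zero, zero_add] at h2
    rw [← h2]

theorem iter_exists {κ K e : ℝ} {E : ℝ → ℝ → ℝ} (hB : Bg c0 C0 g L φ m)
    (hK : 1 ≤ K) (he : 0 < e) (hKe : 40 * K ^ 3 * e ≤ 1) (hKL : (L ^ 2 + 1) ^ 25 ≤ K)
    (hlin : LinFix κ L K φ) (hhh : HHFix κ L K) (hE : Sm (Ioo (0 : ℝ) 1) L E)
    (hE1 : ∀ τ ∈ Ioo (0 : ℝ) 1, ∀ x ∈ Icc (0 : ℝ) 1, E τ x = 0)
    (hE9 : ∀ j ≤ 9, ∀ τ ∈ Ioo (0 : ℝ) 1, ∀ x ∈ Icc 0 L, |(dt^[j] E) τ x| ≤ e) :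
    ∃ δ : ℕ → ℝ → ℝ → ℝ, Iter κ L φ E eta δ := by
  obtain ⟨δ0, δ1, h0, heq0⟩ := Inv.base hB hK he hKe hKL hlin hhh hE hE1 hE9
  let T : ℕ → Type := fun i =>
    {p : (ℝ → ℝ → ℝ) × (ℝ → ℝ → ℝ) // Inv κ L (K * e) φ E i p.1 p.2}
  let stp : ∀ i, T i → T (i + 1) := fun i p =>
    ⟨(p.1.2, Classical.choose (Inv.step hB hK he hKe hKL hlin hhh hE p.2)),
      Classical.choose_spec (Inv.step hB hK he hKe hKL hlin hhh hE p.2)⟩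
  let sq : ∀ i, T i := fun i => Nat.rec (motive := T) ⟨(δ0, δ1), h0⟩ stp i
  let δ : ℕ → ℝ → ℝ → ℝ := fun i => (sq i).1.1
  have hinv : ∀ i, Inv κ L (K * e) φ E i (δ i) (δ (i + 1)) := fun i => (sq i).2
  have hL : 0 < L := by linarith [hB.L_ge]
  set a : ℝ := K * e with ha_def
  have ha : 0 < a := by positivity
  have hdiv : ∀ k : ℕ, a / 2 ^ k ≤ a := fun k => div_le_self ha.le (one_le_pow₀ (by norm_num))
  have hdiv0 : ∀ k : ℕ, 0 < a / 2 ^ k := fun k => by positivity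
  have hA0 : ∀ k : ℕ, 0 < 2 * a - a / 2 ^ k := fun k => by linarith [hdiv k]
  have hA2 : ∀ k : ℕ, 2 * a - a / 2 ^ k ≤ 2 * a := fun k => by linarith [hdiv0 k]
  have hKK2 : K ^ 2 ≤ K ^ 3 := pow_le_pow_right₀ hK (by norm_num)
  have haK : 2 * a * K ≤ 1 / 20 := by
    have : K ^ 2 * e ≤ K ^ 3 * e := by gcongr
    have e1 : 2 * a * K = 2 * (K ^ 2 * e) := by rw [ha_def]; ring
    rw [e1]
    nlinarith
  have ha1 : 2 * a ≤ 1 := by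
    have : 2 * a * 1 ≤ 2 * a * K := by gcongr
    linarith
  have hAone : ∀ k : ℕ, 2 * a - a / 2 ^ k ≤ 1 := fun k => (hA2 k).trans ha1
  have hDone : ∀ k : ℕ, a / 2 ^ (k + 1) ≤ (1 / 2) ^ k := by
    intro k
    rw [div_eq_mul_inv, pow_succ, mul_inv, one_div, inv_pow]
    have h2 : (0 : ℝ) < (2 ^ k)⁻¹ := by positivity
    nlinarith
  refine ⟨δ, ⟨fun i => (hinv i).sm, heq0, fun i => (hinv i).eq,
    fun i => small_of_NB hKL (hA0 i).le (hA2 i) haK (hinv i).nb,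
    fun i => (hinv i).nb.pb.mono (hAone i), fun i => (hinv i).nb.qb.mono (hA0 i).le (hAone i),
    fun i => (hinv i).low.mono (hAone i), fun i => (hinv i).nbd.pb.mono (hDone i),
    fun i => (hinv i).lowd.mono (hDone i)⟩⟩

end

end Crest.Agent.R213.C
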