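import Crest.Agent.R213.C.Algebra
import Crest.Agent.R213.J0bK

/-!
# Row 213, part C7: the iteration
-/

set_option autoImplicit false

open Set MeasureTheory Filter Topology

noncomputable section

namespace Crest.Agent.R213.C

variable {c0 C0 κ L N N' ε : ℝ} {g η : ℝ → ℝ} {φ m E u v : ℝ → ℝ → ℝ}

/-- the body of `lin_est` -/
def LinEst (c0 C0 : ℝ) (g : ℝ → ℝ) (κ L2 C : ℝ) (q : ℕ) : Prop :=
  ∀ L ≥ L2, ∀ φ m : ℝ → ℝ → ℝ, Bg c0 C0 g L φ m →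
      ∀ E ht : ℝ → ℝ → ℝ, Sm (Ioo 0 1) L E → Sm (Ioo 0 1) L ht →
      (∀ τ ∈ Ioo (0 : ℝ) 1, 3 / 8 ≤ τ → ∀ x ∈ Icc 0 L, ht τ x = 0) →
      (∀ τ ∈ Ioo (0 : ℝ) 1, ∀ x ∈ Icc (0 : ℝ) 1, E τ x = 0) →
      ∀ N e : ℝ, 0 ≤ N → 0 ≤ e →
      PB L N (fun τ x => φ τ x * ht τ x) → QB κ L N (fun τ x => φ τ x * ht τ x) →
      (∀ j ≤ 9, ∀ τ ∈ Ioo (0 : ℝ) 1, ∀ x ∈ Icc 0 L, |(dt^[j] E) τ x| ≤ e) →
      ∃ δ : ℝ → ℝ → ℝ, Sm (Ioo 0 1) L δ ∧ LinEq L φ E ht δ ∧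
        PB L (C * L ^ q * (N + e)) (bb L φ δ) ∧ QB κ L (C * L ^ q * (N + e)) (bb L φ δ) ∧
        DB L (C * L ^ q * (N + e)) δ

/-- the body of `alg_nl` -/
def NLEst (κ : ℝ) (η : ℝ → ℝ) (C : ℝ) (q : ℕ) : Prop :=
  ∀ L ≥ (8 : ℝ), ∀ b b' : ℝ → ℝ → ℝ,
      Sm (Ioo 0 (1 / 2)) L b → Sm (Ioo 0 (1 / 2)) L b' →
      (∀ τ ∈ Ioo (0 : ℝ) (1 / 2), ∀ x ∈ Icc 0 L, |b τ x| ≤ 1 / 2) →
      (∀ τ ∈ Ioo (0 : ℝ) (1 / 2), ∀ x ∈ Icc 0 L, |b' τ x| ≤ 1 / 2) →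
      ∀ N A : ℝ, 0 ≤ N → N ≤ 1 → 0 ≤ A →
      PB L N b → QB κ L N b → PB L N b' → QB κ L N b' →
      PB L A (fun τ x => b τ x - b' τ x) → QB κ L A (fun τ x => b τ x - b' τ x) →
        PB L (C * L ^ q * N * A) (fun τ x => η τ * (b τ x ^ 2 / (1 + b τ x)) -
          η τ * (b' τ x ^ 2 / (1 + b' τ x))) ∧
        QB κ L (C * L ^ q * N * A) (fun τ x => η τ * (b τ x ^ 2 / (1 + b τ x)) -
          η τ * (b' τ x ^ 2 / (1 + b' τ x)))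

/-! ### congruence and sums -/

theorem PB.congrI (hu : PB L N u)
    (h : ∀ τ ∈ Ioo (0 : ℝ) (1 / 2), ∀ x ∈ Icc 0 L, v τ x = u τ x) : PB L N v := by
  intro j hj τ hτ x hx
  rw [dt_iter_congr_half h hτ hx]
  exact hu j hj τ hτ x hx

theorem DB.congrI (hu : DB L N u)
    (h : ∀ τ ∈ Ioo (0 : ℝ) (1 / 2), ∀ x ∈ Icc 0 L, v τ x = u τ x) : DB L N v := by
  intro j hj τ hτ x hx
  rw [dt_iter_congr_half h hτ hx]
  exact hu j hj τ hτ x hx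

theorem QB.congrI (hu : QB κ L N u)
    (h : ∀ τ ∈ Ioo (0 : ℝ) (1 / 2), ∀ x ∈ Icc 0 L, v τ x = u τ x) : QB κ L N v := by
  intro j hj
  refine le_trans (le_of_eq ?_) (hu j hj)
  refine setLIntegral_congr_fun (measurableSet_Rg L) ?_
  intro p hp
  simp only
  rw [dt_iter_congr_half h hp.1 (Ioo_subset_Icc_self hp.2)]

theorem DB.monoI (h : DB L N u) (hN : N ≤ N') : DB L N' u := by
  intro j hj τ hτ x hx
  exact (h j hj τ hτ x hx).trans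
    (mul_le_mul_of_nonneg_right hN (pow_nonneg (rho_pos hx.1 hτ.1).le _))

theorem DB.addI (hus : Sm (Ioo 0 (1 / 2)) L u) (hvs : Sm (Ioo 0 (1 / 2)) L v)
    (hu : DB L N u) (hv : DB L N' v) : DB L (N + N') (fun τ x => u τ x + v τ x) := by
  intro j hj τ hτ x hx
  rw [dt_iter_add isOpen_Ioo hus hvs hτ hx]
  have h1 := hu j hj τ hτ x hx
  have h2 := hv j hj τ hτ x hx
  have h3 : 0 ≤ (x ^ 2 + τ) ^ j := pow_nonneg (rho_pos hx.1 hτ.1).le _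
  calc |(dt^[j] u) τ x + (dt^[j] v) τ x| * (x ^ 2 + τ) ^ j
      ≤ (|(dt^[j] u) τ x| + |(dt^[j] v) τ x|) * (x ^ 2 + τ) ^ j :=
        mul_le_mul_of_nonneg_right (abs_add_le _ _) h3
    _ ≤ (N + N') * (x ^ 2 + τ) ^ 25 := by rw [add_mul, add_mul]; exact add_le_add h1 h2

/-! ### The equation is linear -/

theorem Bg_posI (hB : Bg c0 C0 g L φ m) : 0 < L := by
  have := hB.L_ge
  linarith

theorem Bg_sm_phiI (hB : Bg c0 C0 g L φ m) : Sm (Ioo 0 1) L φ := by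
  have h1 : Sm (Ioo 0 1) L (fun τ x => x * (1 - x / L) * m τ x) := by
    refine Sm.mul ?_ hB.sm
    exact Sm.mul Sm.snd (Sm.sub (Sm.const 1) (Sm.div Sm.snd (Sm.const L)
      (fun _ _ _ _ => (Bg_posI hB).ne')))
  exact h1.congr hB.phi_eq

theorem half_subsetI : Ioo (0 : ℝ) (1 / 2) ⊆ Ioo (0 : ℝ) 1 :=
  Ioo_subset_Ioo_right (by norm_num)

theorem sm_bbI (hL : 0 < L) (hφ : Sm (Ioo 0 1) L φ) (hu : Sm (Ioo 0 1) L u) :
    Sm (Ioo 0 1) L (bb L φ u) :=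
  hφ.mul ((hu.dx isOpen_Ioo hL).dx isOpen_Ioo hL)

theorem dxdx_addI (hL : 0 < L) (hu : Sm (Ioo 0 1) L u) (hv : Sm (Ioo 0 1) L v) {τ x : ℝ}
    (hτ : τ ∈ Ioo (0 : ℝ) 1) (hx : x ∈ Icc 0 L) :
    dx L (dx L (fun τ x => u τ x + v τ x)) τ x = dx L (dx L u) τ x + dx L (dx L v) τ x := by
  rw [dx_congr (u := fun τ x => dx L u τ x + dx L v τ x)
    (fun y hy => Sm.dx_add hu hv hL hτ hy) hx]
  exact Sm.dx_add (hu.dx isOpen_Ioo hL) (hv.dx isOpen_Ioo hL) hL hτ hx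

theorem bb_addI (hL : 0 < L) (hu : Sm (Ioo 0 1) L u) (hv : Sm (Ioo 0 1) L v) {τ x : ℝ}
    (hτ : τ ∈ Ioo (0 : ℝ) 1) (hx : x ∈ Icc 0 L) :
    bb L φ (fun τ x => u τ x + v τ x) τ x = bb L φ u τ x + bb L φ v τ x := by
  unfold bb
  rw [dxdx_addI hL hu hv hτ hx, mul_add]

theorem LinEq.addI {E' ht ht' : ℝ → ℝ → ℝ} (hL : 0 < L) (hE : Sm (Ioo 0 1) L E)
    (hE' : Sm (Ioo 0 1) L E') (hu : Sm (Ioo 0 1) L u) (hv : Sm (Ioo 0 1) L v)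
    (h1 : LinEq L φ E ht u) (h2 : LinEq L φ E' ht' v) :
    LinEq L φ (fun τ x => E τ x + E' τ x) (fun τ x => ht τ x + ht' τ x)
      (fun τ x => u τ x + v τ x) := by
  intro τ hτ x hx
  have e1 := h1 τ hτ x hx
  have e2 := h2 τ hτ x hx
  have hdu := hu.dt isOpen_Ioo hL
  have hdv := hv.dt isOpen_Ioo hL
  have e3 : Kint (fun ξ => (E τ ξ + E' τ ξ) + dt (fun τ x => u τ x + v τ x) τ ξ) x =
      Kint (fun ξ => (E τ ξ + dt u τ ξ) + (E' τ ξ + dt v τ ξ)) x := by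
    refine Kint_congr (L := L) hx ?_
    intro y hy
    rw [Sm.dt_add hu hv isOpen_Ioo hτ hy]
    ring
  rw [e3, Kint_add ((hE.add hdu).continuousOn_right hτ) ((hE'.add hdv).continuousOn_right hτ) hx,
    ← e1, ← e2, dxdx_addI hL hu hv hτ hx]
  ring

theorem LinEq.congrI {E' ht ht' : ℝ → ℝ → ℝ} (h1 : LinEq L φ E ht u)
    (hE : ∀ τ ∈ Ioo (0 : ℝ) 1, ∀ x ∈ Icc 0 L, E' τ x = E τ x)
    (hh : ∀ τ ∈ Ioo (0 : ℝ) 1, ∀ x ∈ Icc 0 L, ht' τ x = ht τ x) :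
    LinEq L φ E' ht' u := by
  intro τ hτ x hx
  rw [hh τ hτ x hx, h1 τ hτ x hx]
  refine Kint_congr (L := L) hx ?_
  intro y hy
  rw [hE τ hτ y hy]

/-! ### The nonlinear term -/

theorem Sm_unionI {s1 s2 : Set ℝ} (h1 : IsOpen s1) (h2 : IsOpen s2) (hu1 : Sm s1 L u)
    (hu2 : Sm s2 L u) : Sm (s1 ∪ s2) L u := by
  intro p hp
  have key : ∀ s : Set ℝ, IsOpen s → Sm s L u → p.1 ∈ s →
      ContDiffWithinAt ℝ (⊤ : ℕ∞) (fun p : ℝ × ℝ => u p.1 p.2) ((s1 ∪ s2) ×ˢ Icc 0 L) p := by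
    intro s hs hus hps
    have h := hus p ⟨hps, hp.2⟩
    refine h.mono_of_mem_nhdsWithin ?_
    rw [mem_nhdsWithin]
    exact ⟨s ×ˢ univ, hs.prod isOpen_univ, ⟨hps, mem_univ _⟩, fun q hq => ⟨hq.1.1, hq.2.2⟩⟩
  rcases hp.1 with h | h
  · exact key s1 h1 hu1 h
  · exact key s2 h2 hu2 h

theorem hNL_zero_of_geI (hη : EtaOK η) {τ x : ℝ} (hτ : 3 / 8 ≤ τ) : hNL L φ η u τ x = 0 := by
  unfold hNL
  rw [hη.eq_zero τ hτ, zero_mul]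

theorem sm_hNLI (hL : 0 < L) (hη : EtaOK η) (hφ : Sm (Ioo 0 1) L φ) (hu : Sm (Ioo 0 1) L u)
    (hb : ∀ τ ∈ Ioo (0 : ℝ) (1 / 2), ∀ x ∈ Icc 0 L, |bb L φ u τ x| ≤ 1 / 2) :
    Sm (Ioo 0 1) L (hNL L φ η u) := by
  have e : Ioo (0 : ℝ) 1 = Ioo (0 : ℝ) (1 / 2) ∪ Ioo (3 / 8 : ℝ) 1 := by
    ext t
    simp only [mem_Ioo, mem_union]
    constructor
    · rintro ⟨h1, h2⟩
      rcases lt_or_ge t (1 / 2) with h | h
      · exact Or.inl ⟨h1, h⟩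
      · exact Or.inr ⟨by linarith, h2⟩
    · rintro (h | h)
      · exact ⟨h.1, by linarith [h.2]⟩
      · exact ⟨by linarith [h.1], h.2⟩
  rw [e]
  refine Sm_unionI isOpen_Ioo isOpen_Ioo ?_ ?_
  · have hφ' : Sm (Ioo 0 (1 / 2)) L φ := hφ.mono half_subsetI
    have hd : Sm (Ioo 0 (1 / 2)) L (dx L (dx L u)) :=
      ((hu.dx isOpen_Ioo hL).dx isOpen_Ioo hL).mono half_subsetI
    have hη' : Sm (Ioo 0 (1 / 2)) L (fun t _ => η t) := Sm.of_left hη.smooth.contDiffOn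
    refine hη'.mul ((hφ'.mul (hd.pow 2)).div ((Sm.const 1).add (hφ'.mul hd)) ?_)
    intro t ht x hx
    have h1 := hb t ht x hx
    have h2 : -(1 / 2) ≤ bb L φ u t x := (abs_le.1 h1).1
    have h3 : bb L φ u t x = φ t x * dx L (dx L u) t x := rfl
    rw [h3] at h2
    have : 0 < 1 + φ t x * dx L (dx L u) t x := by linarith
    exact this.ne'
  · exact (Sm.const 0).congr (fun t ht x _ => hNL_zero_of_geI hη ht.1.le)

theorem phi_hNLI (τ x : ℝ) :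
    φ τ x * hNL L φ η u τ x = η τ * (bb L φ u τ x ^ 2 / (1 + bb L φ u τ x)) := by
  unfold hNL bb
  rw [mul_left_comm, mul_div_assoc']
  ring_nf

theorem dxdx_zeroI (hL : 0 < L) {τ x : ℝ} (hx : x ∈ Icc 0 L) :
    dx L (dx L (fun _ _ => (0 : ℝ))) τ x = 0 := by
  rw [dx_congr (u := fun _ _ => (0 : ℝ)) (fun y hy => dx_const 0 hL hy) hx]
  exact dx_const 0 hL hx

theorem bb_zeroI (hL : 0 < L) {τ x : ℝ} (hx : x ∈ Icc 0 L) :
    bb L φ (fun _ _ => (0 : ℝ)) τ x = 0 := by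
  unfold bb
  rw [dxdx_zeroI hL hx, mul_zero]

theorem hNL_zeroI (hL : 0 < L) {τ x : ℝ} (hx : x ∈ Icc 0 L) :
    hNL L φ η (fun _ _ => (0 : ℝ)) τ x = 0 := by
  unfold hNL
  rw [dxdx_zeroI hL hx]
  simp

theorem dt_iter_zeroI (j : ℕ) (τ x : ℝ) : (dt^[j] (fun _ _ => (0 : ℝ))) τ x = 0 := by
  rw [dt_iter_eq]
  simp

theorem PB.zeroI (hN : 0 ≤ N) : PB L N (fun _ _ => (0 : ℝ)) := by
  intro j _ τ hτ x hx
  rw [dt_iter_zeroI, abs_zero, zero_mul, zero_mul]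
  exact mul_nonneg hN (pow_nonneg (rho_pos hx.1 hτ.1).le _)

theorem QB.zeroI : QB κ L N (fun _ _ => (0 : ℝ)) := by
  intro j _
  have : N2T (1 / 2) L (WJ κ j) (dt^[j] (fun _ _ => (0 : ℝ))) = 0 := by
    unfold N2T
    refine (setLIntegral_congr_fun (g := fun _ => 0) (measurableSet_Rg L) ?_).trans (by simp)
    intro p _
    simp only
    rw [dt_iter_zeroI]
    simp
  rw [this]
  exact bot_le

/-! ### One step -/

/-- the state of the iteration: previous and current approximations -/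
structure ItGood (κ L : ℝ) (φ E : ℝ → ℝ → ℝ) (η : ℝ → ℝ) (ε : ℝ) (i : ℕ)
    (s : (ℝ → ℝ → ℝ) × (ℝ → ℝ → ℝ)) : Prop where
  smp : Sm (Ioo 0 1) L s.1
  smd : Sm (Ioo 0 1) L s.2
  eqn : LinEq L φ E (hNL L φ η s.1) s.2
  pbp : PB L (2 * ε) (bb L φ s.1)
  qbp : QB κ L (2 * ε) (bb L φ s.1)
  pbd : PB L (ε * (2 - (1 / 2) ^ i)) (bb L φ s.2)
  qbd : QB κ L (ε * (2 - (1 / 2) ^ i)) (bb L φ s.2)
  db : DB L (ε * (2 - (1 / 2) ^ i)) s.2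
  pbdiff : PB L (ε * (1 / 2) ^ i) (fun τ x => bb L φ s.2 τ x - bb L φ s.1 τ x)
  qbdiff : QB κ L (ε * (1 / 2) ^ i) (fun τ x => bb L φ s.2 τ x - bb L φ s.1 τ x)

theorem PB.abs_leI {c : ℝ} (h : PB L N u) (hN : 0 ≤ N) (hc : N * (L ^ 2 + 1) ^ 25 ≤ c) {τ x : ℝ}
    (hτ : τ ∈ Ioo (0 : ℝ) (1 / 2)) (hx : x ∈ Icc 0 L) : |u τ x| ≤ c := by
  have h1 := h.low (j := 0) (by norm_num) hτ hx
  simp only [pow_zero, mul_one, Function.iterate_zero, id] at h1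
  refine h1.trans (le_trans ?_ hc)
  exact mul_le_mul_of_nonneg_left
    (pow_le_pow_left₀ (rho_pos hx.1 hτ.1).le (rho_le hx hτ) 25) hN

theorem half_pow_leI (i : ℕ) : (1 / 2 : ℝ) ^ i ≤ 1 := pow_le_one₀ (by norm_num) (by norm_num)

theorem half_pow_posI (i : ℕ) : 0 < (1 / 2 : ℝ) ^ i := by positivity

theorem it_step {L2 C C' : ℝ} {q q' : ℕ} (hlin : LinEst c0 C0 g κ L2 C q)
    (hnl : NLEst κ η C' q') (hη : EtaOK η) (hL : L2 ≤ L) (hL8 : 8 ≤ L)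
    (hC : 0 ≤ C) (hC' : 0 ≤ C')
    (hadd : ∀ (N N' : ℝ) (u v : ℝ → ℝ → ℝ), NB κ L N u → NB κ L N' v →
      NB κ L (N + N') (fun t x => u t x + v t x))
    (hB : Bg c0 C0 g L φ m) (hε : 0 ≤ ε) (hE : Sm (Ioo 0 1) L E)
    (ha : 2 * ε * (L ^ 2 + 1) ^ 25 ≤ 1 / 20) (hb : C * L ^ q * (C' * L ^ q' * (2 * ε)) ≤ 1 / 2)
    (hc : 2 * ε ≤ 1) (i : ℕ) (s : (ℝ → ℝ → ℝ) × (ℝ → ℝ → ℝ)) (hs : ItGood κ L φ E η ε i s) :
    ∃ s' : (ℝ → ℝ → ℝ) × (ℝ → ℝ → ℝ), ItGood κ L φ E η ε (i + 1) s' ∧ s'.1 = s.2 ∧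
      DB L (ε * (1 / 2) ^ (i + 1)) (fun τ x => s'.2 τ x - s.2 τ x) := by
  obtain ⟨p, d⟩ := s
  have hL0 : 0 < L := by linarith
  have hφ := Bg_sm_phiI hB
  have hpos := half_pow_posI i
  have hle := half_pow_leI i
  have hN1 : ε * (2 - (1 / 2) ^ i) ≤ 2 * ε := by
    have := mul_nonneg hε hpos.le
    linarith
  have hN0 : 0 ≤ ε * (2 - (1 / 2) ^ i) := mul_nonneg hε (by linarith)
  have smp := hs.smp
  have smd := hs.smd
  simp only at smp smd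
  have pbd2 : PB L (2 * ε) (bb L φ d) := hs.pbd.mono hN1
  have qbd2 : QB κ L (2 * ε) (bb L φ d) := hs.qbd.mono hN0 hN1
  have h2ε : 0 ≤ 2 * ε := by linarith
  have bd : ∀ τ ∈ Ioo (0 : ℝ) (1 / 2), ∀ x ∈ Icc 0 L, |bb L φ d τ x| ≤ 1 / 2 := fun τ hτ x hx =>
    (pbd2.abs_leI h2ε (ha.trans (by norm_num)) hτ hx)
  have bp : ∀ τ ∈ Ioo (0 : ℝ) (1 / 2), ∀ x ∈ Icc 0 L, |bb L φ p τ x| ≤ 1 / 2 := fun τ hτ x hx =>
    (hs.pbp.abs_leI h2ε (ha.trans (by norm_num)) hτ hx)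
  have smbd : Sm (Ioo 0 (1 / 2)) L (bb L φ d) := (sm_bbI hL0 hφ smd).mono half_subsetI
  have smbp : Sm (Ioo 0 (1 / 2)) L (bb L φ p) := (sm_bbI hL0 hφ smp).mono half_subsetI
  have hA0 : 0 ≤ ε * (1 / 2) ^ i := mul_nonneg hε hpos.le
  obtain ⟨hp1, hq1⟩ := hnl L hL8 (bb L φ d) (bb L φ p) smbd smbp bd bp (2 * ε)
    (ε * (1 / 2) ^ i) h2ε hc hA0 pbd2 qbd2 hs.pbp hs.qbp hs.pbdiff hs.qbdiff
  have hN'0 : 0 ≤ C' * L ^ q' * (2 * ε) * (ε * (1 / 2) ^ i) := by positivity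
  have smhd := sm_hNLI hL0 hη hφ smd bd
  have smhp := sm_hNLI hL0 hη hφ smp bp
  have heq : ∀ τ x, φ τ x * (hNL L φ η d τ x - hNL L φ η p τ x) =
      η τ * (bb L φ d τ x ^ 2 / (1 + bb L φ d τ x)) -
        η τ * (bb L φ p τ x ^ 2 / (1 + bb L φ p τ x)) := by
    intro τ x
    rw [mul_sub, phi_hNLI, phi_hNLI]
  obtain ⟨w, smw, eqw, pbw, qbw, dbw⟩ := hlin L hL φ m hB (fun _ _ => 0)
    (fun τ x => hNL L φ η d τ x - hNL L φ η p τ x) (Sm.const 0) (smhd.sub smhp)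
    (fun τ _ h38 x _ => by
      rw [hNL_zero_of_geI hη h38, hNL_zero_of_geI hη h38, sub_zero])
    (fun _ _ _ _ => rfl) (C' * L ^ q' * (2 * ε) * (ε * (1 / 2) ^ i)) 0 hN'0 le_rfl
    (hp1.congrI fun τ _ x _ => heq τ x) (hq1.congrI fun τ _ x _ => heq τ x)
    (fun j _ τ _ x _ => by rw [dt_iter_zeroI, abs_zero])
  have hM : C * L ^ q * (C' * L ^ q' * (2 * ε) * (ε * (1 / 2) ^ i) + 0) ≤
      ε * (1 / 2) ^ (i + 1) := by
    calc C * L ^ q * (C' * L ^ q' * (2 * ε) * (ε * (1 / 2) ^ i) + 0)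
        = (C * L ^ q * (C' * L ^ q' * (2 * ε))) * (ε * (1 / 2) ^ i) := by ring
      _ ≤ (1 / 2) * (ε * (1 / 2) ^ i) := mul_le_mul_of_nonneg_right hb hA0
      _ = ε * (1 / 2) ^ (i + 1) := by ring
  have hM0 : 0 ≤ C * L ^ q * (C' * L ^ q' * (2 * ε) * (ε * (1 / 2) ^ i) + 0) := by positivity
  have pbw' := pbw.mono hM
  have qbw' := qbw.mono hM0 hM
  have dbw' := dbw.monoI hM
  have smbw : Sm (Ioo 0 (1 / 2)) L (bb L φ w) := (sm_bbI hL0 hφ smw).mono half_subsetI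
  have hnb := hadd _ _ _ _ ⟨smbd, hs.pbd, hs.qbd⟩ ⟨smbw, pbw', qbw'⟩
  have hsum : ε * (2 - (1 / 2) ^ i) + ε * (1 / 2) ^ (i + 1) = ε * (2 - (1 / 2) ^ (i + 1)) := by
    rw [pow_succ]; ring
  simp only [hsum] at hnb
  have hbb : ∀ τ ∈ Ioo (0 : ℝ) (1 / 2), ∀ x ∈ Icc 0 L,
      bb L φ (fun τ x => d τ x + w τ x) τ x = bb L φ d τ x + bb L φ w τ x := fun τ hτ x hx =>
    bb_addI hL0 smd smw (half_subsetI hτ) hx
  refine ⟨(d, fun τ x => d τ x + w τ x), ?_, rfl, ?_⟩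
  · refine ⟨smd, smd.add smw, ?_, pbd2, qbd2, hnb.pb.congrI hbb, hnb.qb.congrI hbb, ?_, ?_, ?_⟩
    · have h1 := LinEq.addI hL0 hE (Sm.const 0) smd smw hs.eqn eqw
      refine h1.congrI (fun τ _ x _ => (add_zero _).symm) (fun τ _ x _ => ?_)
      simp only
      ring
    · have := hs.db.addI (smd.mono half_subsetI) (smw.mono half_subsetI) dbw'
      rwa [hsum] at this
    · refine pbw'.congrI (fun τ hτ x hx => ?_)
      simp only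
      rw [hbb τ hτ x hx]
      ring
    · refine qbw'.congrI (fun τ hτ x hx => ?_)
      simp only
      rw [hbb τ hτ x hx]
      ring
  · refine dbw'.congrI (fun τ _ x _ => ?_)
    simp only
    ring



theorem it_start {L2 C : ℝ} {q : ℕ} (hlin : LinEst c0 C0 g κ L2 C q) (hL : L2 ≤ L)
    (hL0 : 0 < L) (hC : 0 ≤ C) {e : ℝ} (he : 0 ≤ e)
    (hB : Bg c0 C0 g L φ m) (hE : Sm (Ioo 0 1) L E)
    (hE0 : ∀ τ ∈ Ioo (0 : ℝ) 1, ∀ x ∈ Icc (0 : ℝ) 1, E τ x = 0)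
    (hEe : ∀ j ≤ 9, ∀ τ ∈ Ioo (0 : ℝ) 1, ∀ x ∈ Icc 0 L, |(dt^[j] E) τ x| ≤ e)
    (hε : ε = C * L ^ q * e) :
    ∃ s : (ℝ → ℝ → ℝ) × (ℝ → ℝ → ℝ), ItGood κ L φ E η ε 0 s ∧
      LinEq L φ E (fun _ _ => 0) s.2 := by
  have hz : ∀ τ ∈ Ioo (0 : ℝ) (1 / 2), ∀ x ∈ Icc 0 L,
      φ τ x * (fun _ _ => (0 : ℝ)) τ x = (fun _ _ => (0 : ℝ)) τ x :=
    fun τ _ x _ => mul_zero _
  obtain ⟨d, smd, eqd, pbd, qbd, db⟩ := hlin L hL φ m hB E (fun _ _ => 0) hE (Sm.const 0)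
    (fun _ _ _ _ _ => rfl) hE0 0 e le_rfl he ((PB.zeroI le_rfl).congrI hz) (QB.zeroI.congrI hz) hEe
  rw [zero_add, ← hε] at pbd qbd db
  have hε0 : 0 ≤ ε := by rw [hε]; positivity
  refine ⟨(fun _ _ => 0, d), ⟨Sm.const 0, smd, ?_, ?_, ?_, ?_, ?_, ?_, ?_, ?_⟩, eqd⟩
  · exact eqd.congrI (fun _ _ _ _ => rfl) (fun τ _ x hx => hNL_zeroI hL0 hx)
  · exact (PB.zeroI (by linarith)).congrI (fun τ _ x hx => bb_zeroI hL0 hx)
  · exact QB.zeroI.congrI (fun τ _ x hx => bb_zeroI hL0 hx)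
  · simpa [show (2 : ℝ) - 1 = 1 by norm_num] using pbd
  · simpa [show (2 : ℝ) - 1 = 1 by norm_num] using qbd
  · simpa [show (2 : ℝ) - 1 = 1 by norm_num] using db
  · rw [pow_zero, mul_one]
    refine pbd.congrI (fun τ _ x hx => ?_)
    simp only
    rw [bb_zeroI hL0 hx, sub_zero]
  · rw [pow_zero, mul_one]
    refine qbd.congrI (fun τ _ x hx => ?_)
    simp only
    rw [bb_zeroI hL0 hx, sub_zero]

theorem it_core {L2 C C' : ℝ} {q q' : ℕ} (hlin : LinEst c0 C0 g κ L2 C q)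
    (hnl : NLEst κ η C' q') (hη : EtaOK η) (hL : L2 ≤ L) (hL8 : 8 ≤ L)
    (hC : 0 ≤ C) (hC' : 0 ≤ C')
    (hadd : ∀ (N N' : ℝ) (u v : ℝ → ℝ → ℝ), NB κ L N u → NB κ L N' v →
      NB κ L (N + N') (fun t x => u t x + v t x))
    (hB : Bg c0 C0 g L φ m) {e : ℝ} (he : 0 ≤ e) (hε : ε = C * L ^ q * e) (hE : Sm (Ioo 0 1) L E)
    (hE0 : ∀ τ ∈ Ioo (0 : ℝ) 1, ∀ x ∈ Icc (0 : ℝ) 1, E τ x = 0)
    (hEe : ∀ j ≤ 9, ∀ τ ∈ Ioo (0 : ℝ) 1, ∀ x ∈ Icc 0 L, |(dt^[j] E) τ x| ≤ e)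
    (ha : 2 * ε * (L ^ 2 + 1) ^ 25 ≤ 1 / 20) (hb : C * L ^ q * (C' * L ^ q' * (2 * ε)) ≤ 1 / 2) :
    ∃ d : ℕ → ℝ → ℝ → ℝ, Iter κ L φ E η d := by
  have hL0 : 0 < L := by linarith
  have hε0 : 0 ≤ ε := by rw [hε]; positivity
  have hc : 2 * ε ≤ 1 := by
    have h1 : 1 ≤ (L ^ 2 + 1) ^ 25 := one_le_pow₀ (by nlinarith)
    have h2 : 2 * ε * 1 ≤ 2 * ε * (L ^ 2 + 1) ^ 25 :=
      mul_le_mul_of_nonneg_left h1 (by linarith)
    linarith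
  obtain ⟨s0, hs0, hs0'⟩ := it_start (η := η) hlin hL hL0 hC he hB hE hE0 hEe hε
  have hstep : ∀ i : ℕ, ∀ s : {s : (ℝ → ℝ → ℝ) × (ℝ → ℝ → ℝ) // ItGood κ L φ E η ε i s},
      ∃ s' : {s : (ℝ → ℝ → ℝ) × (ℝ → ℝ → ℝ) // ItGood κ L φ E η ε (i + 1) s}, s'.1.1 = s.1.2 ∧
      DB L (ε * (1 / 2) ^ (i + 1)) (fun τ x => s'.1.2 τ x - s.1.2 τ x) := by
    intro i s
    obtain ⟨s', h1, h2, h3⟩ := it_step hlin hnl hη hL hL8 hC hC' hadd hB hε0 hE ha hb hc i s.1 s.2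
    exact ⟨⟨s', h1⟩, h2, h3⟩
  choose f hf1 hf2 using hstep
  let S : ∀ i : ℕ, {s : (ℝ → ℝ → ℝ) × (ℝ → ℝ → ℝ) // ItGood κ L φ E η ε i s} := fun i =>
    Nat.rec ⟨s0, hs0⟩ (fun i s => f i s) i
  have hS : ∀ i, S (i + 1) = f i (S i) := fun i => rfl
  refine ⟨fun i => (S i).1.2, ?_, ?_, ?_, ?_, ?_, ?_, ?_, ?_, ?_⟩
  · exact fun i => (S i).2.smd
  · exact hs0'
  · intro i
    have h := (S (i + 1)).2.eqn
    rwa [hS i, hf1] at h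
  · intro i τ hτ x hx
    have h1 : ε * (2 - (1 / 2) ^ i) ≤ 2 * ε := by
      have := mul_nonneg hε0 (half_pow_posI i).le
      linarith
    exact ((S i).2.pbd.mono h1).abs_leI (by linarith) ha hτ hx
  · intro i
    refine (S i).2.pbd.mono ?_
    have := mul_nonneg hε0 (half_pow_posI i).le
    linarith
  · intro i
    refine (S i).2.qbd.mono (mul_nonneg hε0 (by linarith [half_pow_leI i])) ?_
    have := mul_nonneg hε0 (half_pow_posI i).le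
    linarith
  · intro i
    refine (S i).2.db.monoI ?_
    have := mul_nonneg hε0 (half_pow_posI i).le
    linarith
  · intro i
    have h := (S (i + 1)).2.pbdiff
    rw [hS i, hf1] at h
    refine PB.mono h ?_
    have h1 := half_pow_posI i
    rw [pow_succ]
    nlinarith
  · intro i
    have h := hf2 i (S i)
    refine DB.monoI h ?_
    have h1 := half_pow_posI i
    rw [pow_succ]
    nlinarith

/-- C7, from the bodies of `lin_est` and `alg_nl` -/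
theorem iteration_of {L2 C C' : ℝ} {q q' : ℕ} (hlin : LinEst c0 C0 g κ L2 C q)
    (hnl : NLEst κ η C' q') (hη : EtaOK η) (hC : 1 ≤ C) (hC' : 1 ≤ C')
    (hadd : ∀ (L N N' : ℝ) (u v : ℝ → ℝ → ℝ), 0 < L → NB κ L N u → NB κ L N' v →
      NB κ L (N + N') (fun t x => u t x + v t x)) :
    ∃ (L3 : ℝ) (P : ℕ), 8 ≤ L3 ∧ ∀ L ≥ L3, ∀ φ m : ℝ → ℝ → ℝ, Bg c0 C0 g L φ m →
      ∀ E : ℝ → ℝ → ℝ, Sm (Ioo 0 1) L E →
        (∀ τ ∈ Ioo (0 : ℝ) 1, ∀ x ∈ Icc (0 : ℝ) 1, E τ x = 0) →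
        (∀ j ≤ 9, ∀ τ ∈ Ioo (0 : ℝ) 1, ∀ x ∈ Icc 0 L, |(dt^[j] E) τ x| ≤ L ^ (-(P : ℝ))) →
        ∃ d : ℕ → ℝ → ℝ → ℝ, Iter κ L φ E η d := by
  refine ⟨max (max L2 8) (2 ^ 40 * C ^ 2 * C'), 2 * q + q' + 51,
    (le_max_right _ _).trans (le_max_left _ _), ?_⟩
  intro L hL φ m hB E hE hE0 hEe
  have hL2 : L2 ≤ L := ((le_max_left _ _).trans (le_max_left _ _)).trans hL
  have hL8 : 8 ≤ L := ((le_max_right _ _).trans (le_max_left _ _)).trans hL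
  have hL1 : 2 ^ 40 * C ^ 2 * C' ≤ L := (le_max_right _ _).trans hL
  have hL0 : 0 < L := by linarith
  have hCC : C ≤ C ^ 2 * C' := by
    have : C * 1 ≤ C * (C * C') :=
      mul_le_mul_of_nonneg_left (one_le_mul_of_one_le_of_one_le hC hC') (by linarith)
    calc C = C * 1 := (mul_one _).symm
      _ ≤ _ := this
      _ = _ := by ring
  have hrw : L ^ (-((2 * q + q' + 51 : ℕ) : ℝ)) = 1 / L ^ (2 * q + q' + 51) := by
    rw [Real.rpow_neg hL0.le, Real.rpow_natCast, one_div]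
  have hεe : C * L ^ q * L ^ (-((2 * q + q' + 51 : ℕ) : ℝ)) = C / L ^ (q + q' + 51) := by
    rw [hrw, show 2 * q + q' + 51 = q + (q + q' + 51) by ring, pow_add L q (q + q' + 51)]
    field_simp
  have hpow : ∀ n : ℕ, 1 ≤ L ^ n := fun n => one_le_pow₀ (by linarith)
  refine it_core hlin hnl hη hL2 hL8 (by linarith) (by linarith)
    (fun N N' u v => hadd L N N' u v hL0) hB (Real.rpow_nonneg hL0.le _) rfl hE hE0 hEe ?_ ?_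
  · rw [hεe]
    have h1 : (L ^ 2 + 1) ^ 25 ≤ 2 ^ 25 * L ^ 50 := by
      calc (L ^ 2 + 1) ^ 25 ≤ (2 * L ^ 2) ^ 25 :=
            pow_le_pow_left₀ (by positivity) (by nlinarith) 25
        _ = 2 ^ 25 * L ^ 50 := by rw [mul_pow, ← pow_mul]
    calc 2 * (C / L ^ (q + q' + 51)) * (L ^ 2 + 1) ^ 25
        ≤ 2 * (C / L ^ (q + q' + 51)) * (2 ^ 25 * L ^ 50) := by
          refine mul_le_mul_of_nonneg_left h1 (by positivity)
      _ = 2 ^ 26 * C / (L ^ (q + q') * L) := by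
          rw [show q + q' + 51 = (q + q') + 1 + 50 by ring, pow_add L (q + q' + 1) 50,
            pow_succ L (q + q')]
          field_simp
      _ ≤ 2 ^ 26 * C / (1 * L) := by
          refine div_le_div_of_nonneg_left (by positivity) (by positivity) ?_
          exact mul_le_mul_of_nonneg_right (hpow _) hL0.le
      _ ≤ 1 / 20 := by
          rw [one_mul, div_le_div_iff₀ hL0 (by norm_num)]
          nlinarith
  · rw [hεe]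
    calc C * L ^ q * (C' * L ^ q' * (2 * (C / L ^ (q + q' + 51))))
        = 2 * (C ^ 2 * C') / (L ^ 50 * L) := by
          rw [show q + q' + 51 = q + (q' + (50 + 1)) by ring, pow_add L q, pow_add L q',
            pow_add L 50 1, pow_one]
          field_simp
      _ ≤ 2 * (C ^ 2 * C') / (1 * L) := by
          refine div_le_div_of_nonneg_left (by positivity) (by positivity) ?_
          exact mul_le_mul_of_nonneg_right (hpow _) hL0.le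
      _ ≤ 1 / 2 := by
          rw [one_mul, div_le_div_iff₀ hL0 (by norm_num)]
          nlinarith

end Crest.Agent.R213.C
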