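import Crest.Agent.R213.Defs
import Crest.Agent.R213.C.Intp

/-!
# Row 213, part C, block C4b: bounds for `Kint F` at a fixed time (helper337)

`ρ = x² + τ`, `0 < τ`.  All constants explicit, natural exponents, no loss in `L`.
-/

set_option autoImplicit false

open Set MeasureTheory Filter Topology intervalIntegral

noncomputable section

namespace Crest.Agent.R213.C

/-- weighted Cauchy–Schwarz on an interval. -/
theorem cs_weighted {a b M K : ℝ} (hab : a ≤ b) {w f g : ℝ → ℝ}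
    (hw : ∀ x ∈ Icc a b, 0 ≤ w x)
    (h1 : IntervalIntegrable (fun x => w x * f x ^ 2) volume a b)
    (h2 : IntervalIntegrable (fun x => w x * g x ^ 2) volume a b)
    (h3 : IntervalIntegrable (fun x => w x * |f x * g x|) volume a b)
    (hM : 0 ≤ M) (hK : 0 ≤ K) (hfM : ∫ x in a..b, w x * f x ^ 2 ≤ M ^ 2)
    (hgK : ∫ x in a..b, w x * g x ^ 2 ≤ K ^ 2) :
    ∫ x in a..b, w x * |f x * g x| ≤ M * K := by
  have key : ∀ ε : ℝ, 0 < ε → ∫ x in a..b, w x * |f x * g x| ≤ (M + ε) * (K + ε) := by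
    intro ε hε
    set t : ℝ := (K + ε) / (M + ε) with ht
    have hMe : 0 < M + ε := by linarith
    have hKe : 0 < K + ε := by linarith
    have ht0 : 0 < t := div_pos hKe hMe
    have hle : ∫ x in a..b, w x * |f x * g x| ≤
        ∫ x in a..b, (t / 2 * (w x * f x ^ 2) + 1 / (2 * t) * (w x * g x ^ 2)) := by
      apply intervalIntegral.integral_mono_on hab h3
      · exact (h1.const_mul _).add (h2.const_mul _)
      · intro x hx
        have hwx := hw x hx
        have h4 : |f x * g x| ≤ t / 2 * f x ^ 2 + 1 / (2 * t) * g x ^ 2 := by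
          rw [abs_mul]
          have h5 : 0 ≤ (t * |f x| - |g x|) ^ 2 := sq_nonneg _
          have h6 : |f x| ^ 2 = f x ^ 2 := sq_abs _
          have h7 : |g x| ^ 2 = g x ^ 2 := sq_abs _
          have h8 : t / 2 * f x ^ 2 + 1 / (2 * t) * g x ^ 2 - |f x| * |g x|
              = (t * |f x| - |g x|) ^ 2 / (2 * t) := by
            rw [← h6, ← h7]
            field_simp
            ring
          have h9 : 0 ≤ (t * |f x| - |g x|) ^ 2 / (2 * t) := by positivity
          linarith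
        calc w x * |f x * g x| ≤ w x * (t / 2 * f x ^ 2 + 1 / (2 * t) * g x ^ 2) :=
              mul_le_mul_of_nonneg_left h4 hwx
          _ = t / 2 * (w x * f x ^ 2) + 1 / (2 * t) * (w x * g x ^ 2) := by ring
    have hsplit : ∫ x in a..b, (t / 2 * (w x * f x ^ 2) + 1 / (2 * t) * (w x * g x ^ 2))
        = t / 2 * (∫ x in a..b, w x * f x ^ 2) + 1 / (2 * t) * ∫ x in a..b, w x * g x ^ 2 := by
      rw [intervalIntegral.integral_add (h1.const_mul _) (h2.const_mul _),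
        intervalIntegral.integral_const_mul, intervalIntegral.integral_const_mul]
    have hA : t / 2 * (∫ x in a..b, w x * f x ^ 2) ≤ t / 2 * (M + ε) ^ 2 := by
      apply mul_le_mul_of_nonneg_left _ (by positivity)
      nlinarith
    have hB : 1 / (2 * t) * (∫ x in a..b, w x * g x ^ 2) ≤ 1 / (2 * t) * (K + ε) ^ 2 := by
      apply mul_le_mul_of_nonneg_left _ (by positivity)
      nlinarith
    have hfin : t / 2 * (M + ε) ^ 2 + 1 / (2 * t) * (K + ε) ^ 2 = (M + ε) * (K + ε) := by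
      rw [ht]; field_simp; ring
    linarith
  have hlim : Tendsto (fun ε : ℝ => (M + ε) * (K + ε)) (𝓝[>] 0) (𝓝 ((M + 0) * (K + 0))) := by
    apply tendsto_nhdsWithin_of_tendsto_nhds
    have : Continuous (fun ε : ℝ => (M + ε) * (K + ε)) := by fun_prop
    exact this.tendsto 0
  have := ge_of_tendsto hlim (by
    filter_upwards [self_mem_nhdsWithin] with ε hε using key ε hε)
  simpa using this

/-- pointwise triangle inequality for `Kint`. -/
theorem abs_Kint_le {F : ℝ → ℝ} {L x : ℝ} (hF : ContinuousOn F (Icc 0 L)) (hx : x ∈ Icc 0 L) :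
    |Kint F x| ≤ x * ∫ s in (0 : ℝ)..x, s ^ 9 * |F s| := by
  have hx0 := hx.1
  have hFx : ContinuousOn F (Icc 0 x) := hF.mono (Icc_subset_Icc_right hx.2)
  unfold Kint
  calc |∫ ξ in (0 : ℝ)..x, (x - ξ) * ξ ^ 9 * F ξ|
      ≤ ∫ ξ in (0 : ℝ)..x, |(x - ξ) * ξ ^ 9 * F ξ| := abs_integral_le_integral_abs hx0
    _ ≤ ∫ ξ in (0 : ℝ)..x, x * (ξ ^ 9 * |F ξ|) := by
        apply intervalIntegral.integral_mono_on hx0
        · apply ContinuousOn.intervalIntegrable
          rw [uIcc_of_le hx0]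
          fun_prop
        · apply ContinuousOn.intervalIntegrable
          rw [uIcc_of_le hx0]
          fun_prop
        · intro ξ hξ
          rw [abs_mul, abs_mul, abs_of_nonneg (sub_nonneg.2 hξ.2), abs_of_nonneg (pow_nonneg hξ.1 9)]
          have h1 : x - ξ ≤ x := by linarith [hξ.1]
          have h2 : 0 ≤ ξ ^ 9 * |F ξ| := mul_nonneg (pow_nonneg hξ.1 9) (abs_nonneg _)
          nlinarith
    _ = x * ∫ s in (0 : ℝ)..x, s ^ 9 * |F s| := intervalIntegral.integral_const_mul _ _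

/-- `Kint` from the right end when both moments vanish. -/
theorem Kint_eq_right {F : ℝ → ℝ} {L x : ℝ} (hF : ContinuousOn F (Icc 0 L)) (hx : x ∈ Icc 0 L)
    (h0 : ∫ s in (0 : ℝ)..L, s ^ 9 * F s = 0) (h1 : ∫ s in (0 : ℝ)..L, s ^ 10 * F s = 0) :
    Kint F x = ∫ s in x..L, (s - x) * s ^ 9 * F s := by
  have hL : 0 ≤ L := hx.1.trans hx.2
  have hi : ∀ a b : ℝ, a ∈ Icc 0 L → b ∈ Icc 0 L →
      IntervalIntegrable (fun s => (x - s) * s ^ 9 * F s) volume a b := by
    intro a b ha hb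
    apply ContinuousOn.intervalIntegrable
    have : uIcc a b ⊆ Icc 0 L := by
      rw [uIcc]
      intro y hy
      exact ⟨le_trans (le_min ha.1 hb.1) hy.1, le_trans hy.2 (max_le ha.2 hb.2)⟩
    have hF' := hF.mono this
    fun_prop
  have hi9 : IntervalIntegrable (fun s => s ^ 9 * F s) volume 0 L := by
    apply ContinuousOn.intervalIntegrable
    rw [uIcc_of_le hL]; fun_prop
  have hi10 : IntervalIntegrable (fun s => s ^ 10 * F s) volume 0 L := by
    apply ContinuousOn.intervalIntegrable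
    rw [uIcc_of_le hL]; fun_prop
  have hz : ∫ s in (0 : ℝ)..L, (x - s) * s ^ 9 * F s = 0 := by
    have : ∀ s : ℝ, (x - s) * s ^ 9 * F s = x * (s ^ 9 * F s) - s ^ 10 * F s := by
      intro s; ring
    simp_rw [this]
    rw [intervalIntegral.integral_sub (hi9.const_mul _) hi10, intervalIntegral.integral_const_mul,
      h0, h1]
    simp
  have hadd := intervalIntegral.integral_add_adjacent_intervals
    (hi 0 x ⟨le_refl _, hL⟩ hx) (hi x L hx ⟨hL, le_refl _⟩)
  unfold Kint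
  have : ∫ s in x..L, (s - x) * s ^ 9 * F s = - ∫ s in x..L, (x - s) * s ^ 9 * F s := by
    rw [← intervalIntegral.integral_neg]
    congr 1; ext s; ring
  rw [this]; linarith

/-- bound from the right end. -/
theorem abs_Kint_le_right {F : ℝ → ℝ} {L x : ℝ} (hF : ContinuousOn F (Icc 0 L))
    (hx : x ∈ Icc 0 L)
    (h0 : ∫ s in (0 : ℝ)..L, s ^ 9 * F s = 0) (h1 : ∫ s in (0 : ℝ)..L, s ^ 10 * F s = 0) :
    |Kint F x| ≤ (L - x) * ∫ s in x..L, s ^ 9 * |F s| := by
  rw [Kint_eq_right hF hx h0 h1]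
  have hFx : ContinuousOn F (Icc x L) := hF.mono (Icc_subset_Icc_left hx.1)
  calc |∫ ξ in x..L, (ξ - x) * ξ ^ 9 * F ξ|
      ≤ ∫ ξ in x..L, |(ξ - x) * ξ ^ 9 * F ξ| := abs_integral_le_integral_abs hx.2
    _ ≤ ∫ ξ in x..L, (L - x) * (ξ ^ 9 * |F ξ|) := by
        apply intervalIntegral.integral_mono_on hx.2
        · apply ContinuousOn.intervalIntegrable
          rw [uIcc_of_le hx.2]
          fun_prop
        · apply ContinuousOn.intervalIntegrable
          rw [uIcc_of_le hx.2]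
          fun_prop
        · intro ξ hξ
          have hξ0 : 0 ≤ ξ := hx.1.trans hξ.1
          rw [abs_mul, abs_mul, abs_of_nonneg (sub_nonneg.2 hξ.1), abs_of_nonneg (pow_nonneg hξ0 9)]
          have h1 : ξ - x ≤ L - x := by linarith [hξ.2]
          have h2 : 0 ≤ ξ ^ 9 * |F ξ| := mul_nonneg (pow_nonneg hξ0 9) (abs_nonneg _)
          nlinarith
    _ = (L - x) * ∫ s in x..L, s ^ 9 * |F s| := intervalIntegral.integral_const_mul _ _

/-- **(KB)** `Kint` bound from a mass bound valid up to `L`, with one factor `1 - x/L`. -/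
theorem Kint_bd {F : ℝ → ℝ} {L τ A : ℝ} {m e : ℕ} (hL : 0 < L) (hτ : 0 ≤ τ) (hA : 0 ≤ A)
    (hF : ContinuousOn F (Icc 0 L))
    (h0 : ∫ s in (0 : ℝ)..L, s ^ 9 * F s = 0) (h1 : ∫ s in (0 : ℝ)..L, s ^ 10 * F s = 0)
    (hm : ∀ x ∈ Icc 0 L, ∫ s in (0 : ℝ)..x, s ^ 9 * |F s| ≤ A * x ^ m * (x ^ 2 + τ) ^ e)
    {x : ℝ} (hx : x ∈ Icc 0 L) :
    |Kint F x| ≤ 2 ^ (m + 1) * 4 ^ e * A * x ^ (m + 1) * (x ^ 2 + τ) ^ e * (1 - x / L) := by
  have hx0 := hx.1
  have hρ : 0 ≤ x ^ 2 + τ := by positivity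
  have hxL : x / L ≤ 1 := by rw [div_le_one hL]; exact hx.2
  rcases le_total x (L / 2) with hx2 | hx2
  · have hhalf : (1 : ℝ) / 2 ≤ 1 - x / L := by
      have : x / L ≤ 1 / 2 := by rw [div_le_iff₀ hL]; linarith
      linarith
    have h3 := abs_Kint_le hF hx
    have h4 := hm x hx
    have h5 : |Kint F x| ≤ x * (A * x ^ m * (x ^ 2 + τ) ^ e) :=
      h3.trans (mul_le_mul_of_nonneg_left h4 hx0)
    have hX : 0 ≤ A * x ^ (m + 1) * (x ^ 2 + τ) ^ e := by positivity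
    have h6 : (1 : ℝ) ≤ 4 ^ e := one_le_pow₀ (by norm_num)
    have h7 : (2 : ℝ) ≤ 2 ^ (m + 1) := by
      calc (2 : ℝ) = 2 ^ 1 := by norm_num
        _ ≤ 2 ^ (m + 1) := pow_le_pow_right₀ (by norm_num) (by omega)
    have h8 : (1 : ℝ) ≤ 2 ^ (m + 1) * 4 ^ e * (1 - x / L) := by
      have : (1 : ℝ) = 2 * 1 * (1 / 2) := by norm_num
      calc (1 : ℝ) = 2 * 1 * (1 / 2) := by norm_num
        _ ≤ 2 ^ (m + 1) * 4 ^ e * (1 - x / L) := by gcongr
    calc |Kint F x| ≤ x * (A * x ^ m * (x ^ 2 + τ) ^ e) := h5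
      _ = 1 * (A * x ^ (m + 1) * (x ^ 2 + τ) ^ e) := by ring
      _ ≤ (2 ^ (m + 1) * 4 ^ e * (1 - x / L)) * (A * x ^ (m + 1) * (x ^ 2 + τ) ^ e) :=
          mul_le_mul_of_nonneg_right h8 hX
      _ = _ := by ring
  · have hLx : L ≤ 2 * x := by linarith
    have h3 := abs_Kint_le_right hF hx h0 h1
    have hLL : L ∈ Icc 0 L := ⟨hL.le, le_rfl⟩
    have hi : ∀ a b : ℝ, a ∈ Icc 0 L → b ∈ Icc 0 L →
        IntervalIntegrable (fun s => s ^ 9 * |F s|) volume a b := by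
      intro a b ha hb
      apply ContinuousOn.intervalIntegrable
      have : uIcc a b ⊆ Icc 0 L := by
        rw [uIcc]
        intro y hy
        exact ⟨le_trans (le_min ha.1 hb.1) hy.1, le_trans hy.2 (max_le ha.2 hb.2)⟩
      have hF' := hF.mono this
      fun_prop
    have h4 : ∫ s in x..L, s ^ 9 * |F s| ≤ ∫ s in (0 : ℝ)..L, s ^ 9 * |F s| := by
      rw [← intervalIntegral.integral_add_adjacent_intervals
        (hi 0 x ⟨le_refl _, hL.le⟩ hx) (hi x L hx hLL)]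
      have : 0 ≤ ∫ s in (0 : ℝ)..x, s ^ 9 * |F s| :=
        intervalIntegral.integral_nonneg hx0 (fun s hs => mul_nonneg (pow_nonneg hs.1 9) (abs_nonneg _))
      linarith
    have h5 := hm L hLL
    have hLm : L ^ m ≤ (2 * x) ^ m := pow_le_pow_left₀ hL.le hLx m
    have hLe : (L ^ 2 + τ) ^ e ≤ (4 * (x ^ 2 + τ)) ^ e := by
      apply pow_le_pow_left₀ (by positivity)
      nlinarith
    have h6 : ∫ s in x..L, s ^ 9 * |F s| ≤ A * (2 * x) ^ m * (4 * (x ^ 2 + τ)) ^ e := by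
      refine (h4.trans h5).trans ?_
      gcongr
    have h7 : L - x = L * (1 - x / L) := by field_simp
    have h1x : 0 ≤ 1 - x / L := by linarith
    calc |Kint F x| ≤ (L - x) * ∫ s in x..L, s ^ 9 * |F s| := h3
      _ ≤ (L - x) * (A * (2 * x) ^ m * (4 * (x ^ 2 + τ)) ^ e) :=
          mul_le_mul_of_nonneg_left h6 (by linarith [hx.2])
      _ = L * ((1 - x / L) * (A * (2 * x) ^ m * (4 * (x ^ 2 + τ)) ^ e)) := by rw [h7]; ring
      _ ≤ (2 * x) * ((1 - x / L) * (A * (2 * x) ^ m * (4 * (x ^ 2 + τ)) ^ e)) :=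
          mul_le_mul_of_nonneg_right hLx (by positivity)
      _ = _ := by rw [mul_pow, mul_pow]; ring

/-- **(I2)** mass bound from the weighted `L²` bound. -/
theorem mass_of_L2 {D : ℝ → ℝ} {L τ M : ℝ} {e : ℕ} (hτ : 0 < τ) (hM : 0 ≤ M)
    (hD : ContinuousOn D (Icc 0 L))
    (hm : ∫ s in (0 : ℝ)..L, s ^ 9 * D s ^ 2 / (s ^ 2 + τ) ^ (2 * e) ≤ M ^ 2)
    {x : ℝ} (hx : x ∈ Icc 0 L) :
    ∫ s in (0 : ℝ)..x, s ^ 9 * |D s| ≤ M * x ^ 5 * (x ^ 2 + τ) ^ e := by
  have hx0 := hx.1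
  have hρ : ∀ s : ℝ, 0 < s ^ 2 + τ := fun s => by positivity
  have hρe : ∀ s : ℝ, (s ^ 2 + τ) ^ e ≠ 0 := fun s => (pow_pos (hρ s) e).ne'
  have hDx : ContinuousOn D (Icc 0 x) := hD.mono (Icc_subset_Icc_right hx.2)
  have hcρ : Continuous (fun s : ℝ => (s ^ 2 + τ) ^ e) := by fun_prop
  have hc1 : ∀ y ∈ Icc 0 L, ContinuousOn (fun s => s ^ 9 * (D s / (s ^ 2 + τ) ^ e) ^ 2) (Icc 0 y) := by
    intro y hy
    have hDy : ContinuousOn D (Icc 0 y) := hD.mono (Icc_subset_Icc_right hy.2)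
    have : ContinuousOn (fun s => D s / (s ^ 2 + τ) ^ e) (Icc 0 y) :=
      hDy.div hcρ.continuousOn (fun s _ => hρe s)
    fun_prop
  have e1 : ∀ s : ℝ, s ^ 9 * (D s / (s ^ 2 + τ) ^ e) ^ 2 = s ^ 9 * D s ^ 2 / (s ^ 2 + τ) ^ (2 * e) := by
    intro s
    rw [div_pow, ← pow_mul, mul_comm e 2, mul_div_assoc]
  have e2 : ∀ s : ℝ, s ^ 9 * |D s| = s ^ 9 * |D s / (s ^ 2 + τ) ^ e * (s ^ 2 + τ) ^ e| := by
    intro s
    rw [div_mul_cancel₀ _ (hρe s)]
  have hLL : L ∈ Icc 0 L := ⟨hx0.trans hx.2, le_rfl⟩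
  have hmono : ∫ s in (0 : ℝ)..x, s ^ 9 * (D s / (s ^ 2 + τ) ^ e) ^ 2 ≤ M ^ 2 := by
    refine le_trans ?_ hm
    simp_rw [← e1]
    apply intervalIntegral.integral_mono_interval le_rfl hx0 hx.2
    · refine (ae_restrict_mem measurableSet_Ioc).mono ?_
      intro s hs
      exact mul_nonneg (pow_nonneg hs.1.le 9) (sq_nonneg _)
    · apply ContinuousOn.intervalIntegrable
      rw [uIcc_of_le hLL.1]
      exact hc1 L hLL
  have hK : ∫ s in (0 : ℝ)..x, s ^ 9 * ((s ^ 2 + τ) ^ e) ^ 2 ≤ (x ^ 5 * (x ^ 2 + τ) ^ e) ^ 2 := by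
    calc ∫ s in (0 : ℝ)..x, s ^ 9 * ((s ^ 2 + τ) ^ e) ^ 2
        ≤ ∫ s in (0 : ℝ)..x, x ^ 9 * ((x ^ 2 + τ) ^ e) ^ 2 := by
          apply intervalIntegral.integral_mono_on hx0
          · apply Continuous.intervalIntegrable; fun_prop
          · exact intervalIntegrable_const
          · intro s hs
            have h1 : s ^ 9 ≤ x ^ 9 := pow_le_pow_left₀ hs.1 hs.2 9
            have h2 : s ^ 2 + τ ≤ x ^ 2 + τ := by
              have := pow_le_pow_left₀ hs.1 hs.2 2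
              linarith
            have h3 : (s ^ 2 + τ) ^ e ≤ (x ^ 2 + τ) ^ e := pow_le_pow_left₀ (hρ s).le h2 e
            have h4 : ((s ^ 2 + τ) ^ e) ^ 2 ≤ ((x ^ 2 + τ) ^ e) ^ 2 :=
              pow_le_pow_left₀ (pow_nonneg (hρ s).le e) h3 2
            exact mul_le_mul h1 h4 (by positivity) (pow_nonneg hx0 9)
      _ = (x ^ 5 * (x ^ 2 + τ) ^ e) ^ 2 := by
          rw [intervalIntegral.integral_const, smul_eq_mul]; ring
  have := cs_weighted (a := 0) (b := x) (M := M) (K := x ^ 5 * (x ^ 2 + τ) ^ e) hx0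
    (w := fun s => s ^ 9) (f := fun s => D s / (s ^ 2 + τ) ^ e) (g := fun s => (s ^ 2 + τ) ^ e)
    (fun s hs => pow_nonneg hs.1 9) ?_ ?_ ?_ hM (by have := hρ x; positivity) hmono hK
  · simp_rw [e2]
    rw [mul_assoc]
    exact this
  · apply ContinuousOn.intervalIntegrable
    rw [uIcc_of_le hx0]
    exact hc1 x hx
  · apply Continuous.intervalIntegrable
    fun_prop
  · apply ContinuousOn.intervalIntegrable
    rw [uIcc_of_le hx0]
    simp_rw [← e2]
    fun_prop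

/-- **(Ia)** mass bound from a pointwise bound. -/
theorem mass_of_pt {D : ℝ → ℝ} {L τ N : ℝ} {a e : ℕ} (ha : a ≤ 9) (hτ : 0 ≤ τ) (hN : 0 ≤ N)
    (hD : ContinuousOn D (Icc 0 L))
    (hb : ∀ s ∈ Ioo 0 L, |D s| * s ^ a ≤ N * (s ^ 2 + τ) ^ e)
    {x : ℝ} (hx : x ∈ Icc 0 L) :
    ∫ s in (0 : ℝ)..x, s ^ 9 * |D s| ≤ N * x ^ (10 - a) * (x ^ 2 + τ) ^ e := by
  have hx0 := hx.1
  have hDx : ContinuousOn D (Icc 0 x) := hD.mono (Icc_subset_Icc_right hx.2)
  calc ∫ s in (0 : ℝ)..x, s ^ 9 * |D s|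
      ≤ ∫ s in (0 : ℝ)..x, x ^ (9 - a) * (N * (x ^ 2 + τ) ^ e) := by
        apply intervalIntegral.integral_mono_on_of_le_Ioo hx0
        · apply ContinuousOn.intervalIntegrable
          rw [uIcc_of_le hx0]
          fun_prop
        · exact intervalIntegrable_const
        · intro s hs
          have hsL : s ∈ Ioo 0 L := ⟨hs.1, hs.2.trans_le hx.2⟩
          have h1 := hb s hsL
          have h2 : s ^ 2 + τ ≤ x ^ 2 + τ := by
            have := pow_le_pow_left₀ hs.1.le hs.2.le 2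
            linarith
          have h0 : 0 ≤ s ^ 2 + τ := by positivity
          have h3 : (s ^ 2 + τ) ^ e ≤ (x ^ 2 + τ) ^ e := pow_le_pow_left₀ h0 h2 e
          have h4 : |D s| * s ^ a ≤ N * (x ^ 2 + τ) ^ e :=
            h1.trans (mul_le_mul_of_nonneg_left h3 hN)
          have h5 : s ^ (9 - a) ≤ x ^ (9 - a) := pow_le_pow_left₀ hs.1.le hs.2.le _
          have h6 : s ^ 9 = s ^ (9 - a) * s ^ a := by rw [← pow_add]; congr 1; omega
          calc s ^ 9 * |D s| = s ^ (9 - a) * (|D s| * s ^ a) := by rw [h6]; ring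
            _ ≤ x ^ (9 - a) * (N * (x ^ 2 + τ) ^ e) :=
              mul_le_mul h5 h4 (mul_nonneg (abs_nonneg _) (pow_nonneg hs.1.le _))
                (pow_nonneg hx0 _)
    _ = N * x ^ (10 - a) * (x ^ 2 + τ) ^ e := by
        rw [intervalIntegral.integral_const, smul_eq_mul]
        have : 10 - a = (9 - a) + 1 := by omega
        rw [this, pow_succ]; ring

end Crest.Agent.R213.C
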