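import Crest.Agent.R213.J0K
import Crest.Agent.R213.J0bK
import Crest.Agent.R213.C.Intp
import Crest.Agent.R213.C.CDefs

/-!
# Row 213, part C, C9a: the limit of the iteration, time derivatives and the equation (helper924)
-/

set_option autoImplicit false

open Set MeasureTheory Filter Topology

noncomputable section

namespace Crest.Agent.R213.C

variable {L : ℝ}

/-- `dt^[n]` of a difference -/
theorem iter_dt_sub {s : Set ℝ} {u v : ℝ → ℝ → ℝ} {t x : ℝ} (hu : Sm s L u) (hv : Sm s L v)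
    (hs : IsOpen s) (ht : t ∈ s) (hx : x ∈ Icc 0 L) (n : ℕ) :
    (dt^[n] (fun t x => u t x - v t x)) t x = (dt^[n] u) t x - (dt^[n] v) t x := by
  have h := sm_iter_dt_add hu (hv.const_mul (-1)) hs ht hx n
  rw [iter_dt_const_mul] at h
  have e : (fun t x => u t x - v t x) = fun t x => u t x + (-1) * v t x := by
    funext t x; ring
  rw [e, h]; ring

theorem hasDerivAt_iter_dt {s : Set ℝ} {u : ℝ → ℝ → ℝ} {t x : ℝ} (hs : IsOpen s) (hL : 0 < L)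
    (hu : Sm s L u) (ht : t ∈ s) (hx : x ∈ Icc 0 L) (n : ℕ) :
    HasDerivAt (fun r => (dt^[n] u) r x) ((dt^[n + 1] u) t x) t := by
  have h := (Sm.dt_iter hs hL hu n).hasDt hs ht hx
  rw [Function.iterate_succ_apply']
  exact h

/-- all `τ`-derivatives converge geometrically if the functions do and all derivatives are
bounded, locally in `τ > 0`. -/
theorem geo_rates {T : ℝ} (hL : 0 < L) {w : ℕ → ℝ → ℝ → ℝ} {K r : ℝ} (hK : 0 ≤ K) (hr0 : 0 < r)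
    (hr1 : r < 1) (hsm : ∀ i, Sm (Ioo 0 T) L (w i))
    (h0 : ∀ i, ∀ τ ∈ Ioo 0 T, ∀ x ∈ Icc 0 L, |w i τ x| ≤ K * r ^ i)
    (hb : ∀ (J : ℕ) (τ1 : ℝ), 0 < τ1 → ∃ M : ℝ, ∀ i, ∀ τ ∈ Ioo τ1 T, ∀ x ∈ Icc 0 L,
      |(dt^[J] (w i)) τ x| ≤ M)
    (J : ℕ) {τ1 : ℝ} (hτ1 : 0 < τ1) :
    ∃ K' r' : ℝ, 0 ≤ K' ∧ 0 < r' ∧ r' < 1 ∧ ∀ i, ∀ τ ∈ Ioo τ1 T, ∀ x ∈ Icc 0 L,
      |(dt^[J] (w i)) τ x| ≤ K' * r' ^ i := by
  induction J with
  | zero =>
    exact ⟨K, r, hK, hr0, hr1, fun i τ hτ x hx => h0 i τ ⟨hτ1.trans hτ.1, hτ.2⟩ x hx⟩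
  | succ J ih =>
    obtain ⟨K1, r1, hK1, hr10, hr11, h1⟩ := ih
    by_cases hT' : T ≤ τ1
    · exact ⟨0, 1 / 2, le_rfl, by norm_num, by norm_num,
        fun i τ hτ => absurd (hτ.1.trans hτ.2) (not_lt.2 hT')⟩
    push Not at hT'
    obtain ⟨M, hM⟩ := hb (J + 2) τ1 hτ1
    set l := (T - τ1) / 8 with hl
    have hlpos : 0 < l := by rw [hl]; linarith
    have hs0 : 0 < √r1 := Real.sqrt_pos.2 hr10
    have hs1 : √r1 < 1 := by
      rw [← Real.sqrt_one]; exact Real.sqrt_lt_sqrt hr10.le hr11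
    refine ⟨2 * K1 / l + |M| * l, √r1, by positivity, hs0, hs1, ?_⟩
    intro i τ hτ x hx
    set h := l * (√r1) ^ i with hh
    have hhpos : 0 < h := by positivity
    have hhl : h ≤ l := by
      have : (√r1) ^ i ≤ 1 := pow_le_one₀ hs0.le hs1.le
      nlinarith
    obtain ⟨a, b, ha, hb', hτab, hab⟩ :
        ∃ a b, τ1 < a ∧ b < T ∧ τ ∈ Icc a b ∧ a + 2 * h ≤ b := by
      by_cases hm : τ ≤ (τ1 + T) / 2
      · exact ⟨τ, τ + 2 * h, hτ.1, by linarith, ⟨le_rfl, by linarith⟩, le_rfl⟩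
      · push Not at hm
        exact ⟨τ - 2 * h, τ, by linarith, hτ.2, ⟨by linarith, le_rfl⟩, by linarith⟩
    have hsub : ∀ s ∈ Icc a b, s ∈ Ioo τ1 T := fun s hs =>
      ⟨lt_of_lt_of_le ha hs.1, lt_of_le_of_lt hs.2 hb'⟩
    have hsub' : ∀ s ∈ Icc a b, s ∈ Ioo 0 T := fun s hs =>
      ⟨hτ1.trans (hsub s hs).1, (hsub s hs).2⟩
    have key := deriv_le_of_sup (f := fun r => (dt^[J] (w i)) r x)
      (f1 := fun r => (dt^[J + 1] (w i)) r x) (f2 := fun r => (dt^[J + 2] (w i)) r x)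
      (ε := K1 * r1 ^ i) (C := |M|) hhpos hab
      (fun s hs => (hasDerivAt_iter_dt isOpen_Ioo hL (hsm i) (hsub' s hs) hx J).hasDerivWithinAt)
      (fun s hs =>
        (hasDerivAt_iter_dt isOpen_Ioo hL (hsm i) (hsub' s hs) hx (J + 1)).hasDerivWithinAt)
      (fun s hs => h1 i s (hsub s hs) x hx)
      (fun s hs => (hM i s (hsub s hs) x hx).trans (le_abs_self M)) hτab
    refine key.trans (le_of_eq ?_)
    have hpow : r1 ^ i = (√r1) ^ i * (√r1) ^ i := by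
      rw [← mul_pow, Real.mul_self_sqrt hr10.le]
    have hne : (√r1) ^ i ≠ 0 := by positivity
    rw [hpow, hh]
    field_simp

/-- a geometrically Cauchy sequence of continuous functions has a continuous uniform limit -/
theorem exists_unif_limit {X : Type*} [TopologicalSpace X] {S : Set X} {F : ℕ → X → ℝ} {K r : ℝ}
    (hr1 : r < 1) (hr0 : 0 < r) (h : ∀ i, ∀ p ∈ S, |F (i + 1) p - F i p| ≤ K * r ^ i) :
    ∀ G : X → ℝ, (∀ p ∈ S, G p = limUnder atTop (fun i => F i p)) →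
      TendstoUniformlyOn F G atTop S := by
  intro G hG
  have hd : ∀ p ∈ S, ∀ i, dist (F i p) (F (i + 1) p) ≤ K * r ^ i := by
    intro p hp i
    rw [dist_comm, Real.dist_eq]
    exact h i p hp
  have hlim : ∀ p ∈ S, Tendsto (fun i => F i p) atTop (𝓝 (G p)) := by
    intro p hp
    rw [hG p hp]
    exact (cauchySeq_of_le_geometric r K hr1 (hd p hp)).tendsto_limUnder
  rw [Metric.tendstoUniformlyOn_iff]
  intro ε hε
  have ht : Tendsto (fun i : ℕ => K * r ^ i / (1 - r)) atTop (𝓝 0) := by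
    have := ((tendsto_pow_atTop_nhds_zero_of_lt_one hr0.le hr1).const_mul K).div_const (1 - r)
    simpa using this
  filter_upwards [ht.eventually_lt_const hε] with i hi
  intro p hp
  rw [dist_comm]
  exact (dist_le_of_le_geometric_of_tendsto r K hr1 (hd p hp) (hlim p hp) i).trans_lt hi

/-- the limit of the iteration with all its `τ`-derivatives -/
structure TLim (T L : ℝ) (d : ℕ → ℝ → ℝ → ℝ) (D : ℕ → ℝ → ℝ → ℝ) : Prop where
  unif : ∀ J τ1, 0 < τ1 → TendstoUniformlyOn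
    (fun (i : ℕ) (p : ℝ × ℝ) => (dt^[J] (d i)) p.1 p.2) (fun p => D J p.1 p.2) atTop
      (Ioo τ1 T ×ˢ Icc 0 L)
  cont : ∀ J, ContinuousOn (fun p : ℝ × ℝ => D J p.1 p.2) (Ioo 0 T ×ˢ Icc 0 L)
  deriv : ∀ J, ∀ τ ∈ Ioo 0 T, ∀ x ∈ Icc 0 L, HasDerivAt (fun r => D J r x) (D (J + 1) τ x) τ

theorem TLim.tendsto {T L : ℝ} {d : ℕ → ℝ → ℝ → ℝ} {D : ℕ → ℝ → ℝ → ℝ} (h : TLim T L d D)
    (J : ℕ) {τ x : ℝ} (hτ : τ ∈ Ioo 0 T) (hx : x ∈ Icc 0 L) :
    Tendsto (fun i => (dt^[J] (d i)) τ x) atTop (𝓝 (D J τ x)) :=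
  (h.unif J (τ / 2) (half_pos hτ.1)).tendsto_at
    (x := (τ, x)) ⟨⟨by linarith [hτ.1], hτ.2⟩, hx⟩

theorem exists_tlim {T : ℝ} (hL : 0 < L) {d : ℕ → ℝ → ℝ → ℝ} {K r : ℝ} (hK : 0 ≤ K) (hr0 : 0 < r)
    (hr1 : r < 1) (hsm : ∀ i, Sm (Ioo 0 T) L (d i))
    (h0 : ∀ i, ∀ τ ∈ Ioo 0 T, ∀ x ∈ Icc 0 L, |d (i + 1) τ x - d i τ x| ≤ K * r ^ i)
    (hb : ∀ (J : ℕ) (τ1 : ℝ), 0 < τ1 → ∃ M : ℝ, ∀ i, ∀ τ ∈ Ioo τ1 T, ∀ x ∈ Icc 0 L,
      |(dt^[J] (d i)) τ x| ≤ M) :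
    ∃ D, TLim T L d D := by
  have hbw : ∀ (J : ℕ) (τ1 : ℝ), 0 < τ1 → ∃ M : ℝ, ∀ i, ∀ τ ∈ Ioo τ1 T, ∀ x ∈ Icc 0 L,
      |(dt^[J] (fun t x => d (i + 1) t x - d i t x)) τ x| ≤ M := by
    intro J τ1 hτ1
    obtain ⟨M, hM⟩ := hb J τ1 hτ1
    refine ⟨M + M, fun i τ hτ x hx => ?_⟩
    rw [iter_dt_sub (hsm (i + 1)) (hsm i) isOpen_Ioo ⟨hτ1.trans hτ.1, hτ.2⟩ hx J]
    exact (abs_sub _ _).trans (add_le_add (hM _ _ hτ _ hx) (hM _ _ hτ _ hx))
  have hrate := fun (J : ℕ) (τ1 : ℝ) (hτ1 : 0 < τ1) =>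
    geo_rates (T := T) hL (w := fun i t x => d (i + 1) t x - d i t x) hK hr0 hr1
      (fun i => (hsm (i + 1)).sub (hsm i)) h0 hbw J hτ1
  let D : ℕ → ℝ → ℝ → ℝ := fun J τ x => limUnder atTop (fun i => (dt^[J] (d i)) τ x)
  have hunif : ∀ J τ1, 0 < τ1 → TendstoUniformlyOn
      (fun (i : ℕ) (p : ℝ × ℝ) => (dt^[J] (d i)) p.1 p.2) (fun p => D J p.1 p.2) atTop
        (Ioo τ1 T ×ˢ Icc 0 L) := by
    intro J τ1 hτ1
    obtain ⟨K', r', -, hr0', hr1', h'⟩ := hrate J τ1 hτ1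
    refine exists_unif_limit (K := K') hr1' hr0' ?_ _ (fun p hp => rfl)
    rintro i ⟨τ, x⟩ ⟨hτ, hx⟩
    have := h' i τ hτ x hx
    rwa [iter_dt_sub (hsm (i + 1)) (hsm i) isOpen_Ioo ⟨hτ1.trans hτ.1, hτ.2⟩ hx J] at this
  refine ⟨D, hunif, ?_, ?_⟩
  · rintro J ⟨τ, x⟩ ⟨hτ, hx⟩
    have h1 : ContinuousOn (fun p : ℝ × ℝ => D J p.1 p.2) (Ioo (τ / 2) T ×ˢ Icc 0 L) := by
      refine (hunif J (τ / 2) (half_pos hτ.1)).continuousOn (Eventually.frequently ?_)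
      refine Eventually.of_forall fun i => ?_
      exact (Sm.dt_iter isOpen_Ioo hL (hsm i) J).continuousOn.mono
        (Set.prod_mono (Ioo_subset_Ioo_left (half_pos hτ.1).le) subset_rfl)
    have h2 := h1 (τ, x) ⟨⟨by linarith [hτ.1], hτ.2⟩, hx⟩
    refine h2.mono_of_mem_nhdsWithin ?_
    rw [nhdsWithin_prod_eq]
    refine prod_mem_prod (mem_nhdsWithin_of_mem_nhds (Ioo_mem_nhds ?_ hτ.2)) self_mem_nhdsWithin
    linarith [hτ.1]
  · intro J τ hτ x hx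
    have hmem : τ ∈ Ioo (τ / 2) T := ⟨by linarith [hτ.1], hτ.2⟩
    refine hasDerivAt_of_tendstoUniformlyOn (s := Ioo (τ / 2) T) (l := atTop) isOpen_Ioo
      (f := fun i r => (dt^[J] (d i)) r x) (f' := fun i r => (dt^[J + 1] (d i)) r x)
      (g := fun r => D J r x) (g' := fun r => D (J + 1) r x) ?_ ?_ ?_ hmem
    · have := hunif (J + 1) (τ / 2) (half_pos hτ.1)
      rw [Metric.tendstoUniformlyOn_iff] at this ⊢
      intro ε hε
      filter_upwards [this ε hε] with i hi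
      intro r hr
      exact hi (r, x) ⟨hr, hx⟩
    · refine Eventually.of_forall fun i r hr => ?_
      exact hasDerivAt_iter_dt isOpen_Ioo hL (hsm i) ⟨(half_pos hτ.1).trans hr.1, hr.2⟩ hx J
    · intro r hr
      exact (hunif J (τ / 2) (half_pos hτ.1)).tendsto_at (x := (r, x)) ⟨hr, hx⟩

/-! ### the second primitive of the limit -/

theorem taylor_within {f f1 f2 : ℝ → ℝ}
    (h1 : ∀ s ∈ Icc 0 L, HasDerivWithinAt f (f1 s) (Icc 0 L) s)
    (h2 : ∀ s ∈ Icc 0 L, HasDerivWithinAt f1 (f2 s) (Icc 0 L) s)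
    (hc : ContinuousOn f2 (Icc 0 L)) {a y : ℝ} (ha : a ∈ Icc 0 L) (hy : y ∈ Icc 0 L)
    (hay : a ≤ y) : ∫ s in a..y, (y - s) * f2 s = f y - f a - (y - a) * f1 a := by
  have h3 : ∀ s ∈ Icc 0 L,
      HasDerivWithinAt (fun s => (y - s) * f1 s + f s) ((y - s) * f2 s) (Icc 0 L) s := by
    intro s hs
    have h := (((hasDerivWithinAt_id s (Icc 0 L)).const_sub y).mul (h2 s hs)).add (h1 s hs)
    refine h.congr_deriv ?_
    simp
  have h4 := ftc_within h3 (by fun_prop) ha hy hay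
  rw [h4]
  ring

theorem taylor_within' {f f1 f2 : ℝ → ℝ}
    (h1 : ∀ s ∈ Icc 0 L, HasDerivWithinAt f (f1 s) (Icc 0 L) s)
    (h2 : ∀ s ∈ Icc 0 L, HasDerivWithinAt f1 (f2 s) (Icc 0 L) s)
    (hc : ContinuousOn f2 (Icc 0 L)) {a y : ℝ} (ha : a ∈ Icc 0 L) (hy : y ∈ Icc 0 L) :
    ∫ s in a..y, (y - s) * f2 s = f y - f a - (y - a) * f1 a := by
  rcases le_total a y with h | h
  · exact taylor_within h1 h2 hc ha hy h
  have h3 : ∀ s ∈ Icc 0 L,
      HasDerivWithinAt (fun s => (y - s) * f1 s + f s) ((y - s) * f2 s) (Icc 0 L) s := by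
    intro s hs
    have h := (((hasDerivWithinAt_id s (Icc 0 L)).const_sub y).mul (h2 s hs)).add (h1 s hs)
    refine h.congr_deriv ?_
    simp
  have h4 := ftc_within h3 (by fun_prop) hy ha h
  rw [intervalIntegral.integral_symm, h4]
  ring

/-- Taylor formula for the limit in the open interval. -/
theorem tay_of_limit (hL : 0 < L) {F F1 F2 : ℕ → ℝ → ℝ} {f V : ℝ → ℝ}
    (h1 : ∀ i, ∀ s ∈ Icc 0 L, HasDerivWithinAt (F i) (F1 i s) (Icc 0 L) s)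
    (h2 : ∀ i, ∀ s ∈ Icc 0 L, HasDerivWithinAt (F1 i) (F2 i s) (Icc 0 L) s)
    (hc : ∀ i, ContinuousOn (F2 i) (Icc 0 L))
    (hlim : ∀ x ∈ Icc 0 L, Tendsto (fun i => F i x) atTop (𝓝 (f x)))
    (hint : ∀ x ∈ Ioo 0 L, Tendsto (fun i => ∫ s in (L / 2)..x, (x - s) * F2 i s) atTop
      (𝓝 (∫ s in (L / 2)..x, (x - s) * V s))) :
    ∃ p, ∀ x ∈ Ioo 0 L, f x = f (L / 2) + (x - L / 2) * p + ∫ s in (L / 2)..x, (x - s) * V s := by
  have mh : L / 2 ∈ Icc 0 L := ⟨by linarith, by linarith⟩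
  have mq : 3 * L / 4 ∈ Ioo 0 L := ⟨by linarith, by linarith⟩
  have hne : 3 * L / 4 - L / 2 ≠ 0 := by
    have : 3 * L / 4 - L / 2 = L / 4 := by ring
    rw [this]; positivity
  have key : ∀ i, ∀ x ∈ Icc 0 L, (x - L / 2) * F1 i (L / 2) =
      F i x - F i (L / 2) - ∫ s in (L / 2)..x, (x - s) * F2 i s := by
    intro i x hx
    rw [taylor_within' (h1 i) (h2 i) (hc i) mh hx]
    ring
  set p := (f (3 * L / 4) - f (L / 2) -
    ∫ s in (L / 2)..(3 * L / 4), (3 * L / 4 - s) * V s) / (3 * L / 4 - L / 2) with hp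
  have hF1 : Tendsto (fun i => F1 i (L / 2)) atTop (𝓝 p) := by
    have t := ((((hlim _ (Ioo_subset_Icc_self mq)).sub (hlim _ mh)).sub (hint _ mq)).div_const
      (3 * L / 4 - L / 2))
    refine t.congr fun i => ?_
    rw [← key i _ (Ioo_subset_Icc_self mq)]
    field_simp
  refine ⟨p, fun x hx => ?_⟩
  have hx' := Ioo_subset_Icc_self hx
  have t1 := (hF1.const_mul (x - L / 2)).congr fun i => key i x hx'
  have t2 := ((hlim x hx').sub (hlim _ mh)).sub (hint x hx)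
  have := tendsto_nhds_unique t1 t2
  linarith

theorem three_pt {f f1 f2 : ℝ → ℝ}
    (h1 : ∀ s ∈ Icc 0 L, HasDerivWithinAt f (f1 s) (Icc 0 L) s)
    (h2 : ∀ s ∈ Icc 0 L, HasDerivWithinAt f1 (f2 s) (Icc 0 L) s)
    (hc : ContinuousOn f2 (Icc 0 L)) {a x b : ℝ} (ha : a ∈ Icc 0 L) (hb : b ∈ Icc 0 L)
    (hax : a ≤ x) (hxb : x ≤ b) :
    (b - x) * f a - (b - a) * f x + (x - a) * f b =
      (x - a) * (∫ s in a..b, (b - s) * f2 s) - (b - a) * ∫ s in a..x, (x - s) * f2 s := by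
  have hx : x ∈ Icc 0 L := ⟨ha.1.trans hax, hxb.trans hb.2⟩
  rw [taylor_within h1 h2 hc ha hb (hax.trans hxb), taylor_within h1 h2 hc ha hx hax]
  ring

theorem tendsto_int_of_unif {F : ℕ → ℝ → ℝ} {V : ℝ → ℝ} {a b y : ℝ} (hab : a ≤ b)
    (hc : ∀ i, ContinuousOn (F i) (Icc a b)) (h : TendstoUniformlyOn F V atTop (Icc a b)) :
    Tendsto (fun i => ∫ s in a..b, (y - s) * F i s) atTop (𝓝 (∫ s in a..b, (y - s) * V s)) := by
  have hM : ∃ M, 0 < M ∧ ∀ s ∈ Icc a b, |y - s| ≤ M := by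
    obtain ⟨M, hM⟩ := isCompact_Icc.exists_bound_of_continuousOn
      (f := fun s : ℝ => y - s) (s := Icc a b) (by fun_prop)
    exact ⟨|M| + 1, by positivity, fun s hs => (hM s hs).trans (by linarith [le_abs_self M])⟩
  obtain ⟨M, hM0, hM⟩ := hM
  refine TendstoUniformlyOn.tendsto_intervalIntegral_of_continuousOn ?_ ?_
  · refine Eventually.of_forall fun i => ?_
    rw [uIcc_of_le hab]
    exact (by fun_prop : ContinuousOn (fun s : ℝ => y - s) (Icc a b)).mul (hc i)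
  · rw [uIcc_of_le hab, Metric.tendstoUniformlyOn_iff]
    rw [Metric.tendstoUniformlyOn_iff] at h
    intro ε hε
    filter_upwards [h (ε / M) (div_pos hε hM0)] with i hi
    intro s hs
    have h1 := hi s hs
    rw [Real.dist_eq] at h1 ⊢
    rw [← mul_sub, abs_mul]
    calc |y - s| * |V s - F i s| ≤ M * |V s - F i s| :=
          mul_le_mul_of_nonneg_right (hM s hs) (abs_nonneg _)
      _ < M * (ε / M) := mul_lt_mul_of_pos_left h1 hM0
      _ = ε := by field_simp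

/-- `f` is the double primitive of `V` if it is the limit of functions whose second derivatives
converge to `V` locally uniformly in the open interval. -/
theorem rep_of_limit (hL : 0 < L) {F F1 F2 : ℕ → ℝ → ℝ} {f V : ℝ → ℝ}
    (h1 : ∀ i, ∀ s ∈ Icc 0 L, HasDerivWithinAt (F i) (F1 i s) (Icc 0 L) s)
    (h2 : ∀ i, ∀ s ∈ Icc 0 L, HasDerivWithinAt (F1 i) (F2 i s) (Icc 0 L) s)
    (hc : ∀ i, ContinuousOn (F2 i) (Icc 0 L)) (hf : ContinuousOn f (Icc 0 L))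
    (hV : ContinuousOn V (Icc 0 L))
    (hlim : ∀ x ∈ Icc 0 L, Tendsto (fun i => F i x) atTop (𝓝 (f x)))
    (hunif : ∀ a b, 0 < a → b < L → TendstoUniformlyOn F2 V atTop (Icc a b)) :
    ∃ p, ∀ x ∈ Icc 0 L, f x = f 0 + x * p + ∫ s in (0 : ℝ)..x, (x - s) * V s := by
  have m0 : (0 : ℝ) ∈ Icc 0 L := ⟨le_rfl, hL.le⟩
  have mL : L ∈ Icc 0 L := ⟨hL.le, le_rfl⟩
  -- double primitive of `V`
  set P1 : ℝ → ℝ := fun x => ∫ s in (0 : ℝ)..x, V s with hP1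
  set P : ℝ → ℝ := fun x => ∫ s in (0 : ℝ)..x, P1 s with hP
  have dP1 : ∀ s ∈ Icc 0 L, HasDerivWithinAt P1 (V s) (Icc 0 L) s := fun s hs => ftc_Icc hV hs
  have cP1 : ContinuousOn P1 (Icc 0 L) := fun s hs => (dP1 s hs).continuousWithinAt
  have dP : ∀ s ∈ Icc 0 L, HasDerivWithinAt P (P1 s) (Icc 0 L) s := fun s hs => ftc_Icc cP1 hs
  have cP : ContinuousOn P (Icc 0 L) := fun s hs => (dP s hs).continuousWithinAt
  have hPx : ∀ x ∈ Icc 0 L, P x = ∫ s in (0 : ℝ)..x, (x - s) * V s := by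
    intro x hx
    rw [taylor_within dP dP1 hV m0 hx hx.1]
    simp [hP, hP1]
  set G : ℝ → ℝ := fun x => f x - P x with hG
  have cG : ContinuousOn G (Icc 0 L) := hf.sub cP
  -- three point relation in the open interval
  have key : ∀ a x b, 0 < a → a ≤ x → x ≤ b → b < L →
      (b - x) * G a - (b - a) * G x + (x - a) * G b = 0 := by
    intro a x b ha hax hxb hb
    have ma : a ∈ Icc 0 L := ⟨ha.le, (hax.trans hxb).trans hb.le⟩
    have mb : b ∈ Icc 0 L := ⟨ha.le.trans (hax.trans hxb), hb.le⟩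
    have mx : x ∈ Icc 0 L := ⟨ha.le.trans hax, hxb.trans hb.le⟩
    have hsub : Icc a b ⊆ Icc 0 L := Icc_subset_Icc ma.1 mb.2
    have hsub' : Icc a x ⊆ Icc 0 L := Icc_subset_Icc ma.1 mx.2
    have e1 := fun i => three_pt (h1 i) (h2 i) (hc i) ma mb hax hxb
    have e2 := three_pt dP dP1 hV ma mb hax hxb
    have t1 : Tendsto (fun i => (b - x) * F i a - (b - a) * F i x + (x - a) * F i b) atTop
        (𝓝 ((b - x) * f a - (b - a) * f x + (x - a) * f b)) :=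
      (((hlim a ma).const_mul _).sub ((hlim x mx).const_mul _)).add ((hlim b mb).const_mul _)
    have t2 : Tendsto (fun i => (x - a) * (∫ s in a..b, (b - s) * F2 i s) -
        (b - a) * ∫ s in a..x, (x - s) * F2 i s) atTop
        (𝓝 ((x - a) * (∫ s in a..b, (b - s) * V s) - (b - a) * ∫ s in a..x, (x - s) * V s)) :=
      ((tendsto_int_of_unif (hax.trans hxb) (fun i => (hc i).mono hsub)
        (hunif a b ha hb)).const_mul _).sub
      ((tendsto_int_of_unif hax (fun i => (hc i).mono hsub')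
        (hunif a x ha (lt_of_le_of_lt hxb hb))).const_mul _)
    have t3 := tendsto_nhds_unique (t1.congr e1) t2
    rw [hG]
    simp only
    linarith
  -- extension to the closed interval
  have key2 : ∀ a x, 0 < a → a ≤ x → x < L →
      (L - x) * G a - (L - a) * G x + (x - a) * G L = 0 := by
    intro a x ha hax hx
    have hs : Icc x L ⊆ Icc 0 L := Icc_subset_Icc_left (ha.le.trans hax)
    have hE : EqOn (fun b => (b - x) * G a - (b - a) * G x + (x - a) * G b) (fun _ => 0)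
        (Icc x L) := by
      refine Set.EqOn.of_subset_closure (s := Ioo x L) ?_ ?_ continuousOn_const
        Ioo_subset_Icc_self (by rw [closure_Ioo hx.ne])
      · intro b hb
        exact key a x b ha hax hb.1.le hb.2
      · have := cG.mono hs
        fun_prop
    exact hE ⟨hx.le, le_rfl⟩
  have key3 : ∀ x, 0 < x → x < L → (L - x) * G 0 - (L - 0) * G x + (x - 0) * G L = 0 := by
    intro x hx hxL
    have hs : Icc 0 x ⊆ Icc 0 L := Icc_subset_Icc_right hxL.le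
    have hE : EqOn (fun a => (L - x) * G a - (L - a) * G x + (x - a) * G L) (fun _ => 0)
        (Icc 0 x) := by
      refine Set.EqOn.of_subset_closure (s := Ioo 0 x) ?_ ?_ continuousOn_const
        Ioo_subset_Icc_self (by rw [closure_Ioo hx.ne])
      · intro a ha
        exact key2 a x ha.1 ha.2.le hxL
      · have := cG.mono hs
        fun_prop
    exact hE ⟨le_rfl, hx.le⟩
  refine ⟨(G L - G 0) / L, fun x hx => ?_⟩
  have hG0 : G 0 = f 0 := by simp [hG, hP]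
  rw [← hPx x hx]
  have hxG : G x = f 0 + x * ((G L - G 0) / L) := by
    rcases eq_or_lt_of_le hx.1 with h0 | h0
    · rw [← h0]; simp [hG0]
    rcases eq_or_lt_of_le hx.2 with h1' | h1'
    · rw [h1', ← hG0]; field_simp; ring
    · have := key3 x h0 h1'
      rw [← hG0]
      field_simp
      linarith
  have : f x = G x + P x := by simp [hG]
  rw [this, hxG]

/-! ### the limit of the iteration -/

/-- the data of the limit of the iteration, before spatial smoothness. -/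
structure LimData (L : ℝ) (φ E : ℝ → ℝ → ℝ) (D : ℕ → ℝ → ℝ → ℝ) (B : ℝ → ℝ → ℝ) : Prop where
  cont : ∀ J, ContinuousOn (fun p : ℝ × ℝ => D J p.1 p.2) (Ioo 0 (1 / 4) ×ˢ Icc 0 L)
  deriv : ∀ J, ∀ τ ∈ Ioo (0 : ℝ) (1 / 4), ∀ x ∈ Icc 0 L,
    HasDerivAt (fun r => D J r x) (D (J + 1) τ x) τ
  contB : ContinuousOn (fun p : ℝ × ℝ => B p.1 p.2) (Ioo 0 (1 / 4) ×ˢ Icc 0 L)
  small : ∀ τ ∈ Ioo (0 : ℝ) (1 / 4), ∀ x ∈ Icc 0 L, |B τ x| ≤ 1 / 20
  B0 : ∀ τ ∈ Ioo (0 : ℝ) (1 / 4), B τ 0 = 0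
  BL : ∀ τ ∈ Ioo (0 : ℝ) (1 / 4), B τ L = 0
  eqn : ∀ τ ∈ Ioo (0 : ℝ) (1 / 4), ∀ x ∈ Icc 0 L,
    x ^ 9 * φ τ x * (B τ x / (1 + B τ x)) = Kint (fun ξ => E τ ξ + D 1 τ ξ) x
  mom : ∀ τ ∈ Ioo (0 : ℝ) (1 / 4), K1 (fun ξ => E τ ξ + D 1 τ ξ) L = 0
  rep : ∀ τ ∈ Ioo (0 : ℝ) (1 / 4), ∀ V : ℝ → ℝ, ContinuousOn V (Icc 0 L) →
    (∀ x ∈ Ioo 0 L, φ τ x * V x = B τ x) →
    ∃ p, ∀ x ∈ Icc 0 L, D 0 τ x = D 0 τ 0 + x * p + x ^ 2 * ∫ r in (0 : ℝ)..1, (1 - r) * V (r * x)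
  tay : ∀ τ ∈ Ioo (0 : ℝ) (1 / 4), ∃ p : ℝ, ∀ x ∈ Ioo 0 L,
    D 0 τ x = D 0 τ (L / 2) + (x - L / 2) * p + ∫ ξ in (L / 2)..x, (x - ξ) * (B τ ξ / φ τ ξ)
  dt0 : ∀ τ ∈ Ioo (0 : ℝ) (1 / 4), |D 1 τ 0| ≤ 1

theorem LimData.lim {φ E : ℝ → ℝ → ℝ} {D : ℕ → ℝ → ℝ → ℝ} {B : ℝ → ℝ → ℝ}
    (h : LimData L φ E D B) : Tendsto (fun τ => √τ * D 1 τ 0) (𝓝[>] 0) (𝓝 0) := by
  have h1 : Tendsto (fun τ : ℝ => √τ) (𝓝[>] 0) (𝓝 0) := by
    have := (Real.continuous_sqrt.tendsto 0).mono_left (nhdsWithin_le_nhds (s := Ioi (0 : ℝ)))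
    rwa [Real.sqrt_zero] at this
  refine squeeze_zero_norm' ?_ h1
  have : Ioo (0 : ℝ) (1 / 4) ∈ 𝓝[>] (0 : ℝ) := Ioo_mem_nhdsGT (by norm_num)
  filter_upwards [this] with τ hτ
  rw [Real.norm_eq_abs, abs_mul, abs_of_nonneg (Real.sqrt_nonneg τ)]
  exact mul_le_of_le_one_right (Real.sqrt_nonneg τ) (h.dt0 τ hτ)

theorem int_scale (V : ℝ → ℝ) (x : ℝ) :
    ∫ s in (0 : ℝ)..x, (x - s) * V s = x ^ 2 * ∫ r in (0 : ℝ)..1, (1 - r) * V (r * x) := by
  have h := intervalIntegral.mul_integral_comp_mul_right (a := 0) (b := 1)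
    (f := fun ξ => (x - ξ) * V ξ) x
  rw [zero_mul, one_mul] at h
  rw [← h, ← intervalIntegral.integral_const_mul, ← intervalIntegral.integral_const_mul]
  refine intervalIntegral.integral_congr (fun r _ => ?_)
  ring

theorem limT_phi_lower {φ m : ℝ → ℝ → ℝ} {c0 C0 : ℝ} {g : ℝ → ℝ} (hB : Bg c0 C0 g L φ m)
    (hc0 : 0 < c0) {τ a b x : ℝ} (hτ : τ ∈ Ioo (0 : ℝ) 1) (ha : 0 < a) (hb : b < L)
    (hx : x ∈ Icc a b) : a * (1 - b / L) * c0 ≤ φ τ x := by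
  have hL : 0 < L := by linarith [hB.L_ge]
  have hx' : x ∈ Icc 0 L := ⟨ha.le.trans hx.1, hx.2.trans hb.le⟩
  rw [hB.phi_eq τ hτ x hx']
  have h1 : 0 < 1 - b / L := by rw [sub_pos, div_lt_one hL]; exact hb
  have h2 : 1 - b / L ≤ 1 - x / L := by
    have : x / L ≤ b / L := div_le_div_of_nonneg_right hx.2 hL.le
    linarith
  have h3 := hB.lower τ hτ x hx'
  have h4 : a * (1 - b / L) ≤ x * (1 - x / L) := mul_le_mul hx.1 h2 h1.le (ha.le.trans hx.1)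
  have h5 : 0 ≤ x * (1 - x / L) := le_trans (by positivity) h4
  exact mul_le_mul h4 h3 hc0.le h5

theorem limT_phi_zero {φ m : ℝ → ℝ → ℝ} {c0 C0 : ℝ} {g : ℝ → ℝ} (hB : Bg c0 C0 g L φ m)
    {τ : ℝ} (hτ : τ ∈ Ioo (0 : ℝ) 1) : φ τ 0 = 0 ∧ φ τ L = 0 := by
  have hL : 0 < L := by linarith [hB.L_ge]
  constructor
  · rw [hB.phi_eq τ hτ 0 ⟨le_rfl, hL.le⟩]; ring
  · rw [hB.phi_eq τ hτ L ⟨hL.le, le_rfl⟩, div_self hL.ne']; ring

theorem limT_sm_phi {φ m : ℝ → ℝ → ℝ} {c0 C0 : ℝ} {g : ℝ → ℝ} (hB : Bg c0 C0 g L φ m) :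
    Sm (Ioo 0 1) L φ := by
  have h : Sm (Ioo 0 1) L (fun t x => x * (1 - x / L) * m t x) := by
    refine Sm.mul (Sm.mul Sm.snd ((Sm.const 1).sub ?_)) hB.sm
    have := (Sm.const (s := Ioo 0 1) (L := L) (1 / L)).mul Sm.snd
    refine this.congr fun t _ x _ => ?_
    ring
  exact h.congr fun t ht x hx => hB.phi_eq t ht x hx

theorem limit_time {φ m : ℝ → ℝ → ℝ} {c0 C0 κ : ℝ} {g : ℝ → ℝ} (hB : Bg c0 C0 g L φ m)
    (hg : Prof c0 C0 g) {η : ℝ → ℝ} (hη : EtaOK η) {E : ℝ → ℝ → ℝ} (hE : Sm (Ioo 0 1) L E)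
    {d : ℕ → ℝ → ℝ → ℝ} (hI : Iter κ L φ E η d)
    (hJ : ∀ (J : ℕ) (τ1 : ℝ), 0 < τ1 → ∃ M : ℝ, ∀ i, ∀ τ ∈ Ioo τ1 (3 / 8), ∀ x ∈ Icc 0 L,
      |(dt^[J] (d i)) τ x| ≤ M) :
    ∃ (D : ℕ → ℝ → ℝ → ℝ) (B : ℝ → ℝ → ℝ), LimData L φ E D B := by
  have hL : 0 < L := by linarith [hB.L_ge]
  have h38 : Ioo (0 : ℝ) (3 / 8) ⊆ Ioo 0 1 := Ioo_subset_Ioo_right (by norm_num)
  have h38' : Ioo (0 : ℝ) (3 / 8) ⊆ Ioo 0 (1 / 2) := Ioo_subset_Ioo_right (by norm_num)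
  have h14 : Ioo (0 : ℝ) (1 / 4) ⊆ Ioo 0 (3 / 8) := Ioo_subset_Ioo_right (by norm_num)
  set K : ℝ := (L ^ 2 + 1) ^ 25 with hK
  have hK0 : 0 ≤ K := by positivity
  have hrho : ∀ τ ∈ Ioo (0 : ℝ) (3 / 8), ∀ x ∈ Icc 0 L, 0 ≤ rho τ x ∧ rho τ x ^ 25 ≤ K := by
    intro τ hτ x hx
    have h0 : 0 ≤ rho τ x := add_nonneg (sq_nonneg _) hτ.1.le
    refine ⟨h0, pow_le_pow_left₀ h0 ?_ 25⟩
    have : x ^ 2 ≤ L ^ 2 := pow_le_pow_left₀ hx.1 hx.2 2
    have := hτ.2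
    unfold rho
    linarith
  -- the functions
  have hd : ∀ i, ∀ τ ∈ Ioo (0 : ℝ) (3 / 8), ∀ x ∈ Icc 0 L,
      |d (i + 1) τ x - d i τ x| ≤ K * (1 / 2) ^ i := by
    intro i τ hτ x hx
    have h := hI.db_diff i 0 (by norm_num) τ (h38' hτ) x hx
    simp only [Function.iterate_zero, id_eq, pow_zero, mul_one] at h
    have h2 := (hrho τ hτ x hx).2
    calc |d (i + 1) τ x - d i τ x| ≤ (1 / 2) ^ i * rho τ x ^ 25 := h
      _ ≤ (1 / 2) ^ i * K := mul_le_mul_of_nonneg_left h2 (by positivity)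
      _ = K * (1 / 2) ^ i := mul_comm _ _
  obtain ⟨D, hD⟩ := exists_tlim (T := 3 / 8) hL hK0 (by norm_num : (0 : ℝ) < 1 / 2) (by norm_num)
    (fun i => (hI.sm i).mono h38) hd hJ
  -- the second derivatives
  have hbsm : ∀ i, Sm (Ioo 0 1) L (bb L φ (d i)) := fun i =>
    (limT_sm_phi hB).mul (((hI.sm i).dx isOpen_Ioo hL).dx isOpen_Ioo hL)
  have hbd : ∀ i, ∀ p ∈ Ioo (0 : ℝ) (3 / 8) ×ˢ Icc 0 L,
      |bb L φ (d (i + 1)) p.1 p.2 - bb L φ (d i) p.1 p.2| ≤ K * (1 / 2) ^ i := by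
    rintro i ⟨τ, x⟩ ⟨hτ, hx⟩
    have h := hI.pb_diff i 0 (by norm_num) τ (h38' hτ) x hx
    simp only [Function.iterate_zero, id_eq, pow_zero, mul_one, aa] at h
    norm_num at h
    have h2 := (hrho τ hτ x hx).2
    calc |bb L φ (d (i + 1)) τ x - bb L φ (d i) τ x| ≤ (1 / 2) ^ i * rho τ x ^ 25 := by
          simpa [rho] using h
      _ ≤ (1 / 2) ^ i * K := mul_le_mul_of_nonneg_left h2 (by positivity)
      _ = K * (1 / 2) ^ i := mul_comm _ _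
  set B : ℝ → ℝ → ℝ := fun τ x => limUnder atTop (fun i => bb L φ (d i) τ x) with hBdef
  have hBu : TendstoUniformlyOn (fun (i : ℕ) (p : ℝ × ℝ) => bb L φ (d i) p.1 p.2)
      (fun p => B p.1 p.2) atTop (Ioo (0 : ℝ) (3 / 8) ×ˢ Icc 0 L) :=
    exists_unif_limit (K := K) (by norm_num : (1 / 2 : ℝ) < 1) (by norm_num) hbd _
      (fun p hp => rfl)
  have hBt : ∀ τ ∈ Ioo (0 : ℝ) (3 / 8), ∀ x ∈ Icc 0 L,
      Tendsto (fun i => bb L φ (d i) τ x) atTop (𝓝 (B τ x)) := fun τ hτ x hx =>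
    hBu.tendsto_at (x := (τ, x)) ⟨hτ, hx⟩
  have hBc : ContinuousOn (fun p : ℝ × ℝ => B p.1 p.2) (Ioo (0 : ℝ) (3 / 8) ×ˢ Icc 0 L) := by
    refine hBu.continuousOn (Eventually.frequently (Eventually.of_forall fun i => ?_))
    exact (hbsm i).continuousOn.mono (Set.prod_mono h38 subset_rfl)
  have hBs : ∀ τ ∈ Ioo (0 : ℝ) (3 / 8), ∀ x ∈ Icc 0 L, |B τ x| ≤ 1 / 20 := by
    intro τ hτ x hx
    refine le_of_tendsto (hBt τ hτ x hx).abs (Eventually.of_forall fun i => ?_)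
    exact hI.small i τ (h38' hτ) x hx
  have hB1 : ∀ τ ∈ Ioo (0 : ℝ) (3 / 8), ∀ x ∈ Icc 0 L, 0 < 1 + B τ x := by
    intro τ hτ x hx
    have := (abs_le.1 (hBs τ hτ x hx)).1
    linarith
  have hB0 : ∀ τ ∈ Ioo (0 : ℝ) (3 / 8), B τ 0 = 0 ∧ B τ L = 0 := by
    intro τ hτ
    have h := limT_phi_zero hB (h38 hτ)
    have hz : ∀ x ∈ Icc 0 L, φ τ x = 0 → B τ x = 0 := by
      intro x hx hφ
      have h1 := hBt τ hτ x hx
      have h2 : (fun i => bb L φ (d i) τ x) = fun _ => (0 : ℝ) := by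
        funext i; simp [bb, hφ]
      rw [h2] at h1
      exact (tendsto_nhds_unique h1 tendsto_const_nhds)
    exact ⟨hz 0 ⟨le_rfl, hL.le⟩ h.1, hz L ⟨hL.le, le_rfl⟩ h.2⟩
  -- continuity in `x`
  have hDx : ∀ J, ∀ τ ∈ Ioo (0 : ℝ) (3 / 8), ContinuousOn (fun x => D J τ x) (Icc 0 L) := by
    intro J τ hτ
    exact (hD.cont J).comp (f := fun x => (τ, x)) (by fun_prop) (fun x hx => ⟨hτ, hx⟩)
  have hBx : ∀ τ ∈ Ioo (0 : ℝ) (3 / 8), ContinuousOn (fun x => B τ x) (Icc 0 L) := by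
    intro τ hτ
    exact hBc.comp (f := fun x => (τ, x)) (by fun_prop) (fun x hx => ⟨hτ, hx⟩)
  -- the equation
  have heqn : ∀ τ ∈ Ioo (0 : ℝ) (1 / 4), ∀ x ∈ Icc 0 L,
      x ^ 9 * φ τ x * (B τ x / (1 + B τ x)) = Kint (fun ξ => E τ ξ + D 1 τ ξ) x := by
    intro τ hτ' x hx
    have hτ := h14 hτ'
    have e1 : ∀ i, x ^ 9 * φ τ x * (bb L φ (d (i + 1)) τ x -
        bb L φ (d i) τ x ^ 2 / (1 + bb L φ (d i) τ x)) =
        Kint (fun ξ => E τ ξ + dt (d (i + 1)) τ ξ) x := by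
      intro i
      rw [← hI.eqS i τ (h38 hτ) x hx]
      simp only [hNL, bb]
      rw [hη.eq_one τ hτ'.2.le]
      ring
    have t1 : Tendsto (fun i => x ^ 9 * φ τ x * (bb L φ (d (i + 1)) τ x -
        bb L φ (d i) τ x ^ 2 / (1 + bb L φ (d i) τ x))) atTop
        (𝓝 (x ^ 9 * φ τ x * (B τ x - B τ x ^ 2 / (1 + B τ x)))) := by
      have h1 := hBt τ hτ x hx
      have h2 := (tendsto_add_atTop_iff_nat 1).2 h1
      exact ((h2.sub ((h1.pow 2).div (h1.const_add 1) (hB1 τ hτ x hx).ne')).const_mul _)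
    have t2 : Tendsto (fun i => Kint (fun ξ => E τ ξ + dt (d (i + 1)) τ ξ) x) atTop
        (𝓝 (Kint (fun ξ => E τ ξ + D 1 τ ξ) x)) := by
      have hu : TendstoUniformlyOn (fun (i : ℕ) ξ => ξ ^ 9 * (E τ ξ + dt (d (i + 1)) τ ξ))
          (fun ξ => ξ ^ 9 * (E τ ξ + D 1 τ ξ)) atTop (Icc 0 x) := by
        have h1 := hD.unif 1 (τ / 2) (half_pos hτ.1)
        rw [Metric.tendstoUniformlyOn_iff] at h1 ⊢
        intro ε hε
        have hL9 : 0 < L ^ 9 := by positivity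
        have h2 := h1 (ε / L ^ 9) (div_pos hε hL9)
        have h3 := (tendsto_add_atTop_nat 1).eventually h2
        filter_upwards [h3] with i hi
        intro ξ hξ
        have hξ' : ξ ∈ Icc 0 L := ⟨hξ.1, hξ.2.trans hx.2⟩
        have h4 := hi (τ, ξ) ⟨⟨by linarith [hτ.1], hτ.2⟩, hξ'⟩
        rw [Real.dist_eq] at h4 ⊢
        have h5 : ξ ^ 9 * (E τ ξ + D 1 τ ξ) - ξ ^ 9 * (E τ ξ + dt (d (i + 1)) τ ξ) =
            ξ ^ 9 * (D 1 τ ξ - dt (d (i + 1)) τ ξ) := by ring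
        rw [h5, abs_mul, abs_of_nonneg (pow_nonneg hξ.1 9)]
        have h6 : |D 1 τ ξ - dt (d (i + 1)) τ ξ| < ε / L ^ 9 := by simpa using h4
        calc ξ ^ 9 * |D 1 τ ξ - dt (d (i + 1)) τ ξ| ≤ L ^ 9 * |D 1 τ ξ - dt (d (i + 1)) τ ξ| :=
              mul_le_mul_of_nonneg_right (pow_le_pow_left₀ hξ.1 hξ'.2 9) (abs_nonneg _)
          _ < L ^ 9 * (ε / L ^ 9) := mul_lt_mul_of_pos_left h6 hL9
          _ = ε := by field_simp
      have h7 := tendsto_int_of_unif (y := x) hx.1 (F := fun i ξ => ξ ^ 9 * (E τ ξ +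
        dt (d (i + 1)) τ ξ)) ?_ hu
      · have e2 : ∀ F : ℝ → ℝ, Kint F x = ∫ s in (0 : ℝ)..x, (x - s) * (s ^ 9 * F s) := by
          intro F
          unfold Kint
          refine intervalIntegral.integral_congr (fun r _ => ?_)
          ring
        simp_rw [e2]
        exact h7
      · intro i
        have c1 := (hE.continuousOn_right (h38 hτ)).mono (Icc_subset_Icc_right hx.2)
        have c2 := (((hI.sm (i + 1)).dt isOpen_Ioo hL).continuousOn_right (h38 hτ)).mono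
          (Icc_subset_Icc_right hx.2)
        fun_prop
    have t3 := tendsto_nhds_unique (t1.congr e1) t2
    rw [← t3]
    have := (hB1 τ hτ x hx).ne'
    field_simp
    ring
  have hmom : ∀ τ ∈ Ioo (0 : ℝ) (1 / 4), K1 (fun ξ => E τ ξ + D 1 τ ξ) L = 0 := by
    intro τ hτ'
    have hτ := h14 hτ'
    have mL : L ∈ Icc 0 L := ⟨hL.le, le_rfl⟩
    have cF : ContinuousOn (fun ξ => E τ ξ + D 1 τ ξ) (Icc 0 L) :=
      (hE.continuousOn_right (h38 hτ)).add (hDx 1 τ hτ)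
    have d1 := Kint_hasDeriv cF mL
    -- the other expression
    set h : ℝ → ℝ := fun x => x ^ 10 / L * m τ x * (B τ x / (1 + B τ x)) with hh
    have hhL : h L = 0 := by simp [hh, (hB0 τ hτ).2]
    have ch : ContinuousOn h (Icc 0 L) := by
      have c1 := hB.sm.continuousOn_right (h38 hτ)
      have c2 := hBx τ hτ
      have c3 : ContinuousOn (fun x => B τ x / (1 + B τ x)) (Icc 0 L) :=
        c2.div (by fun_prop) (fun x hx => (hB1 τ hτ x hx).ne')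
      fun_prop
    have e1 : ∀ x ∈ Icc 0 L, Kint (fun ξ => E τ ξ + D 1 τ ξ) x = (L - x) * h x := by
      intro x hx
      rw [← heqn τ hτ' x hx, hB.phi_eq τ (h38 hτ) x hx, hh]
      field_simp
    have d2 : HasDerivWithinAt (Kint (fun ξ => E τ ξ + D 1 τ ξ)) 0 (Icc 0 L) L := by
      rw [hasDerivWithinAt_iff_tendsto_slope]
      have t1 : Tendsto (fun x => - h x) (𝓝[Icc 0 L \ {L}] L) (𝓝 0) := by
        have h8 : Tendsto h (𝓝[Icc 0 L \ {L}] L) (𝓝 (h L)) :=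
          (ch L mL).mono (sdiff_subset (t := {L}))
        rw [hhL] at h8
        have := h8.neg
        rwa [neg_zero] at this
      refine t1.congr' ?_
      filter_upwards [self_mem_nhdsWithin] with x hx
      rw [slope_def_field, e1 x hx.1, e1 L mL]
      have hne : x - L ≠ 0 := sub_ne_zero.2 (fun hc => hx.2 hc)
      field_simp
      ring
    have hU := uniqueDiffOn_Icc hL L mL
    rw [← d1.derivWithin hU, d2.derivWithin hU]
  -- local uniform convergence of the second derivatives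
  have hVu : ∀ τ ∈ Ioo (0 : ℝ) (3 / 8), ∀ V : ℝ → ℝ, (∀ x ∈ Ioo 0 L, φ τ x * V x = B τ x) →
      ∀ a b, 0 < a → b < L →
      TendstoUniformlyOn (fun i => dx L (dx L (d i)) τ) V atTop (Icc a b) := by
    intro τ hτ V hVB a b ha hb
    rw [Metric.tendstoUniformlyOn_iff]
    rw [Metric.tendstoUniformlyOn_iff] at hBu
    intro ε hε
    rcases le_or_gt a b with hab | hab
    swap
    · refine Eventually.of_forall fun i x hx => ?_
      exact absurd (hx.1.trans hx.2) (not_le.2 hab)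
    have hc : 0 < a * (1 - b / L) * c0 := by
      have h1 : 0 < 1 - b / L := by rw [sub_pos, div_lt_one hL]; exact hb
      have := hg.c0_pos
      positivity
    set c := a * (1 - b / L) * c0 with hcdef
    filter_upwards [hBu (c * ε) (by positivity)] with i hi
    intro x hx
    have hx' : x ∈ Icc 0 L := ⟨ha.le.trans hx.1, hx.2.trans hb.le⟩
    have hx'' : x ∈ Ioo 0 L := ⟨lt_of_lt_of_le ha hx.1, lt_of_le_of_lt hx.2 hb⟩
    have h1 := hi (τ, x) ⟨hτ, hx'⟩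
    have hφ := limT_phi_lower hB hg.c0_pos (h38 hτ) ha hb hx
    have hφ0 : 0 < φ τ x := lt_of_lt_of_le hc hφ
    rw [Real.dist_eq] at h1 ⊢
    simp only [bb] at h1
    rw [← hVB x hx'', ← mul_sub, abs_mul, abs_of_pos hφ0] at h1
    have h2 : c * |V x - dx L (dx L (d i)) τ x| < c * ε :=
      lt_of_le_of_lt (mul_le_mul_of_nonneg_right hφ (abs_nonneg _)) h1
    exact lt_of_mul_lt_mul_left h2 hc.le
  have hddx : ∀ i, ∀ τ ∈ Ioo (0 : ℝ) (3 / 8), ContinuousOn (dx L (dx L (d i)) τ) (Icc 0 L) :=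
    fun i τ hτ =>
      (((hI.sm i).dx isOpen_Ioo hL).dx isOpen_Ioo hL).continuousOn_right (h38 hτ)
  refine ⟨D, B, ?_, ?_, ?_, ?_, ?_, ?_, heqn, hmom, ?_, ?_, ?_⟩
  · exact fun J => (hD.cont J).mono (Set.prod_mono h14 subset_rfl)
  · exact fun J τ hτ x hx => hD.deriv J τ (h14 hτ) x hx
  · exact hBc.mono (Set.prod_mono h14 subset_rfl)
  · exact fun τ hτ x hx => hBs τ (h14 hτ) x hx
  · exact fun τ hτ => (hB0 τ (h14 hτ)).1
  · exact fun τ hτ => (hB0 τ (h14 hτ)).2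
  · intro τ hτ' V hV hVB
    have hτ := h14 hτ'
    obtain ⟨p, hp⟩ := rep_of_limit hL (F := fun i => d i τ) (F1 := fun i => dx L (d i) τ)
      (F2 := fun i => dx L (dx L (d i)) τ) (f := fun x => D 0 τ x) (V := V)
      (fun i s hs => (hI.sm i).hasDx hL (h38 hτ) hs)
      (fun i s hs => ((hI.sm i).dx isOpen_Ioo hL).hasDx hL (h38 hτ) hs)
      (fun i => hddx i τ hτ)
      (hDx 0 τ hτ) hV (fun x hx => hD.tendsto 0 hτ hx) (hVu τ hτ V hVB)
    exact ⟨p, fun x hx => by rw [hp x hx, int_scale]⟩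
  · intro τ hτ'
    have hτ := h14 hτ'
    have hVB : ∀ x ∈ Ioo 0 L, φ τ x * (B τ x / φ τ x) = B τ x := by
      intro x hx
      have := limT_phi_lower hB hg.c0_pos (h38 hτ) hx.1 hx.2 (x := x) ⟨le_rfl, le_rfl⟩
      have h1 : 0 < 1 - x / L := by rw [sub_pos, div_lt_one hL]; exact hx.2
      have h2 : 0 < x * (1 - x / L) * c0 := by
        have := hg.c0_pos
        have := hx.1
        positivity
      have h3 : φ τ x ≠ 0 := (lt_of_lt_of_le h2 this).ne'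
      field_simp
    refine tay_of_limit hL (F := fun i => d i τ) (F1 := fun i => dx L (d i) τ)
      (F2 := fun i => dx L (dx L (d i)) τ) (f := fun x => D 0 τ x)
      (V := fun ξ => B τ ξ / φ τ ξ)
      (fun i s hs => (hI.sm i).hasDx hL (h38 hτ) hs)
      (fun i s hs => ((hI.sm i).dx isOpen_Ioo hL).hasDx hL (h38 hτ) hs)
      (fun i => hddx i τ hτ) (fun x hx => hD.tendsto 0 hτ hx) ?_
    intro x hx
    rcases le_total (L / 2) x with h | h
    · exact tendsto_int_of_unif h (fun i => (hddx i τ hτ).mono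
        (Icc_subset_Icc (by linarith) hx.2.le)) (hVu τ hτ _ hVB _ _ (by linarith) hx.2)
    · have := (tendsto_int_of_unif (y := x) h (fun i => (hddx i τ hτ).mono
        (Icc_subset_Icc hx.1.le (by linarith)))
        (hVu τ hτ _ hVB _ _ hx.1 (by linarith))).neg
      rw [← intervalIntegral.integral_symm] at this
      refine this.congr fun i => ?_
      rw [← intervalIntegral.integral_symm]
  · intro τ hτ'
    have hτ := h14 hτ'
    refine le_of_tendsto (hD.tendsto 1 hτ ⟨le_rfl, hL.le⟩).abs (Eventually.of_forall fun i => ?_)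
    have h := hI.db i 1 (by norm_num) τ (h38' hτ) 0 ⟨le_rfl, hL.le⟩
    have hr : (0 : ℝ) ^ 2 + τ = τ := by ring
    rw [hr, pow_one, one_mul] at h
    have h1 : |(dt^[1] (d i)) τ 0| ≤ τ ^ 24 := by
      have : |(dt^[1] (d i)) τ 0| * τ ≤ τ ^ 24 * τ := by
        calc _ ≤ τ ^ 25 := h
          _ = τ ^ 24 * τ := by ring
      exact le_of_mul_le_mul_right this hτ.1
    exact h1.trans (pow_le_one₀ hτ.1.le (by linarith [hτ.2]))

end Crest.Agent.R213.C
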