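import Crest.Agent.R213.Boot
import Crest.Agent.R213.C.CDefs

/-!
# Row 213, part C: assembly of the limit (helper283)
-/

set_option autoImplicit false

open Set MeasureTheory Filter Topology

noncomputable section

namespace Crest.Agent.R213.C

/-- Assembly of `limit_solution` from the time part (helper924) and the `V`-step (helper465). -/
theorem limit_core {L : ℝ} (hL : 0 < L) {φ E : ℝ → ℝ → ℝ} {D : ℕ → ℝ → ℝ → ℝ} {Bi : ℝ → ℝ → ℝ}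
    (hDc : ∀ j, ContinuousOn (fun p : ℝ × ℝ => D j p.1 p.2) (Ioo 0 (1 / 4) ×ˢ Icc 0 L))
    (hDd : ∀ j, ∀ t ∈ Ioo (0 : ℝ) (1 / 4), ∀ x ∈ Icc 0 L,
      HasDerivAt (fun r => D j r x) (D (j + 1) t x) t)
    (hBs : ∀ t ∈ Ioo (0 : ℝ) (1 / 4), ∀ x ∈ Icc 0 L, |Bi t x| ≤ 1 / 4)
    (heq : ∀ t ∈ Ioo (0 : ℝ) (1 / 4), ∀ x ∈ Icc 0 L,
      x ^ 9 * φ t x * (Bi t x / (1 + Bi t x)) = Kint (fun ξ => E t ξ + D 1 t ξ) x)
    (hlim : Tendsto (fun τ => √τ * D 1 τ 0) (𝓝[>] 0) (𝓝 0))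
    (hV : ∀ n, RT n (Ioo 0 (1 / 4)) L (D 0) → ∃ (V : ℝ → ℝ → ℝ) (p : ℝ → ℝ),
      RT n (Ioo 0 (1 / 4)) L V ∧
      (∀ t ∈ Ioo (0 : ℝ) (1 / 4), ∀ x ∈ Icc 0 L, φ t x * V t x = Bi t x) ∧
      ∀ t ∈ Ioo (0 : ℝ) (1 / 4), ∀ x ∈ Icc 0 L, D 0 t x = D 0 t 0 + x * p t + Dint (V t) x) :
    ∃ δ : ℝ → ℝ → ℝ, Sm (Ioo 0 (1 / 4)) L δ ∧
        (∀ τ ∈ Ioo (0 : ℝ) (1 / 4), ∀ x ∈ Icc 0 L, |φ τ x * dx L (dx L δ) τ x| ≤ 1 / 2) ∧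
        (∀ τ ∈ Ioo (0 : ℝ) (1 / 4), ∀ x ∈ Icc 0 L,
          x ^ 9 * φ τ x * (φ τ x * dx L (dx L δ) τ x / (1 + φ τ x * dx L (dx L δ) τ x)) =
            Kint (fun ξ => E τ ξ + dt δ τ ξ) x) ∧
        Tendsto (fun τ => √τ * dt δ τ 0) (𝓝[>] 0) (𝓝 0) := by
  have hconv : Convex ℝ (Ioo (0 : ℝ) (1 / 4)) := convex_Ioo _ _
  have hopen : IsOpen (Ioo (0 : ℝ) (1 / 4)) := isOpen_Ioo
  have z0 : (0 : ℝ) ∈ Icc 0 L := ⟨le_rfl, hL.le⟩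
  have h0 : RT 0 (Ioo 0 (1 / 4)) L (D 0) :=
    RT.of_seq (fun j => contDiffOn_zero.2 (hDc j)) hDd
  obtain ⟨hall, hsm⟩ := boot hconv hopen hL h0 fun n hn => by
    obtain ⟨V, p, h1, -, h2⟩ := hV n hn
    exact ⟨V, p, h1, h2⟩
  obtain ⟨V, p, hV1, hV2, hV3⟩ := hV 0 h0
  -- second derivative
  have hd1 : ∀ t ∈ Ioo (0 : ℝ) (1 / 4), ∀ x ∈ Icc 0 L,
      dx L (D 0) t x = p t + ∫ ξ in (0 : ℝ)..x, V t ξ := by
    intro t ht x hx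
    apply dx_eq_of_hasDerivWithinAt hL hx
    have h1 : HasDerivWithinAt (fun y => D 0 t 0 + y * p t + Dint (V t) y)
        (0 + 1 * p t + ∫ ξ in (0 : ℝ)..x, V t ξ) (Icc 0 L) x :=
      ((hasDerivWithinAt_const _ _ _).add ((hasDerivWithinAt_id x _).mul_const (p t))).add
        (hasDeriv_Dint (hV1.cont_right ht) hx)
    have h2 := h1.congr (hV3 t ht) (hV3 t ht x hx)
    simpa using h2
  have hd2 : ∀ t ∈ Ioo (0 : ℝ) (1 / 4), ∀ x ∈ Icc 0 L, dx L (dx L (D 0)) t x = V t x := by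
    intro t ht x hx
    apply dx_eq_of_hasDerivWithinAt hL hx
    have h1 : HasDerivWithinAt (fun y => p t + ∫ ξ in (0 : ℝ)..y, V t ξ)
        (0 + V t x) (Icc 0 L) x :=
      (hasDerivWithinAt_const _ _ _).add
        (J310.hasDerivWithin_integral (hV1.cont_right ht) hx)
    have h2 := h1.congr (hd1 t ht) (hd1 t ht x hx)
    simpa using h2
  have hdt : ∀ t ∈ Ioo (0 : ℝ) (1 / 4), ∀ x ∈ Icc 0 L, dt (D 0) t x = D 1 t x :=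
    fun t ht x hx => dt_eq_of_hasDerivAt (hDd 0 t ht x hx)
  refine ⟨D 0, hsm, fun τ hτ x hx => ?_, fun τ hτ x hx => ?_, ?_⟩
  · rw [hd2 τ hτ x hx, hV2 τ hτ x hx]
    exact (hBs τ hτ x hx).trans (by norm_num)
  · rw [hd2 τ hτ x hx, hV2 τ hτ x hx, heq τ hτ x hx]
    exact J310.Kint_congr hx fun y hy => by rw [hdt τ hτ y hy]
  · refine hlim.congr' ?_
    have : Ioo (0 : ℝ) (1 / 4) ∈ 𝓝[>] (0 : ℝ) := Ioo_mem_nhdsGT (by norm_num)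
    filter_upwards [this] with τ hτ
    rw [hdt τ hτ 0 z0]

end Crest.Agent.R213.C
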