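import Crest.Agent.R213.J0bK

/-!
# Row 213, part C, C9: one-variable lemmas for the V-step (helper465)
-/

set_option autoImplicit false

open Set MeasureTheory Filter Topology

noncomputable section

namespace Crest.Agent.R213.C

variable {L : ℝ}

/-- the product `(x - L) h(x)` has derivative `h(L)` at `L`, `h` only continuous at `L` -/
theorem hasDeriv_at_end {h : ℝ → ℝ} (hh : ContinuousWithinAt h (Icc 0 L) L) :
    HasDerivWithinAt (fun x => (x - L) * h x) (h L) (Icc 0 L) L := by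
  rw [hasDerivWithinAt_iff_tendsto_slope]
  have h1 : Tendsto h (𝓝[Icc 0 L \ {L}] L) (𝓝 (h L)) :=
    hh.mono_left (nhdsWithin_mono _ sdiff_subset)
  refine h1.congr' ?_
  filter_upwards [self_mem_nhdsWithin] with x hx
  have hx' : x - L ≠ 0 := sub_ne_zero.2 hx.2
  rw [slope_def_field]
  simp only [sub_self, zero_mul, sub_zero]
  field_simp

/-- both moments of `F` vanish when `Kint F = x⁹ φ β`, `φ = x(1-x/L)m`, `β(L) = 0` -/
theorem moments_zero_V (hL : 0 < L) {F m β : ℝ → ℝ} (hF : ContinuousOn F (Icc 0 L))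
    (hm : ContinuousOn m (Icc 0 L)) (hβ : ContinuousOn β (Icc 0 L)) (hβL : β L = 0)
    (heq : ∀ x ∈ Icc 0 L, x ^ 9 * (x * (1 - x / L) * m x) * β x = Kint F x) :
    Kint F L = 0 ∧ K1 F L = 0 := by
  have hLL : L ∈ Icc 0 L := ⟨hL.le, le_rfl⟩
  refine ⟨?_, ?_⟩
  · rw [← heq L hLL]
    rw [div_self hL.ne']; ring
  · have h1 := Kint_hasDeriv hF hLL
    have h2 : HasDerivWithinAt (fun x => (x - L) * (-(x ^ 10 / L * m x * β x))) 0 (Icc 0 L) L := by
      have hc : ContinuousWithinAt (fun x => -(x ^ 10 / L * m x * β x)) (Icc 0 L) L :=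
        (((((continuous_id.pow 10).div_const L).continuousOn.mul hm).mul hβ).neg) L hLL
      have := hasDeriv_at_end hc
      simpa [hβL] using this
    have h3 : HasDerivWithinAt (Kint F) 0 (Icc 0 L) L := by
      refine h2.congr (fun x hx => ?_) ?_
      · rw [← heq x hx]
        field_simp
        ring
      · rw [← heq L hLL, hβL]; ring
    exact (uniqueDiffOn_Icc hL L hLL).eq_deriv _ h1 h3

/-- two functions continuous on `[0,L]` and equal on `(0,L)` are equal on `[0,L]` -/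
theorem eqOn_Icc_of_Ioo (hL : 0 < L) {a b : ℝ → ℝ} (ha : ContinuousOn a (Icc 0 L))
    (hb : ContinuousOn b (Icc 0 L)) (h : ∀ x ∈ Ioo 0 L, a x = b x) :
    ∀ x ∈ Icc 0 L, a x = b x :=
  Set.EqOn.of_subset_closure (s := Ioo 0 L) (t := Icc 0 L) h ha hb Ioo_subset_Icc_self
    (closure_Ioo hL.ne).ge

/-- identification of `β` -/
theorem beta_eq (hL : 0 < L) {F m β q : ℝ → ℝ}
    (hm : ContinuousOn m (Icc 0 L)) (hm0 : ∀ x ∈ Icc 0 L, 0 < m x)
    (hβ : ContinuousOn β (Icc 0 L)) (hq : ContinuousOn q (Icc 0 L))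
    (heq : ∀ x ∈ Icc 0 L, x ^ 9 * (x * (1 - x / L) * m x) * β x = Kint F x)
    (hKq : ∀ x ∈ Icc 0 L, x ^ 9 * (x * (1 - x / L)) ^ 2 * q x = Kint F x) :
    ∀ x ∈ Icc 0 L, β x = x * (1 - x / L) * q x / m x := by
  have hc : ContinuousOn (fun x => x * (1 - x / L) * q x / m x) (Icc 0 L) :=
    ((continuousOn_id.mul (continuousOn_const.sub (continuousOn_id.div_const L))).mul hq).div hm
      (fun x hx => (hm0 x hx).ne')
  refine eqOn_Icc_of_Ioo hL hβ hc (fun x hx => ?_)
  have hx' : x ∈ Icc 0 L := ⟨hx.1.le, hx.2.le⟩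
  have h1 := (heq x hx').trans (hKq x hx').symm
  have hmx := (hm0 x hx').ne'
  have h2 : x ^ 9 * (x * (1 - x / L)) ≠ 0 := by
    apply mul_ne_zero (pow_ne_zero 9 hx.1.ne')
    apply mul_ne_zero hx.1.ne'
    rw [sub_ne_zero]
    intro h
    rw [eq_comm, div_eq_one_iff_eq hL.ne'] at h
    exact hx.2.ne h
  rw [eq_div_iff hmx]
  apply mul_left_cancel₀ h2
  linear_combination h1

theorem scale_taylor (V : ℝ → ℝ) (x : ℝ) :
    ∫ ξ in (0 : ℝ)..x, (x - ξ) * V ξ = x ^ 2 * ∫ r in (0 : ℝ)..1, (1 - r) * V (r * x) := by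
  have h := intervalIntegral.mul_integral_comp_mul_right (a := 0) (b := 1)
    (f := fun ξ => (x - ξ) * V ξ) x
  rw [zero_mul, one_mul] at h
  rw [← h, ← intervalIntegral.integral_const_mul, ← intervalIntegral.integral_const_mul]
  refine intervalIntegral.integral_congr (fun r _ => ?_)
  ring

theorem taylor_split {V : ℝ → ℝ} (hV : ContinuousOn V (Icc 0 L)) {x y : ℝ} (hx : x ∈ Icc 0 L)
    (hy : y ∈ Icc 0 L) :
    ∫ ξ in y..x, (x - ξ) * V ξ = (∫ ξ in (0 : ℝ)..x, (x - ξ) * V ξ) - x * (∫ ξ in (0 : ℝ)..y, V ξ) +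
      ∫ ξ in (0 : ℝ)..y, ξ * V ξ := by
  have hii : ∀ {f : ℝ → ℝ}, ContinuousOn f (Icc 0 L) → ∀ {a b : ℝ}, a ∈ Icc 0 L → b ∈ Icc 0 L →
      IntervalIntegrable f volume a b := by
    intro f hf a b ha hb
    refine (hf.mono ?_).intervalIntegrable
    intro z hz
    rw [mem_uIcc] at hz
    rcases hz with hz | hz
    · exact ⟨ha.1.trans hz.1, hz.2.trans hb.2⟩
    · exact ⟨hb.1.trans hz.1, hz.2.trans ha.2⟩
  have h0 : (0 : ℝ) ∈ Icc 0 L := ⟨le_rfl, hx.1.trans hx.2⟩
  have c1 : ContinuousOn (fun ξ => (x - ξ) * V ξ) (Icc 0 L) :=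
    (continuousOn_const.sub continuousOn_id).mul hV
  have c2 : ContinuousOn (fun ξ => ξ * V ξ) (Icc 0 L) := continuousOn_id.mul hV
  have e1 := intervalIntegral.integral_interval_sub_left (hii c1 h0 hx) (hii c1 h0 hy)
  rw [← e1]
  have e2 : ∫ ξ in (0 : ℝ)..y, (x - ξ) * V ξ =
      x * (∫ ξ in (0 : ℝ)..y, V ξ) - ∫ ξ in (0 : ℝ)..y, ξ * V ξ := by
    rw [← intervalIntegral.integral_const_mul, ← intervalIntegral.integral_sub
      ((hii hV h0 hy).const_mul x) (hii c2 h0 hy)]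
    refine intervalIntegral.integral_congr (fun r _ => ?_)
    ring
  rw [e2]; ring

/-- extension of the interior Taylor formula up to both ends -/
theorem taylor_ext (hL : 0 < L) {V D : ℝ → ℝ} (hV : ContinuousOn V (Icc 0 L))
    (hD : ContinuousOn D (Icc 0 L)) {p : ℝ}
    (h : ∀ x ∈ Ioo 0 L, D x = D (L / 2) + (x - L / 2) * p + ∫ ξ in (L / 2)..x, (x - ξ) * V ξ) :
    ∀ x ∈ Icc 0 L, D x = D 0 + x * (p - ∫ ξ in (0 : ℝ)..(L / 2), V ξ) +
      x ^ 2 * ∫ r in (0 : ℝ)..1, (1 - r) * V (r * x) := by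
  have hy : L / 2 ∈ Icc 0 L := ⟨by linarith, by linarith⟩
  have h0 : (0 : ℝ) ∈ Icc 0 L := ⟨le_rfl, hL.le⟩
  -- the right-hand side as a continuous function
  have hK : ∀ x ∈ Icc 0 L, HasDerivWithinAt (fun x => ∫ ξ in (0 : ℝ)..x, (x - ξ) * V ξ)
      (∫ ξ in (0 : ℝ)..x, V ξ) (Icc 0 L) x := by
    intro x hx
    have c2 : ContinuousOn (fun ξ => ξ * V ξ) (Icc 0 L) := continuousOn_id.mul hV
    have d1 := ftc_Icc hV hx
    have d2 := ftc_Icc c2 hx
    have d3 := ((hasDerivWithinAt_id x (Icc 0 L)).mul d1).sub d2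
    have d4 : HasDerivWithinAt (fun x => ∫ ξ in (0 : ℝ)..x, (x - ξ) * V ξ)
        (1 * (∫ ξ in (0 : ℝ)..x, V ξ) + id x * V x - x * V x) (Icc 0 L) x := by
      refine d3.congr (fun y hy => ?_) ?_
      · have := taylor_split hV (x := y) (y := y) hy hy
        simp only [intervalIntegral.integral_same] at this
        simp only [id, Pi.mul_apply, Pi.sub_apply]
        linarith
      · have := taylor_split hV (x := x) (y := x) hx hx
        simp only [intervalIntegral.integral_same] at this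
        simp only [id, Pi.mul_apply, Pi.sub_apply]
        linarith
    convert d4 using 1
    simp
  have hKc : ContinuousOn (fun x => ∫ ξ in (0 : ℝ)..x, (x - ξ) * V ξ) (Icc 0 L) :=
    fun x hx => (hK x hx).continuousWithinAt
  have hext : ∀ x ∈ Icc 0 L, D x = D (L / 2) + (x - L / 2) * p +
      ((∫ ξ in (0 : ℝ)..x, (x - ξ) * V ξ) - x * (∫ ξ in (0 : ℝ)..(L / 2), V ξ) +
      ∫ ξ in (0 : ℝ)..(L / 2), ξ * V ξ) := by
    refine eqOn_Icc_of_Ioo hL hD ?_ (fun x hx => ?_)
    · exact (continuousOn_const.add ((continuousOn_id.sub continuousOn_const).mul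
        continuousOn_const)).add ((hKc.sub (continuousOn_id.mul continuousOn_const)).add
        continuousOn_const)
    · rw [h x hx, taylor_split hV ⟨hx.1.le, hx.2.le⟩ hy]
  intro x hx
  have e1 := hext x hx
  have e2 := hext 0 h0
  simp only [intervalIntegral.integral_same] at e2
  rw [← scale_taylor]
  linarith

/-- second derivative from the Taylor formula -/
theorem hasDeriv_taylor (_hL : 0 < L) {V D : ℝ → ℝ} (hV : ContinuousOn V (Icc 0 L)) {p : ℝ}
    (h : ∀ x ∈ Icc 0 L, D x = D 0 + x * p + x ^ 2 * ∫ r in (0 : ℝ)..1, (1 - r) * V (r * x)) :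
    (∀ x ∈ Icc 0 L, HasDerivWithinAt D (p + ∫ ξ in (0 : ℝ)..x, V ξ) (Icc 0 L) x) ∧
    (∀ x ∈ Icc 0 L, HasDerivWithinAt (fun x => p + ∫ ξ in (0 : ℝ)..x, V ξ) (V x) (Icc 0 L) x) := by
  refine ⟨fun x hx => ?_, fun x hx => ?_⟩
  · have c2 : ContinuousOn (fun ξ => ξ * V ξ) (Icc 0 L) := continuousOn_id.mul hV
    have d1 := ftc_Icc hV hx
    have d2 := ftc_Icc c2 hx
    have d3 := ((hasDerivWithinAt_id x (Icc 0 L)).mul d1).sub d2
    have d4 : HasDerivWithinAt (fun x => ∫ ξ in (0 : ℝ)..x, (x - ξ) * V ξ)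
        (1 * (∫ ξ in (0 : ℝ)..x, V ξ) + id x * V x - x * V x) (Icc 0 L) x := by
      refine d3.congr (fun y hy => ?_) ?_
      · have := taylor_split hV (x := y) (y := y) hy hy
        simp only [intervalIntegral.integral_same] at this
        simp only [id, Pi.mul_apply, Pi.sub_apply]
        linarith
      · have := taylor_split hV (x := x) (y := x) hx hx
        simp only [intervalIntegral.integral_same] at this
        simp only [id, Pi.mul_apply, Pi.sub_apply]
        linarith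
    have d5 := (((hasDerivWithinAt_id x (Icc 0 L)).mul_const p).const_add (D 0)).add d4
    have d6 : HasDerivWithinAt D (1 * p + (1 * (∫ ξ in (0 : ℝ)..x, V ξ) + id x * V x - x * V x))
        (Icc 0 L) x := by
      refine d5.congr (fun y hy => ?_) ?_
      · rw [h y hy, ← scale_taylor]; simp
      · rw [h x hx, ← scale_taylor]; simp
    convert d6 using 1
    simp
  · exact (ftc_Icc hV hx).const_add p

end Crest.Agent.R213.C
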