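import Crest.Agent.R213.Boot
import Crest.Agent.R213.C.VOne

/-!
# Row 213, part C, C9: the V-step (helper465)

From the integrated nonlinear equation and all `τ`-derivatives continuous up to the boundary:
`∂ₓ² δ = v` is as regular as `δ`, hence (bootstrapping, `boot`) `δ` is smooth.
-/

set_option autoImplicit false

open Set MeasureTheory Filter Topology

noncomputable section

namespace Crest.Agent.R213.C

variable {c0 C0 L : ℝ} {g : ℝ → ℝ} {φ m E u Bi : ℝ → ℝ → ℝ} {s : Set ℝ}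

/-- the V-step -/
theorem V_step (hB : Bg c0 C0 g L φ m) (hc0 : 0 < c0) (hs : Convex ℝ s) (hso : IsOpen s)
    (hs1 : s ⊆ Ioo 0 1) (hE : Sm (Ioo 0 1) L E) {n : ℕ} (hu : RT n s L u)
    (hBc : ContinuousOn (fun p : ℝ × ℝ => Bi p.1 p.2) (s ×ˢ Icc 0 L))
    (hBs : ∀ t ∈ s, ∀ x ∈ Icc 0 L, |Bi t x| ≤ 1 / 4)
    (hBL : ∀ t ∈ s, Bi t L = 0)
    (heq : ∀ t ∈ s, ∀ x ∈ Icc 0 L,
      x ^ 9 * φ t x * (Bi t x / (1 + Bi t x)) = Kint (fun ξ => E t ξ + dt u t ξ) x)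
    (htay : ∀ t ∈ s, ∃ p : ℝ, ∀ x ∈ Ioo 0 L,
      u t x = u t (L / 2) + (x - L / 2) * p +
        ∫ ξ in (L / 2)..x, (x - ξ) * (Bi t ξ / φ t ξ)) :
    ∃ (v : ℝ → ℝ → ℝ) (p : ℝ → ℝ), RT n s L v ∧
      (∀ t ∈ s, ∀ x ∈ Icc 0 L, φ t x * v t x = Bi t x) ∧
      ∀ t ∈ s, ∀ x ∈ Icc 0 L, u t x = u t 0 + x * p t + Dint (v t) x := by
  have hL : 0 < L := by have := hB.L_ge; linarith
  -- the pieces
  have hm : Sm s L m := Sm.mono hB.sm hs1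
  have hm0 : ∀ t ∈ s, ∀ x ∈ Icc 0 L, 0 < m t x := fun t ht x hx =>
    hc0.trans_le (hB.lower t (hs1 ht) x hx)
  have hφ : ∀ t ∈ s, ∀ x ∈ Icc 0 L, φ t x = x * (1 - x / L) * m t x := fun t ht x hx =>
    hB.phi_eq t (hs1 ht) x hx
  set F : ℝ → ℝ → ℝ := fun t ξ => E t ξ + dt u t ξ with hFdef
  have hF : RT n s L F := (RT.of_sm hso hL (Sm.mono hE hs1)).add (hu.dt hso)
  have hq : RT n s L (fun t x => qq L (F t) x) := hF.qq hs hso hL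
  -- β
  have hpos : ∀ t ∈ s, ∀ x ∈ Icc 0 L, 0 < 1 + Bi t x := fun t ht x hx => by
    have := abs_le.1 (hBs t ht x hx); linarith
  have hBt : ∀ t ∈ s, ContinuousOn (Bi t) (Icc 0 L) := fun t ht =>
    hBc.comp (f := fun x => (t, x)) (by fun_prop) (fun x hx => ⟨ht, hx⟩)
  have hβc : ∀ t ∈ s, ContinuousOn (fun x => Bi t x / (1 + Bi t x)) (Icc 0 L) := fun t ht =>
    (hBt t ht).div (continuousOn_const.add (hBt t ht)) (fun x hx => (hpos t ht x hx).ne')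
  have heq' : ∀ t ∈ s, ∀ x ∈ Icc 0 L, x ^ 9 * (x * (1 - x / L) * m t x) *
      (Bi t x / (1 + Bi t x)) = Kint (F t) x := fun t ht x hx => by
    rw [← hφ t ht x hx]; exact heq t ht x hx
  have hβ : ∀ t ∈ s, ∀ x ∈ Icc 0 L,
      Bi t x / (1 + Bi t x) = x * (1 - x / L) * qq L (F t) x / m t x := by
    intro t ht
    have hFc := hF.cont_right ht
    obtain ⟨z1, z2⟩ := moments_zero_V hL hFc (hm.continuousOn_right ht) (hβc t ht) (by rw [hBL t ht]; simp)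
      (heq' t ht)
    refine beta_eq hL (hm.continuousOn_right ht) (hm0 t ht) (hβc t ht) (hq.cont_right ht) (heq' t ht) ?_
    intro x hx
    exact qq_eq hL hFc z1 z2 hx
  -- the denominator
  set W : ℝ → ℝ → ℝ := fun t x => 1 - x * (1 - x / L) * qq L (F t) x / m t x with hWdef
  have hW : ∀ t ∈ s, ∀ x ∈ Icc 0 L, W t x = (1 + Bi t x)⁻¹ := fun t ht x hx => by
    have h1 := (hpos t ht x hx).ne'
    have h2 : W t x = 1 - Bi t x / (1 + Bi t x) := by rw [hβ t ht x hx]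
    rw [h2]; field_simp; ring
  have hmR : RT n s L m := RT.of_sm hso hL hm
  have hx1 : RT n s L (fun _ x => x * (1 - x / L)) :=
    RT.of_right (ContDiff.contDiffOn (by fun_prop))
  have hWR : RT n s L W := (RT.const 1).sub ((hx1.mul hq).div hmR
    (fun t ht x hx => (hm0 t ht x hx).ne'))
  have hW0 : ∀ t ∈ s, ∀ x ∈ Icc 0 L, W t x ≠ 0 := fun t ht x hx => by
    rw [hW t ht x hx]; exact inv_ne_zero (hpos t ht x hx).ne'
  -- v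
  set v : ℝ → ℝ → ℝ := fun t x => qq L (F t) x / m t x ^ 2 / W t x with hvdef
  have hv : RT n s L v := (hq.div (hmR.pow 2)
    (fun t ht x hx => pow_ne_zero 2 (hm0 t ht x hx).ne')).div hWR hW0
  have hφv : ∀ t ∈ s, ∀ x ∈ Icc 0 L, φ t x * v t x = Bi t x := fun t ht x hx => by
    have h1 := (hpos t ht x hx).ne'
    have h2 := (hm0 t ht x hx).ne'
    have h3 := hβ t ht x hx
    rw [hvdef]
    simp only
    rw [hW t ht x hx, hφ t ht x hx]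
    have h4 : x * (1 - x / L) * m t x * (qq L (F t) x / m t x ^ 2 / (1 + Bi t x)⁻¹) =
        (x * (1 - x / L) * qq L (F t) x / m t x) * (1 + Bi t x) := by
      field_simp
    rw [h4, ← h3]
    field_simp
  -- Taylor formula
  have htay' : ∀ t ∈ s, ∃ p : ℝ, ∀ x ∈ Icc 0 L, u t x = u t 0 + x * p + Dint (v t) x := by
    intro t ht
    obtain ⟨p, hp⟩ := htay t ht
    refine ⟨p - ∫ ξ in (0 : ℝ)..(L / 2), v t ξ, ?_⟩
    have h1 := taylor_ext hL (hv.cont_right ht) (hu.cont_right ht) (p := p) ?_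
    · intro x hx
      rw [h1 x hx]; rfl
    · intro x hx
      rw [hp x hx]
      congr 1
      refine intervalIntegral.integral_congr (fun ξ hξ => ?_)
      have hξ' : ξ ∈ Ioo 0 L := by
        rw [mem_uIcc] at hξ
        rcases hξ with hξ | hξ
        · exact ⟨by linarith [hξ.1], hξ.2.trans_lt hx.2⟩
        · exact ⟨hx.1.trans_le hξ.1, by linarith [hξ.2]⟩
      have hξ'' : ξ ∈ Icc 0 L := ⟨hξ'.1.le, hξ'.2.le⟩
      have hφ0 : φ t ξ ≠ 0 := by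
        rw [hφ t ht ξ hξ'']
        refine mul_ne_zero (mul_ne_zero hξ'.1.ne' ?_) (hm0 t ht ξ hξ'').ne'
        rw [sub_ne_zero]
        intro h
        rw [eq_comm, div_eq_one_iff_eq hL.ne'] at h
        exact hξ'.2.ne h
      change (x - ξ) * (Bi t ξ / φ t ξ) = (x - ξ) * v t ξ
      rw [← hφv t ht ξ hξ'', mul_div_cancel_left₀ _ hφ0]
  classical
  refine ⟨v, fun t => if ht : t ∈ s then (htay' t ht).choose else 0, hv, hφv, ?_⟩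
  intro t ht x hx
  simp only [dif_pos ht]
  exact (htay' t ht).choose_spec x hx

/-- C9, conclusion: the limit is smooth and `φ ∂ₓ²` of it is `Bi` -/
theorem V_final (hB : Bg c0 C0 g L φ m) (hc0 : 0 < c0) (hs : Convex ℝ s) (hso : IsOpen s)
    (hs1 : s ⊆ Ioo 0 1) (hE : Sm (Ioo 0 1) L E) (hu : RT 0 s L u)
    (hBc : ContinuousOn (fun p : ℝ × ℝ => Bi p.1 p.2) (s ×ˢ Icc 0 L))
    (hBs : ∀ t ∈ s, ∀ x ∈ Icc 0 L, |Bi t x| ≤ 1 / 4)
    (hBL : ∀ t ∈ s, Bi t L = 0)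
    (heq : ∀ t ∈ s, ∀ x ∈ Icc 0 L,
      x ^ 9 * φ t x * (Bi t x / (1 + Bi t x)) = Kint (fun ξ => E t ξ + dt u t ξ) x)
    (htay : ∀ t ∈ s, ∃ p : ℝ, ∀ x ∈ Ioo 0 L,
      u t x = u t (L / 2) + (x - L / 2) * p +
        ∫ ξ in (L / 2)..x, (x - ξ) * (Bi t ξ / φ t ξ)) :
    Sm s L u ∧ ∀ t ∈ s, ∀ x ∈ Icc 0 L, φ t x * dx L (dx L u) t x = Bi t x := by
  have hL : 0 < L := by have := hB.L_ge; linarith
  have hstep : ∀ n, RT n s L u → ∃ (v : ℝ → ℝ → ℝ) (p : ℝ → ℝ), RT n s L v ∧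
      (∀ t ∈ s, ∀ x ∈ Icc 0 L, φ t x * v t x = Bi t x) ∧
      ∀ t ∈ s, ∀ x ∈ Icc 0 L, u t x = u t 0 + x * p t + Dint (v t) x := fun n hn =>
    V_step hB hc0 hs hso hs1 hE hn hBc hBs hBL heq htay
  refine ⟨(boot hs hso hL hu (fun n hn => ?_)).2, ?_⟩
  · obtain ⟨v, p, h1, -, h3⟩ := hstep n hn
    exact ⟨v, p, h1, h3⟩
  · obtain ⟨v, p, h1, h2, h3⟩ := hstep 0 hu
    intro t ht x hx
    obtain ⟨d1, d2⟩ := hasDeriv_taylor hL (h1.cont_right ht) (p := p t)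
      (fun y hy => (h3 t ht y hy : u t y = _))
    have e1 : ∀ y ∈ Icc 0 L, dx L u t y = p t + ∫ ξ in (0 : ℝ)..y, v t ξ := fun y hy =>
      (d1 y hy).derivWithin (uniqueDiffOn_Icc hL y hy)
    have e2 : dx L (dx L u) t x = v t x :=
      ((d2 x hx).congr e1 (e1 x hx)).derivWithin (uniqueDiffOn_Icc hL x hx)
    rw [e2]
    exact h2 t ht x hx

/-- the hypothesis `hV` of `limit_core` -/
theorem hV_of (hB : Bg c0 C0 g L φ m) (hc0 : 0 < c0) (hE : Sm (Ioo 0 1) L E)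
    {D : ℕ → ℝ → ℝ → ℝ}
    (hDd : ∀ j, ∀ t ∈ Ioo (0 : ℝ) (1 / 4), ∀ x ∈ Icc 0 L,
      HasDerivAt (fun r => D j r x) (D (j + 1) t x) t)
    (hBc : ContinuousOn (fun p : ℝ × ℝ => Bi p.1 p.2) (Ioo (0 : ℝ) (1 / 4) ×ˢ Icc 0 L))
    (hBs : ∀ t ∈ Ioo (0 : ℝ) (1 / 4), ∀ x ∈ Icc 0 L, |Bi t x| ≤ 1 / 4)
    (hBL : ∀ t ∈ Ioo (0 : ℝ) (1 / 4), Bi t L = 0)
    (heq : ∀ t ∈ Ioo (0 : ℝ) (1 / 4), ∀ x ∈ Icc 0 L,
      x ^ 9 * φ t x * (Bi t x / (1 + Bi t x)) = Kint (fun ξ => E t ξ + D 1 t ξ) x)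
    (htay : ∀ t ∈ Ioo (0 : ℝ) (1 / 4), ∃ p : ℝ, ∀ x ∈ Ioo 0 L,
      D 0 t x = D 0 t (L / 2) + (x - L / 2) * p +
        ∫ ξ in (L / 2)..x, (x - ξ) * (Bi t ξ / φ t ξ)) :
    ∀ n, RT n (Ioo 0 (1 / 4)) L (D 0) → ∃ (V : ℝ → ℝ → ℝ) (p : ℝ → ℝ),
      RT n (Ioo 0 (1 / 4)) L V ∧
      (∀ t ∈ Ioo (0 : ℝ) (1 / 4), ∀ x ∈ Icc 0 L, φ t x * V t x = Bi t x) ∧
      (∀ t ∈ Ioo (0 : ℝ) (1 / 4), ∀ x ∈ Icc 0 L,
        D 0 t x = D 0 t 0 + x * p t + Dint (V t) x) := by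
  intro n hn
  refine V_step hB hc0 (convex_Ioo _ _) isOpen_Ioo
    (Ioo_subset_Ioo le_rfl (by norm_num)) hE hn hBc hBs hBL ?_ htay
  intro t ht x hx
  rw [heq t ht x hx]
  refine J310.Kint_congr hx (fun y hy => ?_)
  rw [dt_eq_of_hasDerivAt (hDd 0 t ht y hy)]

end Crest.Agent.R213.C
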