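import Crest.Agent.R213.C.LimT
import Crest.Agent.R213.C.LimitAsm
import Crest.Agent.R213.C.VStep

/-!
# Row 213, part C, C9+C10: `limit_solution` (helper924; from `limit_time`, `hV_of` (helper465) and
`limit_core` (helper283))
-/

set_option autoImplicit false

open Set MeasureTheory Filter Topology

noncomputable section

namespace Crest.Agent.R213.C

variable {c0 C0 κ : ℝ} {g : ℝ → ℝ}

/-- [C9+C10: `limit_solution`] -/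
theorem limit_solution {L : ℝ} {φ m : ℝ → ℝ → ℝ} (hB : Bg c0 C0 g L φ m) (hg : Prof c0 C0 g)
    (_hκ : κ ∈ Ioo (1 / 8 : ℝ) (1 / 4)) {η : ℝ → ℝ} (hη : EtaOK η) {E : ℝ → ℝ → ℝ}
    (hE : Sm (Ioo 0 1) L E)
    {d : ℕ → ℝ → ℝ → ℝ} (hI : Iter κ L φ E η d)
    (hJ : ∀ (J : ℕ) (τ1 : ℝ), 0 < τ1 → ∃ M : ℝ, ∀ i, ∀ τ ∈ Ioo τ1 (3 / 8), ∀ x ∈ Icc 0 L,
      |(dt^[J] (d i)) τ x| ≤ M) :
    ∃ δ : ℝ → ℝ → ℝ, Sm (Ioo 0 (1 / 4)) L δ ∧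
        (∀ τ ∈ Ioo (0 : ℝ) (1 / 4), ∀ x ∈ Icc 0 L, |φ τ x * dx L (dx L δ) τ x| ≤ 1 / 2) ∧
        (∀ τ ∈ Ioo (0 : ℝ) (1 / 4), ∀ x ∈ Icc 0 L,
          x ^ 9 * φ τ x * (φ τ x * dx L (dx L δ) τ x / (1 + φ τ x * dx L (dx L δ) τ x)) =
            Kint (fun ξ => E τ ξ + dt δ τ ξ) x) ∧
        Tendsto (fun τ => √τ * dt δ τ 0) (𝓝[>] 0) (𝓝 0) := by
  have hL : 0 < L := by linarith [hB.L_ge]
  obtain ⟨D, B, h⟩ := limit_time hB hg hη hE hI hJ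
  have hBs : ∀ t ∈ Ioo (0 : ℝ) (1 / 4), ∀ x ∈ Icc 0 L, |B t x| ≤ 1 / 4 := fun t ht x hx =>
    (h.small t ht x hx).trans (by norm_num)
  exact limit_core hL h.cont h.deriv hBs h.eqn h.lim
    (hV_of hB hg.c0_pos hE h.deriv h.contB hBs h.BL h.eqn h.tay)

end Crest.Agent.R213.C
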