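import Crest.Agent.R213.C.LinEst

/-!
# Row 213, part C6: `lin_est` from the statements of C1+C2 (`EnergyLevels`) and C4
(`PointwiseChain`)
-/

set_option autoImplicit false

open Set MeasureTheory Filter Topology

noncomputable section

namespace Crest.Agent.R213.C

theorem lin_est_of {c0 C0 κ : ℝ} {g : ℝ → ℝ} (hg : Prof c0 C0 g)
    (hκ : κ ∈ Ioo (1 / 8 : ℝ) (1 / 4)) (hEL : EnergyLevels c0 C0 κ g)
    (hPC : PointwiseChain c0 C0 g) {L1 C1 : ℝ} (hlin : LinSolv c0 C0 g κ L1 C1) :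
    ∃ (L2 C : ℝ) (q : ℕ), 8 ≤ L2 ∧ 1 ≤ C ∧ ∀ L ≥ L2, ∀ φ m : ℝ → ℝ → ℝ, Bg c0 C0 g L φ m →
      ∀ E ht : ℝ → ℝ → ℝ, Sm (Ioo 0 1) L E → Sm (Ioo 0 1) L ht →
      (∀ τ ∈ Ioo (0 : ℝ) 1, 3 / 8 ≤ τ → ∀ x ∈ Icc 0 L, ht τ x = 0) →
      (∀ τ ∈ Ioo (0 : ℝ) 1, ∀ x ∈ Icc (0 : ℝ) 1, E τ x = 0) →
      ∀ N e : ℝ, 0 ≤ N → 0 ≤ e →
      PB L N (fun τ x => φ τ x * ht τ x) → QB κ L N (fun τ x => φ τ x * ht τ x) →
      (∀ j ≤ 9, ∀ τ ∈ Ioo (0 : ℝ) 1, ∀ x ∈ Icc 0 L, |(dt^[j] E) τ x| ≤ e) →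
      ∃ δ : ℝ → ℝ → ℝ, Sm (Ioo 0 1) L δ ∧ LinEq L φ E ht δ ∧
        PB L (C * L ^ q * (N + e)) (bb L φ δ) ∧ QB κ L (C * L ^ q * (N + e)) (bb L φ δ) ∧
        DB L (C * L ^ q * (N + e)) δ := by
  have hc0 : 0 < c0 := hg.c0_pos
  have hC0 : 0 ≤ C0 := by
    have h1 := hg.lower 0 le_rfl
    have h2 := hg.upper 0 le_rfl
    linarith
  obtain ⟨Ce, qe, hCe, hEL⟩ := hEL
  obtain ⟨Cp, qp, hCp, hPC⟩ := hPC
  obtain ⟨Cn, qn, hCn, hEn⟩ := E_norms hκ
  obtain ⟨Cs, qs, hCs, hst⟩ := sup_tau hκ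
  set C1' : ℝ := max C1 1 with hC1'
  have hC1'1 : 1 ≤ C1' := le_max_right _ _
  set A : ℝ := 9 * (2 ^ 8 * C0 / c0) with hA
  have hA0 : 0 ≤ A := by positivity
  set G : ℝ := Ce * (C1' + 9) * Cn with hG
  have hG1 : 1 ≤ G := by
    have h1 : 1 ≤ Ce * (C1' + 9) := one_le_mul_of_one_le_of_one_le hCe (by linarith)
    exact one_le_mul_of_one_le_of_one_le h1 hCn
  refine ⟨max L1 8, (4 * Cp * Cs + A) * G, qp + qs + qe + qn, le_max_right _ _, ?_, ?_⟩
  · have h1 : 1 ≤ 4 * Cp * Cs + A := by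
      have : 1 ≤ Cp * Cs := one_le_mul_of_one_le_of_one_le hCp hCs
      nlinarith
    exact one_le_mul_of_one_le_of_one_le h1 hG1
  intro L hL φ m hB E ht hE hht h0 hE0 N e hN he hPBh hQBh hEe
  have hL1 : L1 ≤ L := (le_max_left _ _).trans hL
  have hL8 : (8 : ℝ) ≤ L := (le_max_right _ _).trans hL
  have hL0 : 0 < L := by linarith
  have hpw : ∀ n : ℕ, 1 ≤ L ^ n := fun n => one_le_pow₀ (by linarith)
  obtain ⟨hE1, hE2⟩ := hEn L hL8 E hE hE0 e he hEe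
  obtain ⟨hh1, hh2⟩ := ht_norms hL8 (bg_sm_phi hB) hht h0 hQBh
  obtain ⟨δ, hδ, hδn, hδeq⟩ := hlin L hL1 φ m hB E ht hE hht
    (lt_of_le_of_lt hE1 ENNReal.ofReal_lt_top) (lt_of_le_of_lt hh1 ENNReal.ofReal_lt_top)
  have hδeq' : LinEq L φ E ht δ := hδeq
  -- the total data
  set B : ℝ := Cn * L ^ qn * (N + e) ^ 2 with hBdef
  have hNe : 0 ≤ N + e := add_nonneg hN he
  have hCn0 : 0 ≤ Cn * L ^ qn := by positivity
  have hCn1 : 1 ≤ Cn * L ^ qn := one_le_mul_of_one_le_of_one_le hCn (hpw qn)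
  have hB0 : 0 ≤ B := by positivity
  have hsum : N ^ 2 + Cn * L ^ qn * e ^ 2 ≤ B := by
    have h1 : N ^ 2 ≤ Cn * L ^ qn * N ^ 2 := by
      have := mul_le_mul_of_nonneg_right hCn1 (sq_nonneg N)
      linarith
    have h2 : Cn * L ^ qn * (N ^ 2 + e ^ 2) ≤ Cn * L ^ qn * (N + e) ^ 2 :=
      mul_le_mul_of_nonneg_left (by nlinarith [mul_nonneg hN he]) hCn0
    rw [hBdef]; linarith
  have hdata : N2 L (Wt κ) (bb L φ δ) + N2 L (Wt' κ) δ ≤ ENNReal.ofReal (C1' * B) := by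
    refine hδn.trans ?_
    rw [ENNReal.ofReal_mul (by linarith : (0 : ℝ) ≤ C1')]
    refine mul_le_mul' (ENNReal.ofReal_le_ofReal (le_max_left _ _)) ?_
    refine (add_le_add hh1 hE1).trans ?_
    rw [← ENNReal.ofReal_add (sq_nonneg N) (by positivity)]
    exact ENNReal.ofReal_le_ofReal hsum
  set K0 : ℝ := Ce * L ^ qe * (C1' + 9) * (Cn * L ^ qn) with hK0
  have hK01 : 1 ≤ K0 := by
    have h1 : 1 ≤ Ce * L ^ qe := one_le_mul_of_one_le_of_one_le hCe (hpw qe)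
    have h2 : 1 ≤ Ce * L ^ qe * (C1' + 9) := one_le_mul_of_one_le_of_one_le h1 (by linarith)
    exact one_le_mul_of_one_le_of_one_le h2 hCn1
  have hlev : ∀ j ≤ 8, N2T (5 / 8) L (WJ κ j) (be L φ j δ) +
      N2T (5 / 8) L (WA κ j) (dt^[j] δ) ≤ ENNReal.ofReal (K0 * (N + e) ^ 2) := by
    intro j hj
    refine (hEL L hL8 φ m hB E ht δ hE hht hδ hδeq' j hj).trans ?_
    have hsumj : ∑ i ∈ Finset.range (j + 1),
        (N2T (3 / 4) L (WJ κ i) (dt^[i] (fun τ x => φ τ x * ht τ x)) +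
          N2T (3 / 4) L (WA κ i) (dt^[i] E)) ≤ ENNReal.ofReal (9 * B) := by
      calc ∑ i ∈ Finset.range (j + 1),
          (N2T (3 / 4) L (WJ κ i) (dt^[i] (fun τ x => φ τ x * ht τ x)) +
            N2T (3 / 4) L (WA κ i) (dt^[i] E))
          ≤ ∑ _i ∈ Finset.range (j + 1), ENNReal.ofReal B := by
            refine Finset.sum_le_sum fun i hi => ?_
            have hi' : i ≤ 8 := by
              have := Finset.mem_range.1 hi
              omega
            refine (add_le_add (hh2 i hi') (hE2 i hi')).trans ?_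
            rw [← ENNReal.ofReal_add (sq_nonneg N) (by positivity)]
            exact ENNReal.ofReal_le_ofReal hsum
        _ = ENNReal.ofReal (((j + 1 : ℕ) : ℝ) * B) := by
            rw [Finset.sum_const, Finset.card_range, nsmul_eq_mul, ← ENNReal.ofReal_natCast,
              ← ENNReal.ofReal_mul (by positivity)]
        _ ≤ ENNReal.ofReal (9 * B) := by
            refine ENNReal.ofReal_le_ofReal (mul_le_mul_of_nonneg_right ?_ hB0)
            have : ((j + 1 : ℕ) : ℝ) ≤ ((9 : ℕ) : ℝ) := by exact_mod_cast (by omega)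
            simpa using this
    calc ENNReal.ofReal (Ce * L ^ qe) * (N2 L (Wt κ) (bb L φ δ) + N2 L (Wt' κ) δ +
          ∑ i ∈ Finset.range (j + 1),
            (N2T (3 / 4) L (WJ κ i) (dt^[i] (fun τ x => φ τ x * ht τ x)) +
              N2T (3 / 4) L (WA κ i) (dt^[i] E)))
        ≤ ENNReal.ofReal (Ce * L ^ qe) *
            (ENNReal.ofReal (C1' * B) + ENNReal.ofReal (9 * B)) :=
          mul_le_mul' le_rfl (add_le_add hdata hsumj)
      _ = ENNReal.ofReal (K0 * (N + e) ^ 2) := by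
          rw [← ENNReal.ofReal_add (by positivity) (by positivity),
            ← ENNReal.ofReal_mul (by positivity)]
          congr 1
          rw [hK0, hBdef]; ring
  have hK0M : K0 * (N + e) ^ 2 ≤ (K0 * (N + e)) ^ 2 := by
    rw [mul_pow]
    exact mul_le_mul_of_nonneg_right (by nlinarith) (sq_nonneg _)
  -- sup in time
  set K1 : ℝ := 2 * (Cs * L ^ qs) * K0 with hK1
  have hCs1 : 1 ≤ Cs * L ^ qs := one_le_mul_of_one_le_of_one_le hCs (hpw qs)
  have hK11 : 1 ≤ K1 := by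
    have h1 : 1 ≤ Cs * L ^ qs * K0 := one_le_mul_of_one_le_of_one_le hCs1 hK01
    rw [hK1]; linarith
  have hMM : ∀ j ≤ 7, ∀ τ ∈ Ioo (0 : ℝ) (1 / 2), MM L j τ δ ≤
      ENNReal.ofReal ((K1 * (N + e)) ^ 2) := by
    intro j hj τ hτ
    refine (hst L hL8 δ hδ j hj τ hτ).trans ?_
    have h1 : N2T (5 / 8) L (WA κ j) (dt^[j] δ) ≤ ENNReal.ofReal (K0 * (N + e) ^ 2) :=
      (le_add_left le_rfl).trans (hlev j (by omega))
    have h2 : N2T (5 / 8) L (WA κ (j + 1)) (dt^[j + 1] δ) ≤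
        ENNReal.ofReal (K0 * (N + e) ^ 2) :=
      (le_add_left le_rfl).trans (hlev (j + 1) (by omega))
    refine (mul_le_mul' le_rfl (add_le_add h1 h2)).trans ?_
    rw [← ENNReal.ofReal_add (by positivity) (by positivity), ← ENNReal.ofReal_mul (by positivity)]
    refine ENNReal.ofReal_le_ofReal ?_
    have h3 : Cs * L ^ qs * (K0 * (N + e) ^ 2 + K0 * (N + e) ^ 2) = K1 * (N + e) ^ 2 := by
      rw [hK1]; ring
    rw [h3, mul_pow]
    exact mul_le_mul_of_nonneg_right (by nlinarith) (sq_nonneg _)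
  have hEM : ∀ j ≤ 7, ∀ τ ∈ Ioo (0 : ℝ) (1 / 2), ∀ x ∈ Icc 0 L,
      |(dt^[j] E) τ x| ≤ K1 * (N + e) := by
    intro j hj τ hτ x hx
    refine (hEe j (by omega) τ (halfSub hτ) x hx).trans ?_
    calc e ≤ 1 * (N + e) := by linarith
      _ ≤ K1 * (N + e) := mul_le_mul_of_nonneg_right hK11 hNe
  have hM0 : 0 ≤ K1 * (N + e) := by positivity
  obtain ⟨hPB, hDB⟩ := hPC L hL8 φ m hB E ht δ hE hht hδ hδeq' (K1 * (N + e)) N hM0 hN hMM hEM
    hE0 hPBh
  have hQB := QB_of_EE (κ := κ) hc0 hC0 hB hδ (S := K0 * (N + e)) (by positivity)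
    (fun j hj => (le_add_right le_rfl).trans ((hlev j hj).trans (ENNReal.ofReal_le_ofReal hK0M)))
  -- constants
  have hGG : K0 = G * L ^ (qe + qn) := by rw [hK0, hG, pow_add]; ring
  have hc1 : Cp * L ^ qp * (K1 * (N + e) + N) ≤
      (4 * Cp * Cs + A) * G * L ^ (qp + qs + qe + qn) * (N + e) := by
    have h1 : K1 * (N + e) + N ≤ 2 * K1 * (N + e) := by
      have : N ≤ K1 * (N + e) := by
        calc N ≤ 1 * (N + e) := by linarith
          _ ≤ K1 * (N + e) := mul_le_mul_of_nonneg_right hK11 hNe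
      linarith
    calc Cp * L ^ qp * (K1 * (N + e) + N) ≤ Cp * L ^ qp * (2 * K1 * (N + e)) :=
          mul_le_mul_of_nonneg_left h1 (by positivity)
      _ = 4 * Cp * Cs * G * L ^ (qp + qs + qe + qn) * (N + e) := by
          rw [hK1, hGG]; ring
      _ ≤ (4 * Cp * Cs + A) * G * L ^ (qp + qs + qe + qn) * (N + e) := by
          have hG0 : 0 ≤ G := by linarith
          gcongr
          linarith
  have hc2 : A * (K0 * (N + e)) ≤
      (4 * Cp * Cs + A) * G * L ^ (qp + qs + qe + qn) * (N + e) := by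
    have hG0 : 0 ≤ G := by linarith
    have h1 : L ^ (qe + qn) ≤ L ^ (qp + qs + qe + qn) :=
      pow_le_pow_right₀ (by linarith) (by omega)
    have h2 : A ≤ 4 * Cp * Cs + A := by
      have : 0 ≤ 4 * Cp * Cs := by positivity
      linarith
    calc A * (K0 * (N + e)) = A * G * L ^ (qe + qn) * (N + e) := by rw [hGG]; ring
      _ ≤ (4 * Cp * Cs + A) * G * L ^ (qp + qs + qe + qn) * (N + e) := by
          gcongr
  refine ⟨δ, hδ, hδeq', hPB.mono hc1, hQB.mono ?_ ?_, ?_⟩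
  · positivity
  · exact hc2
  · intro j hj τ hτ x hx
    exact (hDB j hj τ hτ x hx).trans
      (mul_le_mul_of_nonneg_right hc1 (pow_nonneg (rho_pos hx.1 hτ.1).le _))

end Crest.Agent.R213.C
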