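import Crest.Agent.R213.J0K
import Crest.Agent.R213.C.CDefs

/-!
# Row 213, Part C8: local energy inequality at level `J`

`nn L u τ = ∫₀ᴸ x⁹ u²`.  `Lev c φ E h δ K j` is the structure of the `j`-times differentiated
equation (conclusion of `level`), with the bound of the remainder on the time interval `[a,b]`.
-/

set_option autoImplicit false

open Set MeasureTheory Filter Topology

noncomputable section

namespace Crest.Agent.R213.C8.LE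

open Crest.Agent.R213 Crest.Agent.R213.C

/-- `∫₀ᴸ x⁹ u²` at time `τ`. -/
def nn (L : ℝ) (u : ℝ → ℝ → ℝ) (τ : ℝ) : ℝ := ∫ x in (0 : ℝ)..L, x ^ 9 * (u τ x) ^ 2

/-- sum of the norms of all levels `< j`. -/
def low (L : ℝ) (φ h δ : ℝ → ℝ → ℝ) (j : ℕ) (τ : ℝ) : ℝ :=
  ∑ i ∈ Finset.range j, (nn L (be L φ i δ) τ + nn L (dt^[i] h) τ)

/-- level structure: the `j`-times differentiated equation; remainder bound on `[a,b]`
(`h = φ ht`). -/
def Lev (L : ℝ) (φ E h δ : ℝ → ℝ → ℝ) (a b K : ℝ) (j : ℕ) : Prop :=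
  ∃ R : ℝ → ℝ → ℝ, Sm (Ioo 0 1) L R ∧ (∀ τ ∈ Ioo (0 : ℝ) 1, R τ L = 0) ∧
    (∀ τ ∈ Ioo (0 : ℝ) 1, ∀ x ∈ Icc 0 L,
      x ^ 9 * (φ τ x * (φ τ x * dx L (dx L (dt^[j] δ)) τ x + R τ x)) =
        Kint (fun ξ => (dt^[j] E) τ ξ + (dt^[j + 1] δ) τ ξ) x) ∧
    (∀ τ ∈ Icc a b, ∀ x ∈ Icc 0 L,
      |R τ x| ≤ |(dt^[j] h) τ x| +
        K * ∑ i ∈ Finset.range j, (|be L φ i δ τ x| + |(dt^[i] h) τ x|))

section basic

variable {L : ℝ} {u v : ℝ → ℝ → ℝ} {s : Set ℝ}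

theorem cont_w {t : ℝ} (hu : Sm (Ioo 0 1) L u) (ht : t ∈ Ioo (0 : ℝ) 1) :
    ContinuousOn (u t) (Icc 0 L) := hu.continuousOn_right ht

theorem ii {f : ℝ → ℝ} (hL : 0 ≤ L) (hf : ContinuousOn f (Icc 0 L)) :
    IntervalIntegrable f volume 0 L := by
  apply ContinuousOn.intervalIntegrable; rwa [uIcc_of_le hL]

theorem sm_sq (hu : Sm (Ioo 0 1) L u) : Sm (Ioo 0 1) L (fun t x => x ^ 9 * u t x ^ 2) :=
  (Sm.snd.pow 9).mul (hu.pow 2)

theorem nn_eq_Px (τ : ℝ) : nn L u τ = J310.Px (fun t x => x ^ 9 * u t x ^ 2) τ L := rfl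

theorem nn_nonneg (hL : 0 ≤ L) (τ : ℝ) : 0 ≤ nn L u τ :=
  intervalIntegral.integral_nonneg hL (fun _ hx => mul_nonneg (pow_nonneg hx.1 9) (sq_nonneg _))

theorem hasDerivAt_nn (hL : 0 < L) (hu : Sm (Ioo 0 1) L u) {τ : ℝ} (hτ : τ ∈ Ioo (0 : ℝ) 1) :
    HasDerivAt (nn L u) (∫ x in (0 : ℝ)..L, x ^ 9 * (2 * (u τ x * dt u τ x))) τ := by
  have hs := sm_sq hu
  have hP : Sm (Ioo 0 1) L (J310.Px (fun t x => x ^ 9 * u t x ^ 2)) :=
    J310.sm_Px (convex_Ioo 0 1) isOpen_Ioo.uniqueDiffOn hL hs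
  have hLm : L ∈ Icc 0 L := ⟨hL.le, le_rfl⟩
  have h1 := hP.hasDt isOpen_Ioo hτ hLm
  rw [J310.dt_Px (convex_Ioo 0 1) isOpen_Ioo hL hs hτ hLm] at h1
  refine h1.congr_deriv ?_
  unfold J310.Px
  refine intervalIntegral.integral_congr (fun x hx => ?_)
  rw [uIcc_of_le hL.le] at hx
  have h2 : HasDerivAt (fun r => x ^ 9 * u r x ^ 2) (x ^ 9 * (2 * (u τ x * dt u τ x))) τ := by
    have := ((hu.hasDt isOpen_Ioo hτ hx).pow 2).const_mul (x ^ 9)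
    refine this.congr_deriv ?_
    ring
  exact dt_eq_of_hasDerivAt h2

theorem cont_nn (hL : 0 < L) (hu : Sm (Ioo 0 1) L u) : ContinuousOn (nn L u) (Ioo 0 1) :=
  fun _ hτ => (hasDerivAt_nn hL hu hτ).continuousAt.continuousWithinAt

theorem cont_dnn (hL : 0 < L) (hu : Sm (Ioo 0 1) L u) (hv : Sm (Ioo 0 1) L v) :
    ContinuousOn (fun τ => ∫ x in (0 : ℝ)..L, x ^ 9 * (2 * (u τ x * v τ x))) (Ioo 0 1) := by
  have hs : Sm (Ioo 0 1) L (fun τ x => x ^ 9 * (2 * (u τ x * v τ x))) :=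
    (Sm.snd.pow 9).mul ((hu.mul hv).const_mul 2)
  have hP : Sm (Ioo 0 1) L (J310.Px (fun τ x => x ^ 9 * (2 * (u τ x * v τ x)))) :=
    J310.sm_Px (convex_Ioo 0 1) isOpen_Ioo.uniqueDiffOn hL hs
  exact hP.continuousOn_left ⟨hL.le, le_rfl⟩

end basic

section identity

variable {c0 C0 : ℝ} {g : ℝ → ℝ} {L : ℝ} {φ m E h δ : ℝ → ℝ → ℝ}

/-- testing identity at level `j` with `δ_k` -/
theorem test_level (hL : 0 < L) (hφ : Sm (Ioo 0 1) L φ) (hφL : ∀ τ ∈ Ioo (0 : ℝ) 1, φ τ L = 0)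
    {A G u : ℝ → ℝ → ℝ} (hA : Sm (Ioo 0 1) L A) (hAL : ∀ τ ∈ Ioo (0 : ℝ) 1, A τ L = 0)
    (hG : Sm (Ioo 0 1) L G) (hu : Sm (Ioo 0 1) L u)
    (heq : ∀ τ ∈ Ioo (0 : ℝ) 1, ∀ x ∈ Icc 0 L, x ^ 9 * (φ τ x * A τ x) = Kint (G τ) x)
    {τ : ℝ} (hτ : τ ∈ Ioo (0 : ℝ) 1) :
    ∫ x in (0 : ℝ)..L, x ^ 9 * (A τ x * (φ τ x * dx L (dx L u) τ x)) =
      ∫ x in (0 : ℝ)..L, x ^ 9 * (G τ x * u τ x) := by
  have hLm : L ∈ Icc 0 L := ⟨hL.le, le_rfl⟩
  have hGc := cont_w hG hτ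
  have key := sm_Kint_pair hu isOpen_Ioo hL hτ hGc
  have k0 : Kint (G τ) L = 0 := by
    rw [← heq τ hτ L hLm, hφL τ hτ]; ring
  have k1 : J310.Kint1 (G τ) L = 0 := by
    have h1 : HasDerivWithinAt (Kint (G τ)) (J310.Kint1 (G τ) L) (Icc 0 L) L :=
      J310.hasDeriv_Kint hGc hLm
    have hφd := hφ.hasDx hL hτ hLm
    have hAd := hA.hasDx hL hτ hLm
    have h2 : HasDerivWithinAt (fun x => x ^ 9 * (φ τ x * A τ x)) 0 (Icc 0 L) L := by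
      have h3 := ((hasDerivAt_pow 9 L).hasDerivWithinAt (s := Icc 0 L)).mul (hφd.mul hAd)
      refine h3.congr_deriv ?_
      simp only [Pi.mul_apply]
      rw [hφL τ hτ, hAL τ hτ]; ring
    have h4 : HasDerivWithinAt (Kint (G τ)) 0 (Icc 0 L) L :=
      h2.congr (fun x hx => (heq τ hτ x hx).symm) (heq τ hτ L hLm).symm
    exact (uniqueDiffOn_Icc hL L hLm).eq_deriv _ h1 h4
  rw [k0, k1] at key
  simp only [zero_mul, sub_zero, zero_add] at key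
  have e1 : ∫ x in (0 : ℝ)..L, Kint (G τ) x * dx L (dx L u) τ x =
      ∫ x in (0 : ℝ)..L, x ^ 9 * (A τ x * (φ τ x * dx L (dx L u) τ x)) := by
    refine intervalIntegral.integral_congr (fun x hx => ?_)
    rw [uIcc_of_le hL.le] at hx
    show Kint (G τ) x * dx L (dx L u) τ x = x ^ 9 * (A τ x * (φ τ x * dx L (dx L u) τ x))
    rw [← heq τ hτ x hx]; ring
  rw [← e1, key]
  refine intervalIntegral.integral_congr (fun x _ => ?_)
  show x ^ 9 * G τ x * u τ x = x ^ 9 * (G τ x * u τ x)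
  ring

end identity

section sums

/-- Cauchy–Schwarz for the lower order sum, pointwise. -/
theorem sum_sq_le {ι : Type*} (I : Finset ι) (f g : ι → ℝ) :
    (∑ i ∈ I, (|f i| + |g i|)) ^ 2 ≤ 2 * I.card * ∑ i ∈ I, (f i ^ 2 + g i ^ 2) := by
  have h1 : (∑ i ∈ I, (|f i| + |g i|)) ^ 2 ≤ I.card * ∑ i ∈ I, (|f i| + |g i|) ^ 2 :=
    sq_sum_le_card_mul_sum_sq
  refine h1.trans ?_
  have h2 : ∑ i ∈ I, (|f i| + |g i|) ^ 2 ≤ 2 * ∑ i ∈ I, (f i ^ 2 + g i ^ 2) := by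
    rw [Finset.mul_sum]
    refine Finset.sum_le_sum fun i _ => ?_
    nlinarith [sq_nonneg (|f i| - |g i|), sq_abs (f i), sq_abs (g i)]
  calc (I.card : ℝ) * ∑ i ∈ I, (|f i| + |g i|) ^ 2
      ≤ I.card * (2 * ∑ i ∈ I, (f i ^ 2 + g i ^ 2)) :=
        mul_le_mul_of_nonneg_left h2 (Nat.cast_nonneg _)
    _ = _ := by ring

end sums

section energy

variable {L : ℝ} {φ E h δ : ℝ → ℝ → ℝ} {a b K : ℝ} {j : ℕ}

theorem sm_be (hL : 0 < L) (hφ : Sm (Ioo 0 1) L φ) (hδ : Sm (Ioo 0 1) L δ) (i : ℕ) :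
    Sm (Ioo 0 1) L (be L φ i δ) :=
  hφ.mul (Sm.dx isOpen_Ioo hL (Sm.dx isOpen_Ioo hL (Sm.dt_iter isOpen_Ioo hL hδ i)))

/-- the lower order sum at a point -/
def ls (L : ℝ) (φ h δ : ℝ → ℝ → ℝ) (j : ℕ) (τ x : ℝ) : ℝ :=
  ∑ i ∈ Finset.range j, (|be L φ i δ τ x| + |(dt^[i] h) τ x|)

theorem ls_nonneg (τ x : ℝ) : 0 ≤ ls L φ h δ j τ x :=
  Finset.sum_nonneg fun _ _ => add_nonneg (abs_nonneg _) (abs_nonneg _)

theorem ls_succ (τ x : ℝ) : ls L φ h δ (j + 1) τ x =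
    ls L φ h δ j τ x + (|be L φ j δ τ x| + |(dt^[j] h) τ x|) := Finset.sum_range_succ _ _

theorem cont_ls (hL : 0 < L) (hφ : Sm (Ioo 0 1) L φ) (hδ : Sm (Ioo 0 1) L δ)
    (hh : Sm (Ioo 0 1) L h) (j : ℕ) {τ : ℝ} (hτ : τ ∈ Ioo (0 : ℝ) 1) :
    ContinuousOn (ls L φ h δ j τ) (Icc 0 L) := by
  unfold ls
  refine continuousOn_finsetSum _ fun i _ => ?_
  exact ((cont_w (sm_be hL hφ hδ i) hτ).abs).add
    ((cont_w (Sm.dt_iter isOpen_Ioo hL hh i) hτ).abs)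

/-- `∫ x⁹ ls² ≤ 2 j low` -/
theorem int_ls_sq (hL : 0 < L) (hφ : Sm (Ioo 0 1) L φ) (hδ : Sm (Ioo 0 1) L δ)
    (hh : Sm (Ioo 0 1) L h) (j : ℕ) {τ : ℝ} (hτ : τ ∈ Ioo (0 : ℝ) 1) :
    ∫ x in (0 : ℝ)..L, x ^ 9 * (ls L φ h δ j τ x) ^ 2 ≤ 2 * j * low L φ h δ j τ := by
  have hc : ∀ i, ContinuousOn (be L φ i δ τ) (Icc 0 L) := fun i => cont_w (sm_be hL hφ hδ i) hτ
  have hc' : ∀ i, ContinuousOn ((dt^[i] h) τ) (Icc 0 L) :=
    fun i => cont_w (Sm.dt_iter isOpen_Ioo hL hh i) hτ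
  have h1 : ∫ x in (0 : ℝ)..L, x ^ 9 * (ls L φ h δ j τ x) ^ 2 ≤
      ∫ x in (0 : ℝ)..L, (2 * j) * ∑ i ∈ Finset.range j,
        (x ^ 9 * (be L φ i δ τ x) ^ 2 + x ^ 9 * ((dt^[i] h) τ x) ^ 2) := by
    refine intervalIntegral.integral_mono_on hL.le ?_ ?_ fun x hx => ?_
    · exact ii hL.le ((continuous_pow 9).continuousOn.mul ((cont_ls hL hφ hδ hh j hτ).pow 2))
    · refine ii hL.le (continuousOn_const.mul (continuousOn_finsetSum _ fun i _ => ?_))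
      exact ((continuous_pow 9).continuousOn.mul ((hc i).pow 2)).add
        ((continuous_pow 9).continuousOn.mul ((hc' i).pow 2))
    · have := sum_sq_le (Finset.range j) (fun i => be L φ i δ τ x) (fun i => (dt^[i] h) τ x)
      rw [Finset.card_range] at this
      calc x ^ 9 * (ls L φ h δ j τ x) ^ 2
          ≤ x ^ 9 * (2 * j * ∑ i ∈ Finset.range j,
            ((be L φ i δ τ x) ^ 2 + ((dt^[i] h) τ x) ^ 2)) :=
            mul_le_mul_of_nonneg_left this (pow_nonneg hx.1 9)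
        _ = _ := by
          simp_rw [← mul_add]
          rw [← Finset.mul_sum]; ring
  refine h1.trans (le_of_eq ?_)
  rw [intervalIntegral.integral_const_mul, intervalIntegral.integral_finsetSum]
  · congr 1
    unfold low
    refine Finset.sum_congr rfl fun i _ => ?_
    rw [intervalIntegral.integral_add]
    · rfl
    · exact ii hL.le ((continuous_pow 9).continuousOn.mul ((hc i).pow 2))
    · exact ii hL.le ((continuous_pow 9).continuousOn.mul ((hc' i).pow 2))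
  · intro i _
    exact ii hL.le (((continuous_pow 9).continuousOn.mul ((hc i).pow 2)).add
        ((continuous_pow 9).continuousOn.mul ((hc' i).pow 2)))

theorem low_nonneg (hL : 0 ≤ L) (j : ℕ) (τ : ℝ) : 0 ≤ low L φ h δ j τ :=
  Finset.sum_nonneg fun _ _ => add_nonneg (nn_nonneg hL _) (nn_nonneg hL _)

/-- **(I)**: interpolation, at fixed time. -/
theorem interp_delta (hL : 0 < L) (hφ : Sm (Ioo 0 1) L φ) (hφL : ∀ τ ∈ Ioo (0 : ℝ) 1, φ τ L = 0)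
    (hδ : Sm (Ioo 0 1) L δ) (hh : Sm (Ioo 0 1) L h) (hE : Sm (Ioo 0 1) L E) (hK : 0 ≤ K)
    (hlev : Lev L φ E h δ a b K j) {τ : ℝ} (hτ : τ ∈ Ioo (0 : ℝ) 1) (hτ' : τ ∈ Icc a b)
    (p q : ℝ) {ε : ℝ} (hε : 0 < ε) :
    |p * q| * nn L (dt^[j + 1] δ) τ ≤ ε * p ^ 2 * nn L (be L φ (j + 1) δ) τ +
      (1 / ε) * (1 + K) ^ 2 * q ^ 2 * (2 * ((j + 1 : ℕ) : ℝ) * low L φ h δ (j + 1) τ) +
      (p ^ 2 + q ^ 2) / 2 * nn L (dt^[j] E) τ := by
  obtain ⟨R, hR, hRL, heq, hRb⟩ := hlev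
  have hδj : ∀ i, Sm (Ioo 0 1) L (dt^[i] δ) := fun i => Sm.dt_iter isOpen_Ioo hL hδ i
  have hEj : ∀ i, Sm (Ioo 0 1) L (dt^[i] E) := fun i => Sm.dt_iter isOpen_Ioo hL hE i
  have hbe : ∀ i, Sm (Ioo 0 1) L (be L φ i δ) := fun i => sm_be hL hφ hδ i
  have hbeL : ∀ τ ∈ Ioo (0 : ℝ) 1, be L φ j δ τ L = 0 := fun τ hτ => by
    simp [be, hφL τ hτ]
  have hA : Sm (Ioo 0 1) L (fun τ x => be L φ j δ τ x + R τ x) := (hbe j).add hR
  have hG : Sm (Ioo 0 1) L (fun τ x => (dt^[j] E) τ x + (dt^[j + 1] δ) τ x) :=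
    (hEj j).add (hδj (j + 1))
  have key := test_level hL hφ hφL (A := fun τ x => be L φ j δ τ x + R τ x)
    (G := fun τ x => (dt^[j] E) τ x + (dt^[j + 1] δ) τ x) (u := dt^[j + 1] δ) hA
    (fun τ hτ => by simp [hbeL τ hτ, hRL τ hτ]) hG (hδj (j + 1)) (fun τ hτ x hx => heq τ hτ x hx) hτ
  have c9 : ContinuousOn (fun x : ℝ => x ^ 9) (Icc 0 L) := (continuous_pow 9).continuousOn
  have cb := cont_w (hbe (j + 1)) hτ
  have cbj := cont_w (hbe j) hτ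
  have cR := cont_w hR hτ
  have cE := cont_w (hEj j) hτ
  have cd := cont_w (hδj (j + 1)) hτ
  have cl := cont_ls hL hφ hδ hh (j + 1) hτ
  -- pointwise
  have hpt : ∀ x ∈ Icc 0 L, |be L φ j δ τ x + R τ x| ≤ (1 + K) * ls L φ h δ (j + 1) τ x := by
    intro x hx
    have h1 := hRb τ hτ' x hx
    have h2 : ls L φ h δ (j + 1) τ x = ls L φ h δ j τ x + (|be L φ j δ τ x| + |(dt^[j] h) τ x|) :=
      ls_succ τ x
    have h3 : 0 ≤ ls L φ h δ j τ x := ls_nonneg τ x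
    have h4 : |R τ x| ≤ |(dt^[j] h) τ x| + K * ls L φ h δ j τ x := h1
    calc |be L φ j δ τ x + R τ x| ≤ |be L φ j δ τ x| + |R τ x| := abs_add_le _ _
      _ ≤ _ := by
        rw [h2]
        nlinarith [abs_nonneg (be L φ j δ τ x), abs_nonneg ((dt^[j] h) τ x),
          mul_nonneg hK (abs_nonneg (be L φ j δ τ x)), mul_nonneg hK (abs_nonneg ((dt^[j] h) τ x))]
  -- the tested identity gives the integral of `δ²`
  have e1 : nn L (dt^[j + 1] δ) τ =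
      ∫ x in (0 : ℝ)..L, x ^ 9 * ((be L φ j δ τ x + R τ x) * be L φ (j + 1) δ τ x
        - (dt^[j] E) τ x * (dt^[j + 1] δ) τ x) := by
    have h5 : ∫ x in (0 : ℝ)..L, x ^ 9 * ((be L φ j δ τ x + R τ x) * be L φ (j + 1) δ τ x
        - (dt^[j] E) τ x * (dt^[j + 1] δ) τ x) =
        (∫ x in (0 : ℝ)..L, x ^ 9 * ((be L φ j δ τ x + R τ x) * be L φ (j + 1) δ τ x)) -
        ∫ x in (0 : ℝ)..L, x ^ 9 * ((dt^[j] E) τ x * (dt^[j + 1] δ) τ x) := by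
      rw [← intervalIntegral.integral_sub]
      · refine intervalIntegral.integral_congr fun x _ => ?_
        show x ^ 9 * _ = x ^ 9 * _ - x ^ 9 * _
        ring
      · exact ii hL.le (c9.mul ((cbj.add cR).mul cb))
      · exact ii hL.le (c9.mul (cE.mul cd))
    rw [h5]
    have h6 : (∫ x in (0 : ℝ)..L, x ^ 9 * ((be L φ j δ τ x + R τ x) * be L φ (j + 1) δ τ x)) =
      ∫ x in (0 : ℝ)..L, x ^ 9 * (((dt^[j] E) τ x + (dt^[j + 1] δ) τ x) * (dt^[j + 1] δ) τ x) :=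
      key
    rw [h6, ← intervalIntegral.integral_sub]
    · unfold nn
      refine intervalIntegral.integral_congr fun x _ => ?_
      show x ^ 9 * _ = x ^ 9 * _ - x ^ 9 * _
      ring
    · exact ii hL.le (c9.mul ((cE.add cd).mul cd))
    · exact ii hL.le (c9.mul (cE.mul cd))
  have h7 : |p * q| * nn L (dt^[j + 1] δ) τ ≤
      ∫ x in (0 : ℝ)..L, (ε / 2 * p ^ 2 * (x ^ 9 * (be L φ (j + 1) δ τ x) ^ 2)
        + (1 / ε) / 2 * (1 + K) ^ 2 * q ^ 2 * (x ^ 9 * (ls L φ h δ (j + 1) τ x) ^ 2)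
        + (p ^ 2 + q ^ 2) / 4 * (x ^ 9 * ((dt^[j] E) τ x) ^ 2)
        + |p * q| / 2 * (x ^ 9 * ((dt^[j + 1] δ) τ x) ^ 2)) := by
    rw [e1, ← intervalIntegral.integral_const_mul]
    refine intervalIntegral.integral_mono_on hL.le ?_ ?_ fun x hx => ?_
    · exact ii hL.le (continuousOn_const.mul (c9.mul (((cbj.add cR).mul cb).sub (cE.mul cd))))
    · exact ii hL.le ((((continuousOn_const.mul (c9.mul (cb.pow 2))).add
        (continuousOn_const.mul (c9.mul (cl.pow 2)))).add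
        (continuousOn_const.mul (c9.mul (cE.pow 2)))).add
        (continuousOn_const.mul (c9.mul (cd.pow 2))))
    · have hp := hpt x hx
      have hx9 : 0 ≤ x ^ 9 := pow_nonneg hx.1 9
      set A := be L φ j δ τ x + R τ x
      set B := be L φ (j + 1) δ τ x
      set S := ls L φ h δ (j + 1) τ x
      set e := (dt^[j] E) τ x
      set d := (dt^[j + 1] δ) τ x
      have hS : 0 ≤ S := ls_nonneg τ x
      have b1 : |p * q| * (A * B) ≤ ε / 2 * p ^ 2 * B ^ 2 + (1 / ε) / 2 * (1 + K) ^ 2 * q ^ 2 * S ^ 2 := by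
        have b2 : |p * q| * (A * B) ≤ |p * B| * (|q| * ((1 + K) * S)) := by
          calc |p * q| * (A * B) ≤ |p * q| * |A * B| :=
                mul_le_mul_of_nonneg_left (le_abs_self _) (abs_nonneg _)
            _ = |p * B| * (|q| * |A|) := by rw [abs_mul, abs_mul, abs_mul]; ring
            _ ≤ _ := by gcongr
        refine b2.trans ?_
        have b3 : |p * B| * (|q| * ((1 + K) * S)) ≤
            ε / 2 * (|p * B|) ^ 2 + (1 / ε) / 2 * (|q| * ((1 + K) * S)) ^ 2 := by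
          have := sq_nonneg (ε * |p * B| - (|q| * ((1 + K) * S)))
          have h8 : ε / 2 * (|p * B|) ^ 2 + (1 / ε) / 2 * (|q| * ((1 + K) * S)) ^ 2
              - |p * B| * (|q| * ((1 + K) * S)) =
              (ε * |p * B| - (|q| * ((1 + K) * S))) ^ 2 / (2 * ε) := by
            field_simp; ring
          have h9 : 0 ≤ (ε * |p * B| - (|q| * ((1 + K) * S))) ^ 2 / (2 * ε) := by positivity
          linarith
        refine b3.trans (le_of_eq ?_)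
        rw [sq_abs, mul_pow |q|, sq_abs]; ring
      have b4 : |p * q| * (-(e * d)) ≤ (p ^ 2 + q ^ 2) / 4 * e ^ 2 + |p * q| / 2 * d ^ 2 := by
        have h8 : |p * q| ≤ (p ^ 2 + q ^ 2) / 2 := by
          rw [abs_mul]
          nlinarith [sq_nonneg (|p| - |q|), sq_abs p, sq_abs q]
        have h9 : -(e * d) ≤ e ^ 2 / 2 + d ^ 2 / 2 := by nlinarith [sq_nonneg (e + d)]
        have h10 : |p * q| * (-(e * d)) ≤ |p * q| * (e ^ 2 / 2 + d ^ 2 / 2) :=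
          mul_le_mul_of_nonneg_left h9 (abs_nonneg _)
        have h11 : |p * q| * (e ^ 2 / 2) ≤ (p ^ 2 + q ^ 2) / 2 * (e ^ 2 / 2) :=
          mul_le_mul_of_nonneg_right h8 (by positivity)
        nlinarith
      calc |p * q| * (x ^ 9 * (A * B - e * d)) = x ^ 9 * (|p * q| * (A * B) + |p * q| * (-(e * d))) := by
            ring
        _ ≤ x ^ 9 * ((ε / 2 * p ^ 2 * B ^ 2 + (1 / ε) / 2 * (1 + K) ^ 2 * q ^ 2 * S ^ 2)
            + ((p ^ 2 + q ^ 2) / 4 * e ^ 2 + |p * q| / 2 * d ^ 2)) :=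
            mul_le_mul_of_nonneg_left (add_le_add b1 b4) hx9
        _ = _ := by ring
  rw [intervalIntegral.integral_add, intervalIntegral.integral_add, intervalIntegral.integral_add,
    intervalIntegral.integral_const_mul, intervalIntegral.integral_const_mul,
    intervalIntegral.integral_const_mul, intervalIntegral.integral_const_mul] at h7
  · have h8 := int_ls_sq hL hφ hδ hh (j + 1) hτ
    have h9 : (1 / ε) / 2 * (1 + K) ^ 2 * q ^ 2 *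
        (∫ x in (0 : ℝ)..L, x ^ 9 * (ls L φ h δ (j + 1) τ x) ^ 2) ≤
        (1 / ε) / 2 * (1 + K) ^ 2 * q ^ 2 * (2 * ((j + 1 : ℕ) : ℝ) * low L φ h δ (j + 1) τ) :=
      mul_le_mul_of_nonneg_left h8 (by positivity)
    have e2 : (∫ x in (0 : ℝ)..L, x ^ 9 * (be L φ (j + 1) δ τ x) ^ 2) = nn L (be L φ (j + 1) δ) τ := rfl
    have e3 : (∫ x in (0 : ℝ)..L, x ^ 9 * ((dt^[j] E) τ x) ^ 2) = nn L (dt^[j] E) τ := rfl
    have e4 : (∫ x in (0 : ℝ)..L, x ^ 9 * ((dt^[j + 1] δ) τ x) ^ 2) = nn L (dt^[j + 1] δ) τ := rfl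
    rw [e2, e3, e4] at h7
    nlinarith
  all_goals first
    | exact ii hL.le (continuousOn_const.mul (c9.mul (cb.pow 2)))
    | exact ii hL.le (continuousOn_const.mul (c9.mul (cl.pow 2)))
    | exact ii hL.le (continuousOn_const.mul (c9.mul (cE.pow 2)))
    | exact ii hL.le (continuousOn_const.mul (c9.mul (cd.pow 2)))
    | exact ii hL.le (((continuousOn_const.mul (c9.mul (cb.pow 2))).add
        (continuousOn_const.mul (c9.mul (cl.pow 2)))).add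
        (continuousOn_const.mul (c9.mul (cE.pow 2))))
    | exact ii hL.le ((continuousOn_const.mul (c9.mul (cb.pow 2))).add
        (continuousOn_const.mul (c9.mul (cl.pow 2))))

/-- **(E)**: energy at level `j`, at fixed time. -/
theorem energy_fix (hL : 0 < L) (hφ : Sm (Ioo 0 1) L φ) (hφL : ∀ τ ∈ Ioo (0 : ℝ) 1, φ τ L = 0)
    (hδ : Sm (Ioo 0 1) L δ) (hh : Sm (Ioo 0 1) L h) (hE : Sm (Ioo 0 1) L E)
    (hlev : Lev L φ E h δ a b K j) {τ : ℝ} (hτ : τ ∈ Ioo (0 : ℝ) 1) (hτ' : τ ∈ Icc a b) :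
    nn L (be L φ j δ) τ ≤ 9 / 16 * nn L (be L φ j δ) τ + 1 / 2 * nn L (dt^[j] h) τ +
      4 * K ^ 2 * (2 * (j : ℝ) * low L φ h δ j τ) + 1 / 2 * nn L (dt^[j] E) τ +
      1 / 2 * nn L (dt^[j] δ) τ +
      1 / 2 * ∫ x in (0 : ℝ)..L, x ^ 9 * (2 * ((dt^[j] δ) τ x * dt (dt^[j] δ) τ x)) := by
  obtain ⟨R, hR, hRL, heq, hRb⟩ := hlev
  have hδj : ∀ i, Sm (Ioo 0 1) L (dt^[i] δ) := fun i => Sm.dt_iter isOpen_Ioo hL hδ i
  have hEj : ∀ i, Sm (Ioo 0 1) L (dt^[i] E) := fun i => Sm.dt_iter isOpen_Ioo hL hE i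
  have hhj : ∀ i, Sm (Ioo 0 1) L (dt^[i] h) := fun i => Sm.dt_iter isOpen_Ioo hL hh i
  have hbe : ∀ i, Sm (Ioo 0 1) L (be L φ i δ) := fun i => sm_be hL hφ hδ i
  have hbeL : ∀ τ ∈ Ioo (0 : ℝ) 1, be L φ j δ τ L = 0 := fun τ hτ => by
    simp [be, hφL τ hτ]
  have hA : Sm (Ioo 0 1) L (fun τ x => be L φ j δ τ x + R τ x) := (hbe j).add hR
  have hG : Sm (Ioo 0 1) L (fun τ x => (dt^[j] E) τ x + (dt^[j + 1] δ) τ x) :=
    (hEj j).add (hδj (j + 1))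
  have key := test_level hL hφ hφL (A := fun τ x => be L φ j δ τ x + R τ x)
    (G := fun τ x => (dt^[j] E) τ x + (dt^[j + 1] δ) τ x) (u := dt^[j] δ) hA
    (fun τ hτ => by simp [hbeL τ hτ, hRL τ hτ]) hG (hδj j) (fun τ hτ x hx => heq τ hτ x hx) hτ
  have c9 : ContinuousOn (fun x : ℝ => x ^ 9) (Icc 0 L) := (continuous_pow 9).continuousOn
  have cb := cont_w (hbe j) hτ
  have cR := cont_w hR hτ
  have cE := cont_w (hEj j) hτ
  have ch := cont_w (hhj j) hτ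
  have cd := cont_w (hδj j) hτ
  have cdt : ContinuousOn (dt (dt^[j] δ) τ) (Icc 0 L) :=
    cont_w (Sm.dt isOpen_Ioo hL (hδj j)) hτ
  have cl := cont_ls hL hφ hδ hh j hτ
  have e0 : (dt^[j + 1] δ) = dt (dt^[j] δ) := Function.iterate_succ_apply' _ _ _
  rw [e0] at key
  -- identity for `nn be`
  have e1 : nn L (be L φ j δ) τ =
      ∫ x in (0 : ℝ)..L, x ^ 9 * (-(R τ x * be L φ j δ τ x) + (dt^[j] E) τ x * (dt^[j] δ) τ x
        + dt (dt^[j] δ) τ x * (dt^[j] δ) τ x) := by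
    have k1 : (∫ x in (0 : ℝ)..L, x ^ 9 * ((be L φ j δ τ x + R τ x) * be L φ j δ τ x)) =
      ∫ x in (0 : ℝ)..L, x ^ 9 * (((dt^[j] E) τ x + dt (dt^[j] δ) τ x) * (dt^[j] δ) τ x) := key
    have h5 : nn L (be L φ j δ) τ =
        (∫ x in (0 : ℝ)..L, x ^ 9 * ((be L φ j δ τ x + R τ x) * be L φ j δ τ x)) -
        ∫ x in (0 : ℝ)..L, x ^ 9 * (R τ x * be L φ j δ τ x) := by
      rw [← intervalIntegral.integral_sub]
      · unfold nn
        refine intervalIntegral.integral_congr fun x _ => ?_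
        show x ^ 9 * _ = x ^ 9 * _ - x ^ 9 * _
        ring
      · exact ii hL.le (c9.mul ((cb.add cR).mul cb))
      · exact ii hL.le (c9.mul (cR.mul cb))
    rw [h5, k1, ← intervalIntegral.integral_sub]
    · refine intervalIntegral.integral_congr fun x _ => ?_
      show x ^ 9 * _ - x ^ 9 * _ = x ^ 9 * _
      ring
    · exact ii hL.le (c9.mul ((cE.add cdt).mul cd))
    · exact ii hL.le (c9.mul (cR.mul cb))
  have h7 : nn L (be L φ j δ) τ ≤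
      ∫ x in (0 : ℝ)..L, (9 / 16 * (x ^ 9 * (be L φ j δ τ x) ^ 2)
        + 1 / 2 * (x ^ 9 * ((dt^[j] h) τ x) ^ 2)
        + 4 * K ^ 2 * (x ^ 9 * (ls L φ h δ j τ x) ^ 2)
        + 1 / 2 * (x ^ 9 * ((dt^[j] E) τ x) ^ 2)
        + 1 / 2 * (x ^ 9 * ((dt^[j] δ) τ x) ^ 2)
        + 1 / 2 * (x ^ 9 * (2 * ((dt^[j] δ) τ x * dt (dt^[j] δ) τ x)))) := by
    conv_lhs => rw [e1]
    refine intervalIntegral.integral_mono_on hL.le ?_ ?_ fun x hx => ?_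
    · exact ii hL.le (c9.mul (((cR.mul cb).neg.add (cE.mul cd)).add (cdt.mul cd)))
    · exact ii hL.le ((((((continuousOn_const.mul (c9.mul (cb.pow 2))).add
        (continuousOn_const.mul (c9.mul (ch.pow 2)))).add
        (continuousOn_const.mul (c9.mul (cl.pow 2)))).add
        (continuousOn_const.mul (c9.mul (cE.pow 2)))).add
        (continuousOn_const.mul (c9.mul (cd.pow 2)))).add
        (continuousOn_const.mul (c9.mul (continuousOn_const.mul (cd.mul cdt)))))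
    · have hx9 : 0 ≤ x ^ 9 := pow_nonneg hx.1 9
      have hRb' : |R τ x| ≤ |(dt^[j] h) τ x| + K * ls L φ h δ j τ x := hRb τ hτ' x hx
      set B := be L φ j δ τ x
      set H := (dt^[j] h) τ x
      set r := R τ x
      set S := ls L φ h δ j τ x
      set e := (dt^[j] E) τ x
      set d := (dt^[j] δ) τ x
      set dd := dt (dt^[j] δ) τ x
      have b1 : -(r * B) ≤ 9 / 16 * B ^ 2 + 1 / 2 * H ^ 2 + 4 * K ^ 2 * S ^ 2 := by
        have h8 : -(r * B) ≤ |r| * |B| := by rw [← abs_mul]; exact neg_le_abs _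
        have h9 : |r| * |B| ≤ (|H| + K * S) * |B| :=
          mul_le_mul_of_nonneg_right hRb' (abs_nonneg _)
        nlinarith [sq_nonneg (|H| - |B|), sq_nonneg (|B| / 4 - 2 * (K * S)), sq_abs H, sq_abs B]
      have b2 : e * d ≤ 1 / 2 * e ^ 2 + 1 / 2 * d ^ 2 := by nlinarith [sq_nonneg (e - d)]
      calc x ^ 9 * (-(r * B) + e * d + dd * d)
          ≤ x ^ 9 * ((9 / 16 * B ^ 2 + 1 / 2 * H ^ 2 + 4 * K ^ 2 * S ^ 2)
            + (1 / 2 * e ^ 2 + 1 / 2 * d ^ 2) + dd * d) :=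
            mul_le_mul_of_nonneg_left (by linarith) hx9
        _ = _ := by ring
  have i1 : IntervalIntegrable (fun x => 9 / 16 * (x ^ 9 * (be L φ j δ τ x) ^ 2)) volume 0 L :=
    ii hL.le (continuousOn_const.mul (c9.mul (cb.pow 2)))
  have i2 : IntervalIntegrable (fun x => 1 / 2 * (x ^ 9 * ((dt^[j] h) τ x) ^ 2)) volume 0 L :=
    ii hL.le (continuousOn_const.mul (c9.mul (ch.pow 2)))
  have i3 : IntervalIntegrable (fun x => 4 * K ^ 2 * (x ^ 9 * (ls L φ h δ j τ x) ^ 2))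
      volume 0 L := ii hL.le (continuousOn_const.mul (c9.mul (cl.pow 2)))
  have i4 : IntervalIntegrable (fun x => 1 / 2 * (x ^ 9 * ((dt^[j] E) τ x) ^ 2)) volume 0 L :=
    ii hL.le (continuousOn_const.mul (c9.mul (cE.pow 2)))
  have i5 : IntervalIntegrable (fun x => 1 / 2 * (x ^ 9 * ((dt^[j] δ) τ x) ^ 2)) volume 0 L :=
    ii hL.le (continuousOn_const.mul (c9.mul (cd.pow 2)))
  have i6 : IntervalIntegrable (fun x => 1 / 2 * (x ^ 9 * (2 * ((dt^[j] δ) τ x *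
      dt (dt^[j] δ) τ x)))) volume 0 L :=
    ii hL.le (continuousOn_const.mul (c9.mul (continuousOn_const.mul (cd.mul cdt))))
  rw [intervalIntegral.integral_add ((((i1.add i2).add i3).add i4).add i5) i6,
    intervalIntegral.integral_add (((i1.add i2).add i3).add i4) i5,
    intervalIntegral.integral_add ((i1.add i2).add i3) i4,
    intervalIntegral.integral_add (i1.add i2) i3,
    intervalIntegral.integral_add i1 i2,
    intervalIntegral.integral_const_mul, intervalIntegral.integral_const_mul,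
    intervalIntegral.integral_const_mul, intervalIntegral.integral_const_mul,
    intervalIntegral.integral_const_mul, intervalIntegral.integral_const_mul] at h7
  have h8 := int_ls_sq hL hφ hδ hh j hτ
  have h9 : 4 * K ^ 2 * (∫ x in (0 : ℝ)..L, x ^ 9 * (ls L φ h δ j τ x) ^ 2) ≤
      4 * K ^ 2 * (2 * (j : ℝ) * low L φ h δ j τ) :=
    mul_le_mul_of_nonneg_left h8 (by positivity)
  have e2 : (∫ x in (0 : ℝ)..L, x ^ 9 * (be L φ j δ τ x) ^ 2) = nn L (be L φ j δ) τ := rfl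
  have e3 : (∫ x in (0 : ℝ)..L, x ^ 9 * ((dt^[j] E) τ x) ^ 2) = nn L (dt^[j] E) τ := rfl
  have e4 : (∫ x in (0 : ℝ)..L, x ^ 9 * ((dt^[j] δ) τ x) ^ 2) = nn L (dt^[j] δ) τ := rfl
  have e5 : (∫ x in (0 : ℝ)..L, x ^ 9 * ((dt^[j] h) τ x) ^ 2) = nn L (dt^[j] h) τ := rfl
  rw [e2, e3, e4, e5] at h7
  linarith

/-- constant in the local energy inequality -/
def CE (K : ℝ) (j : ℕ) : ℝ := 200 * ((1 + K) ^ 2 * ((j + 1 : ℕ) : ℝ) + 1)

set_option maxHeartbeats 1600000 in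
/-- **local energy inequality at level `J = j+1`**, with cut-off `ζ` supported in `[a,b]`. -/
theorem loc_energy (hL : 0 < L) (hφ : Sm (Ioo 0 1) L φ) (hφL : ∀ τ ∈ Ioo (0 : ℝ) 1, φ τ L = 0)
    (hδ : Sm (Ioo 0 1) L δ) (hh : Sm (Ioo 0 1) L h) (hE : Sm (Ioo 0 1) L E) (hK : 0 ≤ K)
    (ha : 0 < a) (hab : a ≤ b) (hb : b < 1)
    (h1 : Lev L φ E h δ a b K j) (h2 : Lev L φ E h δ a b K (j + 1))
    {ζ ζ' : ℝ → ℝ} (hζ : ∀ τ, HasDerivAt ζ (ζ' τ) τ) (hζ' : Continuous ζ')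
    (hza : ζ a = 0) (hzb : ζ b = 0) :
    ∫ τ in a..b, ζ τ ^ 2 * nn L (be L φ (j + 1) δ) τ ≤
      2 * (∫ τ in a..b, ζ τ ^ 2 * nn L (dt^[j + 1] h) τ) +
      CE K j * ∫ τ in a..b, (ζ τ ^ 2 + ζ' τ ^ 2) *
        (low L φ h δ (j + 1) τ + nn L (dt^[j + 1] E) τ + nn L (dt^[j] E) τ) := by
  have hsub : Icc a b ⊆ Ioo (0 : ℝ) 1 := fun τ hτ => ⟨lt_of_lt_of_le ha hτ.1, lt_of_le_of_lt hτ.2 hb⟩
  have hδj : ∀ i, Sm (Ioo 0 1) L (dt^[i] δ) := fun i => Sm.dt_iter isOpen_Ioo hL hδ i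
  have hEj : ∀ i, Sm (Ioo 0 1) L (dt^[i] E) := fun i => Sm.dt_iter isOpen_Ioo hL hE i
  have hhj : ∀ i, Sm (Ioo 0 1) L (dt^[i] h) := fun i => Sm.dt_iter isOpen_Ioo hL hh i
  have hbe : ∀ i, Sm (Ioo 0 1) L (be L φ i δ) := fun i => sm_be hL hφ hδ i
  have cζ : Continuous ζ := continuous_iff_continuousAt.2 fun τ => (hζ τ).continuousAt
  have cc : ∀ {u : ℝ → ℝ → ℝ}, Sm (Ioo 0 1) L u → ContinuousOn (nn L u) (Icc a b) :=
    fun hu => (cont_nn hL hu).mono hsub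
  have clow : ContinuousOn (low L φ h δ (j + 1)) (Icc a b) := by
    unfold low
    exact continuousOn_finsetSum _ fun i _ => (cc (hbe i)).add (cc (hhj i))
  have cD' : ContinuousOn (fun τ => ∫ x in (0 : ℝ)..L,
      x ^ 9 * (2 * ((dt^[j + 1] δ) τ x * dt (dt^[j + 1] δ) τ x))) (Icc a b) :=
    (cont_dnn hL (hδj (j + 1)) (Sm.dt isOpen_Ioo hL (hδj (j + 1)))).mono hsub
  have iab : ∀ {f : ℝ → ℝ}, ContinuousOn f (Icc a b) → IntervalIntegrable f volume a b := by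
    intro f hf
    apply ContinuousOn.intervalIntegrable; rwa [uIcc_of_le hab]
  -- abbreviations
  set B := nn L (be L φ (j + 1) δ) with hBdef
  set Hn := nn L (dt^[j + 1] h) with hHdef
  set D := nn L (dt^[j + 1] δ) with hDdef
  set E1 := nn L (dt^[j + 1] E) with hE1def
  set E0 := nn L (dt^[j] E) with hE0def
  set Lw := low L φ h δ (j + 1) with hLwdef
  set D' := (fun τ => ∫ x in (0 : ℝ)..L,
      x ^ 9 * (2 * ((dt^[j + 1] δ) τ x * dt (dt^[j + 1] δ) τ x))) with hD'def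
  -- integration by parts in time
  have ibp : ∫ τ in a..b, (2 * (ζ τ * ζ' τ) * D τ + ζ τ ^ 2 * D' τ) = 0 := by
    have hd : ∀ τ ∈ Ioo a b, HasDerivAt (fun τ => ζ τ ^ 2 * D τ)
        (2 * (ζ τ * ζ' τ) * D τ + ζ τ ^ 2 * D' τ) τ := by
      intro τ hτ
      have := ((hζ τ).pow 2).mul (hasDerivAt_nn hL (hδj (j + 1)) (hsub (Ioo_subset_Icc_self hτ)))
      refine this.congr_deriv ?_
      simp only [Pi.pow_apply, hDdef, hD'def]
      ring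
    rw [intervalIntegral.integral_eq_sub_of_hasDerivAt_of_le hab
      ((cζ.continuousOn.pow 2).mul (cc (hδj (j + 1)))) hd]
    · simp only [Pi.mul_apply, Pi.pow_apply]
      rw [hza, hzb]; ring
    · exact iab (((continuousOn_const.mul (cζ.continuousOn.mul hζ'.continuousOn)).mul
        (cc (hδj (j + 1)))).add ((cζ.continuousOn.pow 2).mul cD'))
  -- pointwise in time
  have hpt : ∀ τ ∈ Icc a b, 11 / 32 * (ζ τ ^ 2 * B τ) ≤ 1 / 2 * (ζ τ ^ 2 * Hn τ)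
      + (ζ τ ^ 2 + ζ' τ ^ 2) * ((40 * (1 + K) ^ 2 * ((j + 1 : ℕ) : ℝ)) * Lw τ + E1 τ + 2 * E0 τ)
      + 1 / 2 * (2 * (ζ τ * ζ' τ) * D τ + ζ τ ^ 2 * D' τ) := by
    intro τ hτ
    have hτ1 := hsub hτ
    have f1 := energy_fix hL hφ hφL hδ hh hE h2 hτ1 hτ
    have f2 := interp_delta hL hφ hφL hδ hh hE hK h1 hτ1 hτ (ζ τ) (ζ τ) (ε := 1 / 16) (by norm_num)
    have f3 := interp_delta hL hφ hφL hδ hh hE hK h1 hτ1 hτ (ζ τ) (ζ' τ) (ε := 1 / 16) (by norm_num)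
    have f1' : B τ ≤ 9 / 16 * B τ + 1 / 2 * Hn τ + 4 * K ^ 2 * (2 * ((j + 1 : ℕ) : ℝ) * Lw τ)
      + 1 / 2 * E1 τ + 1 / 2 * D τ + 1 / 2 * D' τ := f1
    have f2' : |ζ τ * ζ τ| * D τ ≤ 1 / 16 * ζ τ ^ 2 * B τ +
      (1 / (1 / 16)) * (1 + K) ^ 2 * ζ τ ^ 2 * (2 * ((j + 1 : ℕ) : ℝ) * Lw τ) +
      (ζ τ ^ 2 + ζ τ ^ 2) / 2 * E0 τ := f2
    have f3' : |ζ τ * ζ' τ| * D τ ≤ 1 / 16 * ζ τ ^ 2 * B τ +
      (1 / (1 / 16)) * (1 + K) ^ 2 * ζ' τ ^ 2 * (2 * ((j + 1 : ℕ) : ℝ) * Lw τ) +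
      (ζ τ ^ 2 + ζ' τ ^ 2) / 2 * E0 τ := f3
    have hJ : (0 : ℝ) ≤ ((j + 1 : ℕ) : ℝ) := Nat.cast_nonneg _
    have hLw0 : 0 ≤ Lw τ := low_nonneg hL.le _ _
    have hE10 : 0 ≤ E1 τ := nn_nonneg hL.le _
    have hE00 : 0 ≤ E0 τ := nn_nonneg hL.le _
    have hD0 : 0 ≤ D τ := nn_nonneg hL.le _
    have hz : |ζ τ * ζ τ| = ζ τ ^ 2 := by rw [abs_mul_self]; ring
    rw [hz] at f2'
    have hneg : -(ζ τ * ζ' τ * D τ) ≤ |ζ τ * ζ' τ| * D τ := by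
      have : -(ζ τ * ζ' τ) ≤ |ζ τ * ζ' τ| := neg_le_abs _
      nlinarith
    have f1'' := mul_le_mul_of_nonneg_left f1' (sq_nonneg (ζ τ))
    set z := ζ τ ^ 2 with hzdef
    set z' := ζ' τ ^ 2 with hz'def
    have hz0 : 0 ≤ z := sq_nonneg _
    have hz'0 : 0 ≤ z' := sq_nonneg _
    set P := ((j + 1 : ℕ) : ℝ) * Lw τ with hPdef
    have hP0 : 0 ≤ P := mul_nonneg hJ hLw0
    have e6 : (40 * (1 + K) ^ 2 * ((j + 1 : ℕ) : ℝ)) * Lw τ = 40 * (1 + K) ^ 2 * P := by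
      rw [hPdef]; ring
    have e7 : 2 * ((j + 1 : ℕ) : ℝ) * Lw τ = 2 * P := by rw [hPdef]; ring
    rw [e7] at f1'' f2' f3'
    rw [e6]
    have hKK : K ^ 2 ≤ (1 + K) ^ 2 := by nlinarith
    have g1 : z * (4 * K ^ 2 * (2 * P)) ≤ 8 * (1 + K) ^ 2 * (z * P) := by
      have : 0 ≤ z * P := mul_nonneg hz0 hP0
      nlinarith
    have g2 : 0 ≤ (1 + K) ^ 2 * (z' * P) := by positivity
    have g3 : 0 ≤ (1 + K) ^ 2 * (z * P) := by positivity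
    have g4 : 0 ≤ z * E1 τ := mul_nonneg hz0 hE10
    have g5 : 0 ≤ z' * E1 τ := mul_nonneg hz'0 hE10
    have g6 : 0 ≤ z * E0 τ := mul_nonneg hz0 hE00
    have g7 : 0 ≤ z' * E0 τ := mul_nonneg hz'0 hE00
    clear_value z z' P B Hn D E1 E0 Lw D'
    linarith
  -- integrate
  have cB := cc (hbe (j + 1))
  have cH := cc (hhj (j + 1))
  have cD := cc (hδj (j + 1))
  have cE1 := cc (hEj (j + 1))
  have cE0 := cc (hEj j)
  have cz : ContinuousOn (fun τ => ζ τ ^ 2) (Icc a b) := (cζ.pow 2).continuousOn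
  have cz' : ContinuousOn (fun τ => ζ τ ^ 2 + ζ' τ ^ 2) (Icc a b) :=
    ((cζ.pow 2).add (hζ'.pow 2)).continuousOn
  have cI : ContinuousOn (fun τ => 2 * (ζ τ * ζ' τ) * D τ + ζ τ ^ 2 * D' τ) (Icc a b) :=
    ((continuousOn_const.mul (cζ.continuousOn.mul hζ'.continuousOn)).mul cD).add
      ((cζ.continuousOn.pow 2).mul cD')
  have cM : ContinuousOn (fun τ => (ζ τ ^ 2 + ζ' τ ^ 2) *
      ((40 * (1 + K) ^ 2 * ((j + 1 : ℕ) : ℝ)) * Lw τ + E1 τ + 2 * E0 τ)) (Icc a b) :=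
    cz'.mul (((continuousOn_const.mul clow).add cE1).add (continuousOn_const.mul cE0))
  have hint : ∫ τ in a..b, 11 / 32 * (ζ τ ^ 2 * B τ) ≤
      ∫ τ in a..b, (1 / 2 * (ζ τ ^ 2 * Hn τ)
      + (ζ τ ^ 2 + ζ' τ ^ 2) * ((40 * (1 + K) ^ 2 * ((j + 1 : ℕ) : ℝ)) * Lw τ + E1 τ + 2 * E0 τ)
      + 1 / 2 * (2 * (ζ τ * ζ' τ) * D τ + ζ τ ^ 2 * D' τ)) :=
    intervalIntegral.integral_mono_on hab
      (iab (continuousOn_const.mul (cz.mul cB)))
      (iab (((continuousOn_const.mul (cz.mul cH)).add cM).add (continuousOn_const.mul cI))) hpt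
  have j1 : IntervalIntegrable (fun τ => 1 / 2 * (ζ τ ^ 2 * Hn τ)) volume a b :=
    iab (continuousOn_const.mul (cz.mul cH))
  have j2 : IntervalIntegrable (fun τ => (ζ τ ^ 2 + ζ' τ ^ 2) *
      ((40 * (1 + K) ^ 2 * ((j + 1 : ℕ) : ℝ)) * Lw τ + E1 τ + 2 * E0 τ)) volume a b := iab cM
  have j3 : IntervalIntegrable (fun τ => 1 / 2 * (2 * (ζ τ * ζ' τ) * D τ + ζ τ ^ 2 * D' τ))
      volume a b := iab (continuousOn_const.mul cI)
  rw [intervalIntegral.integral_const_mul, intervalIntegral.integral_add (j1.add j2) j3,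
    intervalIntegral.integral_add j1 j2, intervalIntegral.integral_const_mul,
    intervalIntegral.integral_const_mul, ibp] at hint
  have hfin : ∫ τ in a..b, (ζ τ ^ 2 + ζ' τ ^ 2) *
      ((40 * (1 + K) ^ 2 * ((j + 1 : ℕ) : ℝ)) * Lw τ + E1 τ + 2 * E0 τ) ≤
      (40 * ((1 + K) ^ 2 * ((j + 1 : ℕ) : ℝ)) + 2) * ∫ τ in a..b, (ζ τ ^ 2 + ζ' τ ^ 2) *
        (Lw τ + E1 τ + E0 τ) := by
    rw [← intervalIntegral.integral_const_mul]
    refine intervalIntegral.integral_mono_on hab (iab cM)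
      (iab (continuousOn_const.mul (cz'.mul ((clow.add cE1).add cE0)))) fun τ hτ => ?_
    have hLw0 : 0 ≤ Lw τ := low_nonneg hL.le _ _
    have hE10 : 0 ≤ E1 τ := nn_nonneg hL.le _
    have hE00 : 0 ≤ E0 τ := nn_nonneg hL.le _
    have hz0 : 0 ≤ ζ τ ^ 2 + ζ' τ ^ 2 := by positivity
    have hC : 0 ≤ (1 + K) ^ 2 * ((j + 1 : ℕ) : ℝ) := by positivity
    have : (40 * (1 + K) ^ 2 * ((j + 1 : ℕ) : ℝ)) * Lw τ + E1 τ + 2 * E0 τ ≤
        (40 * ((1 + K) ^ 2 * ((j + 1 : ℕ) : ℝ)) + 2) * (Lw τ + E1 τ + E0 τ) := by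
      nlinarith [mul_nonneg hC hE10, mul_nonneg hC hE00]
    calc (ζ τ ^ 2 + ζ' τ ^ 2) *
        ((40 * (1 + K) ^ 2 * ((j + 1 : ℕ) : ℝ)) * Lw τ + E1 τ + 2 * E0 τ) ≤
        (ζ τ ^ 2 + ζ' τ ^ 2) * ((40 * ((1 + K) ^ 2 * ((j + 1 : ℕ) : ℝ)) + 2)
          * (Lw τ + E1 τ + E0 τ)) := mul_le_mul_of_nonneg_left this hz0
      _ = _ := by ring
  have hI0 : 0 ≤ ∫ τ in a..b, (ζ τ ^ 2 + ζ' τ ^ 2) * (Lw τ + E1 τ + E0 τ) := by
    refine intervalIntegral.integral_nonneg hab fun τ _ => ?_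
    have hLw0 : 0 ≤ Lw τ := low_nonneg hL.le _ _
    have hE10 : 0 ≤ E1 τ := nn_nonneg hL.le _
    have hE00 : 0 ≤ E0 τ := nn_nonneg hL.le _
    positivity
  have hH0 : 0 ≤ ∫ τ in a..b, ζ τ ^ 2 * Hn τ :=
    intervalIntegral.integral_nonneg hab fun τ _ => mul_nonneg (sq_nonneg _) (nn_nonneg hL.le _)
  have hC : 0 ≤ (1 + K) ^ 2 * ((j + 1 : ℕ) : ℝ) := by positivity
  unfold CE
  set X := ∫ τ in a..b, ζ τ ^ 2 * B τ
  set Y := ∫ τ in a..b, ζ τ ^ 2 * Hn τ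
  set Z := ∫ τ in a..b, (ζ τ ^ 2 + ζ' τ ^ 2) * (Lw τ + E1 τ + E0 τ)
  have : 0 ≤ (1 + K) ^ 2 * ((j + 1 : ℕ) : ℝ) * Z := mul_nonneg hC hI0
  nlinarith

/-- `δ_{j+1}` is controlled by `be_{j+1}` and the lower levels, at fixed time. -/
theorem loc_delta_be (hL : 0 < L) (hφ : Sm (Ioo 0 1) L φ) (hφL : ∀ τ ∈ Ioo (0 : ℝ) 1, φ τ L = 0)
    (hδ : Sm (Ioo 0 1) L δ) (hh : Sm (Ioo 0 1) L h) (hE : Sm (Ioo 0 1) L E) (hK : 0 ≤ K)
    (hlev : Lev L φ E h δ a b K j) {τ : ℝ} (hτ : τ ∈ Ioo (0 : ℝ) 1) (hτ' : τ ∈ Icc a b) :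
    nn L (dt^[j + 1] δ) τ ≤ nn L (be L φ (j + 1) δ) τ +
      2 * (1 + K) ^ 2 * ((j + 1 : ℕ) : ℝ) * low L φ h δ (j + 1) τ + nn L (dt^[j] E) τ := by
  have := interp_delta hL hφ hφL hδ hh hE hK hlev hτ hτ' 1 1 (ε := 1) one_pos
  simp only [mul_one, abs_one, one_mul, one_pow, div_one] at this
  nlinarith

end energy

end Crest.Agent.R213.C8.LE
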