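import Crest.Agent.R213.C.Iteration
import Crest.Agent.R213.C.LinEstMain
import Crest.Agent.R213.C.Chain
import Crest.Agent.R213.C.AlgDiv
import Crest.Agent.R213.C.Limit

/-!
# Row 213, part C: assembly of `pde_main`

From the linear solver (`LinSolv`), the energy estimates (`EnergyLevels`) and the bounds of all
time derivatives (`AllLevels`).
-/

set_option autoImplicit false

open Set MeasureTheory Filter Topology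

noncomputable section

namespace Crest.Agent.R213.C

/-- the statement of C8, for the cut-off `eta` -/
def AllLevels (c0 C0 κ : ℝ) (g : ℝ → ℝ) : Prop :=
  ∀ (L : ℝ) (φ m E : ℝ → ℝ → ℝ), Bg c0 C0 g L φ m → Sm (Ioo 0 1) L E →
    (∀ τ ∈ Ioo (0 : ℝ) 1, ∀ x ∈ Icc (0 : ℝ) 1, E τ x = 0) →
    ∀ d : ℕ → ℝ → ℝ → ℝ, Iter κ L φ E eta d →
    ∀ (J : ℕ) (τ1 : ℝ), 0 < τ1 → ∃ M : ℝ, ∀ i, ∀ τ ∈ Ioo τ1 (3 / 8), ∀ x ∈ Icc 0 L,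
      |(dt^[J] (d i)) τ x| ≤ M

/-- the conclusion of `pde_main` -/
def PdeConcl (c0 C0 : ℝ) (g : ℝ → ℝ) : Prop :=
    ∃ (L1 : ℝ) (P : ℕ), ∀ L ≥ L1, ∀ φ m : ℝ → ℝ → ℝ, Bg c0 C0 g L φ m →
      ∀ E : ℝ → ℝ → ℝ, Sm (Ioo 0 1) L E →
        (∀ τ ∈ Ioo (0 : ℝ) 1, ∀ x ∈ Icc 0 1, E τ x = 0) →
        (∀ j ≤ 9, ∀ τ ∈ Ioo (0 : ℝ) 1, ∀ x ∈ Icc 0 L, |(dt^[j] E) τ x| ≤ L ^ (-(P : ℝ))) →
      ∃ δ : ℝ → ℝ → ℝ, Sm (Ioo 0 (1 / 4)) L δ ∧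
        (∀ τ ∈ Ioo (0 : ℝ) (1 / 4), ∀ x ∈ Icc 0 L, |φ τ x * dx L (dx L δ) τ x| ≤ 1 / 2) ∧
        (∀ τ ∈ Ioo (0 : ℝ) (1 / 4), ∀ x ∈ Icc 0 L,
          x ^ 9 * φ τ x * (φ τ x * dx L (dx L δ) τ x / (1 + φ τ x * dx L (dx L δ) τ x)) =
            Kint (fun ξ => E τ ξ + dt δ τ ξ) x) ∧
        Tendsto (fun τ => √τ * dt δ τ 0) (𝓝[>] 0) (𝓝 0)

theorem pde_main_core {c0 C0 κ : ℝ} {g : ℝ → ℝ} (hg : Prof c0 C0 g)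
    (hκ : κ ∈ Ioo (1 / 8 : ℝ) (1 / 4)) (hEL : EnergyLevels c0 C0 κ g)
    (hAL : AllLevels c0 C0 κ g) {L1 C1 : ℝ} (hlin : LinSolv c0 C0 g κ L1 C1) :
    PdeConcl c0 C0 g := by
  have hPC : PointwiseChain c0 C0 g := App.pointwise_chain_of chainThm hg
  obtain ⟨L2, C, q, h8, hC, h⟩ := lin_est_of hg hκ hEL hPC hlin
  obtain ⟨C', q', hC', h'⟩ := alg_nl hκ eta_ok
  obtain ⟨L3, P, h83, hI⟩ := iteration_of (q := q) (q' := q') h h' eta_ok hC hC'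
    (fun L N N' u v hL hu hv => NB.add0 hL hu hv)
  refine ⟨L3, P, fun L hL φ m hB E hE hE0 hEe => ?_⟩
  obtain ⟨d, hd⟩ := hI L hL φ m hB E hE hE0 hEe
  exact limit_solution hB hg hκ eta_ok hE hd (hAL L φ m E hB hE hE0 d hd)

end Crest.Agent.R213.C
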