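import Crest.Agent.R213.C.AlgMul

/-!
# Row 213, part C: `NB` is stable under sums (exact Minkowski)
-/

set_option autoImplicit false

open Set MeasureTheory Filter Topology

noncomputable section

namespace Crest.Agent.R213.C

variable {κ L N N' : ℝ} {u v : ℝ → ℝ → ℝ}

theorem NB.add' (hL : 0 < L) (hu : NB κ L N u) (hv : NB κ L N' v) :
    NB κ L (N + N') (fun t x => u t x + v t x) := by
  have h0 := hu.pb.nonneg hL.le
  have h0' := hv.pb.nonneg hL.le
  refine ⟨hu.sm.add hv.sm, ?_, ?_⟩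
  · intro j hj
    refine PBj.congr (PBj.add (hu.pb j hj) (hv.pb j hj)) ?_
    intro τ hτ x hx
    exact dt_iter_add isOpen_Ioo hu.sm hv.sm hτ hx j
  · intro j hj
    refine QBj.congr (QBj.add h0 h0' (Msr.dt_iter hL hu.sm j) (Msr.dt_iter hL hv.sm j)
      (hu.qb j hj) (hv.qb j hj)) ?_
    intro τ hτ x hx
    exact dt_iter_add isOpen_Ioo hu.sm hv.sm hτ (Ioo_subset_Icc_self hx) j

end Crest.Agent.R213.C
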