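import Crest.Agent.R213.J0
import Crest.Agent.R213.C.CDefs

/-!
# Row 213, part C: definitions (norms used in the nonlinear iteration)

Region: `τ ∈ (0,1/2)`, `x ∈ [0,L]`; `ρ = x²+τ`, `x̂ = x/√ρ`.
* `PB L N u`: `|∂_τ^j u| x̂^{a_j} ρ^j ≤ N ρ^25` for `j ≤ 6`, `a = (0,0,0,0,0,2,4)`;
* `QB κ L N u`: `∫∫ WJ κ j (∂_τ^j u)² x⁹ ≤ N²` for `j ≤ 8`, `WJ κ j = τ^{2κ} ρ^{2j-60}`.
-/

set_option autoImplicit false

open Set MeasureTheory Filter Topology

noncomputable section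

namespace Crest.Agent.R213.C

/-- cutoff in `τ`: `1` for `τ ≤ 1/4`, `0` for `τ ≥ 3/8` -/
def eta (τ : ℝ) : ℝ := 1 - Real.smoothTransition (8 * τ - 2)

/-- both bounds, with smoothness on `(0,1/2) × [0,L]` -/
structure NB (κ L N : ℝ) (u : ℝ → ℝ → ℝ) : Prop where
  sm : Sm (Ioo (0 : ℝ) (1 / 2)) L u
  pb : PB L N u
  qb : QB κ L N u

/-! ### The cutoff -/

theorem eta_contDiff : ContDiff ℝ (⊤ : ℕ∞) eta :=
  contDiff_const.sub (Real.smoothTransition.contDiff.comp (by fun_prop))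

theorem eta_one {τ : ℝ} (h : τ ≤ 1 / 4) : eta τ = 1 := by
  unfold eta
  rw [Real.smoothTransition.zero_of_nonpos (by linarith), sub_zero]

theorem eta_zero {τ : ℝ} (h : 3 / 8 ≤ τ) : eta τ = 0 := by
  unfold eta
  rw [Real.smoothTransition.one_of_one_le (by linarith), sub_self]

theorem eta_nonneg (τ : ℝ) : 0 ≤ eta τ := sub_nonneg.2 (Real.smoothTransition.le_one _)

theorem eta_le_one (τ : ℝ) : eta τ ≤ 1 :=
  (sub_le_self _ (Real.smoothTransition.nonneg _))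

theorem eta_ok : EtaOK eta :=
  ⟨eta_contDiff, eta_nonneg, eta_le_one, fun _ h => eta_one h, fun _ h => eta_zero h⟩

end Crest.Agent.R213.C
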