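import Crest.Agent.R213.C.Main
import Crest.Agent.R213.C.EnergyMain
import Crest.Agent.R213.C.AllJ302

/-!
# Row 213, part C: `pde_main`, given the linear solver
-/

set_option autoImplicit false

open Set MeasureTheory Filter Topology

noncomputable section

namespace Crest.Agent.R213.C

theorem allLevels {c0 C0 κ : ℝ} {g : ℝ → ℝ} (hg : Prof c0 C0 g)
    (hκ : κ ∈ Ioo (1 / 8 : ℝ) (1 / 4)) : AllLevels c0 C0 κ g :=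
  fun _L _φ _m _E hB hE _hE0 _d hI => C8.H302.all_levels hB hg hκ eta_ok hE hI

/-- `pde_main` of the interface, from the conclusion of `lin` -/
theorem pde_main_of_lin {c0 C0 : ℝ} {g : ℝ → ℝ} (hg : Prof c0 C0 g)
    (hlin : ∃ κ ∈ Ioo (1 / 8 : ℝ) (1 / 4), ∃ L1 C : ℝ, ∀ L ≥ L1, ∀ φ m : ℝ → ℝ → ℝ,
      Bg c0 C0 g L φ m →
      ∀ E ht : ℝ → ℝ → ℝ, Sm (Ioo 0 1) L E → Sm (Ioo 0 1) L ht →
        N2 L (Wt'' κ) E < ⊤ → N2 L (Wt κ) (fun τ x => φ τ x * ht τ x) < ⊤ →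
      ∃ δ : ℝ → ℝ → ℝ, Sm (Ioo 0 1) L δ ∧
        N2 L (Wt κ) (fun τ x => φ τ x * dx L (dx L δ) τ x) + N2 L (Wt' κ) δ ≤
          ENNReal.ofReal C *
            (N2 L (Wt κ) (fun τ x => φ τ x * ht τ x) + N2 L (Wt'' κ) E) ∧
        ∀ τ ∈ Ioo (0 : ℝ) 1, ∀ x ∈ Icc 0 L,
          x ^ 9 * (φ τ x ^ 2 * dx L (dx L δ) τ x - φ τ x ^ 2 * ht τ x) =
            Kint (fun ξ => E τ ξ + dt δ τ ξ) x) :
    ∃ (L1 : ℝ) (P : ℕ), ∀ L ≥ L1, ∀ φ m : ℝ → ℝ → ℝ, Bg c0 C0 g L φ m →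
      ∀ E : ℝ → ℝ → ℝ, Sm (Ioo 0 1) L E →
        (∀ τ ∈ Ioo (0 : ℝ) 1, ∀ x ∈ Icc 0 1, E τ x = 0) →
        (∀ j ≤ 9, ∀ τ ∈ Ioo (0 : ℝ) 1, ∀ x ∈ Icc 0 L, |(dt^[j] E) τ x| ≤ L ^ (-(P : ℝ))) →
      ∃ δ : ℝ → ℝ → ℝ, Sm (Ioo 0 (1 / 4)) L δ ∧
        (∀ τ ∈ Ioo (0 : ℝ) (1 / 4), ∀ x ∈ Icc 0 L, |φ τ x * dx L (dx L δ) τ x| ≤ 1 / 2) ∧
        (∀ τ ∈ Ioo (0 : ℝ) (1 / 4), ∀ x ∈ Icc 0 L,
          x ^ 9 * φ τ x * (φ τ x * dx L (dx L δ) τ x / (1 + φ τ x * dx L (dx L δ) τ x)) =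
            Kint (fun ξ => E τ ξ + dt δ τ ξ) x) ∧
        Tendsto (fun τ => √τ * dt δ τ 0) (𝓝[>] 0) (𝓝 0) := by
  obtain ⟨κ, hκ, L1, C, h⟩ := hlin
  exact pde_main_core (κ := κ) hg hκ (energyLevels hg hκ) (allLevels hg hκ) (L1 := L1) (C1 := C) h

end Crest.Agent.R213.C
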